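import Crest.Agent.R059.DecTAux

/-! Row 59: `V r` is the tensor product of the `V` of the blocks. -/

set_option autoImplicit false
set_option linter.unusedSectionVars false
set_option linter.unusedVariables false

noncomputable section
open Classical MvPolynomial

namespace Crest.Agent.R059

variable {α β : Type} [Fintype α] [Fintype β]

/-- `S` is a union of blocks. -/
def UB (r : Setoid α) (S : Finset α) : Prop := ∀ x y, r x y → (x ∈ S ↔ y ∈ S)
def resR (r : Setoid α) (S : Finset α) : Setoid {x // x ∈ S} := r.comap Subtype.val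
/-- Disjoint union of two partitions. -/
def sumR (r : Setoid α) (r' : Setoid β) : Setoid (α ⊕ β) :=
  Setoid.ker (Sum.map (blk r) (blk r'))

section Generic
variable {γ : Type} [Fintype γ]

lemma dt_zero_iff (Q : Qv γ) (f : α ↪ γ) (g : β ↪ γ) {r : Setoid α} {r' : Setoid β}
    {R : Setoid γ} (hf : ∀ x, blk R (f x) = (blk r x).map f)
    (hg : ∀ x, blk R (g x) = (blk r' x).map g) (hs : ∀ z, (∃ x, z = f x) ∨ ∃ y, z = g y) :
    Q.Zero R ↔ (Q.comap f).Zero r ∧ (Q.comap g).Zero r' := by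
  constructor
  · intro h
    exact ⟨fun x => by rw [Qv.wt_comap, ← hf]; exact h _,
      fun x => by rw [Qv.wt_comap, ← hg]; exact h _⟩
  · rintro ⟨h1, h2⟩ z
    rcases hs z with ⟨x, rfl⟩ | ⟨x, rfl⟩
    · rw [hf, ← Qv.wt_comap]; exact h1 x
    · rw [hg, ← Qv.wt_comap]; exact h2 x

lemma dt_sum_parts (F : Finset γ → ℕ) (f : α ↪ γ) (g : β ↪ γ) {r : Setoid α} {r' : Setoid β}
    {R : Setoid γ} (hf : ∀ x, blk R (f x) = (blk r x).map f)
    (hg : ∀ x, blk R (g x) = (blk r' x).map g) (hs : ∀ z, (∃ x, z = f x) ∨ ∃ y, z = g y)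
    (hd : ∀ x y, f x ≠ g y) :
    ∑ B ∈ parts R, F B = ∑ B ∈ parts r, F (B.map f) + ∑ B ∈ parts r', F (B.map g) := by
  have e : parts R = (parts r).image (Finset.map f) ∪ (parts r').image (Finset.map g) := by
    ext B
    simp only [parts, Finset.mem_image, Finset.mem_univ, true_and, Finset.mem_union]
    constructor
    · rintro ⟨z, rfl⟩
      rcases hs z with ⟨x, rfl⟩ | ⟨x, rfl⟩
      · exact Or.inl ⟨_, ⟨x, rfl⟩, (hf x).symm⟩
      · exact Or.inr ⟨_, ⟨x, rfl⟩, (hg x).symm⟩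
    · rintro (⟨_, ⟨x, rfl⟩, rfl⟩ | ⟨_, ⟨x, rfl⟩, rfl⟩)
      · exact ⟨_, hf x⟩
      · exact ⟨_, hg x⟩
  rw [e, Finset.sum_union, Finset.sum_image fun _ _ _ _ h => Finset.map_injective f h,
    Finset.sum_image fun _ _ _ _ h => Finset.map_injective g h]
  rw [Finset.disjoint_left]
  intro B h1 h2
  simp only [parts, Finset.mem_image, Finset.mem_univ, true_and] at h1 h2
  obtain ⟨_, ⟨x, rfl⟩, rfl⟩ := h1
  obtain ⟨B', -, h⟩ := h2
  have : f x ∈ B'.map g := by
    rw [h]
    exact Finset.mem_map_of_mem _ ((mem_blk r x x).2 (r.refl x))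
  obtain ⟨y, -, hy⟩ := Finset.mem_map.1 this
  exact hd x y hy.symm

end Generic

lemma dt_blk_resR {r : Setoid α} {S : Finset α} (hS : UB r S) (x : {x // x ∈ S}) :
    blk r ((Function.Embedding.subtype (· ∈ S)) x) =
      (blk (resR r S) x).map (Function.Embedding.subtype (· ∈ S)) := by
  ext y
  rw [mem_blk, Finset.mem_map]
  constructor
  · intro h
    exact ⟨⟨y, (hS _ _ h).1 x.2⟩, (mem_blk _ _ _).2 h, rfl⟩
  · rintro ⟨z, hz, rfl⟩
    exact (mem_blk (resR r S) x z).1 hz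

lemma dt_coe_inl : ⇑(Function.Embedding.inl : α ↪ α ⊕ β) = Sum.inl := rfl
lemma dt_coe_inr : ⇑(Function.Embedding.inr : β ↪ α ⊕ β) = Sum.inr := rfl

lemma dt_UB_compl {r : Setoid α} {S : Finset α} (hS : UB r S) : UB r Sᶜ := fun x y h => by
  rw [Finset.mem_compl, Finset.mem_compl, hS x y h]

lemma dt_cover (S : Finset α) (z : α) :
    (∃ x, z = (Function.Embedding.subtype (· ∈ S)) x) ∨
      ∃ y, z = (Function.Embedding.subtype (· ∈ Sᶜ)) y := by
  by_cases h : z ∈ S
  · exact Or.inl ⟨⟨z, h⟩, rfl⟩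
  · exact Or.inr ⟨⟨z, Finset.mem_compl.2 h⟩, rfl⟩

lemma dt_sumR_ll (r : Setoid α) (r' : Setoid β) (x y : α) :
    sumR r r' (Sum.inl x) (Sum.inl y) ↔ r x y := by
  rw [sumR, Setoid.ker_def, Sum.map_inl, Sum.map_inl, Sum.inl.injEq, blk_eq_iff]
lemma dt_sumR_rr (r : Setoid α) (r' : Setoid β) (x y : β) :
    sumR r r' (Sum.inr x) (Sum.inr y) ↔ r' x y := by
  rw [sumR, Setoid.ker_def, Sum.map_inr, Sum.map_inr, Sum.inr.injEq, blk_eq_iff]
lemma dt_sumR_lr (r : Setoid α) (r' : Setoid β) (x : α) (y : β) :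
    ¬ sumR r r' (Sum.inl x) (Sum.inr y) := by
  rw [sumR, Setoid.ker_def, Sum.map_inl, Sum.map_inr]
  exact Sum.inl_ne_inr
lemma dt_sumR_rl (r : Setoid α) (r' : Setoid β) (x : β) (y : α) :
    ¬ sumR r r' (Sum.inr x) (Sum.inl y) := by
  rw [sumR, Setoid.ker_def, Sum.map_inl, Sum.map_inr]
  exact Sum.inr_ne_inl

lemma dt_blk_inl (r : Setoid α) (r' : Setoid β) (x : α) :
    blk (sumR r r') ((Function.Embedding.inl : α ↪ α ⊕ β) x) =
      (blk r x).map Function.Embedding.inl := by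
  ext y
  rw [mem_blk, Finset.mem_map]
  cases y with
  | inl y =>
    rw [Function.Embedding.inl_apply, dt_sumR_ll]
    constructor
    · intro h; exact ⟨y, (mem_blk _ _ _).2 h, rfl⟩
    · rintro ⟨z, hz, h⟩
      cases Sum.inl.inj h
      exact (mem_blk _ _ _).1 hz
  | inr y =>
    constructor
    · intro h; exact absurd h (dt_sumR_lr r r' x y)
    · rintro ⟨z, hz, h⟩
      cases h
lemma dt_blk_inr (r : Setoid α) (r' : Setoid β) (x : β) :
    blk (sumR r r') ((Function.Embedding.inr : β ↪ α ⊕ β) x) =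
      (blk r' x).map Function.Embedding.inr := by
  ext y
  rw [mem_blk, Finset.mem_map]
  cases y with
  | inr y =>
    rw [Function.Embedding.inr_apply, dt_sumR_rr]
    constructor
    · intro h; exact ⟨y, (mem_blk _ _ _).2 h, rfl⟩
    · rintro ⟨z, hz, h⟩
      cases Sum.inr.inj h
      exact (mem_blk _ _ _).1 hz
  | inl y =>
    constructor
    · intro h; exact absurd h (dt_sumR_rl r r' x y)
    · rintro ⟨z, hz, h⟩
      cases h

lemma dt_cover_sum (z : α ⊕ β) : (∃ x, z = (Function.Embedding.inl : α ↪ α ⊕ β) x) ∨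
    ∃ y, z = (Function.Embedding.inr : β ↪ α ⊕ β) y := by
  cases z with
  | inl x => exact Or.inl ⟨x, rfl⟩
  | inr x => exact Or.inr ⟨x, rfl⟩

lemma dt_zero_sumR (Q : Qv (α ⊕ β)) (r : Setoid α) (r' : Setoid β) :
    Q.Zero (sumR r r') ↔ (Q.comap Sum.inl).Zero r ∧ (Q.comap Sum.inr).Zero r' :=
  dt_zero_iff Q Function.Embedding.inl Function.Embedding.inr (dt_blk_inl r r') (dt_blk_inr r r')
    dt_cover_sum

lemma dt_sum_aa_sumR (Q : Qv (α ⊕ β)) (r : Setoid α) (r' : Setoid β) :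
    ∑ B ∈ parts (sumR r r'), Q.aa B B = ∑ B ∈ parts r, (Q.comap Sum.inl).aa B B +
      ∑ B ∈ parts r', (Q.comap Sum.inr).aa B B := by
  rw [dt_sum_parts (fun B => Q.aa B B) Function.Embedding.inl Function.Embedding.inr
    (dt_blk_inl r r') (dt_blk_inr r r') dt_cover_sum (fun x y => Sum.inl_ne_inr)]
  congr 1
  · exact Finset.sum_congr rfl fun B _ => (Q.aa_comap Function.Embedding.inl B B).symm
  · exact Finset.sum_congr rfl fun B _ => (Q.aa_comap Function.Embedding.inr B B).symm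

lemma dt_sumR_mono {r r1 : Setoid α} {r' r2 : Setoid β} (h1 : r1 ≤ r) (h2 : r2 ≤ r') :
    sumR r1 r2 ≤ sumR r r' := by
  intro x y h
  cases x <;> cases y
  · rw [dt_sumR_ll] at h ⊢; exact h1 h
  · exact absurd h (dt_sumR_lr _ _ _ _)
  · exact absurd h (dt_sumR_rl _ _ _ _)
  · rw [dt_sumR_rr] at h ⊢; exact h2 h

lemma dt_le_sumR {r : Setoid α} {r' : Setoid β} {R : Setoid (α ⊕ β)} (h : R ≤ sumR r r') :
    ∃ r1 ≤ r, ∃ r2 ≤ r', R = sumR r1 r2 := by
  refine ⟨R.comap Sum.inl, fun x y hxy => (dt_sumR_ll r r' x y).1 (h hxy), R.comap Sum.inr,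
    fun x y hxy => (dt_sumR_rr r r' x y).1 (h hxy), Setoid.ext fun x y => ?_⟩
  cases x <;> cases y
  · rw [dt_sumR_ll]; rfl
  · exact iff_of_false (fun h' => dt_sumR_lr _ _ _ _ (h h')) (dt_sumR_lr _ _ _ _)
  · exact iff_of_false (fun h' => dt_sumR_rl _ _ _ _ (h h')) (dt_sumR_rl _ _ _ _)
  · rw [dt_sumR_rr]; rfl

lemma dt_M_sumR (Q : Qv (α ⊕ β)) (hQ : Q.Sym) {r r1 : Setoid α} {r' r2 : Setoid β}
    (h : Q.Zero (sumR r r')) (h' : Q.Zero (sumR r1 r2)) (h1 : r1 ≤ r) (h2 : r2 ≤ r') :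
    Q.M (sumR r1 r2) - Q.M (sumR r r') =
      ((Q.comap Sum.inl).M r1 - (Q.comap Sum.inl).M r) +
        ((Q.comap Sum.inr).M r2 - (Q.comap Sum.inr).M r') := by
  have hl : (Q.comap Sum.inl).Sym := hQ.comap Function.Embedding.inl
  have hr : (Q.comap Sum.inr).Sym := hQ.comap Function.Embedding.inr
  obtain ⟨a1, a2⟩ := (dt_zero_sumR Q r r').1 h
  obtain ⟨b1, b2⟩ := (dt_zero_sumR Q r1 r2).1 h'
  have e1 := Q.two_mul_M hQ h ord ord_injective
  have e2 := Q.two_mul_M hQ h' ord ord_injective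
  have e3 := Qv.two_mul_M _ hl a1 ord ord_injective
  have e4 := Qv.two_mul_M _ hl b1 ord ord_injective
  have e5 := Qv.two_mul_M _ hr a2 ord ord_injective
  have e6 := Qv.two_mul_M _ hr b2 ord ord_injective
  have m1 := Qv.M_mono _ hl a1 b1 h1
  have m2 := Qv.M_mono _ hr a2 b2 h2
  rw [dt_sum_aa_sumR] at e1 e2
  unfold Qv.M upP at *
  omega

lemma zero_split (Q : Qv α) {r : Setoid α} {S : Finset α} (hS : UB r S) :
    Q.Zero r ↔ (Q.comap Subtype.val).Zero (resR r S) ∧ (Q.comap Subtype.val).Zero (resR r Sᶜ) :=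
  dt_zero_iff Q _ _ (dt_blk_resR hS) (dt_blk_resR (dt_UB_compl hS)) (dt_cover S)
lemma sum_aa_parts_split (Q : Qv α) {r : Setoid α} {S : Finset α} (hS : UB r S) :
    ∑ B ∈ parts r, Q.aa B B = ∑ B ∈ parts (resR r S), (Q.comap Subtype.val).aa B B +
      ∑ B ∈ parts (resR r Sᶜ), (Q.comap Subtype.val).aa B B := by
  rw [dt_sum_parts (fun B => Q.aa B B) _ _ (dt_blk_resR hS) (dt_blk_resR (dt_UB_compl hS))
    (dt_cover S) (fun x y h => Finset.mem_compl.1 y.2 (by
      have : x.1 = y.1 := h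
      rw [← this]; exact x.2))]
  congr 1
  · exact Finset.sum_congr rfl fun B _ => (Q.aa_comap (Function.Embedding.subtype _) B B).symm
  · exact Finset.sum_congr rfl fun B _ => (Q.aa_comap (Function.Embedding.subtype _) B B).symm
lemma Jc_sumR (Q : Qv (α ⊕ β)) (r : Setoid α) (r' : Setoid β) :
    Q.Jc (sumR r r') = prodSub ((Q.comap Sum.inl).Jc r) ⊤ ⊔ prodSub ⊤ ((Q.comap Sum.inr).Jc r') := by
  unfold Qv.Jc
  rw [Num_prodSub_left, Num_prodSub_right, ← Submodule.restrictScalars_sup]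
  congr 1
  unfold Qv.J
  rw [iSup_sum, Ideal.map_iSup, Ideal.map_iSup]
  congr 1
  · exact iSup_congr fun x => by
      have h := Q.map_idF Function.Embedding.inl (blk r x)
      rw [← dt_blk_inl r r' x] at h
      exact h.symm
  · exact iSup_congr fun x => by
      have h := Q.map_idF Function.Embedding.inr (blk r' x)
      rw [← dt_blk_inr r r' x] at h
      exact h.symm

/-- Slices of `Low`. -/
lemma dt_sl_Low (Q : Qv (α ⊕ β)) (r : Setoid α) (r' : Setoid β) (l : P β →ₗ[ℂ] ℂ)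
    (hl : ∀ b ∈ (Q.comap Sum.inr).Jc r', l b = 0) {N : ℕ} {z : P (α ⊕ β)}
    (hz : z ∈ Q.Low (sumR r r') N) : dt_sl l z ∈ (Q.comap Sum.inl).Low r N := by
  have hinj : Function.Injective (Finset.map (Function.Embedding.inl : α ↪ α ⊕ β)) :=
    Finset.map_injective _
  have k1 : ∀ a : P α, killCompl hinj (tr (sumR r r') (rename Sum.inl a)) =
      MvPolynomial.map ((rename Sum.inl : P α →ₐ[ℂ] P (α ⊕ β)) : P α →+* P (α ⊕ β)) (tr r a) := by
    intro a
    have := dt_tr_rename Function.Embedding.inl (dt_blk_inl r r') a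
    rw [dt_coe_inl] at this
    rw [this, killCompl_rename_app]
  have k2 : ∀ b : P β, killCompl hinj (tr (sumR r r') (rename Sum.inr b)) =
      C (rename Sum.inr b) := by
    intro b
    induction b using MvPolynomial.induction_on with
    | C c => simp [tr]
    | add p q hp hq => simp only [map_add, hp, hq]
    | mul_X p x hp =>
      simp only [map_mul, hp]
      refine congrArg (C (rename Sum.inr p) * ·) ?_
      have hn : blk (sumR r r') (Sum.inr x) ∉
          Set.range (Finset.map (Function.Embedding.inl : α ↪ α ⊕ β)) := by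
        rintro ⟨B, hB⟩
        have : Sum.inr x ∈ B.map (Function.Embedding.inl : α ↪ α ⊕ β) := by
          rw [hB]; exact (mem_blk _ _ _).2 ((sumR r r').refl _)
        obtain ⟨y, -, hy⟩ := Finset.mem_map.1 this
        cases hy
      rw [rename_X, tr, aeval_X, map_add, killCompl_C, killCompl, aeval_X, dif_neg hn, add_zero]
  have key : ∀ (d : Finset α →₀ ℕ) (z : P (α ⊕ β)), coeff d (tr r (dt_sl l z)) =
      dt_sl l (coeff (d.mapDomain (Finset.map Function.Embedding.inl)) (tr (sumR r r') z)) := by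
    intro d z
    have hz : z ∈ prodSub (⊤ : Submodule ℂ (P α)) (⊤ : Submodule ℂ (P β)) := by
      rw [Num_prodSub_top]; trivial
    induction hz using Submodule.span_induction with
    | mem z hz =>
      obtain ⟨a, -, b, -, rfl⟩ := hz
      rw [← coeff_killCompl hinj, dt_sl_mul, map_mul, map_mul, k1, k2, mul_comm, coeff_C_mul,
        coeff_map, mul_comm, RingHom.coe_coe, dt_sl_mul, map_smul, coeff_smul]
    | zero => simp
    | add u v _ _ hu hv => simp only [map_add, coeff_add, hu, hv]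
    | smul c u _ hu => simp only [map_smul, coeff_smul, hu]
  intro d hd
  rw [key]
  have h1 := hz (d.mapDomain (Finset.map Function.Embedding.inl))
    (by rw [Finsupp.degree_mapDomain]; exact hd)
  have h2 : coeff (d.mapDomain (Finset.map Function.Embedding.inl)) (tr (sumR r r') z) ∈
      Q.Jc (sumR r r') := h1
  rw [Jc_sumR] at h2
  exact dt_sl_mem l hl h2

lemma dt_mem_W (Q : Qv α) (r : Setoid α) (w : P α) : w ∈ Q.W r ↔ w ∈ Q.Low r 1 ∧
    ∀ r' : Setoid α, r' < r → Q.Zero r' → w ∈ Q.Low r' (Q.M r' - Q.M r) := by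
  simp only [Qv.W, Submodule.mem_inf, Submodule.mem_iInf, and_imp]

lemma dt_W_left (Q : Qv (α ⊕ β)) (hQ : Q.Sym) (r : Setoid α) (r' : Setoid β)
    (h : Q.Zero (sumR r r')) {z : P (α ⊕ β)} (hz : z ∈ Q.W (sumR r r')) :
    z ∈ prodSub ((Q.comap Sum.inl).W r) ⊤ ⊔ prodSub ⊤ ((Q.comap Sum.inr).Jc r') := by
  refine dt_mem_of_sl fun l hl => ?_
  rw [dt_mem_W] at hz ⊢
  refine ⟨dt_sl_Low Q r r' l hl hz.1, fun r1 h1 z1 => ?_⟩
  have z2 : Q.Zero (sumR r1 r') := (dt_zero_sumR Q r1 r').2 ⟨z1, ((dt_zero_sumR Q r r').1 h).2⟩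
  have hlt : sumR r1 r' < sumR r r' := by
    refine lt_of_le_of_ne (dt_sumR_mono h1.le le_rfl) fun he => h1.ne (Setoid.ext fun x y => ?_)
    rw [← dt_sumR_ll r1 r', he, dt_sumR_ll]
  have := hz.2 _ hlt z2
  rw [dt_M_sumR Q hQ h z2 h1.le le_rfl, Nat.sub_self, add_zero] at this
  exact dt_sl_Low Q r1 r' l hl this

lemma dt_mapR_swap (r : Setoid α) (r' : Setoid β) :
    mapR (Equiv.sumComm β α) (sumR r' r) = sumR r r' := by
  refine Setoid.ext fun x y => ?_
  cases x <;> cases y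
  · exact (dt_sumR_rr r' r _ _).trans (dt_sumR_ll r r' _ _).symm
  · exact iff_of_false (dt_sumR_rl _ _ _ _) (dt_sumR_lr _ _ _ _)
  · exact iff_of_false (dt_sumR_lr _ _ _ _) (dt_sumR_rl _ _ _ _)
  · exact (dt_sumR_ll r' r _ _).trans (dt_sumR_rr r r' _ _).symm

lemma dt_W_le_Low (Q : Qv α) {r r1 : Setoid α} (h1 : r1 ≤ r) (z1 : Q.Zero r1) {a : P α}
    (ha : a ∈ Q.W r) : a ∈ Q.Low r1 (Q.M r1 - Q.M r + 1) := by
  rw [dt_mem_W] at ha
  rcases h1.lt_or_eq with h | rfl
  · exact Q.Low_mono r1 (Nat.le_succ _) (ha.2 r1 h z1)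
  · rw [Nat.sub_self]; exact ha.1

lemma W_sumR (Q : Qv (α ⊕ β)) (hQ : Q.Sym) (r : Setoid α) (r' : Setoid β)
    (h : Q.Zero (sumR r r')) :
    Q.W (sumR r r') = prodSub ((Q.comap Sum.inl).W r) ((Q.comap Sum.inr).W r') ⊔
      Q.Jc (sumR r r') := by
  apply le_antisymm
  · intro z hz
    rw [Jc_sumR]
    refine mem_prodSub_of_two _ _ _ _ (Qv.Jc_le_W _ _) (Qv.Jc_le_W _ _) z
      (dt_W_left Q hQ r r' h hz) ?_
    have h0 : (Q.comap (Equiv.sumComm β α)).Zero (sumR r' r) := by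
      rw [← zero_mapR, dt_mapR_swap]; exact h
    have e := W_mapR Q (Equiv.sumComm β α) (sumR r' r) hQ h0
    rw [dt_mapR_swap] at e
    rw [e] at hz
    obtain ⟨z0, hz0, rfl⟩ := hz
    have := dt_W_left _ (hQ.comap (Equiv.sumComm β α).toEmbedding) r' r h0 hz0
    have := Submodule.mem_map_of_mem (f := act (Equiv.sumComm β α)) this
    rw [Submodule.map_sup] at this
    exact sup_le_sup (dt_prodSub_swap _ _) (dt_prodSub_swap _ _) this
  · refine sup_le (dt_prodSub_le fun a ha b hb => ?_) (Q.Jc_le_W _)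
    obtain ⟨a1, a2⟩ := (dt_zero_sumR Q r r').1 h
    have hl : ∀ (r1 : Setoid α) (r2 : Setoid β) {N : ℕ}, a ∈ (Q.comap Sum.inl).Low r1 N →
        rename Sum.inl a ∈ Q.Low (sumR r1 r2) N := fun r1 r2 N h =>
      dt_rename_Low Q Function.Embedding.inl (dt_blk_inl r1 r2) h
    have hr : ∀ (r1 : Setoid α) (r2 : Setoid β) {N : ℕ}, b ∈ (Q.comap Sum.inr).Low r2 N →
        rename Sum.inr b ∈ Q.Low (sumR r1 r2) N := fun r1 r2 N h =>
      dt_rename_Low Q Function.Embedding.inr (dt_blk_inr r1 r2) h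
    rw [dt_mem_W]
    constructor
    · exact Q.mul_mem_Low _ (N := 0) (N' := 1) (hl r r' ((dt_mem_W _ _ _).1 ha).1)
        (hr r r' ((dt_mem_W _ _ _).1 hb).1)
    · intro R hR zR
      obtain ⟨r1, h1, r2, h2, rfl⟩ := dt_le_sumR hR.le
      obtain ⟨b1, b2⟩ := (dt_zero_sumR Q r1 r2).1 zR
      rw [dt_M_sumR Q hQ h zR h1 h2]
      rcases h2.lt_or_eq with h2' | rfl
      · exact Q.mul_mem_Low _ (hl r1 r2 (dt_W_le_Low _ h1 b1 ha))
          (hr r1 r2 (((dt_mem_W _ _ _).1 hb).2 r2 h2' b2))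
      · have h1' : r1 < r := lt_of_le_of_ne h1 fun he => hR.ne (by rw [he])
        rw [mul_comm, add_comm]
        exact Q.mul_mem_Low _ (hr r1 r2 (dt_W_le_Low _ h2 b2 hb))
          (hl r1 r2 (((dt_mem_W _ _ _).1 ha).2 r1 h1' b1))

lemma dt_mem_parts_sumR {r : Setoid α} {r' : Setoid β} {B : Finset (α ⊕ β)} :
    B ∈ parts (sumR r r') ↔ (∃ B1 ∈ parts r, B = B1.map Function.Embedding.inl) ∨
      ∃ B2 ∈ parts r', B = B2.map Function.Embedding.inr := by
  simp only [parts, Finset.mem_image, Finset.mem_univ, true_and]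
  constructor
  · rintro ⟨z, rfl⟩
    cases z with
    | inl x => exact Or.inl ⟨_, ⟨x, rfl⟩, dt_blk_inl r r' x⟩
    | inr x => exact Or.inr ⟨_, ⟨x, rfl⟩, dt_blk_inr r r' x⟩
  · rintro (⟨_, ⟨x, rfl⟩, rfl⟩ | ⟨_, ⟨x, rfl⟩, rfl⟩)
    · exact ⟨_, dt_blk_inl r r' x⟩
    · exact ⟨_, dt_blk_inr r r' x⟩

lemma V_sumR (Q : Qv (α ⊕ β)) (hQ : Q.Sym) (r : Setoid α) (r' : Setoid β)
    (h : Q.Zero (sumR r r')) :
    Q.V (sumR r r') = prodSub ((Q.comap Sum.inl).V r) ((Q.comap Sum.inr).V r') ⊔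
      Q.Jc (sumR r r') := by
  apply le_antisymm
  · refine dt_V_le Q _ ?_ fun B hB u hu => ?_
    · rw [W_sumR Q hQ r r' h]
      exact sup_le_sup_right (dt_prodSub_mono (Qv.W_le_V _ _) (Qv.W_le_V _ _)) _
    · have : prodSub ((Q.comap Sum.inl).V r) ((Q.comap Sum.inr).V r') ⊔ Q.Jc (sumR r r') ≤
          (prodSub ((Q.comap Sum.inl).V r) ((Q.comap Sum.inr).V r') ⊔ Q.Jc (sumR r r')).comap
            (LinearMap.mulRight ℂ (sB B)) := by
        refine sup_le (dt_prodSub_le fun a ha b hb => ?_) fun a ha => ?_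
        · rw [Submodule.mem_comap, LinearMap.mulRight_apply]
          refine Submodule.mem_sup_left ?_
          rcases dt_mem_parts_sumR.1 hB with ⟨B1, h1, rfl⟩ | ⟨B1, h1, rfl⟩
          · rw [← dt_rename_sB, dt_coe_inl, mul_right_comm, ← map_mul]
            exact dt_mem_prodSub (dt_V_mul _ _ h1 a ha) hb
          · rw [← dt_rename_sB, dt_coe_inr, mul_assoc, ← map_mul]
            exact dt_mem_prodSub ha (dt_V_mul _ _ h1 b hb)
        · rw [Submodule.mem_comap, LinearMap.mulRight_apply]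
          exact Submodule.mem_sup_right (Ideal.mul_mem_right _ (Q.J (sumR r r')) ha)
      exact this hu
  · refine sup_le (dt_prodSub_le fun a ha b hb => ?_) ((Q.Jc_le_W _).trans (Q.W_le_V _))
    have k1 : ∀ b ∈ (Q.comap Sum.inr).W r', rename Sum.inl a * rename Sum.inr b ∈
        Q.V (sumR r r') := by
      intro b hb
      have : (Q.comap Sum.inl).V r ≤ (Q.V (sumR r r')).comap
          (LinearMap.mulRight ℂ (rename Sum.inr b) ∘ₗ act Sum.inl) := by
        refine dt_V_le _ _ (fun a ha => ?_) fun B hB u hu => ?_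
        · refine Q.W_le_V _ ?_
          rw [W_sumR Q hQ r r' h]
          exact Submodule.mem_sup_left (dt_mem_prodSub ha hb)
        · have := dt_V_mul Q _ (dt_mem_parts_sumR.2 (Or.inl ⟨B, hB, rfl⟩)) _ hu
          rw [← dt_rename_sB] at this
          rw [Submodule.mem_comap]
          convert this using 1
          simp only [LinearMap.comp_apply, LinearMap.mulRight_apply, act, AlgHom.toLinearMap_apply,
            map_mul, dt_coe_inl]
          ring
      exact this ha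
    have : (Q.comap Sum.inr).V r' ≤ (Q.V (sumR r r')).comap
        (LinearMap.mulLeft ℂ (rename Sum.inl a) ∘ₗ act Sum.inr) := by
      refine dt_V_le _ _ (fun b hb => k1 b hb) fun B hB u hu => ?_
      have := dt_V_mul Q _ (dt_mem_parts_sumR.2 (Or.inr ⟨B, hB, rfl⟩)) _ hu
      rw [← dt_rename_sB] at this
      rw [Submodule.mem_comap]
      convert this using 1
      simp only [LinearMap.comp_apply, LinearMap.mulLeft_apply, act, AlgHom.toLinearMap_apply,
        map_mul, dt_coe_inr]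
      ring
    exact this hb

theorem chV_split (Q : Qv α) (hQ : Q.Sym) {σ : Equiv.Perm α} (hσ : Q.Aut σ) {r : Setoid α}
    (hr : Q.Zero r) (hs : StabR σ r) {S : Finset α} (hS : UB r S) (hσS : StabS σ S) :
    Q.chV r σ = (Q.comap Subtype.val).chV (resR r S) (res σ S) *
      (Q.comap Subtype.val).chV (resR r Sᶜ) (res σ Sᶜ) := by
  have hSc : StabS σ Sᶜ := fun x => by rw [Finset.mem_compl, Finset.mem_compl, hσS x]
  let e : {x // x ∈ S} ⊕ {x // x ∈ Sᶜ} ≃ α :=
    (Equiv.sumCongr (Equiv.refl _) (Equiv.subtypeEquivRight fun x => Finset.mem_compl)).trans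
      (Equiv.sumCompl (· ∈ S))
  have el : ∀ x, e (Sum.inl x) = x.1 := fun x => rfl
  have er : ∀ x, e (Sum.inr x) = x.1 := fun x => rfl
  have hperm : e.permCongr (Equiv.sumCongr (res σ S) (res σ Sᶜ)) = σ := by
    ext x
    obtain ⟨y, rfl⟩ := e.surjective x
    rw [Equiv.permCongr_apply, Equiv.symm_apply_apply]
    cases y with
    | inl y => rw [Equiv.sumCongr_apply, Sum.map_inl, el, el, Num_res_val hσS]
    | inr y => rw [Equiv.sumCongr_apply, Sum.map_inr, er, er, Num_res_val hSc]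
  have hR : mapR e (sumR (resR r S) (resR r Sᶜ)) = r := by
    refine Setoid.ext fun x y => ?_
    obtain ⟨x, rfl⟩ := e.surjective x
    obtain ⟨y, rfl⟩ := e.surjective y
    show sumR (resR r S) (resR r Sᶜ) (e.symm (e x)) (e.symm (e y)) ↔ _
    rw [Equiv.symm_apply_apply, Equiv.symm_apply_apply]
    cases x with
    | inl x =>
      cases y with
      | inl y => exact dt_sumR_ll _ _ _ _
      | inr y =>
        exact iff_of_false (dt_sumR_lr _ _ _ _)
          fun h => Finset.mem_compl.1 y.2 ((hS _ _ h).1 x.2)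
    | inr x =>
      cases y with
      | inl y =>
        exact iff_of_false (dt_sumR_rl _ _ _ _)
          fun h => Finset.mem_compl.1 x.2 ((hS _ _ h).2 y.2)
      | inr y => exact dt_sumR_rr _ _ _ _
  have h0 : (Q.comap e).Zero (sumR (resR r S) (resR r Sᶜ)) := by
    rw [← zero_mapR, hR]; exact hr
  have key := chV_mapR Q e _ hQ h0 (Equiv.sumCongr (res σ S) (res σ Sᶜ))
  rw [hR, hperm] at key
  rw [key]
  obtain ⟨z1, z2⟩ := (zero_split Q hS).1 hr
  have st : ∀ T : Finset α, StabS σ T → StabR (res σ T) (resR r T) := fun T hT x y => by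
    show r (res σ T x).1 (res σ T y).1 ↔ r x.1 y.1
    rw [Num_res_val hT, Num_res_val hT, hs]
  unfold Qv.chV
  rw [V_sumR (Q.comap e) (hQ.comap e.toEmbedding) _ _ h0, Jc_sumR]
  exact ch_prod _ _ _ _ _ _ ((Qv.Jc_le_W _ _).trans (Qv.W_le_V _ _))
    ((Qv.Jc_le_W _ _).trans (Qv.W_le_V _ _)) (Qv.isGr_V _ _) (Qv.isGr_Jc _ _) (Qv.isGr_V _ _)
    (Qv.isGr_Jc _ _)
    (dt_stab_V _ (hQ.comap (Function.Embedding.subtype _)) (Num_aut_res hσ hσS) z1 (st _ hσS))
    (dt_stab_Jc _ (Num_aut_res hσ hσS) (st _ hσS))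
    (dt_stab_V _ (hQ.comap (Function.Embedding.subtype _)) (Num_aut_res hσ hSc) z2 (st _ hSc))
    (dt_stab_Jc _ (Num_aut_res hσ hSc) (st _ hSc))

/-- Splitting off the first copy. -/
def dt_E (m : ℕ) : α ⊕ (Fin m × α) ≃ Fin (m + 1) × α where
  toFun := Sum.elim (fun x => (0, x)) (fun p => (p.1.succ, p.2))
  invFun := fun p => Fin.cases (Sum.inl p.2) (fun i => Sum.inr (i, p.2)) p.1
  left_inv := by rintro (x | ⟨i, x⟩) <;> simp
  right_inv := by
    rintro ⟨i, x⟩
    induction i using Fin.cases <;> simp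

lemma dt_blk_ker (m : ℕ) (i : Fin m) (x : α) :
    blk (Setoid.ker (Prod.fst : Fin m × α → Fin m)) (i, x) =
      Finset.univ.map ⟨Prod.mk i, Prod.mk_right_injective i⟩ := by
  ext ⟨j, y⟩
  rw [mem_blk, Setoid.ker_def]
  simp [eq_comm]

lemma dt_zero_ker (Q : Qv α) (h0 : Q.wt Finset.univ = 0) (m : ℕ) :
    (Q.comap (Prod.snd : Fin m × α → α)).Zero (Setoid.ker Prod.fst) := by
  rintro ⟨i, x⟩
  rw [dt_blk_ker, ← Qv.wt_comap]
  exact h0

lemma dt_Jc_ker [Nonempty α] (Q : Qv α) (m : ℕ) :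
    (Q.comap (Prod.snd : Fin m × α → α)).Jc (Setoid.ker Prod.fst) = powJ m (Q.Jc ⊤) := by
  unfold Qv.Jc
  rw [dt_powJ_eq, Q.J_top]
  congr 1
  unfold Qv.J
  rw [iSup_prod]
  refine iSup_congr fun i => ?_
  simp only [dt_blk_ker, iSup_const]
  exact (Qv.map_idF (Q.comap (Prod.snd : Fin m × α → α)) ⟨Prod.mk i, Prod.mk_right_injective i⟩
    Finset.univ).symm

lemma dt_powSub_succ (m : ℕ) (A : Submodule ℂ (P α)) :
    (prodSub A (powSub m A)).map (act (dt_E m)) = powSub (m + 1) A := by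
  have key : ∀ (a : P α) (y : Fin m → P α), act (dt_E m) (rename Sum.inl a *
      rename Sum.inr (∏ i, rename (Prod.mk i) (y i))) =
      ∏ i, rename (Prod.mk i) ((Fin.cons a y : Fin (m + 1) → P α) i) := by
    intro a y
    rw [Fin.prod_univ_succ]
    simp only [act, AlgHom.toLinearMap_apply, map_mul, map_prod, rename_rename, Fin.cons_zero,
      Fin.cons_succ]
    rfl
  apply le_antisymm
  · rw [Submodule.map_le_iff_le_comap]
    refine dt_prodSub_le fun a ha b hb => ?_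
    rw [Submodule.mem_comap]
    induction hb using Submodule.span_induction with
    | mem z hz =>
      obtain ⟨y, hy, rfl⟩ := hz
      rw [key]
      exact Submodule.subset_span ⟨_, fun i => Fin.cases ha hy i, rfl⟩
    | zero => simp
    | add u v _ _ hu hv => rw [map_add, mul_add, map_add]; exact add_mem hu hv
    | smul c u _ hu => rw [map_smul, mul_smul_comm, map_smul]; exact Submodule.smul_mem _ _ hu
  · unfold powSub
    rw [Submodule.span_le]
    rintro _ ⟨y, hy, rfl⟩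
    refine ⟨_, dt_mem_prodSub (hy 0) (Submodule.subset_span ⟨Fin.tail y, fun i => hy _, rfl⟩), ?_⟩
    rw [key, Fin.cons_self_tail]

lemma dt_V_ker (Q : Qv α) (h0 : Q.wt Finset.univ = 0) (m : ℕ)
    (hQ : (Q.comap (Prod.snd : Fin m × α → α)).Sym) :
    (Q.comap (Prod.snd : Fin m × α → α)).V (Setoid.ker Prod.fst) = powSub m (Q.V ⊤) ⊔
      (Q.comap (Prod.snd : Fin m × α → α)).Jc (Setoid.ker Prod.fst) := by
  induction m with
  | zero =>
    have h1 : powSub 0 (Q.V ⊤) = ⊤ := by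
      rw [← dt_powSub_top]
      unfold powSub
      congr 1
      ext z
      simp
    rw [h1, top_sup_eq, eq_top_iff]
    intro z _
    refine Qv.W_le_V _ _ ?_
    rw [dt_mem_W]
    constructor
    · have hz : z.IsHomogeneous 0 := by
        rw [eq_C_of_isEmpty z]; exact isHomogeneous_C _ _
      exact Qv.mem_Low_of_isHomogeneous _ _ hz
    · intro r' h
      exact absurd (Setoid.ext fun x => isEmptyElim x) h.ne
  | succ m ih =>
    have hR : mapR (dt_E m) (sumR (⊤ : Setoid α) (Setoid.ker (Prod.fst : Fin m × α → Fin m))) =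
        Setoid.ker Prod.fst := by
      refine Setoid.ext fun x y => ?_
      obtain ⟨x, rfl⟩ := (dt_E m).surjective x
      obtain ⟨y, rfl⟩ := (dt_E m).surjective y
      show sumR (⊤ : Setoid α) (Setoid.ker (Prod.fst : Fin m × α → Fin m))
        ((dt_E m).symm (dt_E m x)) ((dt_E m).symm (dt_E m y)) ↔ _
      rw [Equiv.symm_apply_apply, Equiv.symm_apply_apply, Setoid.ker_def]
      cases x with
      | inl x =>
        cases y with
        | inl y => exact iff_of_true ((dt_sumR_ll _ _ _ _).2 trivial) rfl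
        | inr y => exact iff_of_false (dt_sumR_lr _ _ _ _) (Fin.succ_ne_zero _).symm
      | inr x =>
        cases y with
        | inl y => exact iff_of_false (dt_sumR_rl _ _ _ _) (Fin.succ_ne_zero _)
        | inr y => rw [dt_sumR_rr, Setoid.ker_def]; exact Fin.succ_inj.symm
    have hQ' := hQ.comap (dt_E m).toEmbedding
    have z0 : ((Q.comap (Prod.snd : Fin (m + 1) × α → α)).comap (dt_E m)).Zero
        (sumR (⊤ : Setoid α) (Setoid.ker (Prod.fst : Fin m × α → Fin m))) := by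
      rw [← zero_mapR, hR]; exact dt_zero_ker Q h0 _
    have e1 := V_mapR _ (dt_E m) _ hQ z0
    have e2 := Jc_mapR (Q.comap (Prod.snd : Fin (m + 1) × α → α)) (dt_E m)
      (sumR (⊤ : Setoid α) (Setoid.ker (Prod.fst : Fin m × α → Fin m)))
    rw [hR] at e1 e2
    have ih' := ih (hQ'.comap Function.Embedding.inr)
    have e3 := V_sumR _ hQ' _ _ z0
    have e4 := Jc_sumR ((Q.comap (Prod.snd : Fin (m + 1) × α → α)).comap (dt_E m))
      (⊤ : Setoid α) (Setoid.ker (Prod.fst : Fin m × α → Fin m))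
    have c1 : ((Q.comap (Prod.snd : Fin (m + 1) × α → α)).comap (dt_E m)).comap Sum.inl = Q := rfl
    have c2 : ((Q.comap (Prod.snd : Fin (m + 1) × α → α)).comap (dt_E m)).comap Sum.inr =
        Q.comap (Prod.snd : Fin m × α → α) := rfl
    rw [e1, e2, ← dt_powSub_succ, ← Submodule.map_sup]
    congr 1
    refine e3.trans ?_
    erw [c1, c2]
    rw [ih']
    refine le_antisymm (sup_le ((dt_prodSub_sup_right _ _ _).trans (sup_le_sup_left ?_ _))
      le_sup_right) (sup_le_sup_right (dt_prodSub_mono le_rfl le_sup_left) _)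
    rw [e4, c2]
    exact (dt_prodSub_mono le_top le_rfl).trans le_sup_right

theorem chV_model [Nonempty α] (Q : Qv α) (e : ℕ)
    (hQ : (Q.comap (Prod.snd : Fin (e + 1) × α → α)).Sym) (h0 : Q.wt Finset.univ = 0)
    {g : Equiv.Perm α} (hg : Q.Aut g) :
    (Q.comap (Prod.snd : Fin (e + 1) × α → α)).chV (Setoid.ker Prod.fst) (cyc e g) =
      PowerSeries.expand (e + 1) (Nat.succ_ne_zero e) (Q.chV ⊤ g) := by
  have hQ0 : Q.Sym := hQ.comap ⟨Prod.mk 0, Prod.mk_right_injective 0⟩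
  have hz : Q.Zero ⊤ := fun x => by rw [blk_top]; exact h0
  have hs : StabR g (⊤ : Setoid α) := fun x y => Iff.rfl
  unfold Qv.chV
  rw [dt_V_ker Q h0 _ hQ, dt_Jc_ker]
  exact ch_cyc e _ _ g ((Q.Jc_le_W _).trans (Q.W_le_V _)) (Q.isGr_V _) (Q.isGr_Jc _)
    (dt_stab_V Q hQ0 hg hz hs) (dt_stab_Jc Q hg hs)

end Crest.Agent.R059
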