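import Crest.Agent.R059.QT
import Crest.Agent.R059.DecT

/-! Row 59: averaging class functions over products of symmetric groups. -/

set_option autoImplicit false
set_option linter.unusedSectionVars false
set_option linter.unusedVariables false

noncomputable section
open Classical MvPolynomial

namespace Crest.Agent.R059

variable {α β : Type} [Fintype α] [Fintype β]

variable {I : Type} [Fintype I]

/-- Class functions on coloured finite sets with a permutation. -/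
def Sp (I : Type) : Type 1 := ∀ (α : Type) [Fintype α], (α → I) → Equiv.Perm α → K
/-- The same with a partition. -/
def SpR (I : Type) : Type 1 := ∀ (α : Type) [Fintype α], (α → I) → Equiv.Perm α → Setoid α → K
/-- Colour preserving permutations. -/
def CP (c : α → I) : Subgroup (Equiv.Perm α) where
  carrier := {σ | ∀ x, c (σ x) = c x}
  one_mem' := fun _ => rfl
  mul_mem' := fun {a b} ha hb x => by
    show c (a (b x)) = c x
    rw [ha, hb]
  inv_mem' := fun {a} ha x => by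
    have := ha (a⁻¹ x)
    simpa using this.symm
def Sp.Inv (Y : Sp I) : Prop :=
  ∀ (α β : Type) [Fintype α] [Fintype β] (e : α ≃ β) (c : β → I) (σ : Equiv.Perm α),
    σ ∈ CP (c ∘ e) → Y β c (e.permCongr σ) = Y α (c ∘ e) σ
def SpR.Inv (w : SpR I) : Prop :=
  ∀ (α β : Type) [Fintype α] [Fintype β] (e : α ≃ β) (c : β → I) (σ : Equiv.Perm α)
    (r : Setoid α), σ ∈ CP (c ∘ e) → StabR σ r →
    w β c (e.permCongr σ) (mapR e r) = w α (c ∘ e) σ r
def typ (c : α → I) : I → ℕ := fun i => (Finset.univ.filter fun x => c x = i).card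
abbrev Xd (d : I → ℕ) : Type := Σ i, Fin (d i)
/-- The sign of `σ` on the points of odd colour. -/
def eps (odd : I → Prop) (c : α → I) (σ : Equiv.Perm α) : ℤˣ :=
  Equiv.Perm.sign (res σ (Finset.univ.filter fun x => odd (c x)))
def dfac (d : I → ℕ) : K := ∏ i, ((d i).factorial : K)
def avg (odd : I → Prop) (Y : Sp I) (d : I → ℕ) : K :=
  (∑ σ : CP (Sigma.fst : Xd d → I), ((eps odd Sigma.fst σ.1 : ℤ) : K) * Y (Xd d) Sigma.fst σ.1) /
    dfac d
/-- `σ` permutes the blocks of `r` transitively. -/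
def Trans (σ : Equiv.Perm α) (r : Setoid α) : Prop :=
  StabR σ r ∧ Nonempty α ∧ ∀ x y, ∃ k : ℕ, r ((σ ^ k) x) y

lemma Avg_charZero : CharZero K := charZero_of_injective_algebraMap (algebraMap ℂ K).injective

lemma dfac_ne_zero (d : I → ℕ) : dfac d ≠ 0 := by
  have := Avg_charZero
  exact Finset.prod_ne_zero_iff.2 fun i _ => Nat.cast_ne_zero.2 (Nat.factorial_ne_zero _)

lemma mem_CP {c : α → I} {σ : Equiv.Perm α} : σ ∈ CP c ↔ ∀ x, c (σ x) = c x := Iff.rfl

lemma typ_eq_card (c : α → I) (i : I) : typ c i = Nat.card {x // c x = i} := by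
  rw [Nat.card_eq_fintype_card, Fintype.card_subtype]; rfl

lemma typ_Xd (d : I → ℕ) : typ (Sigma.fst : Xd d → I) = d := by
  funext i
  rw [typ_eq_card, Nat.card_congr (Equiv.sigmaSubtype (β := fun i => Fin (d i)) i)]
  simp

lemma typ_equiv (e : α ≃ β) (c : β → I) : typ (c ∘ e) = typ c := by
  funext i
  rw [typ_eq_card, typ_eq_card]
  exact Nat.card_congr (e.subtypeEquiv fun x => Iff.rfl)

lemma exists_cequiv {c : α → I} {c' : β → I} (h : typ c = typ c') :
    ∃ e : α ≃ β, c = c' ∘ e := by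
  have : ∀ i, Nonempty ({a // c a = i} ≃ {b // c' b = i}) := fun i =>
    Finite.card_eq.1 (by rw [← typ_eq_card, ← typ_eq_card, h])
  exact ⟨Equiv.ofFiberEquiv fun i => (this i).some,
    funext fun a => (Equiv.ofFiberEquiv_map (fun i => (this i).some) a).symm⟩

lemma natCard_CP (c : α → I) : Nat.card (CP c) = ∏ i, (typ c i).factorial := by
  have h := DomMulAct.stabilizer_card c
  rw [← Nat.card_eq_fintype_card] at h
  have e : CP c ≃ {g : Equiv.Perm α // c ∘ g = c} :=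
    Equiv.subtypeEquivRight fun g => ⟨fun h => funext h, fun h x => congrFun h x⟩
  rw [Nat.card_congr e, h]
  refine Finset.prod_congr rfl fun i _ => ?_
  rw [typ_eq_card, Nat.card_eq_fintype_card]

lemma card_CP (c : α → I) : (Fintype.card (CP c) : K) = dfac (typ c) := by
  rw [← Nat.card_eq_fintype_card, natCard_CP, dfac, Nat.cast_prod]

lemma natCard_cequiv {c : α → I} {c' : β → I} (h : typ c = typ c') :
    Nat.card {e : α ≃ β // c = c' ∘ e} = ∏ i, (typ c i).factorial := by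
  obtain ⟨e₀, he₀⟩ := exists_cequiv h
  rw [← natCard_CP]
  have h0 : ∀ x, c' (e₀ x) = c x := fun x => (congrFun he₀ x).symm
  refine Nat.card_congr ⟨fun e => ⟨e.1.trans e₀.symm, fun x => ?_⟩,
    fun g => ⟨g.1.trans e₀, funext fun x => ?_⟩, fun e => ?_, fun g => ?_⟩
  · rw [← h0, Equiv.trans_apply, Equiv.apply_symm_apply]
    exact (congrFun e.2 x).symm
  · show c x = c' (e₀ (g.1 x))
    rw [h0, g.2 x]
  · ext x; simp
  · ext x; simp

lemma sign_eq_of_equiv {A B : Type} {_ : DecidableEq A} {_ : Fintype A} {_ : DecidableEq B}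
    {_ : Fintype B} (f : Equiv.Perm A) (g : Equiv.Perm B) (e : A ≃ B)
    (h : ∀ x, e (f x) = g (e x)) : Equiv.Perm.sign f = Equiv.Perm.sign g :=
  Equiv.Perm.sign_eq_sign_of_equiv f g e h

lemma res_val {σ : Equiv.Perm α} {S : Finset α} (h : StabS σ S) (x : {x // x ∈ S}) :
    (res σ S x : α) = σ x := by
  rw [res, dif_pos h]; rfl

lemma res_pow_val {σ : Equiv.Perm α} {S : Finset α} (h : StabS σ S) (k : ℕ)
    (x : {x // x ∈ S}) : (((res σ S) ^ k) x : α) = (σ ^ k) x := by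
  induction k with
  | zero => rfl
  | succ k ih => rw [pow_succ', pow_succ', Equiv.Perm.mul_apply, Equiv.Perm.mul_apply,
      res_val h, ih]

lemma StabS.compl {σ : Equiv.Perm α} {S : Finset α} (h : StabS σ S) : StabS σ Sᶜ := fun x => by
  rw [Finset.mem_compl, Finset.mem_compl, h x]

lemma stabS_odd (odd : I → Prop) {c : α → I} {σ : Equiv.Perm α} (h : σ ∈ CP c) :
    StabS σ (Finset.univ.filter fun x => odd (c x)) := fun x => by
  simp only [Finset.mem_filter, Finset.mem_univ, true_and, h x]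

lemma eps_mul (odd : I → Prop) (c : α → I) {σ σ' : Equiv.Perm α} (h : σ ∈ CP c)
    (h' : σ' ∈ CP c) : eps odd c (σ * σ') = eps odd c σ * eps odd c σ' := by
  unfold eps
  rw [← Equiv.Perm.sign_mul]
  congr 1
  ext x
  rw [res_val (stabS_odd odd (mul_mem h h')), Equiv.Perm.mul_apply, Equiv.Perm.mul_apply,
    res_val (stabS_odd odd h), res_val (stabS_odd odd h')]

lemma eps_one (odd : I → Prop) (c : α → I) : eps odd c 1 = 1 := by
  unfold eps
  have : res (1 : Equiv.Perm α) (Finset.univ.filter fun x => odd (c x)) = 1 := by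
    ext x
    rw [res_val (stabS_odd odd (one_mem (CP c)))]; rfl
  rw [this, Equiv.Perm.sign_one]

lemma permCongr_mem_CP (e : α ≃ β) (c : β → I) {σ : Equiv.Perm α} (h : σ ∈ CP (c ∘ e)) :
    e.permCongr σ ∈ CP c := fun y => by
  have := h (e.symm y)
  simpa using this

lemma eps_permCongr (odd : I → Prop) (e : α ≃ β) (c : β → I) {σ : Equiv.Perm α}
    (h : σ ∈ CP (c ∘ e)) : eps odd c (e.permCongr σ) = eps odd (c ∘ e) σ := by
  unfold eps
  symm
  refine Equiv.Perm.sign_eq_sign_of_equiv _ _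
    (e.subtypeEquiv fun x => by simp) fun x => Subtype.ext ?_
  rw [res_val (stabS_odd odd (permCongr_mem_CP e c h))]
  simp only [Equiv.subtypeEquiv_apply, Equiv.permCongr_apply, Equiv.symm_apply_apply]
  rw [res_val (stabS_odd odd h)]

lemma cyc_apply (e : ℕ) (g : Equiv.Perm α) (p : Fin (e + 1) × α) :
    cyc e g p = (p.1 + 1, if p.1 = Fin.last e then g p.2 else p.2) := by
  obtain ⟨i, x⟩ := p
  simp only [cyc, Equiv.trans_apply, Equiv.prodCongrRight_apply, Equiv.prodCongr_apply,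
    Prod.map_apply, finRotate_apply, Equiv.coe_refl, id]
  split_ifs <;> rfl

lemma cyc_mem_CP (c : α → I) (e : ℕ) {g : Equiv.Perm α} (h : g ∈ CP c) :
    cyc e g ∈ CP (c ∘ (Prod.snd : Fin (e + 1) × α → α)) := fun p => by
  simp only [Function.comp_apply, cyc_apply]
  split_ifs
  · exact h _
  · rfl

lemma sign_cyc {γ : Type} [Fintype γ] [DecidableEq γ] (e : ℕ) (g : Equiv.Perm γ) :
    Equiv.Perm.sign (cyc e g) = (-1) ^ (e * Fintype.card γ) * Equiv.Perm.sign g := by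
  have : cyc e g = (Equiv.prodCongrLeft fun _ : γ => finRotate (e + 1)) *
      (Equiv.prodCongrRight fun i : Fin (e + 1) => if i = Fin.last e then g else 1) := by
    ext p : 1
    obtain ⟨i, x⟩ := p
    rfl
  rw [this, Equiv.Perm.sign_mul, Equiv.Perm.sign_prodCongrLeft, Equiv.Perm.sign_prodCongrRight,
    Finset.prod_const, sign_finRotate, Finset.card_univ, Nat.add_sub_cancel, ← pow_mul,
    Finset.prod_eq_single (Fin.last e)]
  · simp
  · intro b _ hb; simp [hb]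
  · simp

lemma card_odd (odd : I → Prop) (c : α → I) :
    (Finset.univ.filter fun x => odd (c x)).card = ∑ i ∈ Finset.univ.filter odd, typ c i := by
  rw [Finset.card_eq_sum_card_fiberwise (f := c) (t := Finset.univ.filter odd)
    (fun x hx => by simpa using hx)]
  refine Finset.sum_congr rfl fun i hi => ?_
  rw [typ, Finset.filter_filter]
  congr 1
  ext x
  simp only [Finset.mem_filter, Finset.mem_univ, true_and] at hi ⊢
  exact ⟨fun h => h.2, fun h => ⟨h ▸ hi, h⟩⟩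

lemma eps_cyc (odd : I → Prop) (c : α → I) (e : ℕ) {g : Equiv.Perm α} (h : g ∈ CP c) :
    eps odd (c ∘ (Prod.snd : Fin (e + 1) × α → α)) (cyc e g) =
      (-1) ^ (e * ∑ i ∈ Finset.univ.filter odd, typ c i) * eps odd c g := by
  unfold eps
  rw [← card_odd, ← Fintype.card_coe, ← sign_cyc]
  refine sign_eq_of_equiv _ _
    ⟨fun p => (p.1.1, ⟨p.1.2, Finset.mem_filter.2
        ⟨Finset.mem_univ _, (Finset.mem_filter.1 p.2).2⟩⟩),
      fun q => ⟨(q.1, q.2.1), Finset.mem_filter.2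
        ⟨Finset.mem_univ _, (Finset.mem_filter.1 q.2.2).2⟩⟩,
      fun _ => rfl, fun _ => rfl⟩ fun x => ?_
  have h1 := res_val (stabS_odd odd (cyc_mem_CP c e h)) x
  rw [cyc_apply] at h1
  simp only [Equiv.coe_fn_mk, cyc_apply]
  have h2 := congrArg Prod.fst h1
  have h3 := congrArg Prod.snd h1
  refine Prod.ext h2 (Subtype.ext ?_)
  simp only at h3 ⊢
  rw [h3]
  split_ifs
  · rw [res_val (stabS_odd odd h)]
  · rfl

lemma avg_congr (odd : I → Prop) {Y Y' : Sp I} (d : I → ℕ)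
    (h : ∀ σ ∈ CP (Sigma.fst : Xd d → I), Y (Xd d) Sigma.fst σ = Y' (Xd d) Sigma.fst σ) :
    avg odd Y d = avg odd Y' d := by
  unfold avg
  congr 1
  exact Finset.sum_congr rfl fun σ _ => by rw [h σ.1 σ.2]

/-- The colour preserving permutations as a finset. -/
def CPf (c : α → I) : Finset (Equiv.Perm α) := Finset.univ.filter fun σ => σ ∈ CP c

lemma mem_CPf {c : α → I} {σ : Equiv.Perm α} : σ ∈ CPf c ↔ σ ∈ CP c := by
  simp [CPf]

lemma sum_CP (c : α → I) {F : Fintype (CP c)} (f : Equiv.Perm α → K) :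
    ∑ σ : CP c, f σ.1 = ∑ σ ∈ CPf c, f σ :=
  (Finset.sum_subtype (p := fun σ => σ ∈ CP c) (CPf c) (fun _ => mem_CPf) f).symm

lemma avg_eq (odd : I → Prop) (Y : Sp I) (d : I → ℕ) : avg odd Y d =
    (∑ σ ∈ CPf (Sigma.fst : Xd d → I), ((eps odd Sigma.fst σ : ℤ) : K) * Y (Xd d) Sigma.fst σ) /
      dfac d := by
  rw [avg, sum_CP (Sigma.fst : Xd d → I)
      (fun σ => ((eps odd Sigma.fst σ : ℤ) : K) * Y (Xd d) Sigma.fst σ)]

lemma sum_CPf_eq (odd : I → Prop) (Y : Sp I) (hY : Y.Inv) (c : α → I) {d : I → ℕ}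
    (hd : typ c = d) :
    ∑ σ ∈ CPf c, ((eps odd c σ : ℤ) : K) * Y α c σ = dfac d * avg odd Y d := by
  obtain ⟨e, rfl⟩ := exists_cequiv (hd.trans (typ_Xd d).symm)
  rw [avg, mul_div_cancel₀ _ (dfac_ne_zero d),
    sum_CP (Sigma.fst : Xd d → I)
      (fun σ => ((eps odd Sigma.fst σ : ℤ) : K) * Y (Xd d) Sigma.fst σ)]
  refine Finset.sum_nbij' e.permCongr e.permCongr.symm (fun σ h => ?_) (fun σ h => ?_)
    (fun σ _ => e.permCongr.symm_apply_apply σ) (fun σ _ => e.permCongr.apply_symm_apply σ)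
    (fun σ h => ?_)
  · exact mem_CPf.2 (permCongr_mem_CP e _ (mem_CPf.1 h))
  · refine mem_CPf.2 fun x => ?_
    have := mem_CPf.1 h (e x)
    simpa using this
  · rw [eps_permCongr odd e _ (mem_CPf.1 h), hY _ _ e _ _ (mem_CPf.1 h)]

/-! ### Products -/

/-- Gluing permutations of a subset and of its complement. -/
def joinP {S : Finset α} (σ₁ : Equiv.Perm {x // x ∈ S}) (σ₂ : Equiv.Perm {x // x ∈ Sᶜ}) :
    Equiv.Perm α :=
  Equiv.Perm.ofSubtype σ₁ * Equiv.Perm.ofSubtype σ₂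

lemma joinP_of_mem {S : Finset α} (σ₁ : Equiv.Perm {x // x ∈ S}) (σ₂ : Equiv.Perm {x // x ∈ Sᶜ})
    {x : α} (h : x ∈ S) : joinP σ₁ σ₂ x = σ₁ ⟨x, h⟩ := by
  rw [joinP, Equiv.Perm.mul_apply,
    Equiv.Perm.ofSubtype_apply_of_not_mem σ₂ (fun h' => Finset.mem_compl.1 h' h),
    Equiv.Perm.ofSubtype_apply_of_mem σ₁ h]

lemma joinP_of_not_mem {S : Finset α} (σ₁ : Equiv.Perm {x // x ∈ S})
    (σ₂ : Equiv.Perm {x // x ∈ Sᶜ}) {x : α} (h : x ∈ Sᶜ) : joinP σ₁ σ₂ x = σ₂ ⟨x, h⟩ := by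
  rw [joinP, Equiv.Perm.mul_apply, Equiv.Perm.ofSubtype_apply_of_mem σ₂ h,
    Equiv.Perm.ofSubtype_apply_of_not_mem σ₁ (Finset.mem_compl.1 (σ₂ ⟨x, h⟩).2)]

lemma stabS_joinP {S : Finset α} (σ₁ : Equiv.Perm {x // x ∈ S})
    (σ₂ : Equiv.Perm {x // x ∈ Sᶜ}) : StabS (joinP σ₁ σ₂) S := fun x => by
  by_cases h : x ∈ S
  · rw [joinP_of_mem _ _ h]; exact ⟨fun _ => h, fun _ => (σ₁ ⟨x, h⟩).2⟩
  · rw [joinP_of_not_mem _ _ (Finset.mem_compl.2 h)]
    exact ⟨fun h' => absurd h' (Finset.mem_compl.1 (σ₂ _).2), fun h' => absurd h' h⟩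

lemma res_joinP_left {S : Finset α} (σ₁ : Equiv.Perm {x // x ∈ S})
    (σ₂ : Equiv.Perm {x // x ∈ Sᶜ}) : res (joinP σ₁ σ₂) S = σ₁ := by
  ext x
  rw [res_val (stabS_joinP _ _), joinP_of_mem _ _ x.2]

lemma res_joinP_right {S : Finset α} (σ₁ : Equiv.Perm {x // x ∈ S})
    (σ₂ : Equiv.Perm {x // x ∈ Sᶜ}) : res (joinP σ₁ σ₂) Sᶜ = σ₂ := by
  ext x
  rw [res_val (stabS_joinP _ _).compl, joinP_of_not_mem _ _ x.2]

lemma joinP_res {S : Finset α} {σ : Equiv.Perm α} (h : StabS σ S) :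
    joinP (res σ S) (res σ Sᶜ) = σ := by
  ext x
  by_cases hx : x ∈ S
  · rw [joinP_of_mem _ _ hx, res_val h]
  · rw [joinP_of_not_mem _ _ (Finset.mem_compl.2 hx), res_val h.compl]

lemma res_mem_CP {c : α → I} {S : Finset α} {σ : Equiv.Perm α} (h : StabS σ S) (hσ : σ ∈ CP c) :
    res σ S ∈ CP (c ∘ (Subtype.val : {x // x ∈ S} → α)) := fun x => by
  simp only [Function.comp_apply, res_val h]; exact hσ _

lemma ofSubtype_mem_CP {c : α → I} {S : Finset α} {σ : Equiv.Perm {x // x ∈ S}}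
    (hσ : σ ∈ CP (c ∘ (Subtype.val : {x // x ∈ S} → α))) : Equiv.Perm.ofSubtype σ ∈ CP c :=
  fun x => by
  by_cases hx : x ∈ S
  · rw [Equiv.Perm.ofSubtype_apply_of_mem σ hx]; exact hσ ⟨x, hx⟩
  · rw [Equiv.Perm.ofSubtype_apply_of_not_mem σ hx]

lemma ofSubtype_res_apply {S : Finset α} {_ : DecidablePred fun x => x ∈ S} {σ : Equiv.Perm α}
    (h : StabS σ S) (x : α) :
    Equiv.Perm.ofSubtype (res σ S) x = if x ∈ S then σ x else x := by
  split_ifs with hx
  · rw [Equiv.Perm.ofSubtype_apply_of_mem _ hx, res_val h]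
  · rw [Equiv.Perm.ofSubtype_apply_of_not_mem _ hx]

lemma sign_ofSubtype' {S : Finset α} {_ : DecidableEq α} {_ : DecidableEq {x // x ∈ S}}
    (σ : Equiv.Perm {x // x ∈ S}) :
    Equiv.Perm.sign (Equiv.Perm.ofSubtype σ) = Equiv.Perm.sign σ := by
  convert Equiv.Perm.sign_ofSubtype σ

lemma eps_ofSubtype (odd : I → Prop) {c : α → I} {S : Finset α} {σ : Equiv.Perm {x // x ∈ S}}
    (hσ : σ ∈ CP (c ∘ (Subtype.val : {x // x ∈ S} → α))) :
    eps odd c (Equiv.Perm.ofSubtype σ) = eps odd (c ∘ Subtype.val) σ := by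
  unfold eps
  rw [← sign_ofSubtype' (res (Equiv.Perm.ofSubtype σ) _), ← sign_ofSubtype' (res σ _),
    ← sign_ofSubtype' (Equiv.Perm.ofSubtype (res σ _))]
  congr 1
  ext x
  rw [ofSubtype_res_apply (stabS_odd odd (ofSubtype_mem_CP hσ))]
  by_cases hx : x ∈ S
  · rw [Equiv.Perm.ofSubtype_apply_of_mem _ hx, Equiv.Perm.ofSubtype_apply_of_mem _ hx,
      ofSubtype_res_apply (stabS_odd odd hσ)]
    simp only [Finset.mem_filter, Finset.mem_univ, true_and, Function.comp_apply]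
    split_ifs <;> rfl
  · rw [Equiv.Perm.ofSubtype_apply_of_not_mem _ hx, Equiv.Perm.ofSubtype_apply_of_not_mem _ hx]
    simp

lemma eps_joinP (odd : I → Prop) {c : α → I} {S : Finset α} {σ₁ : Equiv.Perm {x // x ∈ S}}
    {σ₂ : Equiv.Perm {x // x ∈ Sᶜ}} (h₁ : σ₁ ∈ CP (c ∘ (Subtype.val : {x // x ∈ S} → α)))
    (h₂ : σ₂ ∈ CP (c ∘ (Subtype.val : {x // x ∈ Sᶜ} → α))) :
    eps odd c (joinP σ₁ σ₂) = eps odd (c ∘ Subtype.val) σ₁ * eps odd (c ∘ Subtype.val) σ₂ := by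
  rw [joinP, eps_mul odd c (ofSubtype_mem_CP h₁) (ofSubtype_mem_CP h₂), eps_ofSubtype odd h₁,
    eps_ofSubtype odd h₂]

lemma sum_stabS (odd : I → Prop) (c : α → I) (S : Finset α)
    (f : Equiv.Perm {x // x ∈ S} → K) (g : Equiv.Perm {x // x ∈ Sᶜ} → K) :
    ∑ σ ∈ (CPf c).filter (fun σ => StabS σ S),
        ((eps odd c σ : ℤ) : K) * (f (res σ S) * g (res σ Sᶜ)) =
      (∑ σ ∈ CPf (c ∘ (Subtype.val : {x // x ∈ S} → α)),
          ((eps odd (c ∘ Subtype.val) σ : ℤ) : K) * f σ) *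
        ∑ σ ∈ CPf (c ∘ (Subtype.val : {x // x ∈ Sᶜ} → α)),
          ((eps odd (c ∘ Subtype.val) σ : ℤ) : K) * g σ := by
  rw [Finset.sum_mul_sum, ← Finset.sum_product']
  refine Finset.sum_nbij' (fun σ => (res σ S, res σ Sᶜ)) (fun p => joinP p.1 p.2)
    (fun σ h => ?_) (fun p h => ?_) (fun σ h => ?_) (fun p _ => ?_) (fun σ h => ?_)
  · obtain ⟨h1, h2⟩ := Finset.mem_filter.1 h
    exact Finset.mem_product.2 ⟨mem_CPf.2 (res_mem_CP h2 (mem_CPf.1 h1)),
      mem_CPf.2 (res_mem_CP h2.compl (mem_CPf.1 h1))⟩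
  · obtain ⟨h1, h2⟩ := Finset.mem_product.1 h
    exact Finset.mem_filter.2 ⟨mem_CPf.2 (mul_mem (ofSubtype_mem_CP (mem_CPf.1 h1))
      (ofSubtype_mem_CP (mem_CPf.1 h2))), stabS_joinP _ _⟩
  · exact joinP_res (Finset.mem_filter.1 h).2
  · rw [res_joinP_left, res_joinP_right]
  · obtain ⟨h1, h2⟩ := Finset.mem_filter.1 h
    have := eps_joinP odd (res_mem_CP h2 (mem_CPf.1 h1)) (res_mem_CP h2.compl (mem_CPf.1 h1))
    rw [joinP_res h2] at this
    rw [this]
    push_cast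
    ring

lemma typ_sub (c : α → I) (S : Finset α) (i : I) :
    typ (c ∘ (Subtype.val : {x // x ∈ S} → α)) i = (S.filter fun x => c x = i).card := by
  unfold typ
  refine Finset.card_nbij (fun x => x.1) (fun x hx => ?_) (fun x _ y _ h => Subtype.ext h)
    (fun x hx => ?_)
  · exact Finset.mem_coe.2 (Finset.mem_filter.2
      ⟨x.2, (Finset.mem_filter.1 (Finset.mem_coe.1 hx)).2⟩)
  · obtain ⟨h1, h2⟩ := Finset.mem_filter.1 (Finset.mem_coe.1 hx)
    exact ⟨⟨x, h1⟩, Finset.mem_coe.2 (Finset.mem_filter.2 ⟨Finset.mem_univ _, h2⟩), rfl⟩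

lemma typ_add_compl (c : α → I) (S : Finset α) :
    typ (c ∘ (Subtype.val : {x // x ∈ S} → α)) + typ (c ∘ (Subtype.val : {x // x ∈ Sᶜ} → α)) =
      typ c := by
  funext i
  rw [Pi.add_apply, typ_sub, typ_sub, ← Finset.card_union_of_disjoint
    (Finset.disjoint_filter_filter disjoint_compl_right), ← Finset.filter_union,
    Finset.union_compl]
  rfl

lemma card_typ_sub (c : α → I) (d' : I → ℕ) :
    (Finset.univ.filter fun S : Finset α =>
      typ (c ∘ (Subtype.val : {x // x ∈ S} → α)) = d').card = ∏ i, (typ c i).choose (d' i) := by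
  have : ∏ i, (typ c i).choose (d' i) = (Fintype.piFinset fun i =>
      Finset.powersetCard (d' i) (Finset.univ.filter fun x => c x = i)).card := by
    rw [Fintype.card_piFinset]
    exact Finset.prod_congr rfl fun i _ => by rw [Finset.card_powersetCard]; rfl
  rw [this]
  refine Finset.card_nbij' (fun S i => S.filter fun x => c x = i)
    (fun T => Finset.univ.filter fun x => x ∈ T (c x)) (fun S hS => ?_) (fun T hT => ?_)
    (fun S _ => ?_) (fun T hT => ?_)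
  · have hS := (Finset.mem_filter.1 (Finset.mem_coe.1 hS)).2
    refine Finset.mem_coe.2 (Fintype.mem_piFinset.2 fun i => Finset.mem_powersetCard.2
      ⟨Finset.filter_subset_filter _ (Finset.subset_univ _), ?_⟩)
    rw [← typ_sub, hS]
  · have hT := Fintype.mem_piFinset.1 (Finset.mem_coe.1 hT)
    refine Finset.mem_coe.2 (Finset.mem_filter.2 ⟨Finset.mem_univ _, funext fun i => ?_⟩)
    rw [typ_sub, ← (Finset.mem_powersetCard.1 (hT i)).2]
    congr 1
    ext x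
    simp only [Finset.mem_filter, Finset.mem_univ, true_and]
    constructor
    · rintro ⟨h, rfl⟩; exact h
    · intro h
      have := (Finset.mem_filter.1 ((Finset.mem_powersetCard.1 (hT i)).1 h)).2
      subst this
      exact ⟨h, rfl⟩
  · ext x; simp
  · have hT := Fintype.mem_piFinset.1 (Finset.mem_coe.1 hT)
    funext i
    ext x
    simp only [Finset.mem_filter, Finset.mem_univ, true_and]
    constructor
    · rintro ⟨h, rfl⟩; exact h
    · intro h
      have := (Finset.mem_filter.1 ((Finset.mem_powersetCard.1 (hT i)).1 h)).2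
      subst this
      exact ⟨h, rfl⟩

lemma choose_dfac {d d' : I → ℕ} (h : d' ≤ d) :
    ((∏ i, (d i).choose (d' i) : ℕ) : K) * (dfac d' * dfac (d - d')) = dfac d := by
  unfold dfac
  rw [Nat.cast_prod, ← Finset.prod_mul_distrib, ← Finset.prod_mul_distrib]
  refine Finset.prod_congr rfl fun i _ => ?_
  rw [← Nat.choose_mul_factorial_mul_factorial (h i), Pi.sub_apply]
  push_cast
  ring

lemma avg_mul_aux (odd : I → Prop) (Y Y' : Sp I) (hY : Y.Inv) (hY' : Y'.Inv)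
    (u : (I → ℕ) → (I → ℕ) → K) (d : I → ℕ) (c : α → I) (hd : typ c = d) :
    ∑ σ ∈ CPf c, ((eps odd c σ : ℤ) : K) * ∑ S ∈ Finset.univ.filter (StabS σ),
      u (typ (c ∘ (Subtype.val : {x // x ∈ S} → α))) (typ (c ∘ (Subtype.val : {x // x ∈ Sᶜ} → α))) *
        (Y {x // x ∈ S} (c ∘ Subtype.val) (res σ S) *
          Y' {x // x ∈ Sᶜ} (c ∘ Subtype.val) (res σ Sᶜ)) =
      (∑ d' ∈ Finset.Iic d, u d' (d - d') * (avg odd Y d' * avg odd Y' (d - d'))) * dfac d := by
  simp only [Finset.mul_sum]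
  rw [Finset.sum_comm' (t' := Finset.univ) (s' := fun S => (CPf c).filter fun σ => StabS σ S)
    (fun σ S => by simp)]
  have hle : ∀ S : Finset (α), typ (c ∘ (Subtype.val : {x // x ∈ S} → α)) ≤ d := fun S =>
    hd ▸ typ_add_compl c S ▸ le_self_add
  have hsub : ∀ S : Finset (α), typ (c ∘ (Subtype.val : {x // x ∈ Sᶜ} → α)) =
      d - typ (c ∘ (Subtype.val : {x // x ∈ S} → α)) := fun S => by
    have h := (typ_add_compl c S).trans hd
    funext i
    have := congrFun h i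
    simp only [Pi.add_apply, Pi.sub_apply] at this ⊢
    omega
  rw [← Finset.sum_fiberwise_of_maps_to (t := Finset.Iic d)
    (g := fun S : Finset (α) => typ (c ∘ (Subtype.val : {x // x ∈ S} → α)))
    (fun S _ => Finset.mem_Iic.2 (hle S)), Finset.sum_mul]
  refine Finset.sum_congr rfl fun d' hd' => ?_
  rw [Finset.sum_congr rfl (g := fun _ => u d' (d - d') *
      ((dfac d' * avg odd Y d') * (dfac (d - d') * avg odd Y' (d - d')))) fun S hS => ?_]
  · rw [Finset.sum_const, nsmul_eq_mul, card_typ_sub, hd,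
      ← choose_dfac (Finset.mem_Iic.1 hd')]
    ring
  · have h1 := (Finset.mem_filter.1 hS).2
    have h2 := hsub S
    rw [h1] at h2
    rw [← sum_CPf_eq odd Y hY _ h1, ← sum_CPf_eq odd Y' hY' _ h2, ← sum_stabS, Finset.mul_sum,
      h1, h2]
    exact Finset.sum_congr rfl fun σ _ => by ring


theorem avg_mul (odd : I → Prop) (Y Y' : Sp I) (hY : Y.Inv) (hY' : Y'.Inv)
    (u : (I → ℕ) → (I → ℕ) → K) (d : I → ℕ) :
    avg odd (fun α _ c σ => ∑ S ∈ Finset.univ.filter (StabS σ),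
      u (typ (c ∘ (Subtype.val : {x // x ∈ S} → α))) (typ (c ∘ (Subtype.val : {x // x ∈ Sᶜ} → α))) *
        (Y {x // x ∈ S} (c ∘ Subtype.val) (res σ S) *
          Y' {x // x ∈ Sᶜ} (c ∘ Subtype.val) (res σ Sᶜ))) d =
      ∑ d' ∈ Finset.Iic d, u d' (d - d') * (avg odd Y d' * avg odd Y' (d - d')) := by
  refine (avg_eq odd _ d).trans ((div_eq_iff (dfac_ne_zero d)).2 ?_)
  exact avg_mul_aux odd Y Y' hY hY' u d _ (typ_Xd d)

/-! ### Transitive partitions -/

lemma StabR.pow {σ : Equiv.Perm α} {r : Setoid α} (h : StabR σ r) (k : ℕ) : StabR (σ ^ k) r := by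
  induction k with
  | zero => intro x y; rfl
  | succ k ih =>
    intro x y
    rw [pow_succ', Equiv.Perm.mul_apply, Equiv.Perm.mul_apply, h, ih]

lemma Trans.period {σ : Equiv.Perm α} {r : Setoid α} (h : Trans σ r) (x : α) :
    (∀ i < Nat.card (Quotient r), ∀ j < Nat.card (Quotient r),
        r ((σ ^ i) x) ((σ ^ j) x) → i = j) ∧
      r ((σ ^ Nat.card (Quotient r)) x) x ∧
      ∀ y, ∃ i < Nat.card (Quotient r), r ((σ ^ i) x) y := by
  obtain ⟨hs, -, ht⟩ := h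
  let f : Quotient r → Quotient r := Quotient.map σ fun a b hab => (hs a b).2 hab
  have hf : ∀ k, f^[k] (Quotient.mk r x) = Quotient.mk r ((σ ^ k) x) := by
    intro k
    induction k with
    | zero => rfl
    | succ k ih => rw [Function.iterate_succ_apply', ih, pow_succ']; rfl
  have hinj : Function.Injective f := by
    intro a b
    induction a using Quotient.inductionOn
    induction b using Quotient.inductionOn
    intro hab
    exact Quotient.sound ((hs _ _).1 (Quotient.exact hab))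
  have hpos := Function.minimalPeriod_pos_of_mem_periodicPts
    (hinj.mem_periodicPts (Quotient.mk r x))
  set n := Function.minimalPeriod f (Quotient.mk r x) with hn
  have h1 : ∀ i < n, ∀ j < n, r ((σ ^ i) x) ((σ ^ j) x) → i = j := fun i hi j hj hij =>
    (Function.iterate_eq_iterate_iff_of_lt_minimalPeriod hi hj).1
      (by rw [hf, hf]; exact Quotient.sound hij)
  have h3 : ∀ y, ∃ i < n, r ((σ ^ i) x) y := fun y => by
    obtain ⟨k, hk⟩ := ht x y
    refine ⟨k % n, Nat.mod_lt _ hpos, Quotient.exact ?_⟩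
    rw [← hf, hn, Function.iterate_mod_minimalPeriod_eq, hf]
    exact Quotient.sound hk
  have hcard : Nat.card (Quotient r) = n := by
    rw [← Nat.card_congr (Equiv.ofBijective (fun i : Fin n => Quotient.mk r ((σ ^ (i : ℕ)) x))
      ⟨fun i j hij => Fin.ext (h1 _ i.2 _ j.2 (Quotient.exact hij)), fun q => ?_⟩), Nat.card_fin]
    induction q using Quotient.inductionOn with
    | h y =>
      obtain ⟨i, hi, hy⟩ := h3 y
      exact ⟨⟨i, hi⟩, Quotient.sound hy⟩
  rw [hcard]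
  refine ⟨h1, Quotient.exact ?_, h3⟩
  rw [← hf, hn, Function.iterate_minimalPeriod]

lemma cyc_pow_zero (e : ℕ) (g : Equiv.Perm α) (x : α) (i : ℕ) (hi : i < e + 1) :
    (cyc e g ^ i) (0, x) = (⟨i, hi⟩, x) := by
  induction i with
  | zero => rfl
  | succ i ih =>
    rw [pow_succ', Equiv.Perm.mul_apply, ih (by omega), cyc_apply]
    have : (⟨i, by omega⟩ : Fin (e + 1)) ≠ Fin.last e := fun h => by
      have := congrArg Fin.val h
      simp at this
      omega
    simp only [this, if_false, Prod.mk.injEq, and_true]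
    apply Fin.ext
    rw [Fin.val_add_one_of_lt (lt_of_le_of_ne (Fin.le_last _) this)]

lemma cyc_pow_succ (e : ℕ) (g : Equiv.Perm α) (x : α) :
    (cyc e g ^ (e + 1)) (0, x) = (0, g x) := by
  rw [pow_succ', Equiv.Perm.mul_apply, cyc_pow_zero e g x e (by omega), cyc_apply]
  have : (⟨e, by omega⟩ : Fin (e + 1)) = Fin.last e := rfl
  simp only [this, if_true, Fin.last_add_one]

lemma stabR_cyc (e : ℕ) (g : Equiv.Perm α) :
    StabR (cyc e g) (Setoid.ker (Prod.fst : Fin (e + 1) × α → Fin (e + 1))) := fun p q => by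
  simp only [Setoid.ker_def, cyc_apply, add_left_inj]

lemma trans_cyc [Nonempty α] (e : ℕ) (g : Equiv.Perm α) :
    Trans (cyc e g) (Setoid.ker (Prod.fst : Fin (e + 1) × α → Fin (e + 1))) := by
  refine ⟨stabR_cyc e g, inferInstance, fun p q => ⟨q.1 + (e + 1 - p.1), ?_⟩⟩
  obtain ⟨i, x⟩ := p
  have h1 : ((i, x) : Fin (e + 1) × α) = (cyc e g ^ (i : ℕ)) (0, x) :=
    (cyc_pow_zero e g x i i.2).symm
  have h2 : (q.1 : ℕ) + (e + 1 - i) + i = q.1 + (e + 1) := by have := i.2; omega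
  rw [Setoid.ker_def]
  simp only
  rw [h1, ← Equiv.Perm.mul_apply, ← pow_add, h2, pow_add, Equiv.Perm.mul_apply, cyc_pow_succ,
    cyc_pow_zero e g _ q.1 q.1.2]

lemma permCongr_pow (φ : α ≃ β) (σ : Equiv.Perm α) (k : ℕ) (x : α) :
    (φ.permCongr σ ^ k) (φ x) = φ ((σ ^ k) x) := by
  induction k with
  | zero => rfl
  | succ k ih =>
    rw [pow_succ', pow_succ', Equiv.Perm.mul_apply, Equiv.Perm.mul_apply, ih]
    simp

lemma mapR_apply (φ : α ≃ β) (r : Setoid α) (x y : α) : mapR φ r (φ x) (φ y) ↔ r x y := by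
  show r (φ.symm (φ x)) (φ.symm (φ y)) ↔ r x y
  simp

lemma Trans.map (φ : α ≃ β) {σ : Equiv.Perm α} {r : Setoid α} (h : Trans σ r) :
    Trans (φ.permCongr σ) (mapR φ r) := by
  obtain ⟨h1, ⟨x0⟩, h3⟩ := h
  refine ⟨fun x y => ?_, ⟨φ x0⟩, fun x y => ?_⟩
  · obtain ⟨x, rfl⟩ := φ.surjective x
    obtain ⟨y, rfl⟩ := φ.surjective y
    simp only [Equiv.permCongr_apply, Equiv.symm_apply_apply, mapR_apply]
    exact h1 x y
  · obtain ⟨x, rfl⟩ := φ.surjective x
    obtain ⟨y, rfl⟩ := φ.surjective y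
    obtain ⟨k, hk⟩ := h3 x y
    exact ⟨k, by rw [permCongr_pow, mapR_apply]; exact hk⟩

lemma card_quot_model [Nonempty β] (e : ℕ) (φ : Fin (e + 1) × β ≃ α) :
    Nat.card (Quotient (mapR φ (Setoid.ker Prod.fst))) = e + 1 := by
  have : mapR φ (Setoid.ker Prod.fst) = Setoid.ker fun x => (φ.symm x).1 := rfl
  rw [this, Nat.card_congr (Setoid.quotientKerEquivOfSurjective _ fun i =>
    ⟨φ (i, Classical.arbitrary β), by simp⟩), Nat.card_fin]

lemma typ_prod (e : ℕ) (c : β → I) :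
    typ (c ∘ (Prod.snd : Fin (e + 1) × β → β)) = (e + 1) • typ c := by
  funext i
  have : Nat.card {p : Fin (e + 1) × β // (c ∘ Prod.snd) p = i} =
      Nat.card (Fin (e + 1) × {x // c x = i}) :=
    Nat.card_congr ⟨fun p => (p.1.1, ⟨p.1.2, p.2⟩), fun q => ⟨(q.1, q.2.1), q.2.2⟩,
      fun _ => rfl, fun _ => rfl⟩
  rw [Pi.smul_apply, typ_eq_card, typ_eq_card, smul_eq_mul, this, Nat.card_prod, Nat.card_fin]

/-- A parametrised block generates a cyclic model. -/
lemma exists_model {σ : Equiv.Perm α} {r : Setoid α} (h : Trans σ r) {e : ℕ}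
    (he : Nat.card (Quotient r) = e + 1) (q : Quotient r)
    (b : β ≃ {y // Quotient.mk r y = q}) :
    ∃ (φ : Fin (e + 1) × β ≃ α) (g : Equiv.Perm β), φ.permCongr (cyc e g) = σ ∧
      mapR φ (Setoid.ker Prod.fst) = r ∧ ∀ t, φ (0, t) = b t := by
  obtain ⟨x₀, rfl⟩ := Quotient.exists_rep q
  obtain ⟨h1, h2, h3⟩ := h.period x₀
  rw [he] at h1 h2 h3
  have hb : ∀ t, r (b t) x₀ := fun t => Quotient.exact (b t).2
  have hk : ∀ k t, r ((σ ^ k) (b t)) ((σ ^ k) x₀) := fun k t => (h.1.pow k _ _).2 (hb t)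
  have hker : ∀ (p p' : Fin (e + 1) × β),
      r ((σ ^ (p.1 : ℕ)) (b p.2)) ((σ ^ (p'.1 : ℕ)) (b p'.2)) ↔ p.1 = p'.1 := fun p p' =>
    ⟨fun hr => Fin.ext (h1 _ p.1.2 _ p'.1.2
        (r.trans' (r.symm' (hk _ _)) (r.trans' hr (hk _ _)))),
      fun hp => by rw [hp]; exact r.trans' (hk _ _) (r.symm' (hk _ _))⟩
  have hbij : Function.Bijective fun p : Fin (e + 1) × β => (σ ^ (p.1 : ℕ)) (b p.2) := by
    constructor
    · intro p p' hp
      simp only at hp
      have h4 : p.1 = p'.1 := (hker p p').1 (by rw [hp])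
      rw [h4] at hp
      exact Prod.ext h4 (b.injective (Subtype.ext ((σ ^ (p'.1 : ℕ)).injective hp)))
    · intro y
      obtain ⟨i, hi, hy⟩ := h3 y
      have : r ((σ ^ i).symm y) x₀ := (h.1.pow i _ _).1 (by
        rw [Equiv.apply_symm_apply]; exact r.symm' hy)
      refine ⟨(⟨i, hi⟩, b.symm ⟨(σ ^ i).symm y, Quotient.sound this⟩), ?_⟩
      simp
  let g₀ : β → β := fun t => b.symm ⟨(σ ^ (e + 1)) (b t), Quotient.sound (r.trans' (hk _ _) h2)⟩
  have hg₀ : ∀ t, (b (g₀ t) : α) = (σ ^ (e + 1)) (b t) := fun t => by simp [g₀]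
  have hginj : Function.Injective g₀ := fun t t' ht => by
    have := hg₀ t
    rw [ht, hg₀] at this
    exact (b.injective (Subtype.ext ((σ ^ (e + 1)).injective this))).symm
  refine ⟨Equiv.ofBijective _ hbij, Equiv.ofBijective g₀ (Finite.injective_iff_bijective.1 hginj),
    ?_, ?_, fun t => rfl⟩
  · ext y
    obtain ⟨p, rfl⟩ := (Equiv.ofBijective _ hbij).surjective y
    rw [Equiv.permCongr_apply, Equiv.symm_apply_apply, cyc_apply]
    simp only [Equiv.ofBijective_apply]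
    rw [← Equiv.Perm.mul_apply σ, ← pow_succ']
    split_ifs with hp
    · rw [hp, Fin.last_add_one, hg₀]; rfl
    · rw [Fin.val_add_one_of_lt (lt_of_le_of_ne (Fin.le_last _) hp)]
  · ext x y
    obtain ⟨p, rfl⟩ := (Equiv.ofBijective _ hbij).surjective x
    obtain ⟨p', rfl⟩ := (Equiv.ofBijective _ hbij).surjective y
    rw [mapR_apply, Setoid.ker_def]
    exact (hker p p').symm

lemma model_apply {σ : Equiv.Perm α} {e : ℕ} {φ : Fin (e + 1) × β ≃ α} {g : Equiv.Perm β}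
    (h : φ.permCongr (cyc e g) = σ) (p : Fin (e + 1) × β) :
    φ p = (σ ^ (p.1 : ℕ)) (φ (0, p.2)) := by
  rw [← h, permCongr_pow, cyc_pow_zero e g _ _ p.1.2]

lemma CP_pow_apply {c : α → I} {σ : Equiv.Perm α} (h : σ ∈ CP c) (k : ℕ) (x : α) :
    c ((σ ^ k) x) = c x := (pow_mem h k : σ ^ k ∈ CP c) x

/-- The type of a block. -/
lemma typ_block {c : α → I} {σ : Equiv.Perm α} (hσ : σ ∈ CP c) {r : Setoid α} (h : Trans σ r)
    {e : ℕ} (he : Nat.card (Quotient r) = e + 1) (q : Quotient r) :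
    (e + 1) • typ (c ∘ (Subtype.val : {y // Quotient.mk r y = q} → α)) = typ c := by
  obtain ⟨φ, g, h1, -, h3⟩ := exists_model h he q (Equiv.refl _)
  rw [← typ_prod, ← typ_equiv φ]
  congr 1
  funext p
  simp only [Function.comp_apply]
  rw [model_apply h1, CP_pow_apply hσ, h3]
  rfl

lemma card_fibre [Nonempty β] {c : α → I} {c' : β → I} {σ : Equiv.Perm α} (hσ : σ ∈ CP c)
    {r : Setoid α} (h : Trans σ r) {e : ℕ} (he : Nat.card (Quotient r) = e + 1)
    (hd : (e + 1) • typ c' = typ c) :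
    Nat.card {p : (Fin (e + 1) × β ≃ α) × Equiv.Perm β // (c' ∘ Prod.snd = c ∘ p.1 ∧ p.2 ∈ CP c') ∧
      (p.1.permCongr (cyc e p.2), mapR p.1 (Setoid.ker Prod.fst)) = (σ, r)} =
      (e + 1) * ∏ i, (typ c' i).factorial := by
  have htyp : ∀ q : Quotient r,
      typ c' = typ (c ∘ (Subtype.val : {y // Quotient.mk r y = q} → α)) := fun q => by
    have := hd.trans (typ_block hσ h he q).symm
    funext i
    have := congrFun this i
    simp only [Pi.smul_apply, smul_eq_mul] at this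
    exact Nat.eq_of_mul_eq_mul_left (Nat.succ_pos e) this
  have hsig : Nat.card (Σ q : Quotient r, {b : β ≃ {y // Quotient.mk r y = q} //
      c' = (c ∘ Subtype.val) ∘ b}) = (e + 1) * ∏ i, (typ c' i).factorial := by
    rw [Nat.card_sigma, Finset.sum_congr rfl fun q _ => natCard_cequiv (htyp q), Finset.sum_const,
      Finset.card_univ, ← Nat.card_eq_fintype_card, he, smul_eq_mul]
  rw [← hsig]
  symm
  choose Φ G h1 h2 h3 using fun (q : Quotient r) (b : β ≃ {y // Quotient.mk r y = q}) =>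
    exists_model h he q b
  have hcol : ∀ (q : Quotient r) (b : β ≃ {y // Quotient.mk r y = q}),
      c' = (c ∘ Subtype.val) ∘ b → c' ∘ Prod.snd = c ∘ Φ q b := fun q b hb => by
    funext p
    simp only [Function.comp_apply]
    rw [model_apply (h1 q b), CP_pow_apply hσ, h3, hb]
    rfl
  have hG : ∀ {φ : Fin (e + 1) × β ≃ α} {g : Equiv.Perm β}, φ.permCongr (cyc e g) = σ →
      ∀ t, φ (0, g t) = (σ ^ (e + 1)) (φ (0, t)) := fun {φ g} hφ t => by
    rw [← hφ, permCongr_pow, cyc_pow_succ]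
  refine Nat.card_congr (Equiv.ofBijective (fun z => ⟨(Φ z.1 z.2.1, G z.1 z.2.1),
    ⟨hcol _ _ z.2.2, fun t => ?_⟩, Prod.ext (h1 _ _) (h2 _ _)⟩) ⟨?_, ?_⟩)
  · have e1 := congrFun (hcol _ _ z.2.2) (0, G z.1 z.2.1 t)
    have e2 := congrFun (hcol _ _ z.2.2) (0, t)
    simp only [Function.comp_apply] at e1 e2
    rw [e1, e2, hG (h1 _ _), CP_pow_apply hσ]
  · rintro ⟨q, b, hb⟩ ⟨q', b', hb'⟩ hz
    have hΦ : Φ q b = Φ q' b' := congrArg (fun z => z.1.1) hz
    have hv : ∀ t, (b t : α) = b' t := fun t => by rw [← h3, ← h3, hΦ]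
    obtain rfl : q = q' := by
      have t : β := Classical.arbitrary β
      rw [← (b t).2, ← (b' t).2, hv]
    obtain rfl : b = b' := Equiv.ext fun t => Subtype.ext (hv t)
    rfl
  · rintro ⟨⟨φ, g⟩, ⟨hc, hg⟩, hp⟩
    have hp1 : φ.permCongr (cyc e g) = σ := congrArg Prod.fst hp
    have hp2 : mapR φ (Setoid.ker Prod.fst) = r := congrArg Prod.snd hp
    have t₀ : β := Classical.arbitrary β
    have hr : ∀ p p', r (φ p) (φ p') ↔ p.1 = p'.1 := fun p p' => by
      rw [← hp2, mapR_apply, Setoid.ker_def]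
    have hbij : Function.Bijective fun t : β =>
        (⟨φ (0, t), Quotient.sound ((hr _ _).2 rfl)⟩ :
          {y // Quotient.mk r y = Quotient.mk r (φ (0, t₀))}) := by
      constructor
      · intro t t' ht
        exact congrArg Prod.snd (φ.injective (congrArg Subtype.val ht))
      · rintro ⟨y, hy⟩
        obtain ⟨p, rfl⟩ := φ.surjective y
        have := (hr _ _).1 (Quotient.exact hy)
        refine ⟨p.2, Subtype.ext ?_⟩
        simp only at this ⊢
        rw [← this]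
    refine ⟨⟨_, Equiv.ofBijective _ hbij, funext fun t => congrFun hc (0, t)⟩, Subtype.ext ?_⟩
    have hΦ : Φ _ (Equiv.ofBijective _ hbij) = φ := Equiv.ext fun p => by
      rw [model_apply (h1 _ _), h3, model_apply hp1 p]; rfl
    refine Prod.ext hΦ (Equiv.ext fun t => ?_)
    have := hG (h1 _ (Equiv.ofBijective _ hbij)) t
    rw [hΦ, ← hG hp1] at this
    exact congrArg Prod.snd (φ.injective this)

/-- Pairs (colour preserving permutation, transitive partition with `e + 1` blocks). -/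
def TP (c : α → I) (e : ℕ) : Finset (Equiv.Perm α × Setoid α) :=
  Finset.univ.filter fun p => p.1 ∈ CP c ∧ Trans p.1 p.2 ∧ Nat.card (Quotient p.2) = e + 1

lemma sum_TP [Nonempty β] (odd : I → Prop) (w : SpR I) (hw : w.Inv) (c : α → I) (c' : β → I)
    (e : ℕ) (hd : (e + 1) • typ c' = typ c) :
    (∑ p ∈ TP c e, ((eps odd c p.1 : ℤ) : K) * w α c p.1 p.2) * (((e + 1 : ℕ) : K) * dfac (typ c')) =
      (∑ g ∈ CPf c', ((eps odd (c' ∘ (Prod.snd : Fin (e + 1) × β → β)) (cyc e g) : ℤ) : K) *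
        w (Fin (e + 1) × β) (c' ∘ Prod.snd) (cyc e g) (Setoid.ker Prod.fst)) * dfac (typ c) := by
  let E : Finset (Fin (e + 1) × β ≃ α) := Finset.univ.filter fun φ => c' ∘ Prod.snd = c ∘ φ
  have hE : (E.card : K) = dfac (typ c) := by
    have := natCard_cequiv (c := c' ∘ (Prod.snd : Fin (e + 1) × β → β)) (c' := c)
      ((typ_prod e c').trans hd)
    rw [Nat.card_eq_fintype_card, Fintype.card_subtype, typ_prod, hd] at this
    rw [dfac, ← Nat.cast_prod, ← this]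
  let Ψ : (Fin (e + 1) × β ≃ α) × Equiv.Perm β → Equiv.Perm α × Setoid α :=
    fun p => (p.1.permCongr (cyc e p.2), mapR p.1 (Setoid.ker Prod.fst))
  have hmem : ∀ p, p ∈ E ×ˢ CPf c' ↔ c' ∘ Prod.snd = c ∘ p.1 ∧ p.2 ∈ CP c' := fun p => by
    simp only [E, Finset.mem_product, Finset.mem_filter, Finset.mem_univ, true_and, mem_CPf]
  have hmaps : ∀ p ∈ E ×ˢ CPf c', Ψ p ∈ TP c e := fun p hp => by
    obtain ⟨h1, h2⟩ := (hmem p).1 hp
    exact Finset.mem_filter.2 ⟨Finset.mem_univ _,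
      permCongr_mem_CP _ _ (h1 ▸ cyc_mem_CP c' e h2), (trans_cyc e p.2).map p.1,
      card_quot_model e p.1⟩
  have key := Finset.sum_fiberwise_of_maps_to hmaps
    (fun p => ((eps odd c (Ψ p).1 : ℤ) : K) * w α c (Ψ p).1 (Ψ p).2)
  rw [← hE, mul_comm _ (E.card : K), ← nsmul_eq_mul E.card, ← Finset.sum_const, ← Finset.sum_product',
    Finset.sum_mul]
  refine Eq.trans (Finset.sum_congr rfl fun t ht => ?_)
    (key.trans (Finset.sum_congr rfl fun p hp => ?_))
  · obtain ⟨-, h1, h2, h3⟩ := Finset.mem_filter.1 ht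
    rw [Finset.sum_congr rfl (g := fun _ => ((eps odd c t.1 : ℤ) : K) * w α c t.1 t.2)
      fun p hp => by rw [(Finset.mem_filter.1 hp).2], Finset.sum_const, nsmul_eq_mul, mul_comm]
    congr 1
    have := card_fibre h1 h2 h3 hd
    rw [Nat.card_eq_fintype_card, Fintype.card_subtype] at this
    rw [dfac, ← Nat.cast_prod, ← Nat.cast_mul, ← this]
    congr 2
    ext p
    simp only [Finset.mem_filter, hmem, Finset.mem_univ, true_and, Ψ]
  · obtain ⟨h1, h2⟩ := (hmem p).1 hp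
    have h3 : cyc e p.2 ∈ CP (c ∘ p.1) := h1 ▸ cyc_mem_CP c' e h2
    simp only [Ψ]
    rw [eps_permCongr odd _ _ h3, hw _ _ p.1 c _ _ h3 (stabR_cyc e p.2), h1]

lemma sum_typ (c : α → I) : ∑ i, typ c i = Fintype.card α := by
  rw [← Finset.card_univ, Finset.card_eq_sum_card_fiberwise (f := c) (t := Finset.univ)
    (fun _ _ => by simp)]
  rfl

lemma sum_trans_eq (c : α → I) (G : Equiv.Perm α → Setoid α → K) :
    ∑ σ ∈ CPf c, ∑ r ∈ Finset.univ.filter (Trans σ), G σ r =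
      ∑ e ∈ Finset.range (∑ i, typ c i), ∑ p ∈ TP c e, G p.1 p.2 := by
  rw [Finset.sum_sigma', Finset.sum_sigma']
  refine Finset.sum_nbij' (fun z => ⟨Nat.card (Quotient z.2) - 1, (z.1, z.2)⟩)
    (fun z => ⟨z.2.1, z.2.2⟩) (fun z hz => ?_) (fun z hz => ?_) (fun z _ => rfl) (fun z hz => ?_)
    (fun z _ => rfl)
  · obtain ⟨h1, h2⟩ := Finset.mem_sigma.1 hz
    have h3 := (Finset.mem_filter.1 h2).2
    obtain ⟨x⟩ := h3.2.1
    have : Nonempty (Quotient z.2) := ⟨Quotient.mk _ x⟩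
    have h4 : 0 < Nat.card (Quotient z.2) := Nat.card_pos
    have h5 : Nat.card (Quotient z.2) ≤ Nat.card α :=
      Nat.card_le_card_of_surjective _ Quotient.mk_surjective
    rw [Nat.card_eq_fintype_card (α := α), ← sum_typ c] at h5
    refine Finset.mem_sigma.2 ⟨Finset.mem_range.2 (by simp only; omega),
      Finset.mem_filter.2 ⟨Finset.mem_univ _, mem_CPf.1 h1, h3, by simp only; omega⟩⟩
  · obtain ⟨-, h2⟩ := Finset.mem_sigma.1 hz
    obtain ⟨-, h3, h4, -⟩ := Finset.mem_filter.1 h2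
    exact Finset.mem_sigma.2 ⟨mem_CPf.2 h3, Finset.mem_filter.2 ⟨Finset.mem_univ _, h4⟩⟩
  · obtain ⟨e, p⟩ := z
    obtain ⟨-, h2⟩ := Finset.mem_sigma.1 hz
    obtain ⟨-, -, -, h5⟩ := Finset.mem_filter.1 h2
    simp only at h5 ⊢
    rw [h5]
    rfl

lemma avg_trans_aux (odd : I → Prop) (w : SpR I) (hw : w.Inv) (d : I → ℕ) (c : α → I)
    (hd : typ c = d) :
    ∑ σ ∈ CPf c, ((eps odd c σ : ℤ) : K) * ∑ r ∈ Finset.univ.filter (Trans σ), w α c σ r =
      (∑ e ∈ Finset.range (∑ i, d i), ∑ d' ∈ (Finset.Iic d).filter (fun d' => (e + 1) • d' = d),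
        (∑ g : CP (Sigma.fst : Xd d' → I),
          ((eps odd (Sigma.fst ∘ (Prod.snd : Fin (e + 1) × Xd d' → Xd d')) (cyc e g.1) : ℤ) : K) *
            w (Fin (e + 1) × Xd d') (Sigma.fst ∘ Prod.snd) (cyc e g.1) (Setoid.ker Prod.fst)) /
          (((e + 1 : ℕ) : K) * dfac d')) * dfac d := by
  have := Avg_charZero
  simp only [Finset.mul_sum]
  rw [sum_trans_eq c fun σ r => ((eps odd c σ : ℤ) : K) * w α c σ r, hd, Finset.sum_mul]
  refine Finset.sum_congr rfl fun e he => ?_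
  by_cases hex : ∃ d', (e + 1) • d' = d
  · obtain ⟨d', hd'⟩ := hex
    have hfil : (Finset.Iic d).filter (fun d' => (e + 1) • d' = d) = {d'} := by
      ext d''
      simp only [Finset.mem_filter, Finset.mem_Iic, Finset.mem_singleton]
      constructor
      · rintro ⟨-, h⟩
        funext i
        have := congrFun (h.trans hd'.symm) i
        simp only [Pi.smul_apply, smul_eq_mul] at this
        exact Nat.eq_of_mul_eq_mul_left (Nat.succ_pos e) this
      · rintro rfl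
        refine ⟨fun i => ?_, hd'⟩
        rw [← congrFun hd' i, Pi.smul_apply, smul_eq_mul]
        exact Nat.le_mul_of_pos_left _ (Nat.succ_pos e)
    have hne : Nonempty (Xd d') := by
      by_contra hemp
      have h0 : ∀ i, d' i = 0 := fun i => by
        by_contra h
        exact hemp ⟨⟨i, ⟨0, Nat.pos_of_ne_zero h⟩⟩⟩
      have h1 : ∑ i, d i = 0 := Finset.sum_eq_zero fun i _ => by
        rw [← congrFun hd' i, Pi.smul_apply, h0, smul_zero]
      rw [h1] at he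
      simp at he
    have h := sum_TP odd w hw c (Sigma.fst : Xd d' → I) e (by rw [typ_Xd, hd, hd'])
    rw [typ_Xd, hd] at h
    rw [hfil, Finset.sum_singleton, div_mul_eq_mul_div,
      eq_div_iff (mul_ne_zero (Nat.cast_ne_zero.2 (Nat.succ_ne_zero e)) (dfac_ne_zero d')), h]
    congr 1
    exact (sum_CP (Sigma.fst : Xd d' → I) fun g =>
      ((eps odd (Sigma.fst ∘ (Prod.snd : Fin (e + 1) × Xd d' → Xd d')) (cyc e g) : ℤ) : K) *
        w (Fin (e + 1) × Xd d') (Sigma.fst ∘ Prod.snd) (cyc e g) (Setoid.ker Prod.fst)).symm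
  · rw [Finset.filter_false_of_mem fun d' _ h => hex ⟨d', h⟩, Finset.sum_empty, zero_mul]
    refine Finset.sum_eq_zero fun p hp => ?_
    obtain ⟨-, h1, h2, h3⟩ := Finset.mem_filter.1 hp
    obtain ⟨x⟩ := h2.2.1
    exact absurd ⟨_, (typ_block h1 h2 h3 (Quotient.mk _ x)).trans hd⟩ hex

theorem avg_trans (odd : I → Prop) (w : SpR I) (hw : w.Inv) (d : I → ℕ) :
    avg odd (fun α _ c σ => ∑ r ∈ Finset.univ.filter (Trans σ), w α c σ r) d =
      ∑ e ∈ Finset.range (∑ i, d i), ∑ d' ∈ (Finset.Iic d).filter (fun d' => (e + 1) • d' = d),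
        (∑ g : CP (Sigma.fst : Xd d' → I),
          ((eps odd (Sigma.fst ∘ (Prod.snd : Fin (e + 1) × Xd d' → Xd d')) (cyc e g.1) : ℤ) : K) *
            w (Fin (e + 1) × Xd d') (Sigma.fst ∘ Prod.snd) (cyc e g.1) (Setoid.ker Prod.fst)) /
          (((e + 1 : ℕ) : K) * dfac d') := by
  refine (avg_eq odd _ d).trans ((div_eq_iff (dfac_ne_zero d)).2 ?_)
  exact avg_trans_aux odd w hw d _ (typ_Xd d)

/-! ### Pointing -/

/-- Gluing partitions of a subset and of its complement. -/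
def glueR {S : Finset α} (r₁ : Setoid {x // x ∈ S}) (r₂ : Setoid {x // x ∈ Sᶜ}) : Setoid α where
  r x y := (∃ (hx : x ∈ S) (hy : y ∈ S), r₁ ⟨x, hx⟩ ⟨y, hy⟩) ∨
    ∃ (hx : x ∈ Sᶜ) (hy : y ∈ Sᶜ), r₂ ⟨x, hx⟩ ⟨y, hy⟩
  iseqv :=
    { refl := fun x => by
        by_cases h : x ∈ S
        · exact Or.inl ⟨h, h, r₁.refl' _⟩
        · exact Or.inr ⟨Finset.mem_compl.2 h, Finset.mem_compl.2 h, r₂.refl' _⟩
      symm := by
        rintro x y (⟨hx, hy, h⟩ | ⟨hx, hy, h⟩)
        · exact Or.inl ⟨hy, hx, r₁.symm' h⟩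
        · exact Or.inr ⟨hy, hx, r₂.symm' h⟩
      trans := by
        rintro x y z (⟨hx, hy, h⟩ | ⟨hx, hy, h⟩) (⟨hy', hz, h'⟩ | ⟨hy', hz, h'⟩)
        · exact Or.inl ⟨hx, hz, r₁.trans' h h'⟩
        · exact absurd hy (Finset.mem_compl.1 hy')
        · exact absurd hy' (Finset.mem_compl.1 hy)
        · exact Or.inr ⟨hx, hz, r₂.trans' h h'⟩ }

lemma glueR_iff {S : Finset α} (r₁ : Setoid {x // x ∈ S}) (r₂ : Setoid {x // x ∈ Sᶜ}) (x y : α) :
    glueR r₁ r₂ x y ↔ (∃ (hx : x ∈ S) (hy : y ∈ S), r₁ ⟨x, hx⟩ ⟨y, hy⟩) ∨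
      ∃ (hx : x ∈ Sᶜ) (hy : y ∈ Sᶜ), r₂ ⟨x, hx⟩ ⟨y, hy⟩ := Iff.rfl

lemma resR_iff (r : Setoid α) (S : Finset α) (x y : {x // x ∈ S}) :
    resR r S x y ↔ r x.1 y.1 := Iff.rfl

lemma resR_glueR_left {S : Finset α} (r₁ : Setoid {x // x ∈ S}) (r₂ : Setoid {x // x ∈ Sᶜ}) :
    resR (glueR r₁ r₂) S = r₁ := by
  ext x y
  rw [resR_iff, glueR_iff]
  exact ⟨fun h => h.elim (fun ⟨_, _, h⟩ => h) fun ⟨hx, _, _⟩ => absurd x.2 (Finset.mem_compl.1 hx),
    fun h => Or.inl ⟨x.2, y.2, h⟩⟩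

lemma resR_glueR_right {S : Finset α} (r₁ : Setoid {x // x ∈ S}) (r₂ : Setoid {x // x ∈ Sᶜ}) :
    resR (glueR r₁ r₂) Sᶜ = r₂ := by
  ext x y
  rw [resR_iff, glueR_iff]
  exact ⟨fun h => h.elim (fun ⟨hx, _, _⟩ => absurd hx (Finset.mem_compl.1 x.2)) fun ⟨_, _, h⟩ => h,
    fun h => Or.inr ⟨x.2, y.2, h⟩⟩

lemma glueR_resR {S : Finset α} {r : Setoid α} (h : UB r S) :
    glueR (resR r S) (resR r Sᶜ) = r := by
  ext x y
  rw [glueR_iff]
  refine ⟨fun h => h.elim (fun ⟨_, _, h⟩ => h) fun ⟨_, _, h⟩ => h, fun hr => ?_⟩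
  by_cases hx : x ∈ S
  · exact Or.inl ⟨hx, (h x y hr).1 hx, hr⟩
  · exact Or.inr ⟨Finset.mem_compl.2 hx, Finset.mem_compl.2 fun hy => hx ((h x y hr).2 hy), hr⟩

lemma stabR_res {σ : Equiv.Perm α} {r : Setoid α} {S : Finset α} (h : StabR σ r)
    (hS : StabS σ S) : StabR (res σ S) (resR r S) := fun x y => by
  rw [resR_iff, resR_iff, res_val hS, res_val hS]
  exact h _ _

lemma stabR_glueR {σ : Equiv.Perm α} {S : Finset α} (hS : StabS σ S) {r₁ : Setoid {x // x ∈ S}}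
    {r₂ : Setoid {x // x ∈ Sᶜ}} (h₁ : StabR (res σ S) r₁) (h₂ : StabR (res σ Sᶜ) r₂) :
    StabR σ (glueR r₁ r₂) := fun x y => by
  have e₁ : ∀ (x : α) (hx : x ∈ S), res σ S ⟨x, hx⟩ = ⟨σ x, (hS x).2 hx⟩ := fun x hx =>
    Subtype.ext (res_val hS _)
  have e₂ : ∀ (x : α) (hx : x ∈ Sᶜ), res σ Sᶜ ⟨x, hx⟩ = ⟨σ x, (hS.compl x).2 hx⟩ := fun x hx =>
    Subtype.ext (res_val hS.compl _)
  rw [glueR_iff, glueR_iff]
  constructor
  · rintro (⟨hx, hy, h⟩ | ⟨hx, hy, h⟩)
    · exact Or.inl ⟨(hS x).1 hx, (hS y).1 hy, (h₁ _ _).1 (by rw [e₁, e₁]; exact h)⟩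
    · exact Or.inr ⟨(hS.compl x).1 hx, (hS.compl y).1 hy, (h₂ _ _).1 (by rw [e₂, e₂]; exact h)⟩
  · rintro (⟨hx, hy, h⟩ | ⟨hx, hy, h⟩)
    · have := (h₁ _ _).2 h
      rw [e₁, e₁] at this
      exact Or.inl ⟨_, _, this⟩
    · have := (h₂ _ _).2 h
      rw [e₂, e₂] at this
      exact Or.inr ⟨_, _, this⟩

/-- The complement of the orbit of the block of `x`. -/
def coOrb (σ : Equiv.Perm α) (x : α) (r : Setoid α) : Finset α :=
  Finset.univ.filter fun y => ¬ ∃ k : ℕ, r ((σ ^ k) x) y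

lemma mem_coOrb {σ : Equiv.Perm α} {x y : α} {r : Setoid α} :
    y ∈ coOrb σ x r ↔ ¬ ∃ k : ℕ, r ((σ ^ k) x) y := by simp [coOrb]

lemma pow_back (σ : Equiv.Perm α) (a b : ℕ) : ∃ k, σ ^ k * σ ^ a = σ ^ b := by
  refine ⟨b + a * (orderOf σ - 1), ?_⟩
  have h := orderOf_pos σ
  obtain ⟨n, hn⟩ : ∃ n, orderOf σ = n + 1 := ⟨orderOf σ - 1, by omega⟩
  rw [← pow_add, hn, Nat.add_sub_cancel, add_assoc, ← Nat.mul_succ, pow_add, mul_comm a,
    pow_mul, Nat.succ_eq_add_one, ← hn, pow_orderOf_eq_one, one_pow, mul_one]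

lemma stabS_coOrb {σ : Equiv.Perm α} (x : α) {r : Setoid α} (h : StabR σ r) :
    StabS σ (coOrb σ x r) := fun y => by
  rw [mem_coOrb, mem_coOrb, not_iff_not]
  constructor
  · rintro ⟨k, hk⟩
    obtain ⟨m, hm⟩ := pow_back σ 1 0
    refine ⟨m + k, ?_⟩
    have := (h.pow m _ _).2 hk
    rw [← Equiv.Perm.mul_apply, ← pow_add, ← Equiv.Perm.mul_apply] at this
    rw [pow_one] at hm
    rw [hm] at this
    exact this
  · rintro ⟨k, hk⟩
    exact ⟨k + 1, by rw [pow_succ']; exact (h _ _).2 hk⟩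

lemma UB_coOrb (σ : Equiv.Perm α) (x : α) (r : Setoid α) : UB r (coOrb σ x r) := fun y z hr => by
  rw [mem_coOrb, mem_coOrb, not_iff_not]
  exact ⟨fun ⟨k, hk⟩ => ⟨k, r.trans' hk hr⟩, fun ⟨k, hk⟩ => ⟨k, r.trans' hk (r.symm' hr)⟩⟩

lemma not_mem_coOrb (σ : Equiv.Perm α) (x : α) (r : Setoid α) : x ∉ coOrb σ x r := fun h =>
  mem_coOrb.1 h ⟨0, r.refl' _⟩

lemma trans_coOrb {σ : Equiv.Perm α} (x : α) {r : Setoid α} (h : StabR σ r) :
    Trans (res σ (coOrb σ x r)ᶜ) (resR r (coOrb σ x r)ᶜ) := by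
  have hS := (stabS_coOrb x h).compl
  refine ⟨stabR_res h hS, ⟨⟨x, Finset.mem_compl.2 (not_mem_coOrb σ x r)⟩⟩, fun y z => ?_⟩
  obtain ⟨a, ha⟩ := not_not.1 (mem_coOrb.not.1 (Finset.mem_compl.1 y.2))
  obtain ⟨b, hb⟩ := not_not.1 (mem_coOrb.not.1 (Finset.mem_compl.1 z.2))
  obtain ⟨k, hk⟩ := pow_back σ a b
  refine ⟨k, ?_⟩
  rw [resR_iff, res_pow_val hS]
  have := (h.pow k _ _).2 ha
  rw [← Equiv.Perm.mul_apply, hk] at this
  exact r.trans' (r.symm' this) hb

lemma StabS.pow {σ : Equiv.Perm α} {S : Finset α} (h : StabS σ S) (k : ℕ) : StabS (σ ^ k) S := by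
  induction k with
  | zero => intro x; rfl
  | succ k ih => intro x; rw [pow_succ', Equiv.Perm.mul_apply, h, ih]

lemma coOrb_glueR {σ : Equiv.Perm α} {S : Finset α} (hS : StabS σ S) {x : α} (hx : x ∈ Sᶜ)
    (r₁ : Setoid {x // x ∈ S}) {r₂ : Setoid {x // x ∈ Sᶜ}} (h₂ : Trans (res σ Sᶜ) r₂) :
    coOrb σ x (glueR r₁ r₂) = S := by
  ext y
  rw [mem_coOrb]
  constructor
  · intro h
    by_contra hy
    obtain ⟨k, hk⟩ := h₂.2.2 ⟨x, hx⟩ ⟨y, Finset.mem_compl.2 hy⟩
    refine h ⟨k, Or.inr ⟨(hS.compl.pow k x).2 hx, Finset.mem_compl.2 hy, ?_⟩⟩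
    have : ((res σ Sᶜ) ^ k) ⟨x, hx⟩ = ⟨(σ ^ k) x, (hS.compl.pow k x).2 hx⟩ :=
      Subtype.ext (res_pow_val hS.compl k _)
    rw [← this]
    exact hk
  · rintro hy ⟨k, ⟨h, -, -⟩ | ⟨-, h, -⟩⟩
    · exact Finset.mem_compl.1 hx ((hS.pow k x).1 h)
    · exact Finset.mem_compl.1 h hy

lemma sum_point (w : SpR I) (c : α → I) (σ : Equiv.Perm α)
    (hw : ∀ (r : Setoid α) (S : Finset α), StabR σ r → UB r S → StabS σ S →
      w α c σ r = w {x // x ∈ S} (c ∘ Subtype.val) (res σ S) (resR r S) *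
        w {x // x ∈ Sᶜ} (c ∘ Subtype.val) (res σ Sᶜ) (resR r Sᶜ)) (x : α) :
    ∑ r ∈ Finset.univ.filter (StabR σ), w α c σ r =
      ∑ S ∈ Finset.univ.filter (fun S => StabS σ S ∧ x ∈ Sᶜ),
        ((∑ r ∈ Finset.univ.filter (StabR (res σ S)), w {x // x ∈ S} (c ∘ Subtype.val) (res σ S) r) *
          ∑ r ∈ Finset.univ.filter (Trans (res σ Sᶜ)),
            w {x // x ∈ Sᶜ} (c ∘ Subtype.val) (res σ Sᶜ) r) := by
  rw [← Finset.sum_fiberwise_of_maps_to (g := coOrb σ x)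
    (t := Finset.univ.filter fun S => StabS σ S ∧ x ∈ Sᶜ) fun r hr => Finset.mem_filter.2
      ⟨Finset.mem_univ _, stabS_coOrb x (Finset.mem_filter.1 hr).2,
        Finset.mem_compl.2 (not_mem_coOrb σ x r)⟩]
  refine Finset.sum_congr rfl fun S hS => ?_
  obtain ⟨-, hS, hx⟩ := Finset.mem_filter.1 hS
  rw [Finset.sum_mul_sum, ← Finset.sum_product']
  refine Finset.sum_nbij' (fun r => (resR r S, resR r Sᶜ)) (fun p => glueR p.1 p.2)
    (fun r hr => ?_) (fun p hp => ?_) (fun r hr => ?_) (fun p _ => ?_) (fun r hr => ?_)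
  · obtain ⟨h1, rfl⟩ := Finset.mem_filter.1 hr
    have h2 := (Finset.mem_filter.1 h1).2
    exact Finset.mem_product.2 ⟨Finset.mem_filter.2 ⟨Finset.mem_univ _, stabR_res h2 hS⟩,
      Finset.mem_filter.2 ⟨Finset.mem_univ _, trans_coOrb x h2⟩⟩
  · obtain ⟨h1, h2⟩ := Finset.mem_product.1 hp
    have h1 := (Finset.mem_filter.1 h1).2
    have h2 := (Finset.mem_filter.1 h2).2
    exact Finset.mem_filter.2 ⟨Finset.mem_filter.2 ⟨Finset.mem_univ _, stabR_glueR hS h1 h2.1⟩,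
      coOrb_glueR hS hx _ h2⟩
  · obtain ⟨-, rfl⟩ := Finset.mem_filter.1 hr
    exact glueR_resR (UB_coOrb σ x r)
  · rw [resR_glueR_left, resR_glueR_right]
  · obtain ⟨h1, rfl⟩ := Finset.mem_filter.1 hr
    exact hw r _ (Finset.mem_filter.1 h1).2 (UB_coOrb σ x r) hS

/-- Pointing: isolate the orbit of the block of a marked point. -/
theorem pointing (w : SpR I) (c : α → I) (σ : Equiv.Perm α) (u : α → K)
    (hw : ∀ (r : Setoid α) (S : Finset α), StabR σ r → UB r S → StabS σ S →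
      w α c σ r = w {x // x ∈ S} (c ∘ Subtype.val) (res σ S) (resR r S) *
        w {x // x ∈ Sᶜ} (c ∘ Subtype.val) (res σ Sᶜ) (resR r Sᶜ)) :
    (∑ x, u x) * ∑ r ∈ Finset.univ.filter (StabR σ), w α c σ r =
      ∑ S ∈ Finset.univ.filter (StabS σ), (∑ x ∈ Sᶜ, u x) *
        ((∑ r ∈ Finset.univ.filter (StabR (res σ S)), w {x // x ∈ S} (c ∘ Subtype.val) (res σ S) r) *
          ∑ r ∈ Finset.univ.filter (Trans (res σ Sᶜ)),
            w {x // x ∈ Sᶜ} (c ∘ Subtype.val) (res σ Sᶜ) r) := by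
  simp only [Finset.sum_mul (f := u)]
  rw [Finset.sum_comm' (t' := Finset.univ)
    (s' := fun x => Finset.univ.filter fun S => StabS σ S ∧ x ∈ Sᶜ) (fun S x => by simp)]
  refine Finset.sum_congr rfl fun x _ => ?_
  rw [sum_point w c σ hw x, Finset.mul_sum]

end Crest.Agent.R059
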