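import Crest.Agent.R059.Seed

/-! Row 59: positivity of all charts from positivity of the asymptotic coefficients. -/

set_option autoImplicit false
set_option linter.unusedSectionVars false
set_option linter.unusedVariables false

noncomputable section
open Classical

namespace Crest.Agent.R059

variable {L : Type} [AddCommGroup L] [Module.Free ℤ L] [Module.Finite ℤ L]
variable {Ω : Form L} {deg : L →+ ℤ}

section signs
variable {Γ₁ Γ₂ Γ₃ Γ₄ : Type} [AddCommGroup Γ₁] [LinearOrder Γ₁] [IsOrderedAddMonoid Γ₁]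
  [AddCommGroup Γ₂] [LinearOrder Γ₂] [IsOrderedAddMonoid Γ₂]
  [AddCommGroup Γ₃] [LinearOrder Γ₃] [IsOrderedAddMonoid Γ₃]
  [AddCommGroup Γ₄] [LinearOrder Γ₄] [IsOrderedAddMonoid Γ₄]

lemma flow_ss_symm {S : Set L} {a : L →+ Γ₁} {b : L →+ Γ₂} (h : SameSign S a b) :
    SameSign S b a := fun n hn => ⟨(h n hn).1.symm, (h n hn).2.symm⟩

lemma flow_ss_trans {S : Set L} {a : L →+ Γ₁} {b : L →+ Γ₂} {c : L →+ Γ₃} (h : SameSign S a b)
    (h' : SameSign S b c) : SameSign S a c :=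
  fun n hn => ⟨(h n hn).1.trans (h' n hn).1, (h n hn).2.trans (h' n hn).2⟩

lemma flow_ss_refl (S : Set L) (a : L →+ Γ₁) : SameSign S a a := fun _ _ => ⟨Iff.rfl, Iff.rfl⟩

lemma flow_ss_lex {S : Set L} {a : L →+ Γ₁} {b : L →+ Γ₂} {c : L →+ Γ₃} {d : L →+ Γ₄}
    (h : SameSign S a c) (h' : SameSign S b d) : SameSign S (lexθ a b) (lexθ c d) := by
  intro n hn
  rw [lexθ_lt_zero, lexθ_lt_zero, lexθ_eq_zero, lexθ_eq_zero, (h n hn).1, (h n hn).2,
    (h' n hn).1, (h' n hn).2]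
  exact ⟨Iff.rfl, Iff.rfl⟩

lemma flow_agree {M : AddSubmonoid L} {S : Set L} (hS : LowerIn M S) {a : L →+ Γ₁}
    {b : L →+ Γ₂} {g g' f : QT Ω deg} {p : L} (hg : IsG g) (hg' : IsG g') (hM : SuppIn M g)
    (hM' : SuppIn M g') (hgg : Agree S g g') (hab : SameSign S a b)
    (hf : SuppIn (shift p M) f) : Agree (shift p S) (chart g a f) (chart g' b f) :=
  chart_agree hS hg hg' hM hM' hgg (fun n hn => hab n hn.1) hf hf fun _ _ => rfl

lemma flow_out {M : AddSubmonoid L} {g f : QT Ω deg} (hg : IsG g) (hgM : SuppIn M g) {p : L}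
    (hf : SuppIn (shift p M) f) (θ : L →+ Γ₁) {m : L} (hm : m - p ∉ M) :
    IsNat ((chart g θ f).c m - asym g f m) := by
  have h1 : (chart g θ f).c m = 0 := by
    by_contra h
    exact hm (chart_suppIn θ hg hgM hf m h)
  rw [h1, asym_eq_zero hg hgM hf hm, sub_zero]
  exact IsNat.zero

lemma flow_mem_shift {M : AddSubmonoid L} {p m : L} (hm : m - p ∈ M) :
    m ∈ shift p (below M (m - p)) := ⟨hm, by rw [sub_self]; exact M.zero_mem⟩

/-- The chart of `A * Φ * B` on the two sides of a wall. -/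
lemma flow_sides {φ : L →+ Γ₁} {ψ : L →+ Γ₂} {g A Φ B : QT Ω deg} (h : IsFact φ g A Φ B)
    (hΦ : SuppIn (negM ψ) Φ) (f : QT Ω deg) :
    chart g (lexθ φ ψ) f = inv Φ * chart g (lexθ φ (-ψ)) f * Φ := by
  obtain ⟨e1, e2, -⟩ := h.eq
  have gA := h.1
  have gΦ := h.2.1
  have h1 : fneg Φ ψ = Φ :=
    (IsFact.eq (θ := ψ) (g := Φ) (a := Φ) (z := 1) (b := 1)
      ⟨gΦ, IsG.one, IsG.one, hΦ, suppIn_one _, suppIn_one _, by simp⟩).1
  have h2 : fneg Φ (-ψ) = 1 := by
    refine fneg_eq_one _ gΦ fun n hn => mem_nnM.2 ?_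
    rcases mem_negM.1 (hΦ n hn) with rfl | h
    · simp
    · simpa using h.le
  unfold chart
  rw [(fact_lex φ ψ h.isG).1, (fact_lex φ (-ψ) h.isG).1, e1, e2, h1, h2, mul_one,
    show inv (A * Φ) = inv Φ * inv A from Ring.inverse_mul (Or.inl gA.isUnit)]
  simp only [mul_assoc]

end signs

lemma flow_ray {n x : L} {a b : ℤ} (ha : a ≠ 0) (h : a • x = b • n) : deg n • x = deg x • n := by
  have h1 := congrArg deg h
  rw [map_zsmul, map_zsmul, smul_eq_mul, smul_eq_mul] at h1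
  refine smul_right_injective L ha ?_
  change a • (deg n • x) = a • (deg x • n)
  rw [smul_comm, h, smul_smul, smul_smul, h1, mul_comm]

lemma flow_w_ray {n x y : L} (hn : 0 < deg n) (hx : deg n • x = deg x • n)
    (hy : deg n • y = deg y • n) : Ω.w x y = 0 := by
  have h : Ω.w (deg n • x) (deg n • y) = 0 := by
    rw [hx, hy]
    simp [Ω.alt]
  simp only [map_zsmul, AddMonoidHom.zsmul_apply, smul_eq_mul, mul_eq_zero] at h
  omega

/-- Crossing one wall. -/
lemma flow_step {M : AddSubmonoid L} (hM : GoodCone deg M) (hS : Sat M) {g f : QT Ω deg}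
    (hg : IsG g) (hgM : SuppIn M g) (hW : WallPos M g) {p : L} (hf : SuppIn (shift p M) f)
    {m : L} (hm : m - p ∈ M) (φ : L →+ ℝ)
    (h1 : ∀ x ∈ below M (m - p), φ x = 0 → x ≠ 0 → Ω.w x m ≠ 0)
    (h2 : ∀ x ∈ below M (m - p), ∀ y ∈ below M (m - p), φ x = 0 → φ y = 0 →
      Ω.w y m • x = Ω.w x m • y)
    (hpos : ∀ x ∈ M, x ≠ 0 → m - x - p ∈ M →
      IsNat ((chart g (lexθ φ (toR (Ω.th m))) f).c (m - x))) :
    IsNat ((chart g (lexθ φ (-toR (Ω.th m))) f).c m -
      (chart g (lexθ φ (toR (Ω.th m))) f).c m) := by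
  set T := below M (m - p) with hT
  set ξ := toR (Ω.th m) with hξ
  have hξx : ∀ x, ξ x = (Ω.w x m : ℝ) := fun x => rfl
  have hTl : LowerIn M T := lowerIn_below M _
  have hmT : m ∈ shift p T := flow_mem_shift hm
  by_cases hZ : ∀ x ∈ T, φ x = 0 → x = 0
  · have hs : SameSign T (lexθ φ (-ξ)) (lexθ φ ξ) := by
      intro x hx
      rw [lexθ_lt_zero, lexθ_lt_zero, lexθ_eq_zero, lexθ_eq_zero]
      by_cases h0 : φ x = 0
      · rw [hZ x hx h0]; simp
      · simp [h0]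
    rw [flow_agree hTl hg hg hgM hgM (fun _ _ => rfl) hs hf m hmT, sub_self]
    exact IsNat.zero
  push Not at hZ
  have hfin : {x | x ∈ T ∧ φ x = 0 ∧ x ≠ 0}.Finite :=
    (hM.below_finite _).subset fun x hx => hx.1
  obtain ⟨n, ⟨hnT, hφn, hn0⟩, hmax⟩ := Set.exists_max_image _ (fun x => deg x) hfin hZ
  have hnM : n ∈ M := hnT.1
  have hdn : 0 < deg n := hM.1 n hnM hn0
  have hwn : Ω.w n m ≠ 0 := h1 n hnT hφn hn0
  have hray : ∀ x ∈ T, φ x = 0 → deg n • x = deg x • n := fun x hx h0 =>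
    flow_ray hwn (h2 x hx n hnT h0 hφn)
  have hbT : below M n ⊆ T := fun x hx =>
    hTl x hx.1 (n - x) hx.2 (by rwa [add_sub_cancel])
  have hTb : ∀ x ∈ T, φ x = 0 → x ∈ below M n := by
    intro x hx h0
    refine ⟨hx.1, ?_⟩
    have hle : deg x ≤ deg n := by
      by_cases hx0 : x = 0
      · rw [hx0, map_zero]; exact hdn.le
      · exact hmax x ⟨hx, h0, hx0⟩
    refine hS (deg n).toNat _ (by omega) ?_
    have e : (deg n).toNat • (n - x) = (deg n - deg x).toNat • n := by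
      rw [← natCast_zsmul, ← natCast_zsmul, Int.toNat_of_nonneg hdn.le,
        Int.toNat_of_nonneg (by omega), smul_sub, hray x hx h0, sub_smul]
    rw [e]
    exact M.nsmul_mem hnM _
  obtain ⟨l, hl, hlg⟩ := hW n hnM φ hφn fun x hx h0 => hray x (hbT hx) h0
  have hlM : ∀ t ∈ l, t.1 ∈ M ∧ t.1 ≠ 0 := fun t ht => ⟨(hl t ht).1.1, (hl t ht).2.1⟩
  have hld : ∀ t ∈ l, 0 < deg t.1 := fun t ht => hM.1 _ (hlM t ht).1 (hlM t ht).2
  have hlr : ∀ t ∈ l, deg n • t.1 = deg t.1 • n := fun t ht =>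
    hray _ (hbT (hl t ht).1) (hl t ht).2.2
  have hlc : ∀ t ∈ l, ∀ t' ∈ l, Ω.w t.1 t'.1 = 0 := fun t ht t' ht' =>
    flow_w_ray hdn (hlr t ht) (hlr t' ht')
  have hlw : ∀ t ∈ l, deg n * Ω.w t.1 m = deg t.1 * Ω.w n m := by
    intro t ht
    have := congrArg (fun x => Ω.w x m) (hlr t ht)
    simpa using this
  set Φ := PhiL Ω deg l with hΦ
  have gΦ : IsG Φ := isG_PhiL l
  have hΦM : SuppIn M Φ := suppIn_PhiL fun t ht => (hlM t ht).1
  have hΦz : SuppIn (zerM φ) Φ := suppIn_PhiL fun t ht => (hl t ht).2.2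
  have hF := isFact_fact φ hg
  obtain ⟨sA, sz, sB⟩ := hF.suppIn hgM
  obtain ⟨gA, gz, gB, nA, zz, pB, e⟩ := hF
  have hzΦ : Agree T (fzer g φ) Φ := by
    refine agree_of_lg hTl gz gΦ sz hΦM fun x hx => ?_
    by_cases h0 : φ x = 0
    · rw [hlg x (hTb x hx h0), hΦ,
        lg_PhiL hld x fun t ht => flow_w_ray hdn (hlr t ht) (hray x hx h0)]
    · rw [lg_eq_zero gz zz h0, lg_eq_zero gΦ hΦz h0]
  set g' := fneg g φ * Φ * fpos g φ with hg'
  have hF' : IsFact φ g' (fneg g φ) Φ (fpos g φ) := ⟨gA, gΦ, gB, nA, hΦz, pB, rfl⟩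
  have gg' : IsG g' := hF'.isG
  have sg' : SuppIn M g' := (sA.mul hΦM).mul sB
  have hgg : Agree T g g' := by
    have := Agree.mul_zero_shift hTl (sA.mul sz) (sA.mul hΦM) sB sB
      (Agree.mul_zero_shift hTl sA sA sz hΦM (fun _ _ => rfl) hzΦ) (fun _ _ => rfl)
    rwa [← e] at this
  have ag : ∀ ψ : L →+ ℝ, Agree (shift p T) (chart g (lexθ φ ψ) f) (chart g' (lexθ φ ψ) f) :=
    fun ψ => flow_agree hTl hg gg' hgM sg' hgg (flow_ss_refl _ _) hf
  have sF := chart_suppIn (lexθ φ ξ) gg' sg' hf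
  have hpos' : ∀ x ∈ AddSubmonoid.closure {y | ∃ t ∈ l, t.1 = y}, x ≠ 0 →
      IsNat ((chart g' (lexθ φ ξ) f).c (m - x)) := by
    intro x hx hx0
    have hxM : x ∈ M := by
      refine (AddSubmonoid.closure_le.2 ?_) hx
      rintro _ ⟨t, ht, rfl⟩
      exact (hlM t ht).1
    by_cases h0 : (chart g' (lexθ φ ξ) f).c (m - x) = 0
    · rw [h0]; exact IsNat.zero
    have h3 : m - x - p ∈ M := sF _ h0
    rw [← ag ξ (m - x) ⟨h3, by rwa [show m - p - (m - x - p) = x by abel]⟩]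
    exact hpos x hxM hx0 h3
  rw [ag _ m hmT, ag _ m hmT]
  rcases lt_or_gt_of_ne hwn with hneg | hpos2
  · have hw : ∀ t ∈ l, Ω.w t.1 m < 0 := by
      intro t ht
      have h3 := hlw t ht
      have h4 := mul_neg_of_pos_of_neg (hld t ht) hneg
      by_contra h5
      have := mul_nonneg hdn.le (not_lt.1 h5)
      omega
    have hΦn : SuppIn (negM ξ) Φ := suppIn_PhiL fun t ht =>
      mem_negM.2 (Or.inr (by rw [hξx]; exact_mod_cast hw t ht))
    have e2 := flow_sides hF' hΦn f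
    have e3 : chart g' (lexθ φ (-ξ)) f = Φ * chart g' (lexθ φ ξ) f * inv Φ := by
      rw [e2, ← mul_assoc, ← mul_assoc, Ring.mul_inverse_cancel _ gΦ.isUnit, one_mul,
        Ring.mul_inverse_cancel_right _ _ gΦ.isUnit]
    rw [e3]
    exact conj_PhiL_pos_neg hM hlM hlc hw sF hpos'
  · have hw : ∀ t ∈ l, 0 < Ω.w t.1 m := by
      intro t ht
      have h3 := hlw t ht
      have h4 := mul_pos (hld t ht) hpos2
      by_contra h5
      have := mul_nonneg hdn.le (neg_nonneg.2 (not_lt.1 h5))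
      rw [mul_neg] at this
      omega
    have hΦn : SuppIn (negM (-ξ)) Φ := suppIn_PhiL fun t ht =>
      mem_negM.2 (Or.inr (by
        rw [AddMonoidHom.neg_apply, hξx, neg_lt_zero]; exact_mod_cast hw t ht))
    have e2 := flow_sides hF' hΦn f
    rw [neg_neg] at e2
    rw [e2]
    exact conj_PhiL_pos_pos hM hlM hlc hw sF hpos'

theorem flow_real {M : AddSubmonoid L} (hM : GoodCone deg M) (hS : Sat M) {g f : QT Ω deg}
    (hg : IsG g) (hgM : SuppIn M g) (hW : WallPos M g) {p : L} (hf : SuppIn (shift p M) f)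
    (h : ∀ m, IsNat (asym g f m)) (θ : L →+ ℝ) (m : L) :
    IsNat ((chart g θ f).c m - asym g f m) := by
  revert θ
  refine deg_induction_lg (fun m => deg (m - p))
    (P := fun m => ∀ θ : L →+ ℝ, IsNat ((chart g θ f).c m - asym g f m)) (fun m ih θ => ?_) m
  by_cases hm : m - p ∈ M
  swap
  · exact flow_out hg hgM hf θ hm
  set T := below M (m - p) with hT
  have hTf : T.Finite := hM.below_finite _
  have hTl : LowerIn M T := lowerIn_below M _
  have hmT : m ∈ shift p T := flow_mem_shift hm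
  -- make `θ` generic
  have e1 : chart g (lexθ θ (toR deg)) f = chart g θ f := by
    have gz := (isFact_fact θ hg).2.1
    have : fneg (fzer g θ) (toR deg) = 1 := by
      refine fneg_eq_one _ gz fun n hn => mem_nnM.2 ?_
      have := gz.deg_nonneg hn
      change (0 : ℝ) ≤ (deg n : ℝ)
      exact_mod_cast this
    unfold chart
    rw [(fact_lex θ (toR deg) hg).1, this, mul_one]
  obtain ⟨ε, -, hε⟩ := exists_sameSign_lex hTf θ (toR deg)
  have hY : {y : L | y ≠ 0 ∧ ∃ x ∈ T, ∃ x' ∈ T, y = Ω.w x' m • x - Ω.w x m • x'}.Finite := by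
    refine ((hTf.prod hTf).image fun q : L × L => Ω.w q.2 m • q.1 - Ω.w q.1 m • q.2).subset ?_
    rintro y ⟨-, x, hx, x', hx', rfl⟩
    exact ⟨(x, x'), ⟨hx, hx'⟩, rfl⟩
  obtain ⟨θ₃, -, hθ₃, hY₃⟩ := exists_perturb hTf hY 0 (θ + ε • toR deg) fun y hy => by
    obtain ⟨ξ, hξ⟩ := exists_sep hy.1
    refine ⟨toR ξ, map_zero _, ?_⟩
    change (ξ y : ℝ) ≠ 0
    exact_mod_cast hξ
  have hne : ∀ x ∈ T, x ≠ 0 → (θ + ε • toR deg) x ≠ 0 := by
    intro x hx hx0 h0
    have h1 := ((lexθ_eq_zero _ _ _).1 ((hε x hx).2.2 h0)).2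
    have h2 := hM.1 x hx.1 hx0
    change (deg x : ℝ) = 0 at h1
    have h3 : deg x = 0 := by exact_mod_cast h1
    omega
  have hs₃ : SameSign T (θ + ε • toR deg) θ₃ := by
    intro x hx
    by_cases hx0 : x = 0
    · rw [hx0]; simp
    rcases lt_or_gt_of_ne (hne x hx hx0) with h1 | h1
    · have h2 := (hθ₃ x hx).1 h1
      exact ⟨iff_of_true h1 h2, iff_of_false h1.ne h2.ne⟩
    · have h2 := (hθ₃ x hx).2 h1
      exact ⟨iff_of_false (not_lt.2 h1.le) (not_lt.2 h2.le), iff_of_false h1.ne' h2.ne'⟩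
  have hz₃ : ∀ x ∈ T, θ₃ x = 0 → x = 0 := fun x hx h0 => by
    by_contra hx0
    exact hne x hx hx0 ((hs₃ x hx).2.2 h0)
  rw [← e1, flow_agree hTl hg hg hgM hgM (fun _ _ => rfl) (flow_ss_trans hε hs₃) hf m hmT]
  refine flow_ind hTf θ₃ (toR (Ω.th m)) (fun a => IsNat ((chart g a f).c m - asym g f m))
    (fun a b hab ha => ?_) (fun x hx h0 => ?_) (fun a ha => ?_) fun s hs a b ha hb hPb => ?_
  · rwa [← flow_agree hTl hg hg hgM hgM (fun _ _ => rfl) hab hf m hmT]
  · rw [hz₃ x hx h0, map_zero]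
  · rw [flow_agree hTl hg hg hgM hgM (fun _ _ => rfl) (flow_ss_trans ha
      (flow_ss_lex (flow_ss_symm (sameSign_toR T (Ω.th m))) (flow_ss_refl T θ₃))) hf m hmT,
      asym_eq_lex hg, sub_self]
    exact IsNat.zero
  · have hφ : ∀ x, (θ₃ + s • toR (Ω.th m)) x = θ₃ x + s * (Ω.w x m : ℝ) := fun x => rfl
    have agb := flow_agree hTl hg hg hgM hgM (fun _ _ => rfl) hb hf
    have key := flow_step hM hS hg hgM hW hf hm (θ₃ + s • toR (Ω.th m)) ?_ ?_ ?_
    · rw [flow_agree hTl hg hg hgM hgM (fun _ _ => rfl) ha hf m hmT]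
      rw [agb m hmT] at hPb
      have := key.add hPb
      rwa [sub_add_sub_cancel] at this
    · intro x hx h0 hx0 hw
      rw [hφ, hw] at h0
      exact hx0 (hz₃ x hx (by simpa using h0))
    · intro x hx y hy h0 h0'
      by_contra hne'
      refine hY₃ _ ⟨sub_ne_zero.2 hne', x, hx, y, hy, rfl⟩ ?_
      rw [hφ] at h0 h0'
      rw [map_sub, map_zsmul, map_zsmul, zsmul_eq_mul, zsmul_eq_mul,
        eq_neg_of_add_eq_zero_left h0, eq_neg_of_add_eq_zero_left h0']
      ring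
    · intro x hx hx0 h3
      rw [← agb (m - x) ⟨h3, by rwa [show m - p - (m - x - p) = x by abel]⟩]
      have h4 := hM.1 x hx hx0
      have h5 := ih (m - x) (hM.nonneg h3) (by
        rw [show m - x - p = m - p - x by abel, map_sub deg (m - p)]; omega) b
      have := h5.add (h (m - x))
      rwa [sub_add_cancel] at this
theorem flow_int {M : AddSubmonoid L} (hM : GoodCone deg M) (hS : Sat M) {g f : QT Ω deg}
    (hg : IsG g) (hgM : SuppIn M g) (hW : WallPos M g) {p : L} (hf : SuppIn (shift p M) f)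
    (h : ∀ m, IsNat (asym g f m)) (θ : L →+ ℤ) (m : L) :
    IsNat ((chart g θ f).c m - asym g f m) := by
  rw [flow_agree (S := Set.univ) (fun _ _ _ _ _ => trivial) hg hg hgM hgM (fun _ _ => rfl)
    (sameSign_toR _ θ) hf m trivial]
  exact flow_real hM hS hg hgM hW hf h _ m
theorem flow_lex {M : AddSubmonoid L} (hM : GoodCone deg M) (hS : Sat M) {g f : QT Ω deg}
    (hg : IsG g) (hgM : SuppIn M g) (hW : WallPos M g) {p : L} (hf : SuppIn (shift p M) f)
    (h : ∀ m, IsNat (asym g f m)) (θ θ' : L →+ ℤ) (m : L) :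
    IsNat ((chart g (lexθ θ θ') f).c m - asym g f m) := by
  by_cases hm : m - p ∈ M
  swap
  · exact flow_out hg hgM hf _ hm
  obtain ⟨ε, -, hε⟩ := exists_sameSign_lex (hM.below_finite (m - p)) (toR θ) (toR θ')
  rw [flow_agree (lowerIn_below M _) hg hg hgM hgM (fun _ _ => rfl)
    (flow_ss_trans (flow_ss_lex (sameSign_toR _ θ) (sameSign_toR _ θ')) hε) hf m
    (flow_mem_shift hm)]
  exact flow_real hM hS hg hgM hW hf h _ m
/-- In the positive chamber the chart is the element itself. -/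
lemma chart_deg {g : QT Ω deg} (hg : IsG g) (f : QT Ω deg) : chart g deg f = f := by
  have : fneg g deg = 1 := fneg_eq_one _ hg fun n hn => mem_nnM.2 (hg.deg_nonneg hn)
  unfold chart
  rw [this, mul_one, show inv (1 : QT Ω deg) = 1 from Ring.inverse_one _, one_mul]

end Crest.Agent.R059
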