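import Crest.Agent.R059.Mut

/-! Row 59: green sequences. -/

set_option autoImplicit false
set_option linter.unusedSectionVars false
set_option linter.unusedVariables false

noncomputable section
open Classical

namespace Crest.Agent.R059

variable {L : Type} [AddCommGroup L] [Module.Free ℤ L] [Module.Finite ℤ L]
variable {Ω : Form L} {deg : L →+ ℤ}

lemma green_ne_zero {s : Finset L} (hs : IsSeed s) {F : L} (hF : F ∈ s) : F ≠ 0 := by
  rintro rfl
  obtain ⟨κ, h, -⟩ := hs _ hF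
  simp at h

lemma green_PhiL_c {deg' : L →+ ℤ} {l : List (L × ℤ)} (h : ∀ t ∈ l, 0 < deg t.1)
    (h' : ∀ t ∈ l, 0 < deg' t.1) : (PhiL Ω deg l).c = (PhiL Ω deg' l).c := by
  induction l with
  | nil => rfl
  | cons t l ih =>
    rw [phiL_cons, phiL_cons, QT.mul_c, QT.mul_c, Phi_c (h t List.mem_cons_self),
      Phi_c (h' t List.mem_cons_self), ih (fun t' ht => h t' (List.mem_cons_of_mem _ ht))
        fun t' ht => h' t' (List.mem_cons_of_mem _ ht)]

lemma green_PhiL_succ (f : ℕ → L) (j : ℕ) :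
    PhiL Ω deg ((List.range (j + 1)).map fun i => (f i, 1)) =
      PhiL Ω deg ((List.range j).map fun i => (f i, 1)) * Phi Ω deg (f j) 1 := by
  simp [PhiL, List.range_succ]

lemma green_seed (s : ℕ → Finset L) (c : ℕ → L) (k : ℕ) (hs : IsSeed (s 0))
    (hc : ∀ j < k, c j ∈ s j) (hm : ∀ j < k, s (j + 1) = mutate Ω (s j) (c j)) :
    ∀ j ≤ k, IsSeed (s j) := by
  intro j hj
  induction j with
  | zero => exact hs
  | succ j ih =>
    rw [hm j hj]
    exact (ih (by omega)).mutate (hc j hj)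

lemma green_inv (s : ℕ → Finset L) (c : ℕ → L) (k : ℕ) (hs : IsSeed (s 0)) (hd : DegOK deg (s 0))
    (hc : ∀ j < k, c j ∈ s j) (hm : ∀ j < k, s (j + 1) = mutate Ω (s j) (c j))
    (hp : ∀ j < k, c j ∈ cone (s 0)) (hn : ∀ i j, i < j → j ≤ k → -c i ∈ cone (s j))
    {g : QT Ω deg} (hg : IsCl (s 0) g) (j : ℕ) (hj : j ≤ k) :
    ∃ r : QT Ω deg, IsG r ∧ SuppIn (cone (s 0) ⊓ cone (s j) : AddSubmonoid L) r ∧
      g = PhiL Ω deg ((List.range j).map fun i => (c i, 1)) * r ∧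
      ∃ (d : L →+ ℤ) (r' : QT Ω d), DegOK d (s j) ∧ r'.c = r.c ∧
        IsCl (s j) (r' * PhiL Ω d ((List.range j).map fun i => (-c i, 1))) := by
  have hseed := green_seed s c k hs hc hm
  have hne : ∀ i < k, c i ≠ 0 := fun i hi => green_ne_zero (hseed i hi.le) (hc i hi)
  induction j with
  | zero =>
    refine ⟨g, hg.1, hg.2.1.inf hg.2.1, by simp [PhiL], deg, g, hd, rfl, ?_⟩
    simpa [PhiL] using hg
  | succ j ih =>
    have hjk : j < k := hj
    obtain ⟨r, hr, hsupp, e, d, r', hd0, hrr, hcl⟩ := ih hjk.le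
    obtain ⟨d', hd1⟩ := (hseed _ hj).exists_deg
    have hd' : DegOK d' (s (j + 1)) := fun F hF => by rw [hd1 F hF]; exact one_pos
    have hG := isG_Phi (Ω := Ω) (deg := deg) (c j) 1
    have hGd := isG_Phi (Ω := Ω) (deg := d) (c j) 1
    have hcopy : (inv (Phi Ω d (c j) 1) * r').c = (inv (Phi Ω deg (c j) 1) * r).c := by
      rw [QT.mul_c, QT.mul_c, hrr, inv_c_eq hGd hG]
      rw [Phi_c (hd0 _ (hc j hjk)), Phi_c (hd.goodCone.1 _ (hp j hjk) (hne j hjk))]
    have hneg : ∀ m, j ≤ m → m ≤ k → ∀ t ∈ (List.range j).map fun i => (-c i, (1 : ℤ)),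
        t.1 ∈ cone (s m) ∧ t.1 ≠ 0 := by
      intro m h1 h2 t ht
      obtain ⟨i, hi, rfl⟩ := List.mem_map.1 ht
      have hi' := List.mem_range.1 hi
      exact ⟨hn i m (by omega) h2, neg_ne_zero.2 (hne i (by omega))⟩
    have hP := isG_PhiL (Ω := Ω) (deg := d) ((List.range j).map fun i => (-c i, 1))
    have hs1 : SuppIn (cone (s (j + 1))) (inv (Phi Ω deg (c j) 1) * r) := by
      have h1 : SuppIn (cone (s (j + 1))) (inv (Phi Ω d (c j) 1) *
          (r' * PhiL Ω d ((List.range j).map fun i => (-c i, 1)))) := by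
        rw [hm j hjk]
        exact fun n h => (mut_supp (hseed j hjk.le) hd0 (hc j hjk) hcl n h).2
      have h2 := h1.mul (hP.suppIn_inv
        (suppIn_PhiL fun t ht => (hneg (j + 1) (by omega) hj t ht).1))
      rw [mul_assoc, mul_assoc, Ring.mul_inverse_cancel _ hP.isUnit, mul_one] at h2
      intro n h
      rw [← hcopy] at h
      exact h2 n h
    let r'' : QT Ω d' := ⟨(inv (Phi Ω deg (c j) 1) * r).c,
      hd'.goodCone.adm 0 fun n h => by rw [sub_zero]; exact hs1 n h⟩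
    refine ⟨inv (Phi Ω deg (c j) 1) * r, hG.inv.mul hr, SuppIn.inf ?_ hs1, ?_, d', r'', hd', rfl, ?_⟩
    · exact (hG.suppIn_inv (suppIn_Phi (hp j hjk) 1)).mul fun n h => (hsupp n h).1
    · rw [green_PhiL_succ, mul_assoc, ← mul_assoc (Phi Ω deg (c j) 1),
        Ring.mul_inverse_cancel _ hG.isUnit, one_mul, ← e]
    · rw [green_PhiL_succ (fun i => -c i), ← mul_assoc]
      rw [hm j hjk] at hd' ⊢
      refine mut_isCl (hseed j hjk.le) hd0 (hc j hjk) hd' hcl ?_
      rw [← hm j hjk] at hd'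
      rw [← mul_assoc, QT.mul_c r'', QT.mul_c (_ * r'), hcopy, green_PhiL_c (deg := d') (deg' := d)
        (fun t ht => hd'.goodCone.1 _ (hneg (j + 1) (by omega) hj t ht).1
          (hneg (j + 1) (by omega) hj t ht).2)
        fun t ht => hd0.goodCone.1 _ (hneg j le_rfl hjk.le t ht).1 (hneg j le_rfl hjk.le t ht).2]

theorem green (s : ℕ → Finset L) (c : ℕ → L) (k : ℕ) (hs : IsSeed (s 0)) (hd : DegOK deg (s 0))
    (hc : ∀ j < k, c j ∈ s j) (hm : ∀ j < k, s (j + 1) = mutate Ω (s j) (c j))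
    (hp : ∀ j < k, c j ∈ cone (s 0)) (hn : ∀ i j, i < j → j ≤ k → -c i ∈ cone (s j))
    {g : QT Ω deg} (hg : IsCl (s 0) g) :
    IsSeed (s k) ∧ ∃ r : QT Ω deg, IsG r ∧ SuppIn (cone (s 0) ⊓ cone (s k) : AddSubmonoid L) r ∧
      g = PhiL Ω deg ((List.range k).map fun j => (c j, 1)) * r := by
  obtain ⟨r, h1, h2, h3, -⟩ := green_inv s c k hs hd hc hm hp hn hg k le_rfl
  exact ⟨green_seed s c k hs hc hm k le_rfl, r, h1, h2, h3⟩

/-- The chart at the end of a green sequence. -/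
theorem green_chart (s : ℕ → Finset L) (c : ℕ → L) (k : ℕ) (hs : IsSeed (s 0))
    (hd : DegOK deg (s 0)) (hc : ∀ j < k, c j ∈ s j)
    (hm : ∀ j < k, s (j + 1) = mutate Ω (s j) (c j)) (hp : ∀ j < k, c j ∈ cone (s 0))
    (hn : ∀ i j, i < j → j ≤ k → -c i ∈ cone (s j)) {g : QT Ω deg} (hg : IsCl (s 0) g) :
    ∃ θ : L →+ ℤ, fneg g θ = PhiL Ω deg ((List.range k).map fun j => (c j, 1)) := by
  obtain ⟨hk, r, h1, h2, h3⟩ := green s c k hs hd hc hm hp hn hg
  obtain ⟨θ, hθ⟩ := hk.exists_deg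
  have hθ' : DegOK θ (s k) := fun F hF => by rw [hθ F hF]; exact one_pos
  refine ⟨θ, (IsFact.eq (z := 1) (b := r) ⟨isG_PhiL _, IsG.one, h1, suppIn_PhiL fun t ht => ?_,
    suppIn_one _, fun n h => ?_, by rw [mul_one]; exact h3⟩).1⟩
  · obtain ⟨i, hi, rfl⟩ := List.mem_map.1 ht
    have hi' := List.mem_range.1 hi
    have := hθ'.goodCone.1 _ (hn i k hi' le_rfl)
      (neg_ne_zero.2 (green_ne_zero (green_seed s c k hs hc hm i hi'.le) (hc i hi')))
    rw [map_neg] at this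
    exact mem_negM.2 (Or.inr (by simpa using this))
  · by_cases h0 : n = 0
    · exact mem_posM.2 (Or.inl h0)
    · exact mem_posM.2 (Or.inr (hθ'.goodCone.1 _ (h2 n h).2 h0))

end Crest.Agent.R059
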