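import Crest.Agent.R059.R2e

/-! Row 59: rank two scattering in list form. -/

set_option autoImplicit false
set_option linter.unusedSectionVars false
set_option linter.unusedVariables false

noncomputable section
open Classical

namespace Crest.Agent.R059

variable {L : Type} [AddCommGroup L] [Module.Free ℤ L] [Module.Finite ℤ L]
variable {Ω : Form L} {deg : L →+ ℤ}

def coneL (l : List (L × ℤ)) : AddSubmonoid L := AddSubmonoid.closure {y | ∃ t ∈ l, t.1 = y}
/-- The rank two condition. -/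
def Pluecker (Ω : Form L) (deg : L →+ ℤ) (C : AddSubmonoid L) : Prop :=
  ∀ a ∈ C, ∀ b ∈ C, ∀ c ∈ C, deg a * Ω.w b c + deg b * Ω.w c a + deg c * Ω.w a b = 0

section Aux
variable {I : Type} [Fintype I]

lemma r2b_nd_mem (q : QD Ω deg I) (d : I → ℕ) : q.nd d ∈ q.cone :=
  AddSubmonoid.sum_mem _ fun i _ =>
    AddSubmonoid.nsmul_mem _ (AddSubmonoid.subset_closure (Set.mem_range_self i)) _

lemma r2b_n_mem (q : QD Ω deg I) (i : I) : q.n i ∈ q.cone := AddSubmonoid.subset_closure ⟨i, rfl⟩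

lemma r2b_map_nd (q : QD Ω deg I) (η : L →+ ℤ) (d : I → ℕ) :
    η (q.nd d) = ∑ i, (d i : ℤ) * η (q.n i) := by
  simp [QD.nd, map_sum]

lemma r2b_deg_nd_nonneg (q : QD Ω deg I) (d : I → ℕ) : 0 ≤ deg (q.nd d) := by
  rw [r2b_map_nd]
  exact Finset.sum_nonneg fun i _ => mul_nonneg (Int.natCast_nonneg _) (q.pos i).le

lemma r2b_deg_nd_pos (q : QD Ω deg I) {d : I → ℕ} (hd : d ≠ 0) : 0 < deg (q.nd d) := by
  rw [r2b_map_nd]
  obtain ⟨i, hi⟩ := Function.ne_iff.1 hd
  refine Finset.sum_pos' (fun i _ => mul_nonneg (Int.natCast_nonneg _) (q.pos i).le)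
    ⟨i, Finset.mem_univ _, mul_pos ?_ (q.pos i)⟩
  exact_mod_cast Nat.pos_of_ne_zero hi

lemma r2b_cone_pos (q : QD Ω deg I) {x : L} (hx : x ∈ q.cone) (h0 : x ≠ 0) : 0 < deg x := by
  have h := goodCone_closure (deg := deg) (Finset.univ.image q.n) (by
    intro F hF
    obtain ⟨i, -, rfl⟩ := Finset.mem_image.1 hF
    exact q.pos i)
  refine h.1 x ?_ h0
  simpa [QD.cone] using hx

lemma r2b_nd_single (q : QD Ω deg I) (i : I) : q.nd (Pi.single i 1) = q.n i := by
  rw [QD.nd, Finset.sum_eq_single i]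
  · simp
  · intro j _ hj
    simp [Pi.single_eq_of_ne hj]
  · simp

lemma r2b_norm_single (q : QD Ω deg I) (i : I) : q.norm (Pi.single i 1) = q.k i := by
  have h1 : ∑ j, q.k j * ((Pi.single i 1 : I → ℕ) j : ℤ) = q.k i := by
    rw [Finset.sum_eq_single i]
    · simp
    · intro j _ hj
      simp [Pi.single_eq_of_ne hj]
    · simp
  have h2 : ∑ j, ∑ j', (q.arr j j' : ℤ) * ((Pi.single i 1 : I → ℕ) j : ℤ) *
      ((Pi.single i 1 : I → ℕ) j' : ℤ) = 0 := by
    refine Finset.sum_eq_zero fun j _ => Finset.sum_eq_zero fun j' _ => ?_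
    by_cases hj : j = i
    · by_cases hj' : j' = i
      · subst hj hj'
        simp [QD.arr, Ω.alt]
      · simp [Pi.single_eq_of_ne hj']
    · simp [Pi.single_eq_of_ne hj]
  rw [QD.norm, h1, h2, sub_zero]

lemma r2b_card_Xd (d : I → ℕ) : Fintype.card (Xd d) = ∑ i, d i := by
  simp [Fintype.card_sigma]

lemma r2b_eq_single {d : I → ℕ} (h : ∑ i, d i = 1) : ∃ i, d = Pi.single i 1 := by
  obtain ⟨i, hi⟩ : ∃ i, d i ≠ 0 := by
    by_contra hc
    push Not at hc
    simp [hc] at h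
  refine ⟨i, funext fun j => ?_⟩
  have h1 := Finset.add_sum_erase Finset.univ d (Finset.mem_univ i)
  by_cases hj : j = i
  · subst hj
    simp only [Pi.single_eq_same]
    omega
  · rw [Pi.single_eq_of_ne hj]
    have h2 : d j ≤ ∑ x ∈ Finset.univ.erase i, d x :=
      Finset.single_le_sum (f := d) (fun _ _ => Nat.zero_le _)
        (Finset.mem_erase.2 ⟨hj, Finset.mem_univ _⟩)
    omega

/-- The multiplicity of a simple class. -/
lemma r2b_mult_single (q : QD Ω deg I) {η : L →+ ℤ} {i : I} (hi : η (q.n i) = 0) (D : ℕ) :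
    q.mult η (Pi.single i 1) D = if D = 0 then 1 else 0 := by
  have hne : (Pi.single i 1 : I → ℕ) ≠ 0 := fun h => by simpa using congrFun h i
  have hc : Fintype.card (Xd (Pi.single i 1 : I → ℕ)) = 1 := by
    rw [r2b_card_Xd]; simp
  have hall : ∀ y : Xd (Pi.single i 1 : I → ℕ), y.1 = i := by
    rintro ⟨j, y⟩
    by_contra hj
    have := y.2
    simp only [Pi.single_eq_of_ne hj] at this
    omega
  have hη : ∀ y, ((q.QI η).comap (Sigma.fst : Xd (Pi.single i 1 : I → ℕ) → I)).η y = 0 := by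
    intro y
    show η (q.n y.1) = 0
    rw [hall y, hi]
  have hsub : Subsingleton (Xd (Pi.single i 1 : I → ℕ)) := Fintype.card_le_one_iff_subsingleton.1 hc.le
  have hfac : ∏ j, (((Pi.single i 1 : I → ℕ) j).factorial : ℂ) = 1 := by
    refine Finset.prod_eq_one fun j _ => ?_
    by_cases hj : j = i
    · subst hj; simp
    · simp [Pi.single_eq_of_ne hj]
  rw [QD.mult, if_pos ⟨hne, by rw [r2b_nd_single, hi]⟩, hfac, div_one,
    Finset.sum_eq_single 1]
  · rw [Qv.chW_eq_one _ hη hc, OneMemClass.coe_one, eps_one, PowerSeries.coeff_one]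
    simp
  · intro σ _ hσ
    exact absurd (Subtype.ext (Subsingleton.elim _ _)) hσ
  · simp

/-- At the attractor stability only simple classes occur. -/
lemma r2b_mult_eq_zero (q : QD Ω deg I) (hP : Pluecker Ω deg q.cone) {x : L} (hx : x ∈ q.cone)
    (h0 : x ≠ 0) {d : I → ℕ} (hd : ∀ i, d ≠ Pi.single i 1) (D : ℕ) :
    q.mult (Ω.th x) d D = 0 := by
  rw [QD.mult]
  split_ifs with h
  swap
  · rfl
  have hdx := r2b_cone_pos q hx h0
  have hth : ∀ y, Ω.th x y = Ω.w y x := fun y => rfl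
  have key : ∀ i j, Ω.th x (q.n i) ≤ 0 → 0 ≤ Ω.th x (q.n j) → q.arr i j = 0 := by
    intro i j hi hj
    have h1 := hP x hx _ (r2b_n_mem q i) _ (r2b_n_mem q j)
    rw [hth] at hi hj
    rw [Ω.skew x (q.n i)] at h1
    have h2 := mul_nonneg (q.pos i).le hj
    have h3 := mul_nonneg (q.pos j).le (neg_nonneg.2 hi)
    have h4 : deg x * Ω.w (q.n i) (q.n j) ≤ 0 := by linarith
    have h5 : Ω.w (q.n i) (q.n j) ≤ 0 := by
      by_contra hc
      have := mul_pos hdx (not_le.1 hc)
      linarith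
    exact Int.toNat_eq_zero.2 h5
  have hz : ∀ σ, ((q.QI (Ω.th x)).comap (Sigma.fst : Xd d → I)).chW σ = 0 := by
    intro σ
    by_cases hneg : ∃ y : Xd d, Ω.th x (q.n y.1) < 0
    · obtain ⟨y, hy⟩ := hneg
      exact Qv.chW_eq_zero_of_neg _ (fun a b ha hb => key a.1 b.1 ha.le hb) y hy σ
    · push Not at hneg
      have hnn : ∀ i, 0 ≤ (d i : ℤ) * Ω.th x (q.n i) := by
        intro i
        rcases Nat.eq_zero_or_pos (d i) with hi | hi
        · simp [hi]
        · exact mul_nonneg (Int.natCast_nonneg _) (hneg ⟨i, ⟨0, hi⟩⟩)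
      have hsum := h.2
      rw [r2b_map_nd, Finset.sum_eq_zero_iff_of_nonneg (fun i _ => hnn i)] at hsum
      have hη : ∀ y : Xd d, Ω.th x (q.n y.1) = 0 := by
        intro y
        have h1 := hsum y.1 (Finset.mem_univ _)
        have h2 : (d y.1 : ℤ) ≠ 0 := by
          have := y.2.2
          omega
        exact (mul_eq_zero.1 h1).resolve_left h2
      refine Qv.chW_eq_zero_of_zero _ (fun a b => key a.1 b.1 (hη a).le (hη b).ge) hη ?_ σ
      rw [r2b_card_Xd]
      by_contra hc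
      have h1 : ∑ i, d i ≠ 0 := by
        intro h2
        rw [Finset.sum_eq_zero_iff] at h2
        exact h.1 (funext fun i => h2 i (Finset.mem_univ _))
      obtain ⟨i, hi⟩ := r2b_eq_single (d := d) (by omega)
      exact hd i hi
  simp [hz]

lemma r2b_iso (q : QD Ω deg I) (hP : Pluecker Ω deg q.cone) {x : L} (hx : x ∈ q.cone)
    (h0 : x ≠ 0) : q.Iso (Ω.th x) := by
  intro d d' h1 h2
  have h3 := hP x hx _ (r2b_nd_mem q d) _ (r2b_nd_mem q d')
  have h4 : Ω.w (q.nd d) x = 0 := h1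
  have h5 : Ω.w (q.nd d') x = 0 := h2
  rw [Ω.skew x (q.nd d), h4, h5] at h3
  simp only [mul_zero, add_zero, neg_zero] at h3
  exact (mul_eq_zero.1 h3).resolve_left (r2b_cone_pos q hx h0).ne'

lemma r2b_att (q : QD Ω deg I) (hP : Pluecker Ω deg q.cone) (x : L) :
    att q.tot x = ∑ i, lgP (q.n i) (q.k i) x := by
  by_cases hx : x ∈ q.cone
  swap
  · have hf := isFact_fact (Ω.th x) q.isG_tot
    rw [att, lg_eq_zero hf.2.1 (hf.suppIn q.suppIn_tot).2.1 hx]
    refine (Finset.sum_eq_zero fun i _ => ?_).symm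
    by_contra h
    obtain ⟨e, -, rfl⟩ := lgP_ne_zero h
    exact hx (AddSubmonoid.nsmul_mem _ (r2b_n_mem q i) _)
  by_cases h0 : x = 0
  · subst h0
    rw [att, lg_zero]
    refine (Finset.sum_eq_zero fun i _ => ?_).symm
    by_contra h
    obtain ⟨e, he, h1⟩ := lgP_ne_zero h
    have h2 := congrArg deg h1
    rw [map_zero, map_nsmul, nsmul_eq_mul] at h2
    have := mul_pos (Int.natCast_pos.2 he) (q.pos i)
    omega
  have hinj : Function.Injective fun i : I => (Pi.single i 1 : I → ℕ) := by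
    intro i j hij
    by_contra hne
    have := congrFun hij i
    simp [Pi.single_eq_of_ne hne] at this
  rw [att, q.lg_fzer_tot (r2b_iso q hP hx h0),
    finsum_eq_sum_of_support_subset
      (s := Finset.univ.image fun i : I => (Pi.single i 1 : I → ℕ)),
    Finset.sum_image fun i _ j _ hij => hinj hij]
  · refine Finset.sum_congr rfl fun i _ => ?_
    by_cases hi : Ω.th x (q.n i) = 0
    · rw [finsum_eq_single _ 0]
      · simp [r2b_mult_single q hi, r2b_nd_single, r2b_norm_single]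
      · intro D hD
        simp [r2b_mult_single q hi, hD]
    · have hz : ∀ k, lgP (q.n i) k x = 0 := by
        intro k
        by_contra h
        obtain ⟨e, -, rfl⟩ := lgP_ne_zero h
        apply hi
        show Ω.w (q.n i) (e • q.n i) = 0
        rw [map_nsmul, Ω.alt, smul_zero]
      simp [r2b_nd_single, hz]
  · intro d hd
    by_contra hc
    apply hd
    have hd' : ∀ i, d ≠ Pi.single i 1 := fun i h =>
      hc (Finset.mem_coe.2 (Finset.mem_image.2 ⟨i, Finset.mem_univ _, h.symm⟩))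
    simp [r2b_mult_eq_zero q hP hx h0 hd']

lemma r2b_lgL_append (l l' : List (L × ℤ)) (x : L) : lgL (l ++ l') x = lgL l x + lgL l' x := by
  simp [lgL]

lemma r2b_exists_list {ι : Type} (s : Finset ι) (f : ι → L × ℤ) (m : ι → ℕ) :
    ∃ l' : List (L × ℤ), (∀ t ∈ l', ∃ i ∈ s, t = f i) ∧
      ∀ x, lgL l' x = ∑ i ∈ s, (m i : K) * lgP (f i).1 (f i).2 x := by
  induction s using Finset.induction_on with
  | empty => exact ⟨[], by simp, fun x => by simp [lgL]⟩
  | insert i s hi ih =>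
    obtain ⟨l', h1, h2⟩ := ih
    refine ⟨List.replicate (m i) (f i) ++ l', fun t ht => ?_, fun x => ?_⟩
    · rcases List.mem_append.1 ht with ht | ht
      · exact ⟨i, Finset.mem_insert_self _ _, List.eq_of_mem_replicate ht⟩
      · obtain ⟨j, hj, rfl⟩ := h1 t ht
        exact ⟨j, Finset.mem_insert_of_mem hj, rfl⟩
    · rw [r2b_lgL_append, h2, Finset.sum_insert hi]
      simp [lgL]

lemma r2b_list (q : QD Ω deg I) {η : L →+ ℤ} (h : q.Iso η) (D : ℤ) :
    ∃ l' : List (L × ℤ), (∀ t ∈ l', t.1 ∈ q.cone ∧ t.1 ≠ 0 ∧ η t.1 = 0) ∧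
      ∀ x, deg x ≤ D → lg (fzer q.tot η) x = lgL l' x := by
  choose m hm using q.mult_nat h
  obtain ⟨l', h1, h2⟩ := r2b_exists_list (L := L)
    ((q.finite_fiber D).toFinset.sigma fun d => (q.mult_finite h d).toFinset)
    (fun p => (q.nd p.1, q.norm p.1 + 2 * (p.2 : ℤ))) (fun p => m p.1 p.2)
  refine ⟨l', fun t ht => ?_, fun x hx => ?_⟩
  · obtain ⟨p, hp, rfl⟩ := h1 t ht
    have h3 : q.mult η p.1 p.2 ≠ 0 := by simpa using (Finset.mem_sigma.1 hp).2
    have h4 : p.1 ≠ 0 ∧ η (q.nd p.1) = 0 := by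
      by_contra hc
      exact h3 (by rw [QD.mult, if_neg hc])
    refine ⟨r2b_nd_mem q _, fun h5 => ?_, h4.2⟩
    have h6 := r2b_deg_nd_pos q h4.1
    have h7 : q.nd p.1 = 0 := h5
    rw [h7, map_zero] at h6
    exact lt_irrefl _ h6
  · rw [q.lg_fzer_tot h, h2, Finset.sum_sigma,
      finsum_eq_sum_of_support_subset (s := (q.finite_fiber D).toFinset)]
    · refine Finset.sum_congr rfl fun d _ => ?_
      rw [finsum_eq_sum_of_support_subset (s := (q.mult_finite h d).toFinset)]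
      · refine Finset.sum_congr rfl fun D' _ => ?_
        rw [hm, map_natCast]
      · intro D' hD'
        have h3 : q.mult η d D' ≠ 0 := fun h3 => hD' (by simp [h3])
        simpa using h3
    · intro d hd
      have h3 : ∃ k, lgP (q.nd d) k x ≠ 0 := by
        by_contra hc
        push Not at hc
        exact hd (by simp [hc])
      obtain ⟨k, hk⟩ := h3
      obtain ⟨e, he, rfl⟩ := lgP_ne_zero hk
      have h4 := r2b_deg_nd_nonneg q d
      rw [map_nsmul, nsmul_eq_mul] at hx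
      have h5 : (1 : ℤ) ≤ e := by exact_mod_cast he
      have h6 : deg (q.nd d) ≤ D := by nlinarith
      simpa using h6

end Aux

theorem rank_two (l : List (L × ℤ)) (hl : ∀ t ∈ l, 0 < deg t.1)
    (hP : Pluecker Ω deg (coneL l)) :
    ∃ T : QT Ω deg, IsG T ∧ SuppIn (coneL l) T ∧ (∀ x, att T x = lgL l x) ∧
      ∀ η : L →+ ℤ, (∀ a ∈ coneL l, ∀ b ∈ coneL l, η a = 0 → η b = 0 → Ω.w a b = 0) →
        ∀ D : ℤ, ∃ l' : List (L × ℤ), (∀ t ∈ l', t.1 ∈ coneL l ∧ t.1 ≠ 0 ∧ η t.1 = 0) ∧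
          ∀ x, deg x ≤ D → lg (fzer T η) x = lgL l' x := by
  let q : QD Ω deg (Fin l.length) :=
    ⟨fun i => l[i.1].1, fun i => l[i.1].2, fun i => hl _ (List.getElem_mem _)⟩
  have hc : q.cone = coneL l := by
    rw [QD.cone, coneL]
    congr 1
    ext y
    constructor
    · rintro ⟨i, rfl⟩
      exact ⟨_, List.getElem_mem _, rfl⟩
    · rintro ⟨t, ht, rfl⟩
      obtain ⟨i, hi, rfl⟩ := List.getElem_of_mem ht
      exact ⟨⟨i, hi⟩, rfl⟩
  rw [← hc] at hP ⊢
  refine ⟨q.tot, q.isG_tot, q.suppIn_tot, fun x => ?_, fun η hη D => ?_⟩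
  · rw [r2b_att q hP x, lgL]
    exact Fin.sum_univ_fun_getElem l fun t => lgP t.1 t.2 x
  · exact r2b_list q (fun d d' h1 h2 => hη _ (r2b_nd_mem q d) _ (r2b_nd_mem q d') h1 h2) D

end Crest.Agent.R059
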