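import Crest.Agent.R059.Seed
import Crest.Agent.R059.R2b

/-! Row 59: positivity of the walls of the cluster scattering diagram. -/

set_option autoImplicit false
set_option linter.unusedSectionVars false
set_option linter.unusedVariables false

noncomputable section
open Classical

namespace Crest.Agent.R059

variable {L : Type} [AddCommGroup L] [Module.Free ℤ L] [Module.Finite ℤ L]
variable {Ω : Form L} {deg : L →+ ℤ}

section Aux
variable {Γ : Type} [AddCommGroup Γ] [LinearOrder Γ] [IsOrderedAddMonoid Γ]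
variable {Γ' : Type} [AddCommGroup Γ'] [LinearOrder Γ'] [IsOrderedAddMonoid Γ']
variable {Γ'' : Type} [AddCommGroup Γ''] [LinearOrder Γ''] [IsOrderedAddMonoid Γ'']

/-- Collinearity. -/
def WCol (deg : L →+ ℤ) (x y : L) : Prop := deg y • x = deg x • y

lemma wall_cancel {k : ℤ} (hk : k ≠ 0) {x y : L} (h : k • x = k • y) : x = y :=
  smul_right_injective L hk h

lemma WCol.refl (x : L) : WCol deg x x := rfl
lemma WCol.symm {x y : L} (h : WCol deg x y) : WCol deg y x := Eq.symm h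
lemma WCol.trans {x y z : L} (h : WCol deg x y) (h' : WCol deg y z) (hy : deg y ≠ 0) :
    WCol deg x z := by
  unfold WCol at *
  refine wall_cancel hy ?_
  rw [smul_comm, h, smul_comm, h', smul_comm]
lemma wall_col_smul (e : ℕ) (x : L) : WCol deg (e • x) x := by
  unfold WCol
  rw [map_nsmul, smul_comm, ← natCast_zsmul, smul_smul, nsmul_eq_mul]
lemma WCol.map {x y : L} (h : WCol deg x y) (θ : L →+ ℝ) : (deg y : ℝ) * θ x = deg x * θ y := by
  have := congrArg θ h
  simpa only [map_zsmul, zsmul_eq_mul] using this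
lemma WCol.mapZ {x y : L} (h : WCol deg x y) (θ : L →+ ℤ) : deg y * θ x = deg x * θ y := by
  have := congrArg θ h
  simpa only [map_zsmul, smul_eq_mul] using this
lemma WCol.zero {x y : L} (h : WCol deg x y) (hy : deg y ≠ 0) {θ : L →+ ℝ} (h0 : θ y = 0) :
    θ x = 0 := by
  have := h.map θ
  rw [h0, mul_zero] at this
  exact (mul_eq_zero.1 this).resolve_left (by exact_mod_cast hy)

lemma SameSign.wtrans {S : Set L} {a : L →+ Γ} {b : L →+ Γ'} {c : L →+ Γ''} (h : SameSign S a b)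
    (h' : SameSign S b c) : SameSign S a c := fun n hn =>
  ⟨(h n hn).1.trans (h' n hn).1, (h n hn).2.trans (h' n hn).2⟩
lemma SameSign.wsymm {S : Set L} {a : L →+ Γ} {b : L →+ Γ'} (h : SameSign S a b) :
    SameSign S b a := fun n hn => ⟨(h n hn).1.symm, (h n hn).2.symm⟩
lemma SameSign.wmono {S S' : Set L} {a : L →+ Γ} {b : L →+ Γ'} (h : SameSign S a b)
    (hS : S' ⊆ S) : SameSign S' a b := fun n hn => h n (hS hn)

lemma wall_sameSign_th {x y : L} (h : WCol deg x y) (hx : 0 < deg x) (hy : 0 < deg y)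
    (S : Set L) : SameSign S (Ω.th x) (Ω.th y) := by
  intro z _
  have := h.mapZ (Ω.w z)
  show (Ω.w z x < 0 ↔ Ω.w z y < 0) ∧ (Ω.w z x = 0 ↔ Ω.w z y = 0)
  refine ⟨⟨fun k => ?_, fun k => ?_⟩, ⟨fun k => ?_, fun k => ?_⟩⟩
  · by_contra c; nlinarith
  · by_contra c; nlinarith
  · rw [k, mul_zero] at this
    exact (mul_eq_zero.1 this.symm).resolve_left hx.ne'
  · rw [k, mul_zero] at this
    exact (mul_eq_zero.1 this).resolve_left hy.ne'

lemma wall_lg_agree {M : AddSubmonoid L} {S : Set L} (hS : LowerIn M S) {θ : L →+ Γ}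
    {θ' : L →+ Γ'} {g g' : QT Ω deg} (hg : IsG g) (hg' : IsG g') (hM : SuppIn M g)
    (hM' : SuppIn M g') (hgg : Agree S g g') (hθ : SameSign S θ θ') {x : L} (hx : x ∈ S) :
    lg (fzer g θ) x = lg (fzer g' θ') x := by
  have h := isFact_fact θ hg
  have h' := isFact_fact θ' hg'
  exact lg_agree hS h.2.1 h'.2.1 (h.suppIn hM).2.1 (h'.suppIn hM').2.1
    (h.agree hS h' hM hM' hgg (hθ.wmono Set.inter_subset_left)).2.1 hx

lemma wall_lg_univ {θ : L →+ Γ} {θ' : L →+ Γ'} {g : QT Ω deg} (hg : IsG g)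
    (hθ : SameSign Set.univ θ θ') (x : L) : lg (fzer g θ) x = lg (fzer g θ') x :=
  wall_lg_agree (M := ⊤) (fun _ _ _ _ _ => trivial) hg hg (fun _ _ => trivial)
    (fun _ _ => trivial) (fun _ _ => rfl) hθ trivial

lemma wall_lgL_eq_zero {l : List (L × ℤ)} {x : L}
    (h : ∀ t ∈ l, ∀ e : ℕ, 0 < e → x ≠ e • t.1) : lgL l x = 0 := by
  unfold lgL
  refine List.sum_eq_zero fun y hy => ?_
  obtain ⟨t, ht, rfl⟩ := List.mem_map.1 hy
  by_contra k
  obtain ⟨e, he, hx⟩ := lgP_ne_zero k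
  exact h t ht e he hx

lemma wall_lgL_filter (l : List (L × ℤ)) (p : L × ℤ → Bool) {x : L}
    (h : ∀ t ∈ l, ∀ e : ℕ, 0 < e → x = e • t.1 → p t = true) :
    lgL (l.filter p) x = lgL l x := by
  induction l with
  | nil => rfl
  | cons t l ih =>
    have ih' := ih fun t' ht' => h t' (List.mem_cons_of_mem _ ht')
    unfold lgL at *
    by_cases hp : p t = true
    · rw [List.filter_cons_of_pos hp, List.map_cons, List.map_cons, List.sum_cons, List.sum_cons,
        ih']
    · rw [List.filter_cons_of_neg hp, List.map_cons, List.sum_cons, ih']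
      have : lgP t.1 t.2 x = 0 := by
        by_contra k
        obtain ⟨e, he, hx⟩ := lgP_ne_zero k
        exact hp (h t List.mem_cons_self e he hx)
      rw [this, zero_add]

lemma wall_lgL_flatMap (X : List L) (f : L → List (L × ℤ)) (y : L) :
    lgL (X.flatMap f) y = (X.map fun x => lgL (f x) y).sum := by
  induction X with
  | nil => rfl
  | cons x X ih =>
    rw [List.flatMap_cons, List.map_cons, List.sum_cons, ← ih]
    unfold lgL
    rw [List.map_append, List.sum_append]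

lemma wall_below_smul {M : AddSubmonoid L} {n F : L} (hF : F ∈ M) {e : ℕ} (he : 0 < e)
    (h : e • F ∈ below M n) : F ∈ below M n := by
  obtain ⟨e, rfl⟩ : ∃ k, e = k + 1 := ⟨e - 1, by omega⟩
  rw [succ_nsmul, add_comm] at h
  exact lowerIn_below M n F hF _ (M.nsmul_mem hF e) h

lemma wall_below_trans {M : AddSubmonoid L} {n x y : L} (hx : x ∈ below M n)
    (hy : y ∈ below M x) : y ∈ below M n :=
  lowerIn_below M n y hy.1 _ hy.2 (by simpa using hx)

lemma wall_smul_ne {M : AddSubmonoid L} (hM : GoodCone deg M) {F : L} (hF : F ∈ M) (h0 : F ≠ 0)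
    {e : ℕ} (he : 0 < e) : (0 : L) ≠ e • F := fun h => by
  have h1 := congrArg deg h
  have h2 := hM.1 F hF h0
  rw [map_zero, map_nsmul, nsmul_eq_mul] at h1
  have : (0 : ℤ) < e := by exact_mod_cast he
  nlinarith

/-- Elements of the rational span of `a` and `n`, with denominator `q`. -/
def WSp (q : ℤ) (a n : L) : AddSubmonoid L where
  carrier := {z | ∃ α β : ℤ, q • z = α • a + β • n}
  zero_mem' := ⟨0, 0, by simp⟩
  add_mem' := by
    rintro x y ⟨α, β, h⟩ ⟨α', β', h'⟩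
    exact ⟨α + α', β + β', by rw [smul_add, h, h', add_smul, add_smul]; abel⟩

lemma wall_w_sp {q α β α' β' : ℤ} {a n x y : L} (h : q • x = α • a + β • n)
    (h' : q • y = α' • a + β' • n) : q * q * Ω.w x y = (α * β' - β * α') * Ω.w a n := by
  have e : Ω.w (q • x) (q • y) = q * q * Ω.w x y := by
    simp only [map_zsmul, AddMonoidHom.zsmul_apply, smul_eq_mul]; ring
  rw [← e, h, h']
  simp only [map_add, map_zsmul, AddMonoidHom.add_apply, AddMonoidHom.zsmul_apply, smul_eq_mul,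
    Ω.alt, Ω.skew n a]
  ring

lemma wall_deg_sp {q α β : ℤ} {a n x : L} (h : q • x = α • a + β • n) :
    q * deg x = α * deg a + β * deg n := by
  have := congrArg deg h
  simpa only [map_add, map_zsmul, smul_eq_mul] using this

lemma wall_pluecker {q : ℤ} (hq : q ≠ 0) (a n : L) {C : AddSubmonoid L} (hC : C ≤ WSp q a n) :
    Pluecker Ω deg C := by
  intro x hx y hy z hz
  obtain ⟨α, β, h⟩ := hC hx
  obtain ⟨α', β', h'⟩ := hC hy
  obtain ⟨α'', β'', h''⟩ := hC hz
  have w1 := wall_w_sp (Ω := Ω) h' h''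
  have w2 := wall_w_sp (Ω := Ω) h'' h
  have w3 := wall_w_sp (Ω := Ω) h h'
  have d1 := wall_deg_sp (deg := deg) h
  have d2 := wall_deg_sp (deg := deg) h'
  have d3 := wall_deg_sp (deg := deg) h''
  refine mul_left_cancel₀ (pow_ne_zero 3 hq) ?_
  calc q ^ 3 * (deg x * Ω.w y z + deg y * Ω.w z x + deg z * Ω.w x y)
      = (q * deg x) * (q * q * Ω.w y z) + (q * deg y) * (q * q * Ω.w z x) +
          (q * deg z) * (q * q * Ω.w x y) := by ring
    _ = q ^ 3 * 0 := by rw [w1, w2, w3, d1, d2, d3]; ring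

lemma wall_col_of_w {q : ℤ} (hq : q ≠ 0) {a n : L} (hw : Ω.w a n ≠ 0) {x y : L}
    (hx : x ∈ WSp q a n) (hy : y ∈ WSp q a n) (h0 : Ω.w x y = 0) : WCol deg x y := by
  obtain ⟨α, β, h⟩ := hx
  obtain ⟨α', β', h'⟩ := hy
  have w1 := wall_w_sp (Ω := Ω) h h'
  rw [h0, mul_zero] at w1
  have k : α * β' - β * α' = 0 := (mul_eq_zero.1 w1.symm).resolve_right hw
  have d1 := wall_deg_sp (deg := deg) h
  have d2 := wall_deg_sp (deg := deg) h'
  unfold WCol
  refine wall_cancel (mul_ne_zero hq hq) ?_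
  have e1 : (q * q) • deg y • x = (q * deg y) • q • x := by
    rw [smul_smul, smul_smul]; congr 1; ring
  have e2 : (q * q) • deg x • y = (q * deg x) • q • y := by
    rw [smul_smul, smul_smul]; congr 1; ring
  rw [e1, e2, d1, d2, h, h', smul_add, smul_add, smul_smul, smul_smul, smul_smul, smul_smul]
  congr 2
  · linear_combination (deg n) * k
  · linear_combination (-deg a) * k

lemma wall_w_of_col {x y : L} (h : WCol deg x y) (hy : deg y ≠ 0) : Ω.w x y = 0 := by
  have := h.mapZ (Ω.th y)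
  have e : Ω.th y y = 0 := Ω.alt y
  rw [e, mul_zero] at this
  exact (mul_eq_zero.1 this).resolve_left hy

end Aux

/-- The statement transported along the flow. -/
def WPr (M : AddSubmonoid L) (g : QT Ω deg) (n : L) (a : L →+ ℝ) : Prop :=
  ∃ l : List (L × ℤ), (∀ t ∈ l, t.1 ∈ below M n ∧ t.1 ≠ 0 ∧ WCol deg t.1 n) ∧
    ∀ x ∈ below M n, x ≠ 0 → WCol deg x n → lg (fzer g a) x = lgL l x

/-- The conclusion of `WallPos` at `n`. -/
def WAt (M : AddSubmonoid L) (g : QT Ω deg) (n : L) : Prop :=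
  ∀ θ : L →+ ℝ, θ n = 0 → (∀ x ∈ below M n, θ x = 0 → deg n • x = deg x • n) →
    ∃ l : List (L × ℤ), (∀ t ∈ l, t.1 ∈ below M n ∧ t.1 ≠ 0 ∧ θ t.1 = 0) ∧
      ∀ x ∈ below M n, lg (fzer g θ) x = lgL l x

lemma WPr.congr {M : AddSubmonoid L} {g : QT Ω deg} (hg : IsG g) (hM : SuppIn M g) {n : L}
    {a b : L →+ ℝ} (h : SameSign (below M n) a b) (ha : WPr M g n a) : WPr M g n b := by
  obtain ⟨l, h1, h2⟩ := ha
  refine ⟨l, h1, fun x hx h0 hc => ?_⟩
  rw [← h2 x hx h0 hc]
  exact (wall_lg_agree (lowerIn_below M n) hg hg hM hM (fun _ _ => rfl) h hx).symm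

lemma wall_inf {s : Finset L} (hd : DegOK deg s) {g : QT Ω deg} (hg : IsCl s g) {n : L}
    (hN : 0 < deg n) {θ : L →+ ℝ} (hθ : θ n = 0) {a : L →+ ℝ}
    (ha : SameSign (below (cone s) n) a (lexθ (toR (Ω.th n)) θ)) : WPr (cone s) g n a := by
  have hM := hd.goodCone
  refine ⟨(s.toList.map fun F => (F, (1 : ℤ))).filter
    (fun t => decide (t.1 ∈ below (cone s) n ∧ t.1 ≠ 0 ∧ WCol deg t.1 n)), fun t ht => ?_,
    fun x hx h0 hc => ?_⟩
  · exact of_decide_eq_true (List.mem_filter.1 ht).2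
  have hx0 : 0 < deg x := hM.1 x hx.1 h0
  rw [wall_lgL_filter, wall_lg_agree (lowerIn_below _ n) hg.1 hg.1 hg.2.1 hg.2.1 (fun _ _ => rfl)
    ha hx, (fact_lex _ _ hg.1).2]
  · have hf := isFact_fact (toR (Ω.th n)) hg.1
    have hss : SameSign Set.univ (toR (Ω.th n)) (Ω.th x) :=
      (sameSign_toR _ _).wsymm.wtrans (wall_sameSign_th hc.symm hN hx0 _)
    rw [lg_fzer hf.2.1 x (fun y hy => (hss y trivial).2.1 (hf.2.2.2.2.1 y hy)) θ
      (hc.zero hN.ne' hθ), wall_lg_univ hg.1 hss]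
    have := hg.2.2 x
    unfold att at this
    rw [this]
    unfold lgL
    rw [List.map_map, Finset.sum_map_toList]
    rfl
  · intro t ht e he hxe
    obtain ⟨F, hF, rfl⟩ := List.mem_map.1 ht
    have hFs : F ∈ s := Finset.mem_toList.1 hF
    have hFM : F ∈ cone s := AddSubmonoid.subset_closure hFs
    have hF0 := hd F hFs
    refine decide_eq_true ⟨wall_below_smul hFM he (hxe ▸ hx), ?_, ?_⟩
    · rintro rfl
      simp at hF0
    · have : WCol deg x F := hxe ▸ wall_col_smul e F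
      exact this.symm.trans hc hx0.ne'

lemma wall_step {M : AddSubmonoid L} (hM : GoodCone deg M) (hS : Sat M) {g : QT Ω deg}
    (hg : IsG g) (hgM : SuppIn M g) {n : L} (hn : n ∈ M) (hN : 0 < deg n)
    (ih : ∀ x ∈ M, deg x < deg n → WAt M g x) {φ : L →+ ℝ} (hφ : φ n = 0)
    (hgen : ∀ a ∈ below M n, ∀ b ∈ below M n, φ a = 0 → φ b = 0 →
      WCol deg (Ω.w b n • a - Ω.w a n • b) n)
    {a b : L →+ ℝ} (ha : SameSign (below M n) a (lexθ φ (-toR (Ω.th n))))
    (hb : SameSign (below M n) b (lexθ φ (toR (Ω.th n)))) (h : WPr M g n b) : WPr M g n a := by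
  by_cases hA : ∀ z ∈ below M n, φ z = 0 → Ω.w z n = 0
  · refine h.congr hg hgM (hb.wtrans (SameSign.wtrans ?_ ha.wsymm))
    intro z hz
    rw [lexθ_lt_zero, lexθ_lt_zero, lexθ_eq_zero, lexθ_eq_zero]
    by_cases h0 : φ z = 0
    · have : toR (Ω.th n) z = 0 := ((sameSign_toR Set.univ (Ω.th n)) z trivial).2.1 (hA z hz h0)
      simp [h0, this]
    · simp [h0]
  push Not at hA
  obtain ⟨a0, ha0, hφ0, hw0⟩ := hA
  have hq : deg n * Ω.w a0 n ≠ 0 := mul_ne_zero hN.ne' hw0
  have hsp : ∀ z ∈ below M n, φ z = 0 → z ∈ WSp (deg n * Ω.w a0 n) a0 n := by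
    intro z hz h0
    have := hgen a0 ha0 z hz hφ0 h0
    unfold WCol at this
    refine ⟨deg n * Ω.w z n, -deg (Ω.w z n • a0 - Ω.w a0 n • z), ?_⟩
    rw [neg_smul, ← this, smul_sub, smul_smul, smul_smul]
    abel
  have hnT : n ∈ below M n := ⟨hn, by simp⟩
  have hf := isFact_fact φ hg
  set γ := fzer g φ with hγ
  have gγ : IsG γ := hf.2.1
  have hγM : SuppIn M γ := (hf.suppIn hgM).2.1
  have hγ0 : SuppIn (zerM φ) γ := hf.2.2.2.2.1
  have hT := hM.below_finite n
  have hdle : ∀ y ∈ below M n, deg y ≤ deg n := fun y hy => by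
    have := hM.nonneg hy.2
    rw [map_sub] at this
    omega
  let X : Finset L := hT.toFinset.filter
    (fun x => x ≠ 0 ∧ φ x = 0 ∧ ∀ y ∈ below M n, WCol deg y x → deg y ≤ deg x)
  have hX : ∀ x, x ∈ X ↔ x ∈ below M n ∧ x ≠ 0 ∧ φ x = 0 ∧
      ∀ y ∈ below M n, WCol deg y x → deg y ≤ deg x := fun x => by
    simp only [X, Finset.mem_filter, Set.Finite.mem_toFinset]
  have hex : ∀ x, ∃ l : List (L × ℤ), x ∈ X →
      (∀ t ∈ l, t.1 ∈ below M n ∧ t.1 ≠ 0 ∧ WCol deg t.1 x) ∧
      ∀ y ∈ below M n, y ≠ 0 → WCol deg y x → att γ y = lgL l y := by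
    intro x
    by_cases hx : x ∈ X
    swap
    · exact ⟨[], fun h => absurd h hx⟩
    obtain ⟨hxT, hx0, hxφ, hmax⟩ := (hX x).1 hx
    have hdx : 0 < deg x := hM.1 x hxT.1 hx0
    by_cases hxn : x = n
    · subst hxn
      obtain ⟨l, h1, h2⟩ := h
      refine ⟨l, fun _ => ⟨h1, fun y hy hy0 hc => ?_⟩⟩
      rw [← h2 y hy hy0 hc, wall_lg_agree (lowerIn_below M x) hg hg hgM hgM (fun _ _ => rfl)
        hb hy, (fact_lex _ _ hg).2]
      exact wall_lg_univ gγ ((wall_sameSign_th hc (hM.1 y hy.1 hy0) hN _).wtrans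
        (sameSign_toR _ _)) y
    have hlt : deg x < deg n := by
      have := hM.1 _ hxT.2 (sub_ne_zero.2 (Ne.symm hxn))
      rw [map_sub] at this
      omega
    obtain ⟨ε, -, hε⟩ := exists_sameSign_lex (hM.below_finite x) φ (toR (Ω.th x))
    have hxx : x ∈ below M x := ⟨hxT.1, by simp⟩
    have hz : ∀ y ∈ below M x, (φ + ε • toR (Ω.th x)) y = 0 ↔ φ y = 0 ∧ Ω.w y x = 0 := by
      intro y hy
      rw [← (hε y hy).2, lexθ_eq_zero, ← ((sameSign_toR Set.univ (Ω.th x)) y trivial).2]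
      rfl
    have hcol : ∀ y ∈ below M x, (φ + ε • toR (Ω.th x)) y = 0 → WCol deg y x := by
      intro y hy h0
      obtain ⟨k1, k2⟩ := (hz y hy).1 h0
      exact wall_col_of_w hq hw0 (hsp y (wall_below_trans hxT hy) k1) (hsp x hxT hxφ) k2
    obtain ⟨l, h1, h2⟩ := ih x hxT.1 hlt (φ + ε • toR (Ω.th x))
      ((hz x hxx).2 ⟨hxφ, Ω.alt x⟩) hcol
    refine ⟨l, fun _ => ⟨fun t ht => ⟨wall_below_trans hxT (h1 t ht).1, (h1 t ht).2.1,
      hcol _ (h1 t ht).1 (h1 t ht).2.2⟩, fun y hy hy0 hc => ?_⟩⟩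
    have hyx : y ∈ below M x := by
      refine ⟨hy.1, hS (deg x).toNat _ (by omega) ?_⟩
      have e : (deg x).toNat • (x - y) = (deg x - deg y).toNat • x := by
        have hc' : deg x • y = deg y • x := hc
        rw [← natCast_zsmul, ← natCast_zsmul, Int.toNat_of_nonneg hdx.le,
          Int.toNat_of_nonneg (by linarith [hmax y hy hc]), smul_sub, sub_smul, hc']
      rw [e]
      exact M.nsmul_mem hxT.1 _
    rw [← h2 y hyx, ← wall_lg_agree (lowerIn_below M x) hg hg hgM hgM (fun _ _ => rfl) hε hyx,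
      (fact_lex _ _ hg).2]
    exact wall_lg_univ gγ ((wall_sameSign_th hc (hM.1 y hy.1 hy0) hdx _).wtrans
      (sameSign_toR _ _)) y
  choose f hf' using hex
  set l : List (L × ℤ) := X.toList.flatMap f with hl
  have hl1 : ∀ t ∈ l, t.1 ∈ below M n ∧ t.1 ≠ 0 ∧ φ t.1 = 0 := by
    intro t ht
    obtain ⟨x, hx, htx⟩ := List.mem_flatMap.1 ht
    have hx' := Finset.mem_toList.1 hx
    obtain ⟨k1, k2, k3⟩ := (hf' x hx').1 t htx
    obtain ⟨hxT, hx0, hxφ, -⟩ := (hX x).1 hx'
    exact ⟨k1, k2, k3.zero (hM.1 x hxT.1 hx0).ne' hxφ⟩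
  have hl2 : ∀ y ∈ below M n, att γ y = lgL l y := by
    intro y hy
    by_cases hy0 : y = 0
    · subst hy0
      rw [wall_lgL_eq_zero fun t ht e he => wall_smul_ne hM (hl1 t ht).1.1 (hl1 t ht).2.1 he]
      exact lg_zero
    by_cases hyφ : φ y = 0
    swap
    · rw [wall_lgL_eq_zero fun t ht e he k => hyφ (by rw [k, map_nsmul, (hl1 t ht).2.2, smul_zero])]
      have k := isFact_fact (Ω.th y) gγ
      exact lg_eq_zero k.2.1 (k.suppIn hγ0).2.1 hyφ
    have hdy : 0 < deg y := hM.1 y hy.1 hy0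
    obtain ⟨x, hx1, hx2⟩ := Set.exists_max_image {z | z ∈ below M n ∧ WCol deg z y} deg
      (hT.subset fun z hz => hz.1) ⟨y, hy, WCol.refl y⟩
    have hdx : 0 < deg x := hdy.trans_le (hx2 y ⟨hy, WCol.refl y⟩)
    have hxX : x ∈ X := (hX x).2 ⟨hx1.1, by rintro rfl; simp at hdx, hx1.2.zero hdy.ne' hyφ,
      fun z hz hc => hx2 z ⟨hz, hc.trans hx1.2 hdx.ne'⟩⟩
    rw [hl, wall_lgL_flatMap, Finset.sum_map_toList, Finset.sum_eq_single_of_mem x hxX,
      (hf' x hxX).2 y hy hy0 hx1.2.symm]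
    intro x' hx' hne
    refine wall_lgL_eq_zero fun t ht e he k => hne ?_
    obtain ⟨k1, k2, k3⟩ := (hf' x' hx').1 t ht
    obtain ⟨hxT', hx0', -, hmax'⟩ := (hX x').1 hx'
    have c1 : WCol deg y t.1 := k ▸ wall_col_smul e t.1
    have c2 : WCol deg y x' := c1.trans k3 (hM.1 _ k1.1 k2).ne'
    have c3 : WCol deg x x' := hx1.2.trans c2 hdy.ne'
    have d1 := hmax' x hx1.1 c3
    have d2 := hx2 x' ⟨hxT', c2.symm⟩
    have d3 : deg x' = deg x := le_antisymm d2 d1
    unfold WCol at c3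
    rw [d3] at c3
    exact (wall_cancel hdx.ne' c3).symm
  have hCM : coneL l ≤ M := AddSubmonoid.closure_le.2 (by
    rintro y ⟨t, ht, rfl⟩
    exact (hl1 t ht).1.1)
  have hCS : coneL l ≤ WSp (deg n * Ω.w a0 n) a0 n := AddSubmonoid.closure_le.2 (by
    rintro y ⟨t, ht, rfl⟩
    exact hsp _ (hl1 t ht).1 (hl1 t ht).2.2)
  obtain ⟨R, gR, hR1, hR2, hR3⟩ := rank_two (Ω := Ω) (deg := deg) l
    (fun t ht => hM.1 _ (hl1 t ht).1.1 (hl1 t ht).2.1) (wall_pluecker hq a0 n hCS)
  have hRM : SuppIn M R := fun y hy => hCM (hR1 y hy)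
  have hcn : ∀ y ∈ coneL l, (-Ω.th n) y = 0 → WCol deg y n := fun y hy k =>
    wall_col_of_w hq hw0 (hCS hy) (hsp n hnT hφ) (neg_eq_zero.1 k)
  obtain ⟨l', k1, k2⟩ := hR3 (-Ω.th n) (fun y hy y' hy' k k' => by
    by_cases h0 : y' = 0
    · rw [h0, map_zero]
    · exact wall_w_of_col ((hcn y hy k).trans (hcn y' hy' k').symm hN.ne')
        (hM.1 y' (hCM hy') h0).ne') (deg n)
  have hag : Agree (below M n) γ R := agree_of_att (lowerIn_below M n) gγ gR hγM hRM
    fun y hy => by rw [hl2 y hy, hR2]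
  refine ⟨l'.filter (fun t => decide (t.1 ∈ below M n)), fun t ht => ?_, fun x hx h0 hc => ?_⟩
  · obtain ⟨q1, q2⟩ := List.mem_filter.1 ht
    exact ⟨of_decide_eq_true q2, (k1 t q1).2.1, hcn _ (k1 t q1).1 (k1 t q1).2.2⟩
  rw [wall_lgL_filter _ _ fun t ht e he k =>
    decide_eq_true (wall_below_smul (hCM (k1 t ht).1) he (k ▸ hx)), ← k2 x (hdle x hx),
    wall_lg_agree (lowerIn_below M n) hg hg hgM hgM (fun _ _ => rfl) ha hx, (fact_lex _ _ hg).2]
  refine wall_lg_agree (lowerIn_below M n) gγ gR hγM hRM hag ?_ hx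
  have e : -toR (Ω.th n) = toR (-Ω.th n) := by
    ext y; simp [toR]
  rw [e]
  exact (sameSign_toR _ _).wsymm

theorem wallPos {s : Finset L} (hs : IsSeed s) (hd : DegOK deg s) {g : QT Ω deg}
    (hg : IsCl s g) : WallPos (cone s) g := by
  have hM := hd.goodCone
  have key : ∀ d : ℕ, ∀ n ∈ cone s, deg n < d → WAt (cone s) g n := by
    intro d
    induction d with
    | zero =>
      intro n hn h
      have := hM.nonneg hn
      simp only [Nat.cast_zero] at h
      omega
    | succ d ih =>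
      intro n hn hlt θ hθ hcol
      by_cases hn0 : n = 0
      · subst hn0
        refine ⟨[], fun t ht => absurd ht List.not_mem_nil, fun x hx => ?_⟩
        have : x = 0 := by
          by_contra h0
          have h1 := hM.1 x hx.1 h0
          have h2 := hM.nonneg hx.2
          rw [map_sub, map_zero] at h2
          omega
        rw [this]
        exact lg_zero
      have hN : 0 < deg n := hM.1 n hn hn0
      have hT := hM.below_finite n
      obtain ⟨θ', h1, h2, h3⟩ := exists_perturb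
        (Y := {y | y ∈ Set.image2 (fun a b => Ω.w b n • a - Ω.w a n • b) (below (cone s) n)
          (below (cone s) n) ∧ ¬ WCol deg y n}) hT ((hT.image2 _ hT).subset fun y hy => hy.1) n θ
        (fun y hy => exists_sep_ray hN hy.2)
      rw [hθ] at h1
      have hss : SameSign (below (cone s) n) θ' θ := by
        intro x hx
        rcases lt_trichotomy (θ x) 0 with k | k | k
        · have := (h2 x hx).1 k
          exact ⟨iff_of_true this k, iff_of_false this.ne k.ne⟩
        · have : θ' x = 0 := WCol.zero (hcol x hx k) hN.ne' h1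
          exact ⟨by rw [this, k], iff_of_true this k⟩
        · have := (h2 x hx).2 k
          exact ⟨iff_of_false this.not_gt k.not_gt, iff_of_false this.ne' k.ne'⟩
      have hξ : ∀ y, toR (Ω.th n) y = (Ω.w y n : ℝ) := fun _ => rfl
      have hP : WPr (cone s) g n θ' := by
        refine flow_ind hT θ' (toR (Ω.th n)) (WPr (cone s) g n)
          (fun a b h ha => ha.congr hg.1 hg.2.1 h) (fun x hx k => ?_)
          (fun a ha => wall_inf hd hg hN h1 ha) (fun r _ a b ha hb h => ?_)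
        · rw [hξ, wall_w_of_col (hcol x hx ((hss x hx).2.1 k)) hN.ne', Int.cast_zero]
        · refine wall_step hM hs.sat hg.1 hg.2.1 hn hN
            (fun x hx k => ih x hx (by push_cast at hlt; omega)) ?_ ?_ ha hb h
          · simp [h1, hξ, Ω.alt]
          · intro u hu v hv k1 k2
            by_contra hc
            refine h3 _ ⟨Set.mem_image2_of_mem hu hv, hc⟩ ?_
            simp only [AddMonoidHom.add_apply, AddMonoidHom.smul_apply, hξ, smul_eq_mul] at k1 k2
            simp only [map_sub, map_zsmul, zsmul_eq_mul]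
            linear_combination (Ω.w v n : ℝ) * k1 - (Ω.w u n : ℝ) * k2
      obtain ⟨l, k1, k2⟩ := hP.congr hg.1 hg.2.1 hss
      refine ⟨l, fun t ht => ⟨(k1 t ht).1, (k1 t ht).2.1, (k1 t ht).2.2.zero hN.ne' hθ⟩,
        fun x hx => ?_⟩
      by_cases hx0 : x = 0
      · subst hx0
        rw [wall_lgL_eq_zero fun t ht e he => wall_smul_ne hM (k1 t ht).1.1 (k1 t ht).2.1 he]
        exact lg_zero
      by_cases hx1 : θ x = 0
      · exact k2 x hx hx0 (hcol x hx hx1)
      · rw [wall_lgL_eq_zero fun t ht e he k =>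
          hx1 (by rw [k, map_nsmul, (k1 t ht).2.2.zero hN.ne' hθ, smul_zero])]
        have k := isFact_fact θ hg.1
        exact lg_eq_zero k.2.1 k.2.2.2.2.1 hx1
  intro n hn
  exact key ((deg n).toNat + 1) n hn (by push_cast; omega)

end Crest.Agent.R059
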