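import Crest.Agent.R059.Conf
import Crest.Agent.R059.Green
import Crest.Agent.R059.Wall
import Crest.Agent.R059.Flow

/-! Row 59: the Baxter sequence: all charts of the Hamiltonians are positive. -/

set_option autoImplicit false
set_option linter.unusedSectionVars false
set_option linter.unusedVariables false

noncomputable section
open Classical

namespace Crest.Agent.R059

variable {L : Type} [AddCommGroup L] [Module.Free ℤ L] [Module.Finite ℤ L]
variable {Ω : Form L} {deg : L →+ ℤ}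

lemma baxter_cone_ind {s : Finset L} (M : AddSubmonoid L) (h : ∀ F ∈ s, F ∈ M) {x : L}
    (hx : x ∈ cone s) : x ∈ M :=
  (AddSubmonoid.closure_le (S := M)).2 (fun F hF => h F hF) hx

lemma baxter_mem_cone {s : Finset L} {F : L} (h : F ∈ s) : F ∈ cone s :=
  AddSubmonoid.subset_closure h

lemma baxter_comm {a : QT Ω deg} {p : L} (ha : ∀ x, a.c x ≠ 0 → Ω.w x p = 0) :
    a * QT.mono p 1 = QT.mono p 1 * a := by
  refine QT.ext (funext fun n => ?_)
  rw [QT.mul_c, QT.mul_c, QT.mono_c, mulF_single_left, mulF_single_right]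
  by_cases h : a.c (n - p) = 0
  · rw [h]; simp
  · have h1 := ha _ h
    rw [map_sub, AddMonoidHom.sub_apply, Ω.alt, sub_zero] at h1
    rw [Ω.skew p n, h1]; simp

lemma baxter_isNat_mul {a b : QT Ω deg} (ha : ∀ m, IsNat (a.c m)) (hb : ∀ m, IsNat (b.c m))
    (m : L) : IsNat ((a * b).c m) := by
  rw [QT.mul_c_eq_sum a b m (a.adm.finite_pairs b.adm m).toFinset
    (fun p h1 h2 => (Set.Finite.mem_toFinset _).2 ⟨h1, h2⟩)]
  exact IsNat.sum _ _ fun p _ => ((ha p).mul (hb _)).mul (IsNat.vp _)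

lemma baxter_inv_mul {a b : QT Ω deg} (ha : IsG a) : inv (a * b) = inv b * inv a :=
  Ring.inverse_mul (Or.inl ha.isUnit)

/-- The seeds along a sequence of mutations. -/
def baxterS (Ω : Form L) (s0 : Finset L) (c : ℕ → L) : ℕ → Finset L
  | 0 => s0
  | j + 1 => mutate Ω (baxterS Ω s0 c j) (c j)

lemma baxter_mem_mutate {s : Finset L} {c F : L} :
    F ∈ mutate Ω s c ↔ F = -c ∨ ∃ G ∈ s, G ≠ c ∧ G + (Ω.w c G).toNat • c = F := by
  simp only [mutate, Finset.mem_insert, Finset.mem_image, Finset.mem_erase]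
  constructor
  · rintro (h | ⟨G, ⟨h1, h2⟩, h3⟩)
    exacts [Or.inl h, Or.inr ⟨G, h2, h1, h3⟩]
  · rintro (h | ⟨G, h2, h1, h3⟩)
    exacts [Or.inl h, Or.inr ⟨G, ⟨h1, h2⟩, h3⟩]

namespace Conf
variable {W : Type} [Fintype W] (C : Conf Ω W)

lemma baxter_enum (y0 : W) : ∃ (N : ℕ) (Y : ℕ → W),
    (∀ i j, i < j → j < N → C.P (Y i) < C.P (Y j)) ∧ ∀ y, ∃ j, j < N ∧ Y j = y := by
  let : LinearOrder W := LinearOrder.lift' C.P C.inj
  let e := monoEquivOfFin W rfl
  refine ⟨Fintype.card W, fun j => if h : j < Fintype.card W then e ⟨j, h⟩ else y0,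
    fun i j hij hj => ?_, fun y => ⟨(e.symm y).1, (e.symm y).2, ?_⟩⟩
  · have hi : i < Fintype.card W := hij.trans hj
    simp only [dif_pos hi, dif_pos hj]
    have : e ⟨i, hi⟩ < e ⟨j, hj⟩ := e.strictMono (show (⟨i, hi⟩ : Fin _) < ⟨j, hj⟩ from hij)
    exact this
  · simp only [dif_pos (e.symm y).2, Fin.eta, OrderIso.apply_symm_apply]

lemma baxter_consec {N : ℕ} {Y : ℕ → W} (hY : ∀ i j, i < j → j < N → C.P (Y i) < C.P (Y j))
    (hs : ∀ y, ∃ j, j < N ∧ Y j = y) {i : ℕ} (hi : i + 1 < N) : C.Consec (Y i) (Y (i + 1)) := by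
  refine ⟨hY _ _ (Nat.lt_succ_self i) hi, fun z hz => ?_⟩
  obtain ⟨l, hl, rfl⟩ := hs z
  rcases lt_trichotomy l i with h | h | h
  · exact absurd (hY l i h (by omega)) hz.1.not_gt
  · rw [h] at hz; exact lt_irrefl _ hz.1
  · rcases (show l = i + 1 ∨ i + 1 < l by omega) with h' | h'
    · rw [h'] at hz; exact lt_irrefl _ hz.2
    · exact absurd (hY _ _ h' hl) hz.2.not_gt

lemma baxter_mem_seed {N : ℕ} {Y : ℕ → W} (hY : ∀ i j, i < j → j < N → C.P (Y i) < C.P (Y j))
    (hs : ∀ y, ∃ j, j < N ∧ Y j = y) {F : L} :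
    F ∈ C.seed ↔ ∃ i, i + 1 < N ∧ F = C.x (Y (i + 1)) - C.x (Y i) := by
  simp only [seed, Finset.mem_image, Finset.mem_filter, Finset.mem_univ, true_and]
  constructor
  · rintro ⟨⟨y, y'⟩, ⟨h1, h2⟩, rfl⟩
    obtain ⟨i, hi, rfl⟩ := hs y
    obtain ⟨j, hj, rfl⟩ := hs y'
    dsimp only at h1 h2 ⊢
    have hij : i < j := by
      by_contra h
      rcases (not_lt.1 h).eq_or_lt with h' | h'
      · rw [h'] at h1; exact lt_irrefl _ h1
      · exact absurd (hY _ _ h' hi) h1.not_gt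
    have : j = i + 1 := by
      by_contra h
      exact h2 (Y (i + 1)) ⟨hY _ _ (Nat.lt_succ_self i) (by omega), hY _ _ (by omega) hj⟩
    subst this
    exact ⟨i, hj, rfl⟩
  · rintro ⟨i, hi, rfl⟩
    exact ⟨(Y i, Y (i + 1)), C.baxter_consec hY hs hi, rfl⟩

lemma baxter_w {ξ : L} (hξ : ∀ y, Ω.w ξ (C.x y) = 0) (y y' : W) :
    Ω.w (ξ + C.x y) (C.x y') = adjS C.ℓ (C.P y) (C.P y') := by
  rw [map_add, AddMonoidHom.add_apply, hξ, zero_add, C.compat]

lemma baxter_wξ {ξ : L} (hξ : ∀ y, Ω.w ξ (C.x y) = 0) (y : W) : Ω.w (ξ + C.x y) ξ = 0 := by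
  rw [map_add, AddMonoidHom.add_apply, Ω.alt, Ω.skew, hξ]; simp

lemma baxter_inv (hC : C.Conn) {ξ : L} (hξ : ∀ y, Ω.w ξ (C.x y) = 0) (κ : L →+ ℤ)
    (hκ : κ ξ = 1) (hκx : ∀ y, κ (C.x y) = 0) {N : ℕ} {Y : ℕ → W}
    (hY : ∀ i j, i < j → j < N → C.P (Y i) < C.P (Y j)) (hs : ∀ y, ∃ j, j < N ∧ Y j = y)
    (hN : 0 < N) (j : ℕ) (hj : j ≤ N) (F : L) :
    F ∈ baxterS Ω (insert (ξ + C.x (Y 0)) C.seed) (fun i => ξ + C.x (Y i)) j ↔
      (∃ i, i + 1 = j ∧ F = -(ξ + C.x (Y i))) ∨ (j < N ∧ F = ξ + C.x (Y j)) ∨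
        ∃ i, i + 1 < N ∧ i + 1 ≠ j ∧ F = C.x (Y (i + 1)) - C.x (Y i) := by
  induction j generalizing F with
  | zero =>
    rw [baxterS, Finset.mem_insert, C.baxter_mem_seed hY hs]
    simp [hN]
  | succ j ih =>
    have hjN : j < N := hj
    have adj : ∀ i, i + 1 < N →
        C.P (Y i) < C.P (Y (i + 1)) ∧ C.P (Y (i + 1)) < C.P (Y i) + C.ℓ := fun i hi =>
      ⟨hY _ _ (Nat.lt_succ_self i) hi, hC _ _ (C.baxter_consec hY hs hi)⟩
    have w1 : ∀ i, i + 1 = j → -(ξ + C.x (Y i)) +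
        (Ω.w (ξ + C.x (Y j)) (-(ξ + C.x (Y i)))).toNat • (ξ + C.x (Y j)) =
          C.x (Y (i + 1)) - C.x (Y i) := by
      rintro i rfl
      have := adj i hjN
      rw [map_neg, map_add (Ω.w _), C.baxter_wξ hξ, C.baxter_w hξ, adjS,
        if_neg (by omega), if_pos this]
      simp only [zero_add, neg_neg, Int.toNat_one, one_smul]
      abel
    have w2 : j + 1 < N → C.x (Y (j + 1)) - C.x (Y j) +
        (Ω.w (ξ + C.x (Y j)) (C.x (Y (j + 1)) - C.x (Y j))).toNat • (ξ + C.x (Y j)) =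
          ξ + C.x (Y (j + 1)) := by
      intro h
      have := adj j h
      rw [map_sub, C.baxter_w hξ, C.baxter_w hξ, adjS, adjS, if_pos this,
        if_neg (by omega), if_neg (by omega)]
      simp only [sub_zero, Int.toNat_one, one_smul]
      abel
    have w3 : ∀ i, i + 1 < N → i + 1 ≠ j → i ≠ j → C.x (Y (i + 1)) - C.x (Y i) +
        (Ω.w (ξ + C.x (Y j)) (C.x (Y (i + 1)) - C.x (Y i))).toNat • (ξ + C.x (Y j)) =
          C.x (Y (i + 1)) - C.x (Y i) := by
      intro i h h1 h2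
      have h3 := adj i h
      have h4 : Ω.w (ξ + C.x (Y j)) (C.x (Y (i + 1)) - C.x (Y i)) ≤ 0 := by
        rw [map_sub, C.baxter_w hξ, C.baxter_w hξ, adjS, adjS]
        rcases lt_or_gt_of_ne h2 with h5 | h5
        · have := hY (i + 1) j (by omega) hjN
          split_ifs <;> omega
        · have := hY j i h5 (by omega)
          split_ifs <;> omega
      rw [Int.toNat_of_nonpos h4, zero_smul, add_zero]
    have n1 : ∀ i, -(ξ + C.x (Y i)) ≠ ξ + C.x (Y j) := fun i h => by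
      have := congrArg κ h
      simp only [map_neg, map_add, hκ, hκx] at this
      omega
    have n2 : ∀ i, C.x (Y (i + 1)) - C.x (Y i) ≠ ξ + C.x (Y j) := fun i h => by
      have := congrArg κ h
      simp only [map_sub, map_add, hκ, hκx] at this
      omega
    rw [baxterS, baxter_mem_mutate]
    constructor
    · rintro (h | ⟨G, hG, hne, rfl⟩)
      · exact Or.inl ⟨j, rfl, h⟩
      · rcases (ih hjN.le G).1 hG with ⟨i, hi, rfl⟩ | ⟨-, rfl⟩ | ⟨i, hi, hi', rfl⟩
        · exact Or.inr (Or.inr ⟨i, by omega, by omega, w1 i hi⟩)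
        · exact absurd rfl hne
        · by_cases hij : i = j
          · subst hij
            exact Or.inr (Or.inl ⟨hi, w2 hi⟩)
          · exact Or.inr (Or.inr ⟨i, hi, by omega, w3 i hi hi' hij⟩)
    · rintro (⟨i, hi, rfl⟩ | ⟨h, rfl⟩ | ⟨i, hi, hi', rfl⟩)
      · obtain rfl : i = j := by omega
        exact Or.inl rfl
      · exact Or.inr ⟨_, (ih hjN.le _).2 (Or.inr (Or.inr ⟨j, h, by omega, rfl⟩)), n2 j, w2 h⟩
      · by_cases hij : i + 1 = j
        · exact Or.inr ⟨_, (ih hjN.le _).2 (Or.inl ⟨i, hij, rfl⟩), n1 i, w1 i hij⟩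
        · exact Or.inr ⟨_, (ih hjN.le _).2 (Or.inr (Or.inr ⟨i, hi, hij, rfl⟩)), n2 i,
            w3 i hi hij (by omega)⟩

/-- The terms of the Baxter operator. -/
def baxterT (deg : L →+ ℤ) (ξ η : L) (S : Finset W) : QT Ω deg :=
  if C.Indep S then QT.mono (η + S.card • ξ + C.xS S) 1 else 0

lemma baxter_step {ξ η : L} (hξ : ∀ y, Ω.w ξ (C.x y) = 0) (hη : ∀ y, Ω.w (C.x y) η = 0)
    (hξη : Ω.w ξ η = 1) {y : W} (hd : 0 < deg (ξ + C.x y)) {S : Finset W}
    (hS : ∀ z ∈ S, C.P z < C.P y) :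
    inv (Phi Ω deg (ξ + C.x y) 1) * C.baxterT deg ξ η S * Phi Ω deg (ξ + C.x y) 1 =
      C.baxterT deg ξ η S + C.baxterT deg ξ η (insert y S) := by
  have hy : y ∉ S := fun h => lt_irrefl _ (hS y h)
  have hw : Ω.w (ξ + C.x y) (η + S.card • ξ + C.xS S) =
      1 + ∑ z ∈ S, adjS C.ℓ (C.P y) (C.P z) := by
    rw [map_add (Ω.w _), map_add (Ω.w _), map_nsmul, C.baxter_wξ hξ, smul_zero, add_zero, xS,
      map_sum, Finset.sum_congr rfl (fun z _ => C.baxter_w hξ y z), map_add,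
      AddMonoidHom.add_apply, hξη, hη, add_zero]
  unfold baxterT
  by_cases h1 : C.Indep S
  · rw [if_pos h1]
    by_cases h2 : ∀ z ∈ S, C.ℓ ≤ C.P y - C.P z
    · have h3 : C.Indep (insert y S) := by
        intro a ha b hb hab
        rcases Finset.mem_insert.1 ha with rfl | ha' <;>
          rcases Finset.mem_insert.1 hb with rfl | hb'
        · exact absurd rfl hab
        · exact (h2 b hb').trans (le_abs_self _)
        · rw [abs_sub_comm]; exact (h2 a ha').trans (le_abs_self _)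
        · exact h1 a ha' b hb' hab
      rw [if_pos h3, conj_mono_one hd _ (by
        rw [hw, Finset.sum_eq_zero, add_zero]
        intro z hz
        have := h2 z hz
        have := hS z hz
        rw [adjS, if_neg (by omega), if_neg (by omega)])]
      congr 2
      rw [Finset.card_insert_of_notMem hy, xS, xS, Finset.sum_insert hy, succ_nsmul]
      abel
    · push Not at h2
      obtain ⟨z, hz, h3⟩ := h2
      have hzy := hS z hz
      have h4 : ¬ C.Indep (insert y S) := fun h => by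
        have := h y (Finset.mem_insert_self _ _) z (Finset.mem_insert_of_mem hz)
          (fun e => hy (e ▸ hz))
        rw [abs_of_pos (by omega)] at this
        omega
      rw [if_neg h4, add_zero]
      refine conj_mono_zero hd _ ?_
      rw [hw, Finset.sum_eq_single_of_mem z hz, adjS, if_neg (by omega), if_pos (by omega)]
      · rfl
      · intro z' hz' hne
        have h5 := h1 z' hz' z hz hne
        have h6 := hS z' hz'
        rw [le_abs] at h5
        rw [adjS, if_neg (by omega), if_neg (by omega)]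
  · have h3 : ¬ C.Indep (insert y S) := fun h => h1 fun a ha b hb hab =>
      h a (Finset.mem_insert_of_mem ha) b (Finset.mem_insert_of_mem hb) hab
    rw [if_neg h1, if_neg h3]; simp

lemma baxter_conj {ξ η : L} (hξ : ∀ y, Ω.w ξ (C.x y) = 0) (hη : ∀ y, Ω.w (C.x y) η = 0)
    (hξη : Ω.w ξ η = 1) {N : ℕ} {Y : ℕ → W}
    (hY : ∀ i j, i < j → j < N → C.P (Y i) < C.P (Y j))
    (hd : ∀ j, j < N → 0 < deg (ξ + C.x (Y j))) (j : ℕ) (hj : j ≤ N) :
    inv (PhiL Ω deg ((List.range j).map fun i => (ξ + C.x (Y i), 1))) * QT.mono η 1 *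
      PhiL Ω deg ((List.range j).map fun i => (ξ + C.x (Y i), 1)) =
      ∑ S ∈ ((Finset.range j).image Y).powerset, C.baxterT deg ξ η S := by
  induction j with
  | zero =>
    have : C.Indep ∅ := fun a ha => absurd ha (Finset.notMem_empty a)
    simp [PhiL, baxterT, this, xS]
  | succ j ih =>
    have hjN : j < N := hj
    have hlt : ∀ z ∈ (Finset.range j).image Y, C.P z < C.P (Y j) := by
      intro z hz
      obtain ⟨i, hi, rfl⟩ := Finset.mem_image.1 hz
      exact hY i j (Finset.mem_range.1 hi) hjN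
    rw [green_PhiL_succ (fun i => ξ + C.x (Y i)), baxter_inv_mul (isG_PhiL _), Finset.range_add_one,
      Finset.image_insert, Finset.sum_powerset_insert (fun h => lt_irrefl _ (hlt _ h)),
      ← Finset.sum_add_distrib, ← Finset.sum_congr rfl (fun S hS => C.baxter_step hξ hη hξη
        (hd j hjN) (fun z hz => hlt z (Finset.mem_powerset.1 hS hz))),
      ← Finset.sum_mul, ← Finset.mul_sum, ← ih hjN.le]
    simp only [mul_assoc]

lemma baxter_coeff {ξ η : L} (hξ : ∀ y, Ω.w ξ (C.x y) = 0) (hη : ∀ y, Ω.w (C.x y) η = 0)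
    (κ : L →+ ℤ) (hκ : κ ξ = 1) (hκx : ∀ y, κ (C.x y) = 0) {A : QT Ω deg} (hA : IsG A)
    (hAs : SuppIn (cone C.seed) A) (k : ℕ) {m : L} (hm : κ m = 0) :
    (inv A * (∑ S ∈ (Finset.univ : Finset W).powerset, C.baxterT deg ξ η S) * A).c
        (η + k • ξ + m) =
      (inv A * C.E deg k * A).c m * vp (Ω.w (η + k • ξ) (η + k • ξ + m)) := by
  have hseed : ∀ (φ : L →+ ℤ), (∀ y, φ (C.x y) = 0) → ∀ x ∈ cone C.seed, φ x = 0 := by
    intro φ hφ x hx
    refine baxter_cone_ind (zerM φ) (fun F hF => ?_) hx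
    obtain ⟨p, -, rfl⟩ := Finset.mem_image.1 hF
    exact mem_zerM.2 (by rw [map_sub, hφ, hφ, sub_zero])
  have hxξ : ∀ y, Ω.w (C.x y) ξ = 0 := fun y => by rw [Ω.skew, hξ, neg_zero]
  have hw : ∀ (j : ℕ) (y : W), Ω.w (C.x y) (η + j • ξ) = 0 := fun j y => by
    rw [map_add, map_nsmul, hη, hxξ, smul_zero, add_zero]
  have hAi := hA.suppIn_inv hAs
  rw [E, Finset.sum_filter, Finset.powerset_univ, Finset.mul_sum, Finset.mul_sum, Finset.sum_mul,
    Finset.sum_mul, QT.sum_c, QT.sum_c, Finset.sum_mul]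
  refine Finset.sum_congr rfl fun S _ => ?_
  unfold baxterT
  by_cases h1 : C.Indep S
  · have e1 : (QT.mono (η + S.card • ξ + C.xS S) 1 : QT Ω deg) =
        QT.mono (η + S.card • ξ) 1 * QT.mono (C.xS S) 1 := by
      rw [QT.mono_mul_mono, Ω.skew, xS, map_sum, AddMonoidHom.finsetSum_apply,
        Finset.sum_eq_zero (fun y _ => hw _ y), neg_zero, vp_zero, one_mul, one_mul]
    have e2 : inv A * (QT.mono (η + S.card • ξ) 1 * QT.mono (C.xS S) 1) * A =
        QT.mono (η + S.card • ξ) 1 * (inv A * QT.mono (C.xS S) 1 * A) := by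
      rw [← mul_assoc, baxter_comm (fun x hx => hseed (Ω.th _) (hw _) x (hAi x hx))]
      simp only [mul_assoc]
    rw [if_pos h1, e1, e2, QT.mul_c, QT.mono_c, mulF_single_left, one_mul]
    by_cases h2 : S.card = k
    · rw [if_pos ⟨h2, h1⟩, h2, add_sub_cancel_left]
    · rw [if_neg (fun h => h2 h.1)]
      have h3 : SuppIn (zerM κ) (inv A * QT.mono (C.xS S) 1 * A) := by
        refine SuppIn.mul (SuppIn.mul (fun x hx => hseed κ hκx x (hAi x hx)) (fun x hx => ?_))
          (fun x hx => hseed κ hκx x (hAs x hx))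
        have : x = C.xS S := by
          by_contra h
          exact hx (by rw [QT.mono_c, Pi.single_eq_of_ne h])
        rw [this, mem_zerM, xS, map_sum, Finset.sum_eq_zero (fun y _ => hκx y)]
      have h4 : (inv A * QT.mono (C.xS S) 1 * A).c (η + k • ξ + m - (η + S.card • ξ)) = 0 := by
        by_contra h
        have := mem_zerM.1 (h3 _ h)
        simp only [map_sub, map_add, map_nsmul, hκ, hm, nsmul_eq_mul, mul_one] at this
        omega
      rw [h4]; simp
  · rw [if_neg h1, if_neg (fun h => h1 h.2)]; simp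

theorem baxter (hC : C.Conn) (ξ η : L) (hξ : ∀ y, Ω.w ξ (C.x y) = 0)
    (hη : ∀ y, Ω.w (C.x y) η = 0) (hξη : Ω.w ξ η = 1) (κ : L →+ ℤ) (hκ : κ ξ = 1)
    (hκη : κ η = 0) (hκx : ∀ y, κ (C.x y) = 0) (y0 : W) (h0 : ∀ y, C.P y0 ≤ C.P y)
    (hs : IsSeed (insert (ξ + C.x y0) C.seed)) (hd : DegOK deg (insert (ξ + C.x y0) C.seed))
    {g : QT Ω deg} (hg : IsCl C.seed g) (k : ℕ) (θ : L →+ ℤ) (m : L) :
    IsNat ((chart g θ (C.E deg k)).c m) := by
  obtain ⟨N, Y, hY, hsY⟩ := C.baxter_enum y0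
  have hN : 0 < N := by obtain ⟨j, hj, -⟩ := hsY y0; omega
  obtain rfl : y0 = Y 0 := by
    obtain ⟨j, hj, rfl⟩ := hsY y0
    rcases Nat.eq_zero_or_pos j with h | h
    · rw [h]
    · exact absurd (hY 0 j h hj) (h0 _).not_gt
  have hF := isFact_fact θ hg.1
  have hA : IsG (fneg g θ) := hF.1
  have hAs : SuppIn (cone C.seed) (fneg g θ) := (hF.suppIn hg.2.1).1
  have hκs : ∀ F ∈ C.seed, κ F = 0 := fun F hF => by
    obtain ⟨p, -, rfl⟩ := Finset.mem_image.1 hF
    rw [map_sub, hκx, hκx, sub_zero]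
  have hκc : ∀ y, κ (ξ + C.x y) = 1 := fun y => by rw [map_add, hκ, hκx, add_zero]
  by_cases hm : κ m = 0
  swap
  · have h3 : SuppIn (shift 0 (zerM κ)) (chart g θ (C.E deg k)) := by
      refine chart_suppIn θ hg.1 (fun x hx => baxter_cone_ind (zerM κ) hκs (hg.2.1 x hx)) ?_
      intro x hx
      rw [E, QT.sum_c] at hx
      obtain ⟨S, -, hS⟩ := Finset.exists_ne_zero_of_sum_ne_zero hx
      have : x = C.xS S := by
        by_contra h
        exact hS (by rw [QT.mono_c, Pi.single_eq_of_ne h])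
      rw [shift_zero, this, mem_zerM, xS, map_sum, Finset.sum_eq_zero (fun y _ => hκx y)]
    have h4 : (chart g θ (C.E deg k)).c m = 0 := by
      by_contra h
      have := h3 m h
      rw [shift_zero] at this
      exact hm this
    rw [h4]; exact IsNat.zero
  set c : ℕ → L := fun i => ξ + C.x (Y i) with hcdef
  set s := baxterS Ω (insert (ξ + C.x (Y 0)) C.seed) c with hsdef
  have hinv := C.baxter_inv hC hξ κ hκ hκx hY hsY hN
  have hp : ∀ j < N, c j ∈ cone (s 0) := by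
    intro j _
    have h1 : C.x (Y j) - C.x (Y 0) ∈ cone (s 0) :=
      baxter_cone_ind _ (fun F hF => baxter_mem_cone (Finset.mem_insert_of_mem hF))
        (C.sub_mem_cone (h0 _))
    have h2 : ξ + C.x (Y 0) ∈ cone (s 0) := baxter_mem_cone (Finset.mem_insert_self _ _)
    have := (cone (s 0)).add_mem h2 h1
    rwa [show ξ + C.x (Y 0) + (C.x (Y j) - C.x (Y 0)) = c j by simp only [hcdef]; abel] at this
  have hn : ∀ i j, i < j → j ≤ N → -c i ∈ cone (s j) := by
    intro i j hij hj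
    obtain ⟨d, rfl⟩ := Nat.exists_eq_add_of_lt hij
    suffices h : ∀ d i j, i + d + 1 = j → j ≤ N → -c i ∈ cone (s j) from h d i _ rfl hj
    intro d
    induction d with
    | zero =>
      intro i j hij hj
      exact baxter_mem_cone ((hinv j hj _).2 (Or.inl ⟨i, hij, rfl⟩))
    | succ d ih =>
      intro i j hij hj
      have h1 := ih (i + 1) j (by omega) hj
      have h2 : C.x (Y (i + 1)) - C.x (Y i) ∈ cone (s j) :=
        baxter_mem_cone ((hinv j hj _).2 (Or.inr (Or.inr ⟨i, by omega, by omega, rfl⟩)))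
      have := (cone (s j)).add_mem h1 h2
      rwa [show -c (i + 1) + (C.x (Y (i + 1)) - C.x (Y i)) = -c i by
        simp only [hcdef]; abel] at this
  obtain ⟨G, hG⟩ := exists_isCl (Ω := Ω) hd
  obtain ⟨-, r, hr, hrs, hGr⟩ := green s c N hs hd
    (fun j hj => (hinv j hj.le _).2 (Or.inr (Or.inl ⟨hj, rfl⟩))) (fun j _ => rfl) hp hn hG
  set Q := PhiL Ω deg ((List.range N).map fun j => (c j, 1)) with hQdef
  have hQ : IsG Q := isG_PhiL _
  have hQs : SuppIn (negM (-κ)) Q := by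
    refine suppIn_PhiL fun t ht => ?_
    obtain ⟨i, -, rfl⟩ := List.mem_map.1 ht
    exact mem_negM.2 (Or.inr (by rw [AddMonoidHom.neg_apply, hκc]; norm_num))
  have hrκ : ∀ x, r.c x ≠ 0 → κ x = 0 := by
    intro x hx
    have h1 : x ∈ nnM κ := baxter_cone_ind _ (fun F hF => mem_nnM.2 (by
      rcases Finset.mem_insert.1 hF with rfl | hF
      · rw [hκc]; norm_num
      · exact (hκs F hF).ge)) (hrs x hx).1
    have h2 : x ∈ npM κ := baxter_cone_ind _ (fun F hF => mem_npM.2 (by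
      rcases (hinv N le_rfl F).1 hF with ⟨i, -, rfl⟩ | ⟨h, -⟩ | ⟨i, -, -, rfl⟩
      · rw [map_neg, hκc]; norm_num
      · exact absurd h (lt_irrefl _)
      · rw [map_sub, hκx, hκx, sub_zero])) (hrs x hx).2
    exact le_antisymm (mem_npM.1 h2) (mem_nnM.1 h1)
  have hgr : g = r := by
    rw [hg.unique (IsCl.restrict (Finset.subset_insert _ _) hd κ hκs (fun F hF hF' => by
      rw [(Finset.mem_insert.1 hF).resolve_right hF', hκc]; exact one_pos) hG)]
    refine QT.ext (funext fun n => ?_)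
    simp only [restrict]
    by_cases h : κ n = 0
    · rw [if_pos (show n ∈ {x | κ x = 0} from h), hGr, mul_c_right_lg, hQ.1, one_mul]
      intro p h1 h2
      rcases mem_negM.1 (hQs p h1) with h3 | h3
      · exact h3
      · have h4 := hrκ _ h2
        rw [map_sub] at h4
        rw [AddMonoidHom.neg_apply] at h3
        omega
    · rw [if_neg (show n ∉ {x | κ x = 0} from h)]
      by_contra h'
      exact h (hrκ n (Ne.symm h'))
  have hfact : IsFact (-κ) G Q g 1 :=
    ⟨hQ, hg.1, IsG.one, hQs, fun x hx => mem_zerM.2 (by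
      rw [AddMonoidHom.neg_apply, hrκ x (hgr ▸ hx), neg_zero]), suppIn_one _,
      by rw [mul_one, hgr]; exact hGr⟩
  have hasym : ∀ n, IsNat (asym G (QT.mono η 1) n) := by
    intro n
    rw [asym_mono hG.1 hG.2.1 (fun x hx => baxter_cone_ind (nnM (Ω.th η)) (fun F hF => ?_) hx)]
    · split_ifs
      exacts [IsNat.one, IsNat.zero]
    · show 0 ≤ Ω.w F η
      rcases Finset.mem_insert.1 hF with rfl | hF
      · rw [map_add, AddMonoidHom.add_apply, hξη, hη]; norm_num
      · obtain ⟨p, -, rfl⟩ := Finset.mem_image.1 hF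
        rw [map_sub, AddMonoidHom.sub_apply, hη, hη, sub_zero]
  have hflow := (flow_lex hd.goodCone hs.sat hG.1 hG.2.1 (wallPos hs hd hG) (p := η)
    (fun x hx => by
      have : x = η := by
        by_contra h
        exact hx (by rw [QT.mono_c, Pi.single_eq_of_ne h])
      rw [this]
      show η - η ∈ cone _
      rw [sub_self]; exact AddSubmonoid.zero_mem _)
    hasym (-κ) θ (η + k • ξ + m)).add (hasym (η + k • ξ + m))
  have hdc : ∀ j, j < N → 0 < deg (ξ + C.x (Y j)) := fun j hj =>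
    hd.goodCone.1 _ (hp j hj) (fun h => by
      have := hκc (Y j)
      rw [h, map_zero] at this
      exact zero_ne_one this)
  have huniv : (Finset.range N).image Y = Finset.univ := by
    refine Finset.eq_univ_of_forall fun y => ?_
    obtain ⟨j, hj, rfl⟩ := hsY y
    exact Finset.mem_image_of_mem _ (Finset.mem_range.2 hj)
  have hconj := C.baxter_conj hξ hη hξη hY hdc N le_rfl
  rw [huniv] at hconj
  rw [sub_add_cancel, chart, (fact_lex (-κ) θ hG.1).1, hfact.eq.1, hfact.eq.2.1,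
    baxter_inv_mul hQ, show inv (fneg g θ) * inv Q * QT.mono η 1 * (Q * fneg g θ) =
      inv (fneg g θ) * (inv Q * QT.mono η 1 * Q) * fneg g θ by simp only [mul_assoc],
    hconj, C.baxter_coeff hξ hη κ hκ hκx hA hAs k hm] at hflow
  have := hflow.mul (IsNat.vp (-Ω.w (η + k • ξ) (η + k • ξ + m)))
  rwa [mul_assoc, ← vp_add, add_neg_cancel, vp_zero, mul_one] at this

theorem asym_EL_isNat (hC : C.Conn) (ξ η : L) (hξ : ∀ y, Ω.w ξ (C.x y) = 0)
    (hη : ∀ y, Ω.w (C.x y) η = 0) (hξη : Ω.w ξ η = 1) (κ : L →+ ℤ) (hκ : κ ξ = 1)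
    (hκη : κ η = 0) (hκx : ∀ y, κ (C.x y) = 0) (y0 : W) (h0 : ∀ y, C.P y0 ≤ C.P y)
    (hs : IsSeed (insert (ξ + C.x y0) C.seed)) (hd : DegOK deg (insert (ξ + C.x y0) C.seed))
    {g : QT Ω deg} (hg : IsCl C.seed g) (μ : List ℕ) (m : L) :
    IsNat (asym g (C.EL deg μ) m) := by
  suffices h : ∀ (θ : L →+ ℤ) (m : L), IsNat ((chart g θ (C.EL deg μ)).c m) from h _ m
  intro θ
  induction μ with
  | nil =>
    intro n
    have hA : IsG (fneg g θ) := (isFact_fact θ hg.1).1
    rw [EL, List.map_nil, List.prod_nil, chart, mul_one, Ring.inverse_mul_cancel _ hA.isUnit,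
      one_c_apply]
    split_ifs
    exacts [IsNat.one, IsNat.zero]
  | cons k μ ih =>
    rw [EL, List.map_cons, List.prod_cons, chart_mul θ hg.1]
    exact baxter_isNat_mul
      (C.baxter hC ξ η hξ hη hξη κ hκ hκη hκx y0 h0 hs hd hg k θ) ih

end Conf

end Crest.Agent.R059
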