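import Crest.Agent.R059.Word

/-! Row 59: colourings and products of Hamiltonians. -/

set_option autoImplicit false
set_option linter.unusedSectionVars false
set_option linter.unusedVariables false

noncomputable section
open Classical
open Crest.CombinatoricsR.UnitInterval

namespace Crest.Agent.R059

variable {n s : ℕ} {h : Fin n → ℕ} {slot : Fin n → Fin s} {π : Fin n ≃ Fin n}

section
variable {L : Type} [AddCommGroup L] [Module.Free ℤ L] [Module.Finite ℤ L]
variable {Ω : Form L} {W : Type} [Fintype W]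

lemma col_E (C : Conf Ω W) (deg : L →+ ℤ) (k : ℕ) :
    C.E deg k = ∑ S : Finset W,
      QT.mono (C.xS S) (if S.card = k ∧ C.Indep S then 1 else 0) := by
  unfold Conf.E
  rw [Finset.sum_filter]
  refine Finset.sum_congr rfl fun S _ => ?_
  split_ifs
  · rfl
  · exact QT.ext (by rw [QT.mono_c, Pi.single_zero]; rfl)

lemma col_EL (C : Conf Ω W) (deg : L →+ ℤ) {N : ℕ} (a : Fin N → ℕ) :
    C.EL deg (List.ofFn a).reverse = ∑ S : Fin N → Finset W,
      QT.mono (∑ c, C.xS (S c))
        ((∏ c, if (S c).card = a c ∧ C.Indep (S c) then 1 else 0) *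
          vp (∑ c, ∑ c', if c' < c then Ω.w (C.xS (S c)) (C.xS (S c')) else 0)) := by
  induction N with
  | zero =>
    simp only [List.ofFn_zero, List.reverse_nil, Finset.univ_unique, Finset.sum_singleton,
      Finset.univ_eq_empty, Finset.sum_empty, Finset.prod_empty, vp_zero, mul_one]
    rfl
  | succ N ih =>
    have e : C.EL deg (List.ofFn a).reverse =
        C.EL deg (List.ofFn fun i : Fin N => a i.succ).reverse * C.E deg (a 0) := by
      unfold Conf.EL
      rw [List.ofFn_succ, List.reverse_cons, List.map_append, List.prod_append, List.map_singleton,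
        List.prod_singleton]
    rw [e, ih, col_E, ← (Fin.consEquiv (fun _ : Fin (N + 1) => Finset W)).sum_comp,
      Fintype.sum_prod_type, Finset.sum_comm, Finset.sum_mul_sum]
    refine Finset.sum_congr rfl fun S _ => Finset.sum_congr rfl fun T _ => ?_
    rw [QT.mono_mul_mono]
    simp only [Fin.consEquiv_apply, Fin.sum_univ_succ, Fin.prod_univ_succ, Fin.cons_zero,
      Fin.cons_succ, lt_self_iff_false, if_false, Fin.not_lt_zero, Finset.sum_const_zero,
      Fin.succ_pos, if_true, Fin.succ_lt_succ_iff, zero_add, Finset.sum_add_distrib, map_sum,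
      AddMonoidHom.finsetSum_apply, vp_add]
    congr 1
    · exact add_comm _ _
    · ring
end

lemma col_xW (slot : Fin n → Fin s) (y : Vx n s) : xW slot 0 y = ev y := by
  cases y with
  | inl i =>
    have : kk n 0 i = 0 := by
      unfold kk
      exact Nat.div_eq_of_lt (by have := i.2; omega)
    simp only [xW, this, zero_smul, add_zero]
  | inr j => rfl

lemma col_xS_apply (slot : Fin n → Fin s) (S : Finset (Vx n s)) (y : Vx n s) :
    (confW slot 0).xS S (Sum.inl y) = if y ∈ S then 1 else 0 := by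
  have : (confW slot 0).xS S = ∑ z ∈ S, ev z := Finset.sum_congr rfl fun z _ => col_xW slot z
  rw [this, Finset.sum_apply]
  simp only [ev, Pi.single_apply, Sum.inl.injEq]
  rw [Finset.sum_ite_eq]

/-- The letter of a vertex. -/
def colE (π : Fin n ≃ Fin n) : Fin n ↪ Vx n s := π.toEmbedding.trans Function.Embedding.inl

lemma colE_apply (a : Fin n) : (colE π a : Vx n s) = Sum.inl (π a) := rfl

/-- The colour classes of a colouring. -/
def colS (π : Fin n ≃ Fin n) {N : ℕ} (f : Fin n → Fin N) (c : Fin N) : Finset (Vx n s) :=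
  (Finset.univ.filter fun a => f a = c).map (colE π)

lemma col_mono_c {L : Type} [AddCommGroup L] {Ω : Form L} {deg : L →+ ℤ} (p q : L) (x : K) :
    (QT.mono p x : QT Ω deg).c q = if q = p then x else 0 := by
  rw [QT.mono_c, Pi.single_apply]

lemma col_mem {N : ℕ} (f : Fin n → Fin N) (c : Fin N) (y : Vx n s) :
    y ∈ colS π f c ↔ ∃ a, f a = c ∧ Sum.inl (π a) = y := by
  simp [colS, colE_apply]

lemma col_inj {N : ℕ} : Function.Injective (colS (s := s) π (N := N)) := by
  intro f g hfg
  funext a
  have h1 : (Sum.inl (π a) : Vx n s) ∈ colS π f (f a) := (col_mem _ _ _).2 ⟨a, rfl, rfl⟩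
  rw [hfg, col_mem] at h1
  obtain ⟨b, hb, hb'⟩ := h1
  rw [← hb, π.injective (Sum.inl_injective hb')]

lemma col_sum {N : ℕ} (f : Fin n → Fin N) : ∑ c, (confW slot 0).xS (colS π f c) = uAll := by
  unfold Conf.xS colS uAll
  simp only [Finset.sum_map, colE_apply]
  rw [Finset.sum_fiberwise Finset.univ f (fun a => (confW slot 0).x (Sum.inl (π a))),
    ← π.sum_comp (fun i => ev (Sum.inl i))]
  exact Finset.sum_congr rfl fun a _ => col_xW slot (Sum.inl (π a))

lemma col_surj {N : ℕ} (S : Fin N → Finset (Vx n s))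
    (hS : uAll = ∑ c, (confW slot 0).xS (S c)) : ∃ f, colS π f = S := by
  have h1 : ∀ y : Vx n s, ((Finset.univ.filter fun c => y ∈ S c).card : ℤ) =
      ∑ i : Fin n, if y = Sum.inl i then 1 else 0 := by
    intro y
    have := congrFun hS (Sum.inl y)
    rw [Finset.sum_apply] at this
    simp only [col_xS_apply, uAll, Finset.sum_apply, ev, Pi.single_apply, Sum.inl.injEq] at this
    rw [this, Finset.sum_boole]
  have h2 : ∀ a : Fin n, ∃ c, (Finset.univ.filter fun c => Sum.inl (π a) ∈ S c) = {c} := by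
    intro a
    have := h1 (Sum.inl (π a))
    simp only [Sum.inl.injEq, Finset.sum_ite_eq, Finset.mem_univ, if_true] at this
    exact Finset.card_eq_one.1 (by exact_mod_cast this)
  choose f hf using h2
  have h3 : ∀ a c, Sum.inl (π a) ∈ S c ↔ c = f a := by
    intro a c
    rw [← Finset.mem_singleton, ← hf a]
    simp
  refine ⟨f, funext fun c => Finset.ext fun y => ?_⟩
  rw [col_mem]
  constructor
  · rintro ⟨a, ha, rfl⟩
    exact (h3 a c).2 ha.symm
  · intro hy
    cases y with
    | inl i =>
      refine ⟨π.symm i, ((h3 _ c).1 ?_).symm, by simp⟩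
      simpa using hy
    | inr j =>
      have := h1 (Sum.inr j)
      simp only [reduceCtorEq, if_false, Finset.sum_const_zero, Nat.cast_eq_zero,
        Finset.card_eq_zero] at this
      exact absurd (Finset.mem_filter.2 ⟨Finset.mem_univ c, hy⟩) (by rw [this]; simp)

lemma col_edge_symm {a b : Fin n} (e : IsEdge h a b) : IsEdge h b a := Or.symm e

lemma col_edge_ne {a b : Fin n} (e : IsEdge h a b) : a ≠ b := by
  rintro rfl
  rcases e with e | e <;> exact lt_irrefl _ e.1

lemma col_indep (hr : Realises h slot π) {N : ℕ} (f : Fin n → Fin N) :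
    (∀ c, (confW slot 0).Indep (colS π f c)) ↔ ∀ a b, IsEdge h a b → f a ≠ f b := by
  have key : ∀ a b : Fin n, a ≠ b → (IsEdge h a b ↔
      |posW slot 0 (Sum.inl (π a)) - posW slot 0 (Sum.inl (π b))| < (n : ℤ) + 1) := by
    have k1 : ∀ a b : Fin n, a < b → (IsEdge h a b ↔
        |posW slot 0 (Sum.inl (π a)) - posW slot 0 (Sum.inl (π b))| < (n : ℤ) + 1) := by
      intro a b hab
      obtain ⟨h1, h2⟩ := hr a b hab
      rw [h2, abs_of_neg (by omega)]
      omega
    intro a b hab
    rcases lt_or_gt_of_ne hab with h1 | h1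
    · exact k1 a b h1
    · rw [abs_sub_comm, ← k1 b a h1]
      exact ⟨col_edge_symm, col_edge_symm⟩
  constructor
  · intro hI a b e hab
    have hne := col_edge_ne e
    have := hI (f a) (Sum.inl (π a)) ((col_mem _ _ _).2 ⟨a, rfl, rfl⟩) (Sum.inl (π b))
      ((col_mem _ _ _).2 ⟨b, hab.symm, rfl⟩) (fun h' => hne (π.injective (Sum.inl_injective h')))
    exact absurd ((key a b hne).1 e) (not_lt.2 this)
  · intro hp c y hy y' hy' hne
    obtain ⟨a, ha, rfl⟩ := (col_mem _ _ _).1 hy
    obtain ⟨b, hb, rfl⟩ := (col_mem _ _ _).1 hy'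
    have hab : a ≠ b := fun h' => hne (by rw [h'])
    exact not_lt.1 fun h' => hp a b ((key a b hab).2 h') (ha.trans hb.symm)

lemma col_adj (hr : Realises h slot π) (a b : Fin n) :
    adjS (n + 1) (posW slot 0 (Sum.inl (π a))) (posW slot 0 (Sum.inl (π b))) =
      (if a < b ∧ IsEdge h a b then 1 else 0) - if b < a ∧ IsEdge h b a then 1 else 0 := by
  unfold adjS
  rcases lt_trichotomy a b with hab | rfl | hab
  · obtain ⟨h1, h2⟩ := hr a b hab
    simp only [hab, hab.not_gt, h1, h1.not_gt, h2, true_and, false_and, if_false, sub_zero]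
  · simp
  · obtain ⟨h1, h2⟩ := hr b a hab
    simp only [hab, hab.not_gt, h1, h1.not_gt, h2, true_and, false_and, if_false, zero_sub]
    split_ifs <;> rfl

lemma col_exp (hr : Realises h slot π) {N : ℕ} (f : Fin n → Fin N)
    (hp : ∀ a b, IsEdge h a b → f a ≠ f b) :
    (∑ c, ∑ c', if c' < c then (ΩW slot).w ((confW slot 0).xS (colS π f c))
      ((confW slot 0).xS (colS π f c')) else 0) = (nE h : ℤ) + -2 * (ascents h f : ℤ) := by
  have e1 : ∀ c c', (ΩW slot).w ((confW slot 0).xS (colS π f c)) ((confW slot 0).xS (colS π f c')) =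
      ∑ a ∈ Finset.univ.filter (fun a => f a = c), ∑ b ∈ Finset.univ.filter (fun b => f b = c'),
        adjS (n + 1) (posW slot 0 (Sum.inl (π a))) (posW slot 0 (Sum.inl (π b))) := by
    intro c c'
    unfold Conf.xS colS
    simp only [Finset.sum_map, colE_apply, map_sum, AddMonoidHom.finsetSum_apply]
    rw [Finset.sum_comm]
    exact Finset.sum_congr rfl fun a _ => Finset.sum_congr rfl fun b _ => (confW slot 0).compat _ _
  have e2 : (∑ c, ∑ c', if c' < c then (ΩW slot).w ((confW slot 0).xS (colS π f c))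
      ((confW slot 0).xS (colS π f c')) else 0) = ∑ a, ∑ b, if f b < f a then
        adjS (n + 1) (posW slot 0 (Sum.inl (π a))) (posW slot 0 (Sum.inl (π b))) else 0 := by
    rw [← Finset.sum_fiberwise Finset.univ f]
    refine Finset.sum_congr rfl fun c _ => ?_
    rw [Finset.sum_comm, ← Finset.sum_fiberwise Finset.univ f]
    refine Finset.sum_congr rfl fun c' _ => ?_
    rw [e1, Finset.sum_comm]
    split_ifs with hc
    · refine Finset.sum_congr rfl fun b hb => Finset.sum_congr rfl fun a ha => ?_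
      rw [(Finset.mem_filter.1 ha).2, (Finset.mem_filter.1 hb).2, if_pos hc]
    · refine (Finset.sum_eq_zero fun b hb => Finset.sum_eq_zero fun a ha => ?_).symm
      rw [(Finset.mem_filter.1 ha).2, (Finset.mem_filter.1 hb).2, if_neg hc]
  have e3 : (∑ a, ∑ b, if f b < f a then
        adjS (n + 1) (posW slot 0 (Sum.inl (π a))) (posW slot 0 (Sum.inl (π b))) else 0) =
      (∑ a, ∑ b, if f b < f a ∧ a < b ∧ IsEdge h a b then (1 : ℤ) else 0) -
        ∑ a, ∑ b, if f a < f b ∧ a < b ∧ IsEdge h a b then (1 : ℤ) else 0 := by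
    rw [Finset.sum_comm (f := fun a b => if f a < f b ∧ a < b ∧ IsEdge h a b then (1 : ℤ) else 0),
      ← Finset.sum_sub_distrib]
    refine Finset.sum_congr rfl fun a _ => ?_
    rw [← Finset.sum_sub_distrib]
    refine Finset.sum_congr rfl fun b _ => ?_
    rw [col_adj hr]
    by_cases hc : f b < f a <;> simp [hc]
  rw [e2, e3]
  unfold nE ascents
  rw [Finset.card_filter, Finset.card_filter, Fintype.sum_prod_type, Fintype.sum_prod_type]
  push_cast
  rw [Finset.mul_sum, ← Finset.sum_sub_distrib, ← Finset.sum_add_distrib]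
  refine Finset.sum_congr rfl fun a _ => ?_
  rw [Finset.mul_sum, ← Finset.sum_sub_distrib, ← Finset.sum_add_distrib]
  refine Finset.sum_congr rfl fun b _ => ?_
  by_cases h1 : a < b
  · by_cases h2 : IsEdge h a b
    · rcases lt_or_gt_of_ne (hp a b h2) with h3 | h3
      · simp [h1, h2, h3, h3.not_gt]
      · simp [h1, h2, h3, h3.not_gt]
    · simp [h2]
  · simp [h1]

lemma col_coeff {N : ℕ} (a : Fin N →₀ ℕ) :
    MvPolynomial.coeff a (chromaticQSym h N) =
      ∑ f : Fin n → Fin N, if (∀ a b, IsEdge h a b → f a ≠ f b) ∧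
        (∀ c, (Finset.univ.filter fun i => f i = c).card = a c) then
          Polynomial.X ^ ascents h f else 0 := by
  unfold chromaticQSym
  rw [MvPolynomial.coeff_sum, Finset.sum_filter]
  refine Finset.sum_congr rfl fun f _ => ?_
  have e1 : (∏ i : Fin n, MvPolynomial.X (f i) : MvPolynomial (Fin N) (Polynomial ℤ)) =
      MvPolynomial.monomial (∑ i, Finsupp.single (f i) 1) 1 := by
    rw [MvPolynomial.monomial_sum_one]
    rfl
  have e2 : (∑ i, Finsupp.single (f i) 1 = a) ↔
      ∀ c, (Finset.univ.filter fun i => f i = c).card = a c := by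
    rw [Finsupp.ext_iff]
    refine forall_congr' fun c => ?_
    rw [Finsupp.finsetSum_apply, Finset.card_filter]
    simp only [Finsupp.single_apply]
  rw [MvPolynomial.coeff_C_mul, e1, MvPolynomial.coeff_monomial]
  by_cases h1 : ∀ a b, IsEdge h a b → f a ≠ f b
  · by_cases h2 : ∀ c, (Finset.univ.filter fun i => f i = c).card = a c
    · rw [if_pos h1, if_pos (e2.2 h2), if_pos ⟨h1, h2⟩, mul_one]
    · rw [if_pos h1, if_neg (fun h' => h2 (e2.1 h')), if_neg (fun h' => h2 h'.2), mul_zero]
  · rw [if_neg h1, if_neg (fun h' => h1 h'.1)]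

theorem EL_c_uAll (hr : Realises h slot π) {deg : LW n s →+ ℤ} {N : ℕ} (a : Fin N → ℕ) :
    ((confW slot 0).EL deg (List.ofFn a).reverse).c uAll =
      vp (nE h) * evq (MvPolynomial.coeff (Finsupp.equivFunOnFinite.symm a) (chromaticQSym h N)) := by
  rw [col_EL, QT.sum_c, col_coeff, map_sum, Finset.mul_sum]
  symm
  refine Finset.sum_of_injOn (colS π) (col_inj.injOn) (fun _ _ => Finset.mem_coe.2 (Finset.mem_univ _))
    (fun S _ hS => ?_) (fun f _ => ?_)
  · rw [col_mono_c, if_neg]
    intro h'
    obtain ⟨f, hf⟩ := col_surj (π := π) S h'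
    exact hS ⟨f, Finset.mem_coe.2 (Finset.mem_univ _), hf⟩
  · rw [col_mono_c, col_sum, if_pos rfl, Finset.prod_boole]
    have e : (∀ c ∈ Finset.univ, (colS (s := s) π f c).card = a c ∧
        (confW slot 0).Indep (colS π f c)) ↔ (∀ a b, IsEdge h a b → f a ≠ f b) ∧
        (∀ c, (Finset.univ.filter fun i => f i = c).card =
          (Finsupp.equivFunOnFinite.symm a : Fin N →₀ ℕ) c) := by
      rw [← col_indep hr f]
      simp only [Finset.mem_univ, true_imp_iff, colS, Finset.card_map,
        Finsupp.coe_equivFunOnFinite_symm, forall_and]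
      exact and_comm
    by_cases hc : (∀ a b, IsEdge h a b → f a ≠ f b) ∧
        (∀ c, (Finset.univ.filter fun i => f i = c).card =
          (Finsupp.equivFunOnFinite.symm a : Fin N →₀ ℕ) c)
    · rw [if_pos hc, if_pos (e.2 hc), col_exp hr f hc.1, evq_X_pow, vp_add, one_mul]
    · rw [if_neg hc, if_neg (fun h' => hc (e.1 h')), map_zero, mul_zero, zero_mul]
lemma coeff_chromaticQSym_eq_zero {N : ℕ} (a : Fin N →₀ ℕ) (ha : ∑ c, a c ≠ n) :
    MvPolynomial.coeff a (chromaticQSym h N) = 0 := by
  rw [col_coeff]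
  refine Finset.sum_eq_zero fun f _ => if_neg fun hf => ha ?_
  rw [← Finset.sum_congr rfl fun c _ => hf.2 c, ← Finset.card_eq_sum_card_fiberwise
    (fun _ _ => Finset.mem_coe.2 (Finset.mem_univ _)), Finset.card_univ, Fintype.card_fin]

end Crest.Agent.R059
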