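import Crest.Agent.R059.Seed

/-! Row 59: configurations of unit intervals in a quantum torus. -/

set_option autoImplicit false
set_option linter.unusedSectionVars false
set_option linter.unusedVariables false

noncomputable section
open Classical

namespace Crest.Agent.R059

variable {L : Type} [AddCommGroup L] [Module.Free ℤ L] [Module.Finite ℤ L]
variable {Ω : Form L} {deg : L →+ ℤ}

/-- Signed adjacency of two intervals of length `ℓ`. -/
def adjS (ℓ p p' : ℤ) : ℤ :=
  if p < p' ∧ p' < p + ℓ then 1 else if p' < p ∧ p < p' + ℓ then -1 else 0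

structure Conf (Ω : Form L) (W : Type) where
  x : W → L
  P : W → ℤ
  ℓ : ℤ
  inj : Function.Injective P
  compat : ∀ y y', Ω.w (x y) (x y') = adjS ℓ (P y) (P y')

namespace Conf
variable {W : Type} [Fintype W] (C : Conf Ω W)

def Indep (S : Finset W) : Prop := ∀ y ∈ S, ∀ y' ∈ S, y ≠ y' → C.ℓ ≤ |C.P y - C.P y'|
def xS (S : Finset W) : L := ∑ y ∈ S, C.x y
/-- The Hamiltonians. -/
def E (deg : L →+ ℤ) (k : ℕ) : QT Ω deg :=
  ∑ S ∈ Finset.univ.filter (fun S : Finset W => S.card = k ∧ C.Indep S), QT.mono (C.xS S) 1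
def EL (deg : L →+ ℤ) (μ : List ℕ) : QT Ω deg := (μ.map (C.E deg)).prod
def Consec (y y' : W) : Prop := C.P y < C.P y' ∧ ∀ z, ¬ (C.P y < C.P z ∧ C.P z < C.P y')
def seed : Finset L :=
  (Finset.univ.filter fun p : W × W => C.Consec p.1 p.2).image fun p => C.x p.2 - C.x p.1
def Conn : Prop := ∀ y y', C.Consec y y' → C.P y' < C.P y + C.ℓ
/-- `S` contains `y'` and replacing it by `y` gives an independent set. -/
def Swap (y y' : W) (S : Finset W) : Prop := y' ∈ S ∧ y ∉ S ∧ C.Indep (insert y (S.erase y'))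

lemma sub_mem_cone {y y' : W} (h : C.P y ≤ C.P y') : C.x y' - C.x y ∈ cone C.seed := by
  obtain ⟨n, hn⟩ : ∃ n : ℕ, C.P y' - C.P y ≤ n := ⟨(C.P y' - C.P y).toNat, Int.self_le_toNat _⟩
  induction n generalizing y' with
  | zero =>
    rw [C.inj (show C.P y' = C.P y by omega), sub_self]
    exact zero_mem _
  | succ n ih =>
    rcases h.eq_or_lt with h | h
    · rw [C.inj h, sub_self]
      exact zero_mem _
    obtain ⟨z, hz, hmax⟩ := Finset.exists_max_image (Finset.univ.filter fun z => C.P z < C.P y') C.P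
      ⟨y, by simpa using h⟩
    have hz' : C.P z < C.P y' := by simpa using hz
    have hc : C.Consec z y' := ⟨hz', fun u hu => absurd (hmax u (by simpa using hu.2)) (not_le.2 hu.1)⟩
    have h1 : C.x y' - C.x z ∈ cone C.seed :=
      AddSubmonoid.subset_closure (Finset.mem_coe.2 (Finset.mem_image.2 ⟨(z, y'), by simpa using hc, rfl⟩))
    have h2 := ih (hmax y (by simpa using h)) (by omega)
    have := add_mem h1 h2
    rwa [sub_add_sub_cancel] at this

lemma w_face {y y' : W} (h : C.Consec y y') (ha : C.P y' < C.P y + C.ℓ) (z : W) :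
    Ω.w (C.x y' - C.x y) (C.x z) =
      if z = y ∨ z = y' then -1
      else if (|C.P z - C.P y| < C.ℓ ↔ |C.P z - C.P y'| < C.ℓ) then 0 else 1 := by
  rw [map_sub, AddMonoidHom.sub_apply, C.compat, C.compat]
  have h1 := h.1
  have h2 := h.2 z
  rw [← C.inj.eq_iff, ← C.inj.eq_iff]
  simp only [adjS, abs_lt]
  split_ifs <;> omega

lemma conf_swap {a b : W} {S : Finset W} (hS : C.Indep S) (h : C.Swap a b S) :
    (insert a (S.erase b)).card = S.card ∧ C.Swap b a (insert a (S.erase b)) ∧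
      insert b ((insert a (S.erase b)).erase a) = S ∧
      C.xS (insert a (S.erase b)) = C.xS S + (C.x a - C.x b) := by
  obtain ⟨hb, ha, hI⟩ := h
  have ha' : a ∉ S.erase b := fun h => ha (Finset.mem_of_mem_erase h)
  have hab : b ≠ a := fun h => ha (h ▸ hb)
  have e : insert b ((insert a (S.erase b)).erase a) = S := by
    rw [Finset.erase_insert ha', Finset.insert_erase hb]
  refine ⟨?_, ⟨Finset.mem_insert_self _ _, by simp [hab], by rwa [e]⟩, e, ?_⟩
  · rw [Finset.card_insert_of_notMem ha', Finset.card_erase_add_one hb]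
  · unfold xS
    rw [Finset.sum_insert ha', ← Finset.add_sum_erase S _ hb]
    abel

lemma conf_key {a b : W} {t : W → ℤ} (ht : ∀ z, t z = if z = a ∨ z = b then -1
      else if (|C.P z - C.P a| < C.ℓ ↔ |C.P z - C.P b| < C.ℓ) then 0 else 1)
    {S : Finset W} (hS : C.Indep S) (hb : b ∈ S) (ha : a ∉ S) :
    (C.Swap a b S → ∑ z ∈ S, t z = -1) ∧ (¬ C.Swap a b S → 0 ≤ ∑ z ∈ S, t z) := by
  have h1 : ∀ z ∈ S.erase b, t z = if |C.P z - C.P a| < C.ℓ then 1 else 0 := fun z hz => by
    obtain ⟨k1, k2⟩ := Finset.mem_erase.1 hz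
    have k3 : z ≠ a := fun h => ha (h ▸ k2)
    have k4 := hS z k2 b hb k1
    rw [ht, if_neg (not_or.2 ⟨k3, k1⟩)]
    by_cases k5 : |C.P z - C.P a| < C.ℓ <;> simp [k5, not_lt.2 k4]
  have h2 : ∑ z ∈ S, t z = -1 + ∑ z ∈ S.erase b, if |C.P z - C.P a| < C.ℓ then 1 else 0 := by
    rw [← Finset.add_sum_erase S _ hb, ht b, if_pos (Or.inr rfl), Finset.sum_congr rfl h1]
  rw [h2]
  constructor
  · intro h
    rw [Finset.sum_eq_zero fun z hz => if_neg (not_lt.2 ?_), add_zero]
    exact h.2.2 z (Finset.mem_insert_of_mem hz) a (Finset.mem_insert_self _ _)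
      fun k => ha (k ▸ Finset.mem_of_mem_erase hz)
  · intro h
    have h3 : ∃ z ∈ S.erase b, |C.P z - C.P a| < C.ℓ := by
      by_contra k
      push Not at k
      refine h ⟨hb, ha, fun u hu v hv huv => ?_⟩
      rcases Finset.mem_insert.1 hu with hu' | hu' <;>
        rcases Finset.mem_insert.1 hv with hv' | hv'
      · exact absurd (hu'.trans hv'.symm) huv
      · rw [hu', abs_sub_comm]
        exact k v hv'
      · rw [hv']
        exact k u hu'
      · exact hS u (Finset.mem_of_mem_erase hu') v (Finset.mem_of_mem_erase hv') huv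
    obtain ⟨z, hz, hz'⟩ := h3
    have h4 := Finset.single_le_sum (f := fun z => if |C.P z - C.P a| < C.ℓ then (1 : ℤ) else 0)
      (fun z _ => by split_ifs <;> norm_num) hz
    simp only [if_pos hz'] at h4
    omega

lemma conf_w {y y' : W} (h : C.Consec y y') (ha : C.P y' < C.P y + C.ℓ) {S : Finset W}
    (hS : C.Indep S) : (C.Swap y' y S → Ω.w (C.x y' - C.x y) (C.xS S) = -1) ∧
      (¬ C.Swap y y' S → ¬ C.Swap y' y S → 0 ≤ Ω.w (C.x y' - C.x y) (C.xS S)) := by
  have ht := C.w_face h ha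
  have ht' : ∀ z, Ω.w (C.x y' - C.x y) (C.x z) = if z = y' ∨ z = y then -1
      else if (|C.P z - C.P y'| < C.ℓ ↔ |C.P z - C.P y| < C.ℓ) then 0 else 1 := fun z => by
    rw [ht z]
    simp only [or_comm, iff_comm]
  unfold xS
  rw [map_sum]
  refine ⟨fun k => (C.conf_key ht' hS k.1 k.2.1).1 k, fun k k' => ?_⟩
  by_cases h1 : y ∈ S <;> by_cases h2 : y' ∈ S
  · have h3 := h.1
    have h4 := hS y h1 y' h2 fun e => by rw [e] at h3; omega
    rw [le_abs] at h4
    omega
  · exact (C.conf_key ht' hS h1 h2).2 k'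
  · exact (C.conf_key ht hS h2 h1).2 k
  · refine Finset.sum_nonneg fun z hz => ?_
    rw [ht z, if_neg (not_or.2 ⟨fun e : z = y => h1 (e ▸ hz), fun e : z = y' => h2 (e ▸ hz)⟩)]
    split_ifs <;> norm_num

/-- Crossing the wall of a face. -/
theorem conj_E {y y' : W} (h : C.Consec y y') (ha : C.P y' < C.P y + C.ℓ)
    (hd : 0 < deg (C.x y' - C.x y)) (k : ℕ) :
    inv (Phi Ω deg (C.x y' - C.x y) 1) * C.E deg k * Phi Ω deg (C.x y' - C.x y) 1 =
      ∑ S ∈ Finset.univ.filter (fun S : Finset W => S.card = k ∧ C.Indep S ∧ ¬ C.Swap y y' S),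
        QT.mono (C.xS S) 1 *
          binP Ω deg (C.x y' - C.x y) 1 (Ω.w (C.x y' - C.x y) (C.xS S)).toNat := by
  set N := Finset.univ.filter (fun S : Finset W => S.card = k ∧ C.Indep S ∧ ¬ C.Swap y y' S) with hN
  have e1 : (Finset.univ.filter fun S : Finset W => S.card = k ∧ C.Indep S).filter
      (fun S => ¬ C.Swap y y' S) = N := by
    rw [Finset.filter_filter]
    simp only [hN, and_assoc]
  have e2 : ∑ S ∈ (Finset.univ.filter fun S : Finset W => S.card = k ∧ C.Indep S).filter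
      (fun S => C.Swap y y' S), (QT.mono (C.xS S) 1 : QT Ω deg) =
      ∑ S ∈ N.filter (fun S => C.Swap y' y S), QT.mono (C.xS S + (C.x y' - C.x y)) 1 := by
    symm
    refine Finset.sum_nbij' (fun S => insert y' (S.erase y)) (fun S => insert y (S.erase y'))
      (fun S hS => ?_) (fun S hS => ?_) (fun S hS => ?_) (fun S hS => ?_) fun S hS => ?_
    all_goals simp only [hN, Finset.mem_filter, Finset.mem_univ, true_and] at hS ⊢
    · obtain ⟨k1, k2, -⟩ := C.conf_swap hS.1.2.1 hS.2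
      exact ⟨⟨k1.trans hS.1.1, hS.2.2.2⟩, k2⟩
    · obtain ⟨k1, k2, -⟩ := C.conf_swap hS.1.2 hS.2
      exact ⟨⟨k1.trans hS.1.1, hS.2.2.2, fun k3 => k3.2.1 (Finset.mem_insert_self _ _)⟩, k2⟩
    · exact (C.conf_swap hS.1.2.1 hS.2).2.2.1
    · exact (C.conf_swap hS.1.2 hS.2).2.2.1
    · rw [(C.conf_swap hS.1.2.1 hS.2).2.2.2]
  unfold E
  rw [← Finset.sum_filter_add_sum_filter_not _ (fun S => C.Swap y y' S), e1, e2,
    ← Finset.sum_filter_add_sum_filter_not N (fun S => C.Swap y' y S),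
    ← Finset.sum_filter_add_sum_filter_not N (fun S => C.Swap y' y S), ← add_assoc,
    ← Finset.sum_add_distrib, mul_add, add_mul, Finset.mul_sum, Finset.sum_mul, Finset.mul_sum,
    Finset.sum_mul]
  congr 1
  · refine Finset.sum_congr rfl fun S hS => ?_
    simp only [hN, Finset.mem_filter, Finset.mem_univ, true_and] at hS
    have h1 := (C.conf_w h ha hS.1.2.1).1 hS.2
    rw [add_comm, conj_mono_neg_one hd _ h1, h1]
    simp [binP]
  · refine Finset.sum_congr rfl fun S hS => ?_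
    simp only [hN, Finset.mem_filter, Finset.mem_univ, true_and] at hS
    exact conj_mono_nonneg hd _ ((C.conf_w h ha hS.1.2.1).2 hS.1.2.2 hS.2)

lemma conf_mono_ne {p n : L} {x : K} (h : (QT.mono p x : QT Ω deg).c n ≠ 0) : n = p := by
  by_contra hn
  exact h (by rw [QT.mono_c, Pi.single_eq_of_ne hn])

lemma conf_binP_supp (F : L) (s : ℤ) (e : ℕ) (n : L) (h : (binP Ω deg F s e).c n ≠ 0) :
    ∃ i ≤ e, n = i • F := by
  induction e generalizing n with
  | zero => exact ⟨0, le_rfl, by rw [zero_smul]; exact grp_one_c_ne (by simpa [binP] using h)⟩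
  | succ e ih =>
    rw [binP_succ] at h
    obtain ⟨p, h1, h2⟩ := QT.exists_of_mul_c_ne_zero _ _ n h
    obtain ⟨i, hi, rfl⟩ := ih p h1
    rw [QT.add_c, Pi.add_apply] at h2
    by_cases h3 : (1 : QT Ω deg).c (n - i • F) = 0
    · rw [h3, zero_add] at h2
      exact ⟨i + 1, by omega, by rw [succ_nsmul]; exact sub_eq_iff_eq_add'.1 (conf_mono_ne h2)⟩
    · exact ⟨i, by omega, sub_eq_zero.1 (grp_one_c_ne h3)⟩

lemma conf_sum_ne {ι : Type} {s : Finset ι} {f : ι → QT Ω deg} {n : L}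
    (h : (∑ i ∈ s, f i).c n ≠ 0) : ∃ i ∈ s, (f i).c n ≠ 0 := by
  rw [QT.sum_c] at h
  exact Finset.exists_ne_zero_of_sum_ne_zero h

/-- After crossing the wall of a face, `ω(F, ·) + κ ≥ 0` on the support. -/
theorem conj_EL_supp {y y' : W} (h : C.Consec y y') (ha : C.P y' < C.P y + C.ℓ)
    (hd : 0 < deg (C.x y' - C.x y)) (κ : L →+ ℤ) (hy : κ (C.x y) = 1)
    (hz : ∀ z, z ≠ y → κ (C.x z) = 0) (μ : List ℕ) :
    SuppIn (nnM (Ω.w (C.x y' - C.x y) + κ))
      (inv (Phi Ω deg (C.x y' - C.x y) 1) * C.EL deg μ * Phi Ω deg (C.x y' - C.x y) 1) := by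
  have hu := (isG_Phi (Ω := Ω) (deg := deg) (C.x y' - C.x y) 1).isUnit
  have hne : y' ≠ y := fun e => by
    have := h.1
    rw [e] at this
    omega
  have hF : κ (C.x y' - C.x y) = -1 := by rw [map_sub, hy, hz y' hne, zero_sub]
  have hκ : ∀ S : Finset W, κ (C.xS S) = if y ∈ S then 1 else 0 := fun S => by
    unfold xS
    rw [map_sum, Finset.sum_congr rfl (g := fun z => if z = y then 1 else 0) fun z _ => by
      split_ifs with e
      · rw [e, hy]
      · exact hz z e, Finset.sum_ite_eq']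
  induction μ with
  | nil =>
    simp only [EL, List.map_nil, List.prod_nil, mul_one]
    rw [Ring.inverse_mul_cancel _ hu]
    exact suppIn_one _
  | cons k μ ih =>
    have e : inv (Phi Ω deg (C.x y' - C.x y) 1) * C.EL deg (k :: μ) * Phi Ω deg (C.x y' - C.x y) 1 =
        inv (Phi Ω deg (C.x y' - C.x y) 1) * C.E deg k * Phi Ω deg (C.x y' - C.x y) 1 *
          (inv (Phi Ω deg (C.x y' - C.x y) 1) * C.EL deg μ * Phi Ω deg (C.x y' - C.x y) 1) := by
      simp only [EL, List.map_cons, List.prod_cons, mul_assoc]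
      rw [Ring.mul_inverse_cancel_left _ _ hu]
    rw [e]
    refine SuppIn.mul (fun n hn => ?_) ih
    rw [C.conj_E h ha hd] at hn
    obtain ⟨S, hS, hn⟩ := conf_sum_ne hn
    simp only [Finset.mem_filter, Finset.mem_univ, true_and] at hS
    obtain ⟨p, h1, h2⟩ := QT.exists_of_mul_c_ne_zero _ _ n hn
    obtain ⟨i, hi, h3⟩ := conf_binP_supp _ _ _ _ h2
    rw [conf_mono_ne h1, sub_eq_iff_eq_add'] at h3
    rw [mem_nnM, h3, AddMonoidHom.add_apply, map_add, map_add, map_nsmul, map_nsmul, Ω.alt, hF, hκ]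
    obtain ⟨k1, k2⟩ := C.conf_w h ha hS.2.1
    simp only [smul_zero, smul_neg, nsmul_eq_mul, mul_one]
    by_cases k3 : C.Swap y' y S
    · rw [k1 k3] at hi ⊢
      rw [if_pos k3.1]
      omega
    · have := k2 hS.2.2 k3
      split_ifs <;> omega

lemma EL_supp (μ : List ℕ) (m : L) (h : (C.EL deg μ).c m ≠ 0) :
    ∃ a : W → ℕ, ∑ y, a y = μ.sum ∧ m = ∑ y, a y • C.x y := by
  induction μ generalizing m with
  | nil => exact ⟨0, by simp, by simpa using grp_one_c_ne (by simpa [EL] using h)⟩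
  | cons k μ ih =>
    simp only [EL, List.map_cons, List.prod_cons] at h
    obtain ⟨p, h1, h2⟩ := QT.exists_of_mul_c_ne_zero _ _ m h
    obtain ⟨a, ha, hm⟩ := ih _ h2
    obtain ⟨S, hS, h3⟩ := conf_sum_ne h1
    simp only [Finset.mem_filter, Finset.mem_univ, true_and] at hS
    refine ⟨fun y => (if y ∈ S then 1 else 0) + a y, ?_, ?_⟩
    · rw [Finset.sum_add_distrib, ha, List.sum_cons, ← hS.1]
      simp
    · simp only [add_smul, Finset.sum_add_distrib, ← hm, conf_mono_ne h3, ite_smul, one_smul,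
        zero_smul, Finset.sum_ite_mem, Finset.univ_inter, xS, add_sub_cancel]

lemma EL_suppIn_shift (y0 : W) (h0 : ∀ y, C.P y0 ≤ C.P y) (μ : List ℕ) :
    SuppIn (shift (μ.sum • C.x y0) (cone C.seed)) (C.EL deg μ) := by
  intro m hm
  obtain ⟨a, ha, rfl⟩ := C.EL_supp μ m hm
  change _ - _ ∈ cone C.seed
  rw [← ha, Finset.sum_smul, ← Finset.sum_sub_distrib]
  refine sum_mem fun y _ => ?_
  rw [← smul_sub]
  exact nsmul_mem (C.sub_mem_cone (h0 y)) _

end Conf

end Crest.Agent.R059
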