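import Crest.Agent.R059.DecA

/-! Row 59: growth of the products `Num * y`. -/

set_option autoImplicit false
set_option linter.unusedSectionVars false
set_option linter.unusedVariables false

noncomputable section
open Classical MvPolynomial

namespace Crest.Agent.R059

variable {α β : Type} [Fintype α] [Fintype β]

namespace Qv
variable (Q : Qv α)

/-! ### symmetric sums over invariant sets of pairs -/

lemma decB_prod_symm {M : Type} [CommMonoid M] (hQ : Q.Sym) {s : Setoid α} (hs : Q.Zero s)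
    (g : α → α → M) (hg : ∀ x x' y y', s x x' → s y y' → g x y = g x' y') :
    ∏ p : α × α, g p.1 p.2 ^ Q.a p.1 p.2 = ∏ p : α × α, g p.1 p.2 ^ Q.a p.2 p.1 := by
  rw [← Finset.prod_fiberwise Finset.univ (fun p : α × α => (blk s p.1, blk s p.2)),
    ← Finset.prod_fiberwise Finset.univ (fun p : α × α => (blk s p.1, blk s p.2))
      (fun p : α × α => g p.1 p.2 ^ Q.a p.2 p.1)]
  refine Finset.prod_congr rfl fun j _ => ?_
  by_cases h : ∃ p₀ : α × α, (blk s p₀.1, blk s p₀.2) = j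
  · obtain ⟨p₀, rfl⟩ := h
    have hf : Finset.univ.filter (fun p : α × α => (blk s p.1, blk s p.2) =
        (blk s p₀.1, blk s p₀.2)) = blk s p₀.1 ×ˢ blk s p₀.2 := by
      ext p
      simp only [Finset.mem_filter, Finset.mem_univ, true_and, Prod.mk.injEq, blk_eq_iff,
        Finset.mem_product, mem_blk]
      exact ⟨fun h => ⟨s.symm h.1, s.symm h.2⟩, fun h => ⟨s.symm h.1, s.symm h.2⟩⟩
    rw [hf]
    have hc : ∀ p ∈ blk s p₀.1 ×ˢ blk s p₀.2, g p.1 p.2 = g p₀.1 p₀.2 := by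
      intro p hp
      rw [Finset.mem_product, mem_blk, mem_blk] at hp
      exact (hg _ _ _ _ hp.1 hp.2).symm
    rw [Finset.prod_congr rfl fun p hp => by rw [hc p hp],
      Finset.prod_congr rfl (f := fun p : α × α => g p.1 p.2 ^ Q.a p.2 p.1)
        fun p hp => by rw [hc p hp],
      Finset.prod_pow_eq_pow_sum, Finset.prod_pow_eq_pow_sum, Finset.sum_product,
      Finset.sum_product]
    congr 1
    have := hQ _ _ (hs p₀.1) (hs p₀.2)
    unfold aa at this
    rw [this, Finset.sum_comm]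
  · have hf : Finset.univ.filter (fun p : α × α => (blk s p.1, blk s p.2) = j) = ∅ :=
      Finset.filter_eq_empty_iff.2 fun p _ hp => h ⟨p, hp⟩
    rw [hf, Finset.prod_empty, Finset.prod_empty]

lemma decB_sum_symm (hQ : Q.Sym) {s : Setoid α} (hs : Q.Zero s) (T : α → α → Prop)
    [∀ x y, Decidable (T x y)] (hT : ∀ x x' y y', s x x' → s y y' → (T x y ↔ T x' y')) :
    ∑ p : α × α, (if T p.1 p.2 then Q.a p.1 p.2 else 0) =
      ∑ p : α × α, (if T p.2 p.1 then Q.a p.1 p.2 else 0) := by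
  have h := Q.decB_prod_symm hQ hs
    (fun x y => Multiplicative.ofAdd (if T x y then (1 : ℕ) else 0))
    (fun x x' y y' hx hy => by rw [if_congr (hT x x' y y' hx hy) rfl rfl])
  have h2 := congrArg Multiplicative.toAdd h
  simp only [toAdd_prod, toAdd_pow, toAdd_ofAdd, smul_eq_mul, mul_ite, mul_one, mul_zero] at h2
  rw [h2]
  exact Fintype.sum_equiv (Equiv.prodComm α α) _ _ fun p => rfl

/-- Twice the number of arrows going up, among an invariant symmetric set of pairs. -/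
lemma decB_two_mul (hQ : Q.Sym) {s r : Setoid α} (hs : Q.Zero s) (hsr : s ≤ r)
    (o : Finset α → ℕ) (ho : Function.Injective o) (T : α → α → Prop) [∀ x y, Decidable (T x y)]
    (hT : ∀ x x' y y', s x x' → s y y' → (T x y ↔ T x' y')) (hT' : ∀ x y, T x y ↔ T y x) :
    2 * ∑ p ∈ (upO r o).filter (fun p => T p.1 p.2), Q.a p.1 p.2 =
      ∑ p : α × α, (if ¬ r p.1 p.2 ∧ T p.1 p.2 then Q.a p.1 p.2 else 0) := by
  have h := Q.decB_sum_symm hQ hs (fun x y => o (blk r x) < o (blk r y) ∧ T x y)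
    (fun x x' y y' hx hy => by
      rw [(blk_eq_iff r x x').2 (hsr hx), (blk_eq_iff r y y').2 (hsr hy), hT x x' y y' hx hy])
  have h1 : ∑ p ∈ (upO r o).filter (fun p => T p.1 p.2), Q.a p.1 p.2 =
      ∑ p : α × α, (if o (blk r p.1) < o (blk r p.2) ∧ T p.1 p.2 then Q.a p.1 p.2 else 0) := by
    rw [upO, Finset.filter_filter, Finset.sum_filter]
  rw [two_mul, h1]
  nth_rewrite 2 [h]
  rw [← Finset.sum_add_distrib]
  refine Finset.sum_congr rfl fun p _ => ?_
  have h2 : r p.1 p.2 ↔ o (blk r p.1) = o (blk r p.2) := by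
    rw [ho.eq_iff, blk_eq_iff]
  simp only [h2, hT' p.2 p.1]
  by_cases h3 : T p.1 p.2
  · rcases lt_trichotomy (o (blk r p.1)) (o (blk r p.2)) with h4 | h4 | h4
    · simp [h3, h4, h4.ne, h4.le]
    · simp [h4]
    · simp [h3, h4, h4.ne', h4.le]
  · simp [h3]

lemma decB_two_mul_sum (hQ : Q.Sym) {r : Setoid α} (hr : Q.Zero r) (o : Finset α → ℕ)
    (ho : Function.Injective o) :
    2 * ∑ p ∈ upO r o, Q.a p.1 p.2 =
      ∑ p : α × α, (if ¬ r p.1 p.2 then Q.a p.1 p.2 else 0) := by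
  have h := Q.decB_two_mul hQ hr le_rfl o ho (fun _ _ => True) (fun _ _ _ _ _ _ => Iff.rfl)
    (fun _ _ => Iff.rfl)
  simpa using h

lemma decB_sum_upO (hQ : Q.Sym) {r : Setoid α} (hr : Q.Zero r) (o : Finset α → ℕ)
    (ho : Function.Injective o) : ∑ p ∈ upO r o, Q.a p.1 p.2 = Q.M r := by
  have h1 := Q.decB_two_mul_sum hQ hr o ho
  have h2 := Q.decB_two_mul_sum hQ hr ord ord_injective
  have h3 : Q.M r = ∑ p ∈ upO r ord, Q.a p.1 p.2 := rfl
  omega

lemma decB_deg_cross (hQ : Q.Sym) {r r' : Setoid α} (hr : Q.Zero r) (hr' : Q.Zero r')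
    (hρ : Q.Zero (r ⊓ r')) (o : Finset α → ℕ) (ho : Function.Injective o) :
    ∑ p ∈ (upO r o).filter (fun p => ¬ r' p.1 p.2), Q.a p.1 p.2 + Q.M (r ⊓ r') =
      Q.M r + Q.M r' := by
  have h1 := Q.decB_two_mul hQ hρ inf_le_left o ho (fun x y => ¬ r' x y)
    (fun x x' y y' hx hy => not_congr
      ⟨fun h => r'.trans (r'.symm hx.2) (r'.trans h hy.2),
        fun h => r'.trans hx.2 (r'.trans h (r'.symm hy.2))⟩)
    (fun x y => not_congr ⟨fun h => r'.symm h, fun h => r'.symm h⟩)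
  have h2 := Q.decB_two_mul_sum hQ hr ord ord_injective
  have h3 := Q.decB_two_mul_sum hQ hr' ord ord_injective
  have h4 := Q.decB_two_mul_sum hQ hρ ord ord_injective
  have h5 : (∑ p : α × α, if ¬ r p.1 p.2 ∧ ¬ r' p.1 p.2 then Q.a p.1 p.2 else 0) +
      (∑ p : α × α, if ¬ (r ⊓ r') p.1 p.2 then Q.a p.1 p.2 else 0) =
      (∑ p : α × α, if ¬ r p.1 p.2 then Q.a p.1 p.2 else 0) +
      (∑ p : α × α, if ¬ r' p.1 p.2 then Q.a p.1 p.2 else 0) := by
    rw [← Finset.sum_add_distrib, ← Finset.sum_add_distrib]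
    refine Finset.sum_congr rfl fun p _ => ?_
    have h6 : (r ⊓ r') p.1 p.2 ↔ r p.1 p.2 ∧ r' p.1 p.2 := Setoid.inf_iff_and
    rw [h6]
    by_cases h7 : r p.1 p.2 <;> by_cases h8 : r' p.1 p.2 <;> simp [h7, h8]
  have e1 : Q.M r = ∑ p ∈ upO r ord, Q.a p.1 p.2 := rfl
  have e2 : Q.M r' = ∑ p ∈ upO r' ord, Q.a p.1 p.2 := rfl
  have e3 : Q.M (r ⊓ r') = ∑ p ∈ upO (r ⊓ r') ord, Q.a p.1 p.2 := rfl
  beta_reduce at h1
  omega

/-! ### initial segments -/

/-- The part of the `r'`-block of `x` lying in `r`-blocks of order `< c`. -/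
def decSeg (r r' : Setoid α) (o : Finset α → ℕ) (x : α) (c : ℕ) : Finset α :=
  (blk r' x).filter fun u => o (blk r u) < c

lemma decB_Num_eq (S T : Finset α) :
    Q.Num S T = ∏ p ∈ S ×ˢ T, (X p.2 - X p.1 : P α) ^ Q.a p.1 p.2 := by
  rw [Finset.prod_product]; rfl

lemma decB_Num_mem_J (r : Setoid α) (x : α) {S : Finset α} (hS : S ⊆ blk r x) (h : Q.wt S < 0) :
    Q.Num S (blk r x \ S) ∈ Q.J r :=
  (le_iSup (fun x => Q.idF (blk r x)) x) (Ideal.subset_span ⟨S, hS, h, rfl⟩)

lemma decB_NumO_mem_J {r r' : Setoid α} (o : Finset α → ℕ) (x : α) (c : ℕ)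
    (h : Q.wt (decSeg r r' o x c) < 0) : Q.NumO r o ∈ Q.J r' := by
  refine Ideal.mem_of_dvd _ ?_ (Q.decB_Num_mem_J r' x (Finset.filter_subset _ _) h)
  rw [decB_Num_eq]
  refine Finset.prod_dvd_prod_of_subset _ _ _ fun p hp => ?_
  simp only [Finset.mem_product, Finset.mem_sdiff, Finset.mem_filter, not_and, not_lt] at hp
  simp only [upO, Finset.mem_filter, Finset.mem_univ, true_and]
  exact lt_of_lt_of_le hp.1.2 (hp.2.2 hp.2.1)

lemma decB_wt_fiber (r : Setoid α) (S : Finset α) :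
    Q.wt S = ∑ B ∈ parts r, Q.wt (S.filter fun u => blk r u = B) := by
  unfold wt
  rw [Finset.sum_fiberwise_of_maps_to]
  exact fun u _ => Finset.mem_image_of_mem _ (Finset.mem_univ u)

lemma decB_wt_lt {r : Setoid α} (hr : Q.Zero r) (o : Finset α → ℕ) (c : ℕ) :
    Q.wt (Finset.univ.filter fun u => o (blk r u) < c) = 0 := by
  rw [Q.decB_wt_fiber r]
  refine Finset.sum_eq_zero fun B hB => ?_
  obtain ⟨x, -, rfl⟩ := Finset.mem_image.1 hB
  by_cases h : o (blk r x) < c
  · rw [← hr x]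
    congr 1
    ext u
    simp only [Finset.mem_filter, Finset.mem_univ, true_and, mem_blk]
    constructor
    · exact fun hu => r.symm ((blk_eq_iff r u x).1 hu.2)
    · intro hu
      have := (blk_eq_iff r x u).2 hu
      exact ⟨this ▸ h, this.symm⟩
  · have : ((Finset.univ.filter fun u => o (blk r u) < c).filter fun u => blk r u = blk r x) = ∅ :=
      Finset.filter_eq_empty_iff.2 fun u hu hu' => h (hu' ▸ (Finset.mem_filter.1 hu).2)
    rw [this]; rfl

lemma decB_seg_zero {r r' : Setoid α} (hr : Q.Zero r) (o : Finset α → ℕ)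
    (h : ∀ x c, 0 ≤ Q.wt (decSeg r r' o x c)) (x : α) (c : ℕ) : Q.wt (decSeg r r' o x c) = 0 := by
  have h1 := Q.decB_wt_lt hr o c
  rw [Q.decB_wt_fiber r'] at h1
  have key : ∀ x, ((Finset.univ.filter fun u => o (blk r u) < c).filter
      fun u => blk r' u = blk r' x) = decSeg r r' o x c := by
    intro x
    ext u
    simp only [decSeg, Finset.mem_filter, Finset.mem_univ, true_and, mem_blk, blk_eq_iff]
    exact ⟨fun h => ⟨r'.symm h.2, h.1⟩, fun h => ⟨h.2, r'.symm h.1⟩⟩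
  rw [← key x]
  refine (Finset.sum_eq_zero_iff_of_nonneg fun B hB => ?_).1 h1 _
    (Finset.mem_image_of_mem _ (Finset.mem_univ x))
  obtain ⟨y, -, rfl⟩ := Finset.mem_image.1 hB
  rw [key y]
  exact h y c

lemma decB_inf_zero {r r' : Setoid α} (o : Finset α → ℕ) (ho : Function.Injective o)
    (h : ∀ x c, Q.wt (decSeg r r' o x c) = 0) : Q.Zero (r ⊓ r') := by
  intro x
  have h1 := h x (o (blk r x) + 1)
  have h2 := h x (o (blk r x))
  have hsub : decSeg r r' o x (o (blk r x)) ⊆ decSeg r r' o x (o (blk r x) + 1) := by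
    intro u hu
    simp only [decSeg, Finset.mem_filter] at hu ⊢
    exact ⟨hu.1, by omega⟩
  have he : blk (r ⊓ r') x = decSeg r r' o x (o (blk r x) + 1) \ decSeg r r' o x (o (blk r x)) := by
    ext u
    have h6 : (r ⊓ r') x u ↔ r x u ∧ r' x u := Setoid.inf_iff_and
    have h7 : r x u ↔ o (blk r x) = o (blk r u) := by rw [ho.eq_iff, blk_eq_iff]
    simp only [decSeg, Finset.mem_sdiff, Finset.mem_filter, mem_blk, h6, h7, not_and, not_lt]
    constructor
    · rintro ⟨h8, h9⟩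
      exact ⟨⟨h9, by omega⟩, fun _ => by omega⟩
    · rintro ⟨⟨h8, h9⟩, h10⟩
      have := h10 h8
      exact ⟨by omega, h8⟩
  have h3 := Finset.sum_sdiff (f := Q.η) hsub
  unfold wt at h1 h2 ⊢
  rw [he]
  omega

/-- The part of `NumO` inside the `r'`-blocks. -/
def decIn (r r' : Setoid α) (o : Finset α → ℕ) : P α :=
  ∏ p ∈ (upO r o).filter (fun p => r' p.1 p.2), (X p.2 - X p.1) ^ Q.a p.1 p.2
/-- The part of `NumO` across the `r'`-blocks. -/
def decCross (r r' : Setoid α) (o : Finset α → ℕ) : P α :=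
  ∏ p ∈ (upO r o).filter (fun p => ¬ r' p.1 p.2), (X p.2 - X p.1) ^ Q.a p.1 p.2

lemma decB_NumO_eq (r r' : Setoid α) (o : Finset α → ℕ) :
    Q.NumO r o = Q.decCross r r' o * Q.decIn r r' o := by
  rw [mul_comm]
  exact (Finset.prod_filter_mul_prod_filter_not _ _ _).symm

lemma decB_In_mul_mem {r r' : Setoid α} (o : Finset α → ℕ) (ho : Function.Injective o)
    (h : ∀ x c, Q.wt (decSeg r r' o x c) = 0) {w : P α} (hw : w ∈ Q.J (r ⊓ r')) :
    Q.decIn r r' o * w ∈ Q.J r' := by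
  have key : Q.J (r ⊓ r') ≤ Submodule.comap (LinearMap.mulLeft (P α) (Q.decIn r r' o)) (Q.J r') := by
    refine iSup_le fun x => Ideal.span_le.2 ?_
    rintro _ ⟨S, hS, hwt, rfl⟩
    change Q.decIn r r' o * _ ∈ Q.J r'
    have hS' : ∀ u ∈ blk (r ⊓ r') x, o (blk r u) = o (blk r x) ∧ r' x u := by
      intro u hu
      have h6 : r x u ∧ r' x u := Setoid.inf_iff_and.1 ((mem_blk _ _ _).1 hu)
      exact ⟨by rw [(blk_eq_iff r x u).2 h6.1], h6.2⟩
    have hdisj : Disjoint S (decSeg r r' o x (o (blk r x))) := by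
      refine Finset.disjoint_left.2 fun u hu hu' => ?_
      have h1 := (hS' u (hS hu)).1
      have h2 := (Finset.mem_filter.1 hu').2
      omega
    have hsub : S ∪ decSeg r r' o x (o (blk r x)) ⊆ blk r' x :=
      Finset.union_subset (fun u hu => (mem_blk _ _ _).2 (hS' u (hS hu)).2)
        (Finset.filter_subset _ _)
    have hwt' : Q.wt (S ∪ decSeg r r' o x (o (blk r x))) < 0 := by
      have h1 := h x (o (blk r x))
      unfold wt at h1 hwt ⊢
      rw [Finset.sum_union hdisj]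
      omega
    refine Ideal.mem_of_dvd _ ?_ (Q.decB_Num_mem_J r' x hsub hwt')
    rw [decB_Num_eq, decB_Num_eq, decIn, ← Finset.prod_union_inter]
    refine Dvd.dvd.mul_right (Finset.prod_dvd_prod_of_subset _ _ _ fun p hp => ?_) _
    simp only [Finset.mem_product, Finset.mem_sdiff, Finset.mem_union, decSeg, Finset.mem_filter,
      not_or, not_and, not_lt, mem_blk] at hp
    obtain ⟨h1, h2, h3, h4⟩ := hp
    have h5 := h4 h2
    simp only [Finset.mem_product, Finset.mem_sdiff, Finset.mem_union, Finset.mem_filter, upO,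
      Finset.mem_univ, true_and]
    rcases h1 with h1 | h1
    · obtain ⟨h6, h7⟩ := hS' _ (hS h1)
      by_cases h8 : o (blk r x) = o (blk r p.2)
      · refine Or.inr ⟨h1, (mem_blk _ _ _).2 (Setoid.inf_iff_and.2 ⟨?_, h2⟩), h3⟩
        exact (blk_eq_iff r _ _).1 (ho h8)
      · exact Or.inl ⟨by omega, r'.trans (r'.symm h7) h2⟩
    · exact Or.inl ⟨by omega, r'.trans (r'.symm h1.1) h2⟩
  exact key hw

lemma decB_tr_In (r r' : Setoid α) (o : Finset α → ℕ) :
    tr r' (Q.decIn r r' o) = C (Q.decIn r r' o) := by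
  rw [decIn, map_prod, map_prod]
  refine Finset.prod_congr rfl fun p hp => ?_
  have h := (blk_eq_iff r' _ _).2 (Finset.mem_filter.1 hp).2
  rw [map_pow, map_pow, map_sub, map_sub]
  simp only [tr, aeval_X, h]
  ring

lemma decB_coeff_tr {ρ r' : Setoid α} (h : ρ ≤ r') {N : ℕ} {y : P α} (hy : y ∈ Q.Low ρ N)
    (b : Finset α →₀ ℕ) (hb : N ≤ b.degree) : coeff b (tr r' y) ∈ Q.J ρ := by
  let π : Finset α → Finset α := fun B => if h : B.Nonempty then blk r' h.choose else B
  have hπ : ∀ x, π (blk ρ x) = blk r' x := by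
    intro x
    have hne : (blk ρ x).Nonempty := ⟨x, (mem_blk _ _ _).2 (ρ.refl x)⟩
    simp only [π, dif_pos hne]
    exact ((blk_eq_iff r' _ _).2 (h ((mem_blk _ _ _).1 hne.choose_spec))).symm
  have he : tr r' = ((rename π : MvPolynomial (Finset α) (P α) →ₐ[P α]
      MvPolynomial (Finset α) (P α)).restrictScalars ℂ).comp (tr ρ) := by
    refine MvPolynomial.algHom_ext fun x => ?_
    simp [tr, hπ]
  have he' : tr r' y = rename π (tr ρ y) := by rw [he]; rfl
  rw [he', (tr ρ y).as_sum, map_sum, coeff_sum]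
  refine Ideal.sum_mem _ fun d _ => ?_
  rw [rename_monomial, coeff_monomial]
  split_ifs with hd
  · refine hy d ?_
    rw [← hd, Finsupp.degree_mapDomain] at hb
    exact hb
  · exact zero_mem _

lemma decB_sMon_hom (b : Finset α →₀ ℕ) : (sMon b : P α).IsHomogeneous b.degree := by
  rw [Finsupp.degree_apply]
  refine IsHomogeneous.prod _ _ _ fun B _ => ?_
  have : (sB B : P α).IsHomogeneous 1 := IsHomogeneous.sum _ _ _ fun x _ => isHomogeneous_X _ _
  simpa using this.pow (b B)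

lemma decB_Vlt_le {r ρ : Setoid α} (hρ : ρ ≤ r) {k N : ℕ} (hW : Q.W r ≤ Q.Low ρ N) :
    Q.Vlt r (k + 1) ≤ Q.Low ρ (k + N) := by
  refine sup_le (Q.Jc_le_Low hρ _) (Submodule.span_le.2 ?_)
  rintro _ ⟨q, hq, b, -, hb, rfl⟩
  rw [mul_comm]
  exact Q.mul_mem_Low ρ (Q.Low_mono ρ hb (Q.mem_Low_of_isHomogeneous ρ (decB_sMon_hom b))) (hW hq)

lemma decB_main (hQ : Q.Sym) {r r' : Setoid α} (hr : Q.Zero r) (hr' : Q.Zero r')
    (o : Finset α → ℕ) (ho : Function.Injective o) {k : ℕ} {y : P α}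
    (hy : y ∈ Q.Vlt r (k + 1)) :
    Q.NumO r o * y ∈ Q.Low r' (Q.M r' + k + if r ≤ r' then 1 else 0) := by
  by_cases hA : ∃ x c, Q.wt (decSeg r r' o x c) < 0
  · obtain ⟨x, c, h⟩ := hA
    exact Q.Jc_le_Low le_rfl _ (Ideal.mul_mem_right _ _ (Q.decB_NumO_mem_J o x c h))
  push Not at hA
  have hz := Q.decB_seg_zero hr o hA
  have hρ := Q.decB_inf_zero o ho hz
  have hW : Q.W r ≤ Q.Low (r ⊓ r') (Q.M (r ⊓ r') - Q.M r + if r ≤ r' then 1 else 0) := by
    split_ifs with h
    · rw [inf_eq_left.2 h, Nat.sub_self, zero_add]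
      exact inf_le_left
    · have hlt : r ⊓ r' < r := lt_of_le_of_ne inf_le_left fun h' => h (inf_eq_left.1 h')
      exact inf_le_right.trans ((iInf_le _ (r ⊓ r')).trans (iInf_le _ ⟨hlt, hρ⟩))
  have hy' := Q.decB_Vlt_le inf_le_left hW hy
  have hIn : Q.decIn r r' o * y ∈
      Q.Low r' (k + (Q.M (r ⊓ r') - Q.M r + if r ≤ r' then 1 else 0)) := by
    intro b hb
    rw [map_mul, decB_tr_In, coeff_C_mul]
    exact Q.decB_In_mul_mem o ho hz (Q.decB_coeff_tr inf_le_right hy' b hb)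
  have hC : (Q.decCross r r' o).IsHomogeneous
      (∑ p ∈ (upO r o).filter (fun p => ¬ r' p.1 p.2), Q.a p.1 p.2) := by
    refine IsHomogeneous.prod _ _ _ fun p _ => ?_
    simpa using ((isHomogeneous_X ℂ p.2).sub (isHomogeneous_X ℂ p.1)).pow (Q.a p.1 p.2)
  have h1 := Q.mul_mem_Low r' (Q.mem_Low_of_isHomogeneous r' hC) hIn
  have h2 := Q.decB_deg_cross hQ hr hr' hρ o ho
  have h3 := Q.M_mono hQ hr hρ inf_le_left
  rw [Q.decB_NumO_eq r r' o, mul_assoc]
  refine Q.Low_mono r' (le_of_eq ?_) h1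
  omega

lemma decB_card_le {r r' : Setoid α} (h : r ≤ r') : (parts r').card ≤ (parts r).card := by
  rcases h.eq_or_lt with rfl | h
  · exact le_rfl
  · exact (card_parts_lt h).le

/-! ### top parts -/

/-- Total degree `< N`. -/
def decLT {σ R : Type} [CommRing R] (N : ℕ) (f : MvPolynomial σ R) : Prop :=
  ∀ b : σ →₀ ℕ, N ≤ b.degree → coeff b f = 0

omit Q in
lemma decLT_mul {σ R : Type} [CommRing R] {m n : ℕ} {f g : MvPolynomial σ R} (hf : decLT m f)
    (hg : decLT (n + 1) g) : decLT (m + n) (f * g) := by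
  intro b hb
  rw [coeff_mul]
  refine Finset.sum_eq_zero fun p hp => ?_
  have h := Finset.HasAntidiagonal.mem_antidiagonal.1 hp
  rw [← h, map_add] at hb
  by_cases h1 : m ≤ p.1.degree
  · rw [hf _ h1, zero_mul]
  · rw [hg _ (by omega), mul_zero]

omit Q in
lemma decLT_add {σ R : Type} [CommRing R] {n : ℕ} {f g : MvPolynomial σ R} (hf : decLT n f)
    (hg : decLT n g) : decLT n (f + g) := fun b hb => by rw [coeff_add, hf b hb, hg b hb, add_zero]

omit Q in
lemma decLT_hom {σ R : Type} [CommRing R] {n : ℕ} {f : MvPolynomial σ R}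
    (hf : f.IsHomogeneous n) : decLT (n + 1) f := fun b hb =>
  hf.coeff_eq_zero (by omega)

omit Q in
lemma decLT_top_mul {σ R : Type} [CommRing R] {m n : ℕ} {f g F G : MvPolynomial σ R}
    (hF : F.IsHomogeneous m) (hG : G.IsHomogeneous n) (hf : decLT m (f - F))
    (hg : decLT n (g - G)) : decLT (m + n) (f * g - F * G) := by
  have h1 : decLT (n + 1) g := by
    have := decLT_add (fun b hb => hg b (by omega) : decLT (n + 1) (g - G)) (decLT_hom hG)
    rwa [sub_add_cancel] at this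
  have h2 := decLT_mul hg (decLT_hom hF)
  rw [add_comm] at h2
  have := decLT_add (decLT_mul hf h1) h2
  convert this using 1
  ring

omit Q in
lemma decLT_top_prod {σ R ι : Type} [CommRing R] (s : Finset ι) (n : ι → ℕ)
    (c : ι → R) (F : ι → MvPolynomial σ R) (hF : ∀ i, (F i).IsHomogeneous 1) :
    decLT (∑ i ∈ s, n i) (∏ i ∈ s, (C (c i) + F i) ^ n i - ∏ i ∈ s, F i ^ n i) := by
  have hpow : ∀ i m, decLT m ((C (c i) + F i) ^ m - F i ^ m) := by
    intro i m
    induction m with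
    | zero => intro b _; simp
    | succ m ih =>
      rw [pow_succ, pow_succ]
      refine decLT_top_mul (by simpa using (hF i).pow m) (hF i) ih ?_
      rw [add_sub_cancel_right]
      exact decLT_hom (isHomogeneous_C _ _)
  induction s using Finset.induction_on with
  | empty => intro b _; simp
  | insert i s hi ih =>
    rw [Finset.sum_insert hi, Finset.prod_insert hi, Finset.prod_insert hi]
    refine decLT_top_mul (by simpa using (hF i).pow (n i)) ?_ (hpow i _) ih
    exact IsHomogeneous.prod _ _ _ fun j _ => by simpa using (hF j).pow (n j)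

/-- The top part of the translate of `NumO`. -/
def decTop (r : Setoid α) (o : Finset α → ℕ) : MvPolynomial (Finset α) (P α) :=
  ∏ p ∈ upO r o, (X (blk r p.2) - X (blk r p.1)) ^ Q.a p.1 p.2

lemma decB_tr_NumO (hQ : Q.Sym) {r : Setoid α} (hr : Q.Zero r) (o : Finset α → ℕ)
    (ho : Function.Injective o) : decLT (Q.M r) (tr r (Q.NumO r o) - Q.decTop r o) := by
  have h := decLT_top_prod (upO r o) (fun p => Q.a p.1 p.2) (fun p => (X p.2 - X p.1 : P α))
    (fun p => (X (blk r p.2) - X (blk r p.1) : MvPolynomial (Finset α) (P α)))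
    (fun p => (isHomogeneous_X _ _).sub (isHomogeneous_X _ _))
  rw [Q.decB_sum_upO hQ hr o ho] at h
  have e : tr r (Q.NumO r o) = ∏ p ∈ upO r o, (C (X p.2 - X p.1 : P α) +
      (X (blk r p.2) - X (blk r p.1) : MvPolynomial (Finset α) (P α))) ^ Q.a p.1 p.2 := by
    rw [NumO, map_prod]
    refine Finset.prod_congr rfl fun p _ => ?_
    rw [map_pow, map_sub, map_sub]
    simp only [tr, aeval_X]
    ring
  rw [e]
  exact h

lemma decB_top_sign (hQ : Q.Sym) {r : Setoid α} (hr : Q.Zero r) (o o' : Finset α → ℕ)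
    (ho : Function.Injective o) (ho' : Function.Injective o') :
    Q.decTop r o = ((∏ p ∈ (upO r o).filter (fun p => o' (blk r p.2) < o' (blk r p.1)),
      (-1) ^ Q.a p.1 p.2 : ℤ) : MvPolynomial (Finset α) (P α)) * Q.decTop r o' := by
  have h := Q.decB_prod_symm hQ hr
    (fun x y => if o (blk r x) < o (blk r y) ∧ o' (blk r y) < o' (blk r x) then
      (X (blk r x) - X (blk r y) : MvPolynomial (Finset α) (P α)) else 1)
    (fun x x' y y' hx hy => by rw [(blk_eq_iff r x x').2 hx, (blk_eq_iff r y y').2 hy])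
  have h' : (∏ p : α × α, (if o (blk r p.1) < o (blk r p.2) ∧ o' (blk r p.2) < o' (blk r p.1) then
      (X (blk r p.1) - X (blk r p.2) : MvPolynomial (Finset α) (P α)) else 1) ^ Q.a p.2 p.1) =
      ∏ p : α × α, (if o (blk r p.2) < o (blk r p.1) ∧ o' (blk r p.1) < o' (blk r p.2) then
      (X (blk r p.2) - X (blk r p.1) : MvPolynomial (Finset α) (P α)) else 1) ^ Q.a p.1 p.2 :=
    Fintype.prod_equiv (Equiv.prodComm α α) _ _ fun p => rfl
  rw [h'] at h
  -- common part
  let c : α × α → MvPolynomial (Finset α) (P α) := fun p =>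
    (if o (blk r p.1) < o (blk r p.2) ∧ o' (blk r p.1) < o' (blk r p.2) then
      (X (blk r p.2) - X (blk r p.1) : MvPolynomial (Finset α) (P α)) else 1) ^ Q.a p.1 p.2
  have hne : ∀ p : α × α, o (blk r p.1) = o (blk r p.2) ↔ o' (blk r p.1) = o' (blk r p.2) :=
    fun p => by rw [ho.eq_iff, ho'.eq_iff]
  have e1 : Q.decTop r o' = (∏ p, c p) * ∏ p : α × α,
      (if o (blk r p.2) < o (blk r p.1) ∧ o' (blk r p.1) < o' (blk r p.2) then
      (X (blk r p.2) - X (blk r p.1) : MvPolynomial (Finset α) (P α)) else 1) ^ Q.a p.1 p.2 := by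
    rw [decTop, upO, Finset.prod_filter, ← Finset.prod_mul_distrib]
    refine Finset.prod_congr rfl fun p _ => ?_
    have := hne p
    by_cases h1 : o' (blk r p.1) < o' (blk r p.2)
    · rcases lt_trichotomy (o (blk r p.1)) (o (blk r p.2)) with h2 | h2 | h2
      · simp [c, h1, h2, h2.le]
      · omega
      · simp [c, h1, h2, h2.le]
    · simp [c, h1]
  rw [e1, ← h, decTop, upO, Finset.filter_filter, Finset.prod_filter, Finset.prod_filter,
    Int.cast_prod, ← Finset.prod_mul_distrib, ← Finset.prod_mul_distrib]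
  refine Finset.prod_congr rfl fun p _ => ?_
  have := hne p
  by_cases h1 : o (blk r p.1) < o (blk r p.2)
  · rcases lt_trichotomy (o' (blk r p.1)) (o' (blk r p.2)) with h2 | h2 | h2
    · simp [c, h1, h2, not_lt.2 h2.le]
    · omega
    · simp only [c, h1, h2, not_lt.2 h2.le, and_self, and_false, if_true, if_false, one_pow,
        one_mul, Int.cast_pow, Int.cast_neg, Int.cast_one]
      rw [← mul_pow]
      congr 1
      ring
  · simp [c, h1]

lemma decB_sign_Low (hQ : Q.Sym) {r : Setoid α} (hr : Q.Zero r) (o o' : Finset α → ℕ)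
    (ho : Function.Injective o) (ho' : Function.Injective o') :
    Q.NumO r o - (((∏ p ∈ (upO r o).filter (fun p => o' (blk r p.2) < o' (blk r p.1)),
      (-1) ^ Q.a p.1 p.2 : ℤ)) : ℂ) • Q.NumO r o' ∈ Q.Low r (Q.M r) := by
  intro b hb
  have h1 := Q.decB_tr_NumO hQ hr o ho b hb
  have h2 := Q.decB_tr_NumO hQ hr o' ho' b hb
  rw [coeff_sub, sub_eq_zero] at h1 h2
  rw [map_sub, map_smul, coeff_sub, coeff_smul, h1, h2, Q.decB_top_sign hQ hr o o' ho ho',
    ← zsmul_eq_mul, coeff_smul, Int.cast_smul_eq_zsmul, sub_self]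
  exact zero_mem _

lemma decB_rename_NumO {σ : Equiv.Perm α} (hσ : Q.Aut σ) (r : Setoid α) :
    rename σ (Q.NumO r fun B => ord (B.map σ.toEmbedding)) = Q.NumR (mapR σ r) := by
  rw [NumO, map_prod, NumR, NumO]
  refine Finset.prod_equiv (σ.prodCongr σ) (fun p => ?_) fun p _ => ?_
  · simp only [upO, Finset.mem_filter, Finset.mem_univ, true_and, Equiv.prodCongr_apply,
      Prod.map_fst, Prod.map_snd, blk_mapR]
  · simp [hσ.1]

lemma decB_rename_Fil (hQ : Q.Sym) {σ : Equiv.Perm α} (hσ : Q.Aut σ) {k j : ℕ} {z : P α}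
    (hz : z ∈ Q.Fil k j) : rename σ z ∈ Q.Fil k j := by
  refine (Submodule.mem_iInf _).2 fun r' => (Submodule.mem_iInf _).2 fun hr' => ?_
  have he : mapR σ (mapR σ.symm r') = r' := by
    refine Setoid.ext fun x y => ?_
    change r' (σ (σ.symm x)) (σ (σ.symm y)) ↔ r' x y
    rw [Equiv.apply_symm_apply, Equiv.apply_symm_apply]
  obtain ⟨r, rfl⟩ : ∃ r, mapR σ r = r' := ⟨_, he⟩
  have hc := hσ.comap
  have hr : (Q.comap σ).Zero r := (zero_mapR Q σ r).1 hr'
  rw [Low_mapR, M_mapR Q σ r hQ hr, card_parts_mapR, hc]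
  rw [hc] at hr
  exact ⟨z, (Submodule.mem_iInf _).1 ((Submodule.mem_iInf _).1 hz r) hr, rfl⟩

lemma NumO_mul_mem_Low (hQ : Q.Sym) {r r' : Setoid α} (hr : Q.Zero r) (hr' : Q.Zero r')
    (o : Finset α → ℕ) (ho : Function.Injective o) {k : ℕ} {y : P α}
    (hy : y ∈ Q.Vlt r (k + 1)) : Q.NumO r o * y ∈ Q.Low r' (Q.M r' + k + 1) := by
  refine Q.Low_mono r' ?_ (Q.decB_main hQ hr hr' o ho hy)
  split_ifs <;> omega
lemma NumO_mul_mem_Low' (hQ : Q.Sym) {r r' : Setoid α} (hr : Q.Zero r) (hr' : Q.Zero r')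
    (hrr : ¬ r ≤ r') (o : Finset α → ℕ) (ho : Function.Injective o) {k : ℕ} {y : P α}
    (hy : y ∈ Q.Vlt r (k + 1)) : Q.NumO r o * y ∈ Q.Low r' (Q.M r' + k) := by
  have := Q.decB_main hQ hr hr' o ho hy
  rwa [if_neg hrr, add_zero] at this
lemma NumR_mul_mem_Fil (hQ : Q.Sym) {r : Setoid α} (hr : Q.Zero r) {k : ℕ} {y : P α}
    (hy : y ∈ Q.Vlt r (k + 1)) : Q.NumR r * y ∈ Q.Fil k (parts r).card := by
  refine (Submodule.mem_iInf _).2 fun r' => (Submodule.mem_iInf _).2 fun hr' => ?_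
  split_ifs with h
  · exact Q.NumO_mul_mem_Low hQ hr hr' ord ord_injective hy
  · exact Q.NumO_mul_mem_Low' hQ hr hr' (fun h' => h (decB_card_le h')) ord ord_injective hy
lemma rename_NumR_mul (hQ : Q.Sym) {σ : Equiv.Perm α} (hσ : Q.Aut σ) {r : Setoid α}
    (hr : Q.Zero r) [Nonempty α] {k : ℕ} {y : P α} (hy : y ∈ Q.Vlt r (k + 1)) :
    rename σ (Q.NumR r * y) - ((Q.sg r σ : ℤ) : ℂ) • (Q.NumR (mapR σ r) * rename σ y) ∈
      Q.Fil k ((parts r).card - 1) := by
  have ho' : Function.Injective fun B : Finset α => ord (B.map σ.toEmbedding) :=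
    ord_injective.comp (Finset.map_injective _)
  rw [← Q.decB_rename_NumO hσ r, ← map_mul, ← map_smul, ← map_sub]
  refine Q.decB_rename_Fil hQ hσ ?_
  refine (Submodule.mem_iInf _).2 fun r' => (Submodule.mem_iInf _).2 fun hr' => ?_
  split_ifs with h
  · exact sub_mem (Q.NumO_mul_mem_Low hQ hr hr' ord ord_injective hy)
      (Submodule.smul_mem _ _ (Q.NumO_mul_mem_Low hQ hr hr' _ ho' hy))
  by_cases hrr : r ≤ r'
  · have heq : r = r' := by
      by_contra hne
      have := card_parts_lt (lt_of_le_of_ne hrr hne)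
      omega
    subst heq
    have h1 := Q.decB_sign_Low hQ hr ord _ ord_injective ho'
    have h2 : y ∈ Q.Low r (k + 1) := Q.decB_Vlt_le le_rfl inf_le_left hy
    have h3 := Q.mul_mem_Low r h2 h1
    rw [add_zero, add_comm]
    convert h3 using 1
    rw [mul_sub, mul_smul_comm, mul_comm y, mul_comm y]
    rfl
  · exact sub_mem (Q.NumO_mul_mem_Low' hQ hr hr' hrr ord ord_injective hy)
      (Submodule.smul_mem _ _ (Q.NumO_mul_mem_Low' hQ hr hr' hrr _ ho' hy))

end Qv
end Crest.Agent.R059
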