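import Crest.Agent.R059.DecC
import Crest.Agent.R059.DecB

/-! Row 59: the decomposition theorem. -/

set_option autoImplicit false
set_option linter.unusedSectionVars false
set_option linter.unusedVariables false

noncomputable section
open Classical MvPolynomial

namespace Crest.Agent.R059

variable {α β : Type} [Fintype α] [Fintype β]

lemma dec_card_parts_pos [Nonempty α] (r : Setoid α) : 0 < (parts r).card :=
  Finset.card_pos.2 (Finset.univ_nonempty.image _)

lemma dec_card_parts_le (r : Setoid α) : (parts r).card ≤ Fintype.card α :=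
  Finset.card_image_le

lemma dec_mapR_symm (σ : Equiv.Perm α) (r : Setoid α) : mapR σ.symm (mapR σ r) = r := by
  refine Setoid.ext fun a b => ?_
  change r (σ.symm (σ.symm.symm a)) (σ.symm (σ.symm.symm b)) ↔ r a b
  simp

lemma dec_mapR_symm' (σ : Equiv.Perm α) (r : Setoid α) : mapR σ (mapR σ.symm r) = r := by
  refine Setoid.ext fun a b => ?_
  change r (σ.symm.symm (σ.symm a)) (σ.symm.symm (σ.symm b)) ↔ r a b
  simp

lemma dec_coeff_mul_congr (h f g : PowerSeries ℂ) (D : ℕ)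
    (H : ∀ d ≤ D, PowerSeries.coeff d f = PowerSeries.coeff d g) :
    PowerSeries.coeff D (h * f) = PowerSeries.coeff D (h * g) := by
  rw [PowerSeries.coeff_mul, PowerSeries.coeff_mul]
  refine Finset.sum_congr rfl fun p hp => ?_
  have : p.1 + p.2 = D := by simpa using hp
  rw [H p.2 (by omega)]

namespace Qv
variable (Q : Qv α)

lemma dec_aut_symm {σ : Equiv.Perm α} (hσ : Q.Aut σ) : Q.Aut σ.symm :=
  ⟨fun x y => by simpa using (hσ.1 (σ.symm x) (σ.symm y)).symm,
    fun x => by simpa using (hσ.2 (σ.symm x)).symm⟩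

lemma dec_zero_mapR {σ : Equiv.Perm α} (hσ : Q.Aut σ) {r : Setoid α} (hr : Q.Zero r) :
    Q.Zero (mapR σ r) := by
  rw [zero_mapR, hσ.comap]
  exact hr

lemma dec_mem_Fil {k j : ℕ} {w : P α} : w ∈ Q.Fil k j ↔ ∀ r : Setoid α, Q.Zero r →
    w ∈ Q.Low r (Q.M r + k + if (parts r).card ≤ j then 1 else 0) := by
  simp only [Fil, Submodule.mem_iInf]

lemma dec_Fil_mono (k : ℕ) {j j' : ℕ} (h : j ≤ j') : Q.Fil k j ≤ Q.Fil k j' := by
  intro w hw
  rw [dec_mem_Fil] at hw ⊢
  intro r hr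
  refine Q.Low_mono r ?_ (hw r hr)
  split_ifs <;> omega

lemma dec_mem_Fil_zero [Nonempty α] {k : ℕ} {w : P α} : w ∈ Q.Fil k 0 ↔ ∀ r : Setoid α, Q.Zero r →
    w ∈ Q.Low r (Q.M r + k) := by
  rw [dec_mem_Fil]
  refine forall_congr' fun r => forall_congr' fun _ => ?_
  have := dec_card_parts_pos r
  rw [if_neg (by omega), add_zero]

lemma dec_Fil_succ [Nonempty α] (k : ℕ) : Q.Fil k (Fintype.card α) = Q.Fil (k + 1) 0 := by
  ext w
  rw [dec_mem_Fil_zero, dec_mem_Fil]
  refine forall_congr' fun r => forall_congr' fun _ => ?_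
  rw [if_pos (dec_card_parts_le r), add_assoc]

lemma dec_Fil_zero [Nonempty α] (h0 : Q.wt Finset.univ = 0) :
    Q.Fil 0 0 = (Q.idF Finset.univ).restrictScalars ℂ := by
  ext w
  rw [dec_mem_Fil_zero]
  constructor
  · intro h
    have := h ⊤ fun x => by rw [blk_top, h0]
    rw [M_top, add_zero, Low_zero, Jc, J_top] at this
    exact this
  · intro h r _
    refine Q.Low_mono r (Nat.zero_le _) ?_
    rw [Low_zero]
    exact Q.idF_le_J r h

lemma dec_isGr_Fil (k j : ℕ) : IsGr (Q.Fil k j) := by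
  intro w hw D
  rw [dec_mem_Fil] at hw ⊢
  exact fun r hr => Q.isGr_Low r _ w (hw r hr) D

lemma dec_stab_Fil (hQ : Q.Sym) {σ : Equiv.Perm α} (hσ : Q.Aut σ) (k j : ℕ) :
    Stab σ (Q.Fil k j) := by
  intro w hw
  rw [dec_mem_Fil] at hw ⊢
  intro r hr
  have hr' := Q.dec_zero_mapR (Q.dec_aut_symm hσ) hr
  have h1 := hw _ hr'
  rw [← dec_mapR_symm' σ r, Low_mapR, M_mapR Q σ _ hQ (by rw [hσ.comap]; exact hr'),
    card_parts_mapR σ, hσ.comap]
  exact Submodule.mem_map_of_mem h1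

lemma dec_rename_Vlt (hQ : Q.Sym) {σ : Equiv.Perm α} (hσ : Q.Aut σ) {r : Setoid α} (hr : Q.Zero r)
    (k : ℕ) {x : P α} (hx : x ∈ Q.Vlt r k) : rename σ x ∈ Q.Vlt (mapR σ r) k := by
  rw [Vlt_mapR Q σ r hQ (by rw [hσ.comap]; exact hr), hσ.comap]
  exact Submodule.mem_map_of_mem hx

lemma dec_not_le {r r' : Setoid α} (hne : r ≠ r') (hc : (parts r).card = (parts r').card) :
    ¬ r ≤ r' := fun h => by
  have := card_parts_lt (lt_of_le_of_ne h hne)
  omega

lemma dec_Ult [Nonempty α] (hQ : Q.Sym) (k κ : ℕ) :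
    Ult (fun i : {r : Setoid α // Q.Zero r} => (parts i.1).card) (Q.Fil k 0)
      (fun i => Q.Vlt i.1 (k + 1)) (fun i => LinearMap.mulLeft ℂ (Q.NumR i.1)) κ =
        Q.Fil k (κ - 1) := by
  apply le_antisymm
  · refine sup_le (Q.dec_Fil_mono k (Nat.zero_le _)) (iSup_le fun i => iSup_le fun hi => ?_)
    rintro _ ⟨y, hy, rfl⟩
    exact Q.dec_Fil_mono k (Nat.le_sub_one_of_lt hi) (Q.NumR_mul_mem_Fil hQ i.2 hy)
  · induction κ with
    | zero => exact le_sup_left
    | succ j ih =>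
      rcases j with _ | j
      · exact le_sup_left
      intro w hw
      rw [Nat.add_sub_cancel] at hw ih
      have hex : ∀ i : {r : Setoid α // Q.Zero r}, ∃ y ∈ Q.Vlt i.1 (k + 1),
          (parts i.1).card = j + 1 → w - Q.NumR i.1 * y ∈ Q.Low i.1 (Q.M i.1 + k) := fun i => by
        by_cases hi : (parts i.1).card = j + 1
        · obtain ⟨y, hy, hy'⟩ := Q.exists_symbol hQ i.2 (k := k) (w := w) (hi ▸ hw)
          exact ⟨y, hy, fun _ => hy'⟩
        · exact ⟨0, zero_mem _, fun h => absurd h hi⟩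
      choose y hy hy' using hex
      set S := Finset.univ.filter fun i : {r : Setoid α // Q.Zero r} => (parts i.1).card = j + 1
        with hS
      have h1 : w - ∑ i ∈ S, Q.NumR i.1 * y i ∈ Q.Fil k j := by
        rw [dec_mem_Fil] at hw ⊢
        intro r hr
        have hwr := hw r hr
        by_cases h2 : (parts r).card ≤ j
        · rw [if_pos (by omega)] at hwr
          rw [if_pos h2]
          exact sub_mem hwr (Submodule.sum_mem _ fun i _ =>
            Q.NumO_mul_mem_Low hQ i.2 hr ord ord_injective (hy i))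
        · rw [if_neg h2, add_zero]
          by_cases h3 : (parts r).card = j + 1
          · have hrS : (⟨r, hr⟩ : {r : Setoid α // Q.Zero r}) ∈ S := by simp [hS, h3]
            rw [← Finset.add_sum_erase S _ hrS, ← sub_sub]
            refine sub_mem (hy' ⟨r, hr⟩ h3) (Submodule.sum_mem _ fun i hi => ?_)
            have hi1 := Finset.ne_of_mem_erase hi
            have hi2 := (Finset.mem_filter.1 (Finset.mem_of_mem_erase hi)).2
            exact Q.NumO_mul_mem_Low' hQ i.2 hr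
              (dec_not_le (fun e => hi1 (Subtype.ext e)) (by omega)) ord ord_injective (hy i)
          · rw [if_neg (by omega), add_zero] at hwr
            refine sub_mem hwr (Submodule.sum_mem _ fun i hi => ?_)
            have hi2 := (Finset.mem_filter.1 hi).2
            have h4 := (Q.dec_mem_Fil.1 (Q.NumR_mul_mem_Fil hQ i.2 (hy i))) r hr
            rwa [if_neg (by omega), add_zero] at h4
      rw [← sub_add_cancel w (∑ i ∈ S, Q.NumR i.1 * y i)]
      refine add_mem ?_ (Submodule.sum_mem _ fun i hi => ?_)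
      · refine (sup_le_sup_left (iSup_mono fun i => iSup_le fun hi => ?_) _ : Ult _ _ _ _ _ ≤ _) (ih h1)
        exact le_iSup_of_le (lt_trans hi (Nat.lt_succ_self _)) le_rfl
      · have hi2 := (Finset.mem_filter.1 hi).2
        refine Submodule.mem_sup_right (Submodule.mem_iSup_of_mem i (Submodule.mem_iSup_of_mem
          (show (parts i.1).card < j + 1 + 1 by omega) ?_))
        exact Submodule.mem_map_of_mem (hy i)

lemma dec_NumR_mul [Nonempty α] (hQ : Q.Sym) {r : Setoid α} (hr : Q.Zero r) {k : ℕ} {y : P α}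
    (hy : y ∈ Q.Vlt r k) : Q.NumR r * y ∈ Q.Fil k 0 := by
  rw [dec_mem_Fil_zero]
  intro r' hr'
  rcases k with _ | k
  · rw [Vlt_zero] at hy
    refine Q.Low_mono r' (Nat.zero_le _) ?_
    rw [Low_zero]
    exact Q.idF_le_J r' (Q.NumO_mul_mem_idF hr ord ord_injective hy)
  · exact Q.NumO_mul_mem_Low hQ hr hr' ord ord_injective hy

/-- One step of the growth filtration. -/
lemma dec_step [Nonempty α] (hQ : Q.Sym) {σ : Equiv.Perm α} (hσ : Q.Aut σ) (k : ℕ) :
    ch (Q.Fil (k + 1) 0) (Q.Fil k 0) σ =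
      ∑ r ∈ Finset.univ.filter (fun r : Setoid α => Q.Zero r ∧ StabR σ r),
        PowerSeries.C ((Q.sg r σ : ℤ) : ℂ) * PowerSeries.X ^ Q.M r *
          ch (Q.Vlt r (k + 1)) (Q.Vlt r k) σ := by
  let τ : Equiv.Perm {r : Setoid α // Q.Zero r} :=
    ⟨fun i => ⟨mapR σ i.1, Q.dec_zero_mapR hσ i.2⟩,
      fun i => ⟨mapR σ.symm i.1, Q.dec_zero_mapR (Q.dec_aut_symm hσ) i.2⟩,
      fun i => Subtype.ext (dec_mapR_symm σ i.1), fun i => Subtype.ext (dec_mapR_symm' σ i.1)⟩
  have h := ch_strat σ τ (fun i => (parts i.1).card) (fun i => card_parts_mapR σ i.1) (Q.Fil k 0)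
    (fun i => Q.Vlt i.1 (k + 1)) (fun i => Q.Vlt i.1 k) (fun i => Q.NumR i.1) (fun i => Q.M i.1)
    (fun i => ((Q.sg i.1 σ : ℤ) : ℂ)) (fun i => Q.NumO_isHomogeneous i.1 ord)
    (fun i => by
      have := M_mapR Q σ i.1 hQ (by rw [hσ.comap]; exact i.2)
      rwa [hσ.comap] at this)
    (Q.dec_isGr_Fil k 0) (fun i => Q.isGr_Vlt _ _) (fun i => Q.isGr_Vlt _ _)
    (fun i => Q.Vlt_mono _ (Nat.le_succ k)) (Q.dec_stab_Fil hQ hσ k 0)
    (fun i x hx => Q.dec_rename_Vlt hQ hσ i.2 _ hx) (fun i x hx => Q.dec_rename_Vlt hQ hσ i.2 _ hx)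
    (fun i y hy => by
      rw [dec_Ult Q hQ]
      exact Q.dec_Fil_mono k (Nat.zero_le _) (Q.dec_NumR_mul hQ i.2 hy))
    (fun κ y hy hs i hi => by
      rw [dec_Ult Q hQ] at hs
      have h1 := Q.dec_mem_Fil.1 hs i.1 i.2
      have h2 := dec_card_parts_pos i.1
      rw [if_neg (by omega), add_zero,
        ← Finset.add_sum_erase _ _ (Finset.mem_filter.2 ⟨Finset.mem_univ i, hi⟩)] at h1
      refine Q.mem_Vlt_of_NumR_mul (hy i) ((Submodule.add_mem_iff_left _ ?_).1 h1)
      refine Submodule.sum_mem _ fun l hl => ?_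
      have hl1 := Finset.ne_of_mem_erase hl
      have hl2 := (Finset.mem_filter.1 (Finset.mem_of_mem_erase hl)).2
      exact Q.NumO_mul_mem_Low' hQ l.2 i.2
        (dec_not_le (fun e => hl1 (Subtype.ext e)) (hl2.trans hi.symm)) ord ord_injective (hy l))
    (fun i y hy => by
      rw [dec_Ult Q hQ]
      exact Q.rename_NumR_mul hQ hσ i.2 hy)
  have e : Q.Fil k 0 ⊔ ⨆ i : {r : Setoid α // Q.Zero r},
      (Q.Vlt i.1 (k + 1)).map (LinearMap.mulLeft ℂ (Q.NumR i.1)) = Q.Fil (k + 1) 0 := by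
    rw [← dec_Fil_succ, ← Nat.add_sub_cancel (n := Fintype.card α) (m := 1), ← dec_Ult Q hQ]
    unfold Ult
    congr 1
    refine iSup_congr fun i => ?_
    rw [iSup_pos (Nat.lt_succ_of_le (dec_card_parts_le i.1))]
  rw [e] at h
  rw [h]
  refine Finset.sum_bij (fun i _ => i.1) (fun i hi => ?_) (fun i _ j _ hij => Subtype.ext hij)
    (fun r hr => ?_) fun i _ => rfl
  · simp only [Finset.mem_filter, Finset.mem_univ, true_and] at hi ⊢
    exact ⟨i.2, (mapR_eq_iff σ i.1).1 (congrArg Subtype.val hi)⟩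
  · obtain ⟨-, h1, h2⟩ := Finset.mem_filter.1 hr
    refine ⟨⟨r, h1⟩, ?_, rfl⟩
    simp only [Finset.mem_filter, Finset.mem_univ, true_and]
    exact Subtype.ext ((mapR_eq_iff σ r).2 h2)

lemma dec_tele [Nonempty α] (hQ : Q.Sym) {σ : Equiv.Perm α} (hσ : Q.Aut σ) (K : ℕ) :
    ch (Q.Fil K 0) (Q.Fil 0 0) σ =
      ∑ r ∈ Finset.univ.filter (fun r : Setoid α => Q.Zero r ∧ StabR σ r),
        PowerSeries.C ((Q.sg r σ : ℤ) : ℂ) * PowerSeries.X ^ Q.M r *
          ch (Q.Vlt r K) (Q.Jc r) σ := by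
  induction K with
  | zero => simp [Vlt_zero, ch_self]
  | succ k ih =>
    rw [← ch_add _ (Q.Fil k 0), ih, Q.dec_step hQ hσ, ← Finset.sum_add_distrib]
    refine Finset.sum_congr rfl fun r _ => ?_
    rw [← mul_add, ch_add]

lemma dec_empty [IsEmpty α] (σ : Equiv.Perm α) (r : Setoid α) : Q.chV r σ = 1 := by
  have hJ : Q.Jc r = ⊥ := by
    unfold Jc J
    rw [iSup_of_empty]
    rfl
  have hV : Q.V r = ⊤ := by
    rw [eq_top_iff]
    intro x _
    refine Submodule.subset_span ⟨x, ⟨?_, ?_⟩, 0, by simp, by simp [sMon]⟩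
    · refine Q.mem_Low_of_isHomogeneous r (D := 0) ?_
      rw [eq_C_of_isEmpty x]
      exact isHomogeneous_C _ _
    · simp only [SetLike.mem_coe, Submodule.mem_iInf]
      intro r' hr'
      exact absurd (Setoid.ext fun a => isEmptyElim a) hr'.1.ne
  unfold chV
  rw [hJ, hV, ch_empty]

theorem decomposition (hQ : Q.Sym) (h0 : Q.wt Finset.univ = 0) {σ : Equiv.Perm α}
    (hσ : Q.Aut σ) :
    Q.chF σ = ∑ r ∈ Finset.univ.filter (fun r : Setoid α => Q.Zero r ∧ StabR σ r),
      PowerSeries.C ((Q.sg r σ : ℤ) : ℂ) * PowerSeries.X ^ Q.M r * Q.chV r σ := by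
  rcases isEmpty_or_nonempty α with hα | hα
  · have e : Finset.univ.filter (fun r : Setoid α => Q.Zero r ∧ StabR σ r) = {⊤} := by
      ext r
      simp only [Finset.mem_filter, Finset.mem_univ, true_and, Finset.mem_singleton]
      exact ⟨fun _ => Setoid.ext fun a => isEmptyElim a,
        fun _ => ⟨fun a => isEmptyElim a, fun a => isEmptyElim a⟩⟩
    have e1 : Q.sg ⊤ σ = 1 := Finset.prod_eq_one fun p _ => isEmptyElim p.1
    rw [e, Finset.sum_singleton, chF_empty, dec_empty, M_top, e1]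
    simp
  ext D
  have h1 := congrArg (PowerSeries.coeff D) (Q.dec_tele hQ hσ (D + 1))
  have h2 : Q.Fil (D + 1) 0 ⊓ homogeneousSubmodule α ℂ D = ⊤ ⊓ homogeneousSubmodule α ℂ D := by
    refine le_antisymm (inf_le_inf_right _ le_top) fun x hx => ⟨?_, hx.2⟩
    refine Q.dec_mem_Fil_zero.2 fun r _ => Q.Low_mono r (Nat.le_add_left _ _) ?_
    exact Q.mem_Low_of_isHomogeneous r hx.2
  have h3 : PowerSeries.coeff D (Q.chF σ) =
      PowerSeries.coeff D (ch (Q.Fil (D + 1) 0) (Q.Fil 0 0) σ) := by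
    unfold chF ch
    rw [PowerSeries.coeff_mk, PowerSeries.coeff_mk, h2, Q.dec_Fil_zero h0]
  rw [h3, h1, map_sum, map_sum]
  refine Finset.sum_congr rfl fun r _ => dec_coeff_mul_congr _ _ _ _ fun d hd => ?_
  unfold chV ch
  rw [PowerSeries.coeff_mk, PowerSeries.coeff_mk, Q.Vlt_inf_hom r (Nat.lt_succ_of_le hd)]

end Qv
end Crest.Agent.R059
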