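import Crest.Agent.R059.DecAAux

/-! Row 59: basic properties of `J`, `Low`, `W`, `V`. -/

set_option autoImplicit false
set_option linter.unusedSectionVars false
set_option linter.unusedVariables false

noncomputable section
open Classical MvPolynomial

namespace Crest.Agent.R059

variable {α β : Type} [Fintype α] [Fintype β]

lemma mem_blk (r : Setoid α) (x y : α) : y ∈ blk r x ↔ r x y := by
  simp [blk]
lemma blk_eq_iff (r : Setoid α) (x y : α) : blk r x = blk r y ↔ r x y := by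
  refine ⟨fun h => (mem_blk r x y).1 (h ▸ (mem_blk r y y).2 (r.refl' y)), fun h => ?_⟩
  ext z
  rw [mem_blk, mem_blk]
  exact ⟨r.trans' (r.symm' h), r.trans' h⟩
lemma ord_injective : Function.Injective (ord : Finset α → ℕ) := by
  exact fun _ _ h => (Fintype.equivFin (Finset α)).injective (Fin.ext h)
lemma deca_mapR (e : α ≃ β) (r : Setoid α) (x y : α) : mapR e r (e x) (e y) ↔ r x y := by
  change r (e.symm (e x)) (e.symm (e y)) ↔ r x y
  rw [e.symm_apply_apply, e.symm_apply_apply]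
lemma deca_self_mem (r : Setoid α) (x : α) : x ∈ blk r x := (mem_blk r x x).2 (r.refl' x)
lemma deca_blk_of_mem {r : Setoid α} {B : Finset α} (hB : B ∈ parts r) {x : α} (hx : x ∈ B) :
    blk r x = B := by
  obtain ⟨y, -, rfl⟩ := Finset.mem_image.1 hB
  exact ((blk_eq_iff r y x).2 ((mem_blk r y x).1 hx)).symm
lemma deca_sum_parts {M : Type} [AddCommMonoid M] (r : Setoid α) (g : α → M) :
    ∑ x, g x = ∑ B ∈ parts r, ∑ x ∈ B, g x := by
  rw [← Finset.sum_fiberwise_of_maps_to (t := parts r) (g := blk r)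
    fun x _ => Finset.mem_image_of_mem _ (Finset.mem_univ x)]
  refine Finset.sum_congr rfl fun B hB => Finset.sum_congr ?_ fun _ _ => rfl
  ext x
  simp only [Finset.mem_filter, Finset.mem_univ, true_and]
  exact ⟨fun h => h ▸ deca_self_mem r x, deca_blk_of_mem hB⟩
lemma blk_mapR (e : α ≃ β) (r : Setoid α) (x : α) :
    blk (mapR e r) (e x) = (blk r x).map e.toEmbedding := by
  ext y
  obtain ⟨y, rfl⟩ := e.surjective y
  rw [mem_blk, deca_mapR, Finset.mem_map_equiv, e.symm_apply_apply, mem_blk]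
lemma deca_parts_mapR (e : α ≃ β) (r : Setoid α) :
    parts (mapR e r) = (parts r).map e.finsetCongr.toEmbedding := by
  ext B
  simp only [parts, Finset.mem_image, Finset.mem_univ, true_and, Finset.mem_map,
    e.surjective.exists, blk_mapR]
  exact ⟨fun ⟨x, h⟩ => ⟨_, ⟨x, rfl⟩, h⟩, fun ⟨_, ⟨x, rfl⟩, h⟩ => ⟨x, h⟩⟩
lemma deca_mapR_le (e : α ≃ β) {r r' : Setoid α} : mapR e r ≤ mapR e r' ↔ r ≤ r' := by
  simp only [Setoid.le_def, e.surjective.forall, deca_mapR]
lemma deca_mapR_lt (e : α ≃ β) {r r' : Setoid α} : mapR e r < mapR e r' ↔ r < r' := by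
  simp only [lt_iff_le_not_ge, deca_mapR_le]
lemma deca_mapR_surjective (e : α ≃ β) : Function.Surjective (mapR e) := fun r =>
  ⟨mapR e.symm r, Setoid.ext fun x y => by
    change r (e (e.symm x)) (e (e.symm y)) ↔ r x y
    rw [e.apply_symm_apply, e.apply_symm_apply]⟩
lemma card_parts_mapR (e : α ≃ β) (r : Setoid α) :
    (parts (mapR e r)).card = (parts r).card := by
  rw [deca_parts_mapR, Finset.card_map]
lemma mapR_eq_iff (σ : Equiv.Perm α) (r : Setoid α) : mapR σ r = r ↔ StabR σ r := by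
  refine ⟨fun h x y => ?_, fun h => Setoid.ext fun x y => ?_⟩
  · rw [← deca_mapR σ r x y, h]
  · obtain ⟨x, rfl⟩ := σ.surjective x
    obtain ⟨y, rfl⟩ := σ.surjective y
    rw [deca_mapR, h]
lemma card_parts_lt {r r' : Setoid α} (h : r' < r) : (parts r).card < (parts r').card := by
  have hle : ∀ x y, r' x y → r x y := fun _ _ => Setoid.le_def.1 h.le
  obtain ⟨x, y, hxy, hn⟩ : ∃ x y, r x y ∧ ¬ r' x y := by
    by_contra hc
    push Not at hc
    exact h.not_ge (Setoid.le_def.2 fun {x y} => hc x y)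
  have key : ∀ z, (blk r' z).biUnion (blk r) = blk r z := fun z => by
    ext w
    simp only [Finset.mem_biUnion, mem_blk]
    exact ⟨fun ⟨u, h1, h2⟩ => r.trans' (hle _ _ h1) h2, fun h => ⟨z, r'.refl' z, h⟩⟩
  have e : parts r = (parts r').image fun B => B.biUnion (blk r) := by
    rw [parts, parts, Finset.image_image]
    exact Finset.image_congr fun z _ => (key z).symm
  rw [e]
  refine lt_of_le_of_ne Finset.card_image_le fun hc => hn ?_
  refine (blk_eq_iff r' x y).1 (Finset.card_image_iff.1 hc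
    (Finset.mem_image_of_mem _ (Finset.mem_univ x)) (Finset.mem_image_of_mem _ (Finset.mem_univ y))
    ?_)
  simp only [key]
  exact (blk_eq_iff r x y).2 hxy
lemma blk_top (x : α) : blk (⊤ : Setoid α) x = Finset.univ := by
  ext y
  simp [mem_blk]

namespace Qv
variable (Q : Qv α)

lemma deca_sum_pairs (r : Setoid α) (ρ : Finset α → Finset α → Prop) :
    ∑ p ∈ Finset.univ.filter (fun p : α × α => ρ (blk r p.1) (blk r p.2)), Q.a p.1 p.2 =
      ∑ B ∈ parts r, ∑ B' ∈ parts r, if ρ B B' then Q.aa B B' else 0 := by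
  rw [Finset.sum_filter, Fintype.sum_prod_type, deca_sum_parts r]
  refine Finset.sum_congr rfl fun B hB => ?_
  simp only [deca_sum_parts r (M := ℕ)]
  rw [Finset.sum_comm]
  refine Finset.sum_congr rfl fun B' hB' => ?_
  rw [Finset.sum_congr rfl fun x hx => Finset.sum_congr rfl fun y hy => by
    rw [deca_blk_of_mem hB hx, deca_blk_of_mem hB' hy]]
  split_ifs <;> simp [aa]
lemma deca_diag (r : Setoid α) : ∑ B ∈ parts r, Q.aa B B =
    ∑ p ∈ Finset.univ.filter (fun p : α × α => r p.1 p.2), Q.a p.1 p.2 := by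
  have := Q.deca_sum_pairs r fun B B' => B = B'
  simp only [blk_eq_iff] at this
  rw [← Finset.sum_congr rfl fun B hB => (Finset.sum_ite_eq (parts r) B (Q.aa B)).trans (if_pos hB)]
  convert this.symm
lemma deca_zero {r : Setoid α} (hr : Q.Zero r) {B : Finset α} (hB : B ∈ parts r) : Q.wt B = 0 := by
  obtain ⟨x, -, rfl⟩ := Finset.mem_image.1 hB
  exact hr x
lemma two_mul_M (hQ : Q.Sym) {r : Setoid α} (hr : Q.Zero r) (o : Finset α → ℕ)
    (ho : Function.Injective o) :
    2 * ∑ p ∈ upO r o, Q.a p.1 p.2 + ∑ B ∈ parts r, Q.aa B B = Q.aa Finset.univ Finset.univ := by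
  have h1 : ∑ p ∈ upO r o, Q.a p.1 p.2 =
      ∑ B ∈ parts r, ∑ B' ∈ parts r, if o B < o B' then Q.aa B B' else 0 := by
    convert Q.deca_sum_pairs r fun B B' => o B < o B'
    ext p
    simp [upO]
  have h2 : ∑ p ∈ upO r o, Q.a p.1 p.2 =
      ∑ B ∈ parts r, ∑ B' ∈ parts r, if o B' < o B then Q.aa B B' else 0 := by
    rw [h1, Finset.sum_comm]
    exact Finset.sum_congr rfl fun B hB => Finset.sum_congr rfl fun B' hB' => by
      rw [hQ _ _ (Q.deca_zero hr hB') (Q.deca_zero hr hB)]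
  have h3 : Q.aa Finset.univ Finset.univ = ∑ B ∈ parts r, ∑ B' ∈ parts r, Q.aa B B' := by
    have := Q.deca_sum_pairs r fun _ _ => True
    simp only [Finset.filter_true, if_true, Fintype.sum_prod_type] at this
    exact this
  rw [two_mul, h3]
  nth_rw 1 [h1]
  rw [h2, ← Finset.sum_add_distrib, ← Finset.sum_add_distrib]
  refine Finset.sum_congr rfl fun B hB => ?_
  rw [← (Finset.sum_ite_eq (parts r) B (Q.aa B)).trans (if_pos hB), ← Finset.sum_add_distrib,
    ← Finset.sum_add_distrib]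
  refine Finset.sum_congr rfl fun B' _ => ?_
  rcases lt_trichotomy (o B) (o B') with h | h | h
  · rw [if_pos h, if_neg h.not_gt, if_neg fun e => h.ne (congrArg o e)]; simp
  · rw [if_neg h.not_lt, if_neg h.not_gt, if_pos (ho h)]; simp
  · rw [if_neg h.not_gt, if_pos h, if_neg fun e => h.ne' (congrArg o e)]; simp
lemma M_mono (hQ : Q.Sym) {r r' : Setoid α} (hr : Q.Zero r) (hr' : Q.Zero r') (h : r' ≤ r) :
    Q.M r ≤ Q.M r' := by
  have h1 := Q.two_mul_M hQ hr ord ord_injective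
  have h2 := Q.two_mul_M hQ hr' ord ord_injective
  have h3 : ∑ B ∈ parts r', Q.aa B B ≤ ∑ B ∈ parts r, Q.aa B B := by
    rw [deca_diag, deca_diag]
    exact Finset.sum_le_sum_of_subset fun p hp =>
      Finset.mem_filter.2 ⟨Finset.mem_univ _, h (Finset.mem_filter.1 hp).2⟩
  unfold M upP
  omega
lemma M_top : Q.M ⊤ = 0 := by
  simp [M, upP, upO, blk_top]
lemma J_top [Nonempty α] : Q.J ⊤ = Q.idF Finset.univ := by
  simp [J, blk_top]
lemma NumO_isHomogeneous (r : Setoid α) (o : Finset α → ℕ) :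
    (Q.NumO r o).IsHomogeneous (∑ p ∈ upO r o, Q.a p.1 p.2) := by
  refine IsHomogeneous.prod _ _ _ fun p _ => ?_
  simpa using ((isHomogeneous_X ℂ p.2).sub (isHomogeneous_X ℂ p.1)).pow (Q.a p.1 p.2)
lemma deca_exists_blk (r : Setoid α) {S Y : Finset α} (hS : Q.wt S < 0)
    (hY : ∀ z ∈ S, blk r z ⊆ Y) : ∃ y, ∃ T ⊆ blk r y, Q.wt T < 0 ∧
      Q.Num T (blk r y \ T) ∣ Q.Num S (Y \ S) := by
  have h1 : Q.wt S = ∑ B ∈ parts r, Q.wt (S.filter fun z => blk r z = B) :=
    (Finset.sum_fiberwise_of_maps_to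
      (fun x _ => Finset.mem_image_of_mem _ (Finset.mem_univ x)) _).symm
  obtain ⟨B, -, h2⟩ : ∃ B ∈ parts r, Q.wt (S.filter fun z => blk r z = B) < 0 := by
    by_contra hc
    push Not at hc
    exact (Finset.sum_nonneg hc).not_gt (h1 ▸ hS)
  obtain ⟨y, hy⟩ : (S.filter fun z => blk r z = B).Nonempty := by
    rw [Finset.nonempty_iff_ne_empty]
    intro e
    simp [e, wt] at h2
  replace hy := Finset.mem_filter.1 hy
  obtain ⟨hy, rfl⟩ := hy
  refine ⟨y, _, fun z hz => ?_, h2, Q.Num_dvd (Finset.filter_subset _ _) fun z hz => ?_⟩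
  · exact (Finset.mem_filter.1 hz).2 ▸ deca_self_mem r z
  · obtain ⟨h3, h4⟩ := Finset.mem_sdiff.1 hz
    exact Finset.mem_sdiff.2 ⟨hY y hy h3, fun h5 => h4 (Finset.mem_filter.2
      ⟨h5, ((blk_eq_iff r y z).2 ((mem_blk r y z).1 h3)).symm⟩)⟩
lemma deca_mem_J (r : Setoid α) (y : α) {T : Finset α} (hT : T ⊆ blk r y) (h : Q.wt T < 0) :
    Q.Num T (blk r y \ T) ∈ Q.J r :=
  le_iSup (fun x => Q.idF (blk r x)) y (Ideal.subset_span ⟨T, hT, h, rfl⟩)
lemma deca_tr_Num (r : Setoid α) (y : α) {T T' : Finset α} (hT : T ⊆ blk r y)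
    (hT' : T' ⊆ blk r y) : tr r (Q.Num T T') = C (Q.Num T T') := by
  simp only [Num, map_prod, map_pow, map_sub, tr, aeval_X]
  refine Finset.prod_congr rfl fun x hx => Finset.prod_congr rfl fun z hz => ?_
  rw [← (blk_eq_iff r y x).2 ((mem_blk r y x).1 (hT hx)),
    ← (blk_eq_iff r y z).2 ((mem_blk r y z).1 (hT' hz)), add_sub_add_right_eq_sub]
lemma coeff_tr_mem_J {r r' : Setoid α} (h : r' ≤ r) {w : P α} (hw : w ∈ Q.J r)
    (b : Finset α →₀ ℕ) : coeff b (tr r' w) ∈ Q.J r' := by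
  have : Q.J r ≤ ((Q.J r').map (C : P α →+* MvPolynomial (Finset α) (P α))).comap (tr r') := by
    refine iSup_le fun x => Ideal.span_le.2 ?_
    rintro _ ⟨S, hS, h1, rfl⟩
    obtain ⟨y, T, hT, h2, c, hc⟩ := Q.deca_exists_blk r' (Y := blk r x) h1 fun z hz u hu =>
      (mem_blk r x u).2 (r.trans' ((mem_blk r x z).1 (hS hz)) (h ((mem_blk r' z u).1 hu)))
    rw [SetLike.mem_coe, Ideal.mem_comap, hc, map_mul,
      Q.deca_tr_Num r' y hT Finset.sdiff_subset]
    exact Ideal.mul_mem_right _ _ (Ideal.mem_map_of_mem _ (Q.deca_mem_J r' y hT h2))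
  exact mem_map_C_iff.1 (this hw) b
lemma J_mono {r r' : Setoid α} (h : r' ≤ r) : Q.J r ≤ Q.J r' := by
  intro w hw
  have := Q.coeff_tr_mem_J h hw 0
  rwa [deca_tr_eq, deca_coeff_zero] at this
lemma idF_le_J (r : Setoid α) : Q.idF Finset.univ ≤ Q.J r := by
  refine Ideal.span_le.2 ?_
  rintro _ ⟨S, -, h1, rfl⟩
  obtain ⟨y, T, hT, h2, hc⟩ := Q.deca_exists_blk r (Y := Finset.univ) h1
    fun _ _ => Finset.subset_univ _
  exact Ideal.mem_of_dvd _ hc (Q.deca_mem_J r y hT h2)
lemma Low_zero (r : Setoid α) : Q.Low r 0 = Q.Jc r := by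
  ext w
  refine ⟨fun h => ?_, fun h b _ => Q.coeff_tr_mem_J le_rfl h b⟩
  have := h 0 (Nat.zero_le _)
  rwa [deca_tr_eq, deca_coeff_zero] at this
lemma Low_mono (r : Setoid α) {N N' : ℕ} (h : N ≤ N') : Q.Low r N ≤ Q.Low r N' := by
  exact fun _ hw b hb => hw b (h.trans hb)
lemma Jc_le_Low {r r' : Setoid α} (h : r' ≤ r) (N : ℕ) : Q.Jc r ≤ Q.Low r' N := by
  exact fun _ hw b _ => Q.coeff_tr_mem_J h hw b
lemma Jc_le_W (r : Setoid α) : Q.Jc r ≤ Q.W r := by
  exact le_inf (Q.Jc_le_Low le_rfl _) (le_iInf₂ fun r' h => Q.Jc_le_Low h.1.le _)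
lemma W_le_V (r : Setoid α) : Q.W r ≤ Q.V r := by
  exact fun w hw => Submodule.subset_span ⟨w, hw, 0, by simp, by simp [sMon]⟩
lemma mul_mem_Low (r : Setoid α) {N N' : ℕ} {x y : P α} (hx : x ∈ Q.Low r (N + 1))
    (hy : y ∈ Q.Low r N') : x * y ∈ Q.Low r (N + N') := by
  intro b hb
  rw [map_mul, coeff_mul]
  refine Ideal.sum_mem _ fun p hp => ?_
  have e : p.1.degree + p.2.degree = b.degree := by
    rw [← map_add, Finset.HasAntidiagonal.mem_antidiagonal.1 hp]
  rcases le_or_gt (N + 1) p.1.degree with h | h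
  · exact Ideal.mul_mem_right _ _ (hx _ h)
  · exact Ideal.mul_mem_left _ _ (hy _ (by omega))
lemma mem_Low_of_isHomogeneous (r : Setoid α) {D : ℕ} {x : P α} (hx : x.IsHomogeneous D) :
    x ∈ Q.Low r (D + 1) := by
  intro b hb
  rw [deca_tr_eq, (decaG_tr (blk r) hx b).2 hb]
  exact zero_mem _
/-- Composition of translations. -/
lemma coeff_tr_mem_Low {r r' : Setoid α} (h : r' ≤ r) {N : ℕ} {w : P α} (hw : w ∈ Q.Low r' N)
    (b : Finset α →₀ ℕ) : coeff b (tr r w) ∈ Q.Low r' (N - b.degree) := by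
  intro b' hb'
  have key : ∀ z, (blk r' z).biUnion (blk r) = blk r z := fun z => by
    ext u
    simp only [Finset.mem_biUnion, mem_blk]
    exact ⟨fun ⟨u, h1, h2⟩ => r.trans' (h h1) h2, fun h => ⟨z, r'.refl' z, h⟩⟩
  have e : ∀ w : P α, MvPolynomial.map (tr r' : P α →+* _) (tr r w) =
      decaTr (R := P α) (fun B : Finset α => B.biUnion (blk r)) (tr r' w) := by
    intro w
    induction w using MvPolynomial.induction_on with
    | C c => simp [tr, decaTr, MvPolynomial.algebraMap_apply]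
    | add p q hp hq => simp only [map_add, hp, hq]
    | mul_X p i hp =>
      rw [map_mul, map_mul, map_mul, map_mul, hp]
      refine congrArg (_ * ·) ?_
      simp [tr, decaTr, MvPolynomial.algebraMap_apply, key, add_assoc]
  have := deca_coeff_coeff_mem (fun B : Finset α => B.biUnion (blk r)) (Q.J r') hw b b' hb'
  rw [← e w, coeff_map] at this
  exact this
lemma NumO_mul_mem_idF {r : Setoid α} (hr : Q.Zero r) (o : Finset α → ℕ)
    (ho : Function.Injective o) {y : P α} (hy : y ∈ Q.J r) :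
    Q.NumO r o * y ∈ Q.idF Finset.univ := by
  have : Q.J r ≤ (Q.idF Finset.univ).colon {Q.NumO r o} := by
    refine iSup_le fun x => Ideal.span_le.2 ?_
    rintro _ ⟨S, hS, h1, rfl⟩
    rw [SetLike.mem_coe, Submodule.mem_colon_singleton, smul_eq_mul]
    have hb : ∀ z ∈ blk r x, blk r z = blk r x := fun z hz =>
      ((blk_eq_iff r x z).2 ((mem_blk r x z).1 hz)).symm
    set L := Finset.univ.filter fun z => o (blk r z) < o (blk r x) with hL
    have hd : Disjoint S L := Finset.disjoint_left.2 fun z hz hz' => by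
      have := (Finset.mem_filter.1 hz').2
      rw [hb z (hS hz)] at this
      exact this.false
    have h2 : Q.wt L = 0 := by
      rw [wt, hL, Finset.sum_filter, deca_sum_parts r]
      refine Finset.sum_eq_zero fun B hB => ?_
      rw [Finset.sum_congr rfl fun z hz => by rw [deca_blk_of_mem hB hz]]
      split_ifs
      · exact Q.deca_zero hr hB
      · simp
    have h3 : Q.wt (S ∪ L) < 0 := by
      rw [wt, Finset.sum_union hd]
      exact (congrArg (Q.wt S + ·) h2).trans_lt (by simpa using h1)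
    refine Ideal.mem_of_dvd _ ?_ (Ideal.subset_span ⟨S ∪ L, Finset.subset_univ _, h3, rfl⟩)
    rw [Num, Num, NumO, ← Finset.prod_product', ← Finset.prod_product', ← Finset.prod_union]
    · refine Finset.prod_dvd_prod_of_subset _ _ _ fun p hp => ?_
      simp only [hL, upO, Finset.mem_product, Finset.mem_union, Finset.mem_sdiff, Finset.mem_filter,
        Finset.mem_univ, true_and, not_or, not_lt] at hp ⊢
      obtain ⟨k1 | k1, k2, k3⟩ := hp
      · rcases k3.eq_or_lt with k4 | k4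
        · exact Or.inl ⟨k1, ho k4 ▸ deca_self_mem r _, k2⟩
        · exact Or.inr (by rwa [hb _ (hS k1)])
      · exact Or.inr (k1.trans_le k3)
    · refine Finset.disjoint_left.2 fun p hp hp' => ?_
      have k := (Finset.mem_filter.1 hp').2
      rw [hb _ (hS (Finset.mem_product.1 hp).1),
        hb _ (Finset.mem_sdiff.1 (Finset.mem_product.1 hp).2).1] at k
      exact k.false
  have := Submodule.mem_colon_singleton.1 (this hy)
  rwa [smul_eq_mul, mul_comm] at this
lemma isGr_Jc (r : Setoid α) : IsGr (Q.Jc r) := by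
  intro f hf D
  refine Submodule.iSup_induction (fun x => Q.idF (blk r x))
    (motive := fun f => homogeneousComponent D f ∈ Q.Jc r) hf (fun x f hf => ?_) (by simp)
    fun f g hf hg => by rw [map_add]; exact add_mem hf hg
  exact le_iSup (fun x => Q.idF (blk r x)) x (Q.isGr_idF _ f hf D)
lemma isGr_Low (r : Setoid α) (N : ℕ) : IsGr (Q.Low r N) := by
  intro f hf D b hb
  rw [deca_tr_eq, deca_coeff_tr_hom]
  split_ifs
  · exact Q.isGr_Jc r _ (hf b hb) _
  · exact zero_mem _
lemma isGr_W (r : Setoid α) : IsGr (Q.W r) := by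
  intro f hf D
  simp only [W, Submodule.mem_inf, Submodule.mem_iInf] at hf ⊢
  exact ⟨Q.isGr_Low _ _ f hf.1 D, fun r' h => Q.isGr_Low _ _ f (hf.2 r' h) D⟩
lemma isGr_Vlt (r : Setoid α) (k : ℕ) : IsGr (Q.Vlt r k) := by
  intro f hf D
  obtain ⟨u, hu, v, hv, rfl⟩ := Submodule.mem_sup.1 hf
  rw [map_add]
  refine Submodule.add_mem_sup (Q.isGr_Jc r u hu D) ?_
  clear hf
  induction hv using Submodule.span_induction with
  | mem z hz =>
    obtain ⟨q, hq, b, h1, h2, rfl⟩ := hz
    rw [deca_hom_mul_sMon]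
    split_ifs
    · exact Submodule.subset_span ⟨_, Q.isGr_W r q hq _, b, h1, h2, rfl⟩
    · exact zero_mem _
  | zero => simp
  | add x y _ _ hx hy => rw [map_add]; exact add_mem hx hy
  | smul c x _ hx => rw [map_smul]; exact Submodule.smul_mem _ c hx
lemma isGr_V (r : Setoid α) : IsGr (Q.V r) := by
  intro f hf D
  induction hf using Submodule.span_induction with
  | mem z hz =>
    obtain ⟨q, hq, b, h1, rfl⟩ := hz
    rw [deca_hom_mul_sMon]
    split_ifs
    · exact Submodule.subset_span ⟨_, Q.isGr_W r q hq _, b, h1, rfl⟩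
    · exact zero_mem _
  | zero => simp
  | add x y _ _ hx hy => rw [map_add]; exact add_mem hx hy
  | smul c x _ hx => rw [map_smul]; exact Submodule.smul_mem _ c hx
lemma Vlt_zero (r : Setoid α) : Q.Vlt r 0 = Q.Jc r := by
  simp [Vlt]
lemma Vlt_mono (r : Setoid α) {k k' : ℕ} (h : k ≤ k') : Q.Vlt r k ≤ Q.Vlt r k' := by
  refine sup_le_sup_left (Submodule.span_mono ?_) _
  rintro _ ⟨q, hq, b, h1, h2, e⟩
  exact ⟨q, hq, b, h1, h2.trans_le h, e⟩
lemma Vlt_inf_hom (r : Setoid α) {k D : ℕ} (h : D < k) :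
    Q.Vlt r k ⊓ homogeneousSubmodule α ℂ D = Q.V r ⊓ homogeneousSubmodule α ℂ D := by
  refine le_antisymm (inf_le_inf_right _ (sup_le ((Q.Jc_le_W r).trans (Q.W_le_V r))
    (Submodule.span_mono fun _ ⟨q, hq, b, h1, _, e⟩ => ⟨q, hq, b, h1, e⟩))) ?_
  rintro f ⟨hf, hD⟩
  refine ⟨?_, hD⟩
  rw [← homogeneousComponent_eq_self hD]
  clear hD
  induction hf using Submodule.span_induction with
  | mem z hz =>
    obtain ⟨q, hq, b, h1, rfl⟩ := hz
    rw [deca_hom_mul_sMon]
    split_ifs with h2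
    · exact Submodule.mem_sup_right
        (Submodule.subset_span ⟨_, Q.isGr_W r q hq _, b, h1, h2.trans_lt h, rfl⟩)
    · exact zero_mem _
  | zero => simp
  | add x y _ _ hx hy => rw [map_add]; exact add_mem hx hy
  | smul c x _ hx => rw [map_smul]; exact Submodule.smul_mem _ c hx
end Qv

section Equiv
variable (Q : Qv β) (e : α ≃ β) (r : Setoid α)
lemma zero_mapR : Q.Zero (mapR e r) ↔ (Q.comap e).Zero r := by
  simp only [Qv.Zero, e.surjective.forall, blk_mapR, Qv.wt, Finset.sum_map]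
  rfl
lemma M_mapR (hQ : Q.Sym) (hr : (Q.comap e).Zero r) : Q.M (mapR e r) = (Q.comap e).M r := by
  have h1 := Q.two_mul_M hQ ((zero_mapR Q e r).2 hr) ord ord_injective
  have h2 := (Q.comap e).two_mul_M (hQ.comap e.toEmbedding) hr ord ord_injective
  have h3 : ∀ S T : Finset α, Q.aa (S.map e.toEmbedding) (T.map e.toEmbedding) =
      (Q.comap e).aa S T := fun S T => by
    simp only [Qv.aa, Finset.sum_map]
    rfl
  rw [deca_parts_mapR, Finset.sum_map, ← Finset.map_univ_equiv e, h3] at h1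
  simp only [Equiv.coe_toEmbedding, Equiv.finsetCongr_apply, h3] at h1
  unfold Qv.M upP
  omega
lemma deca_rename_mem_J (x : P α) : rename e x ∈ Q.J (mapR e r) ↔ x ∈ (Q.comap e).J r := by
  have : Q.J (mapR e r) = ((Q.comap e).J r).map (rename e : P α →ₐ[ℂ] P β) := by
    rw [Qv.J, Qv.J, Ideal.map_iSup, ← e.surjective.iSup_comp]
    exact iSup_congr fun x => by rw [blk_mapR]; exact (Q.map_idF e.toEmbedding _).symm
  rw [this, Ideal.mem_map_iff_of_surjective _ (rename_surjective e e.surjective)]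
  exact ⟨fun ⟨_, hy, h⟩ => rename_injective e e.injective h ▸ hy, fun h => ⟨x, h, rfl⟩⟩
lemma deca_coeff_tr_mapR (x : P α) (b : Finset α →₀ ℕ) :
    coeff (b.mapDomain e.finsetCongr) (tr (mapR e r) (rename e x)) =
      rename e (coeff b (tr r x)) := by
  have : tr (mapR e r) (rename e x) = rename e.finsetCongr
      (MvPolynomial.map (rename e : P α →ₐ[ℂ] P β) (tr r x)) := by
    induction x using MvPolynomial.induction_on with
    | C c => simp [tr, MvPolynomial.algebraMap_apply]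
    | add p q hp hq => simp only [map_add, hp, hq]
    | mul_X p i hp =>
      simp only [map_mul, hp]
      congr 1
      simp [tr, blk_mapR, Equiv.finsetCongr_apply]
  rw [this, coeff_rename_mapDomain _ e.finsetCongr.injective, coeff_map]
  rfl
lemma deca_rename_mem_Low (N : ℕ) (x : P α) :
    rename e x ∈ Q.Low (mapR e r) N ↔ x ∈ (Q.comap e).Low r N := by
  refine ((Finsupp.mapDomain_surjective e.finsetCongr.surjective).forall.trans
    (forall_congr' fun b => ?_))
  rw [Finsupp.degree_mapDomain, deca_coeff_tr_mapR, deca_rename_mem_J]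
lemma deca_support_mapR (b : Finset α →₀ ℕ) :
    (b.mapDomain e.finsetCongr).support ⊆ parts (mapR e r) ↔ b.support ⊆ parts r := by
  rw [Finsupp.mapDomain_support_of_injective e.finsetCongr.injective, deca_parts_mapR,
    Finset.map_eq_image]
  exact Finset.image_subset_image_iff e.finsetCongr.injective
lemma Jc_mapR : Q.Jc (mapR e r) = ((Q.comap e).Jc r).map (act e) := by
  exact deca_eq_map e (deca_rename_mem_J Q e r)
lemma Low_mapR (N : ℕ) : Q.Low (mapR e r) N = ((Q.comap e).Low r N).map (act e) := by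
  exact deca_eq_map e (deca_rename_mem_Low Q e r N)
lemma W_mapR (hQ : Q.Sym) (hr : (Q.comap e).Zero r) :
    Q.W (mapR e r) = ((Q.comap e).W r).map (act e) := by
  refine deca_eq_map e fun x => ?_
  simp only [Qv.W, Submodule.mem_inf, Submodule.mem_iInf, (deca_mapR_surjective e).forall,
    deca_rename_mem_Low, deca_mapR_lt, zero_mapR]
  refine and_congr_right fun _ => forall₂_congr fun r' h => ?_
  rw [M_mapR Q e r hQ hr, M_mapR Q e r' hQ h.2]
lemma Vlt_mapR (hQ : Q.Sym) (hr : (Q.comap e).Zero r) (k : ℕ) :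
    Q.Vlt (mapR e r) k = ((Q.comap e).Vlt r k).map (act e) := by
  rw [Qv.Vlt, Qv.Vlt, Submodule.map_sup, Submodule.map_span, Jc_mapR, W_mapR Q e r hQ hr]
  congr 2
  ext z
  constructor
  · rintro ⟨_, ⟨q, hq, rfl⟩, b, h1, h2, rfl⟩
    obtain ⟨b, rfl⟩ := Finsupp.mapDomain_surjective e.finsetCongr.surjective b
    rw [Finsupp.degree_mapDomain] at h2
    exact ⟨_, ⟨q, hq, b, (deca_support_mapR e r b).1 h1, h2, rfl⟩,
      (map_mul (rename e) _ _).trans (by rw [deca_rename_sMon]; rfl)⟩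
  · rintro ⟨_, ⟨q, hq, b, h1, h2, rfl⟩, rfl⟩
    exact ⟨_, ⟨q, hq, rfl⟩, _, (deca_support_mapR e r b).2 h1, by rwa [Finsupp.degree_mapDomain],
      (map_mul (rename e) _ _).trans (by rw [deca_rename_sMon]; rfl)⟩
lemma V_mapR (hQ : Q.Sym) (hr : (Q.comap e).Zero r) :
    Q.V (mapR e r) = ((Q.comap e).V r).map (act e) := by
  rw [Qv.V, Qv.V, Submodule.map_span, W_mapR Q e r hQ hr]
  congr 1
  ext z
  constructor
  · rintro ⟨_, ⟨q, hq, rfl⟩, b, h1, rfl⟩
    obtain ⟨b, rfl⟩ := Finsupp.mapDomain_surjective e.finsetCongr.surjective b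
    exact ⟨_, ⟨q, hq, b, (deca_support_mapR e r b).1 h1, rfl⟩,
      (map_mul (rename e) _ _).trans (by rw [deca_rename_sMon]; rfl)⟩
  · rintro ⟨_, ⟨q, hq, b, h1, rfl⟩, rfl⟩
    exact ⟨_, ⟨q, hq, rfl⟩, _, (deca_support_mapR e r b).2 h1,
      (map_mul (rename e) _ _).trans (by rw [deca_rename_sMon]; rfl)⟩
lemma chV_mapR (hQ : Q.Sym) (hr : (Q.comap e).Zero r) (σ : Equiv.Perm α) :
    Q.chV (mapR e r) (e.permCongr σ) = (Q.comap e).chV r σ := by
  rw [Qv.chV, Qv.chV, V_mapR Q e r hQ hr, Jc_mapR, ch_equiv]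
lemma chW_equiv (hQ : Q.Sym) (h0 : Q.wt Finset.univ = 0) (σ : Equiv.Perm α) :
    Q.chW (e.permCongr σ) = (Q.comap e).chW σ := by
  have e1 : mapR e (⊤ : Setoid α) = ⊤ := Setoid.ext fun _ _ => Iff.rfl
  have e2 : (Q.comap e).Zero ⊤ := (zero_mapR Q e ⊤).1 (by
    rw [e1]
    intro x
    rw [blk_top, h0])
  have e3 : (Q.idF Finset.univ).restrictScalars ℂ =
      (((Q.comap e).idF Finset.univ).restrictScalars ℂ).map (act e) := by
    refine deca_eq_map e fun x => ?_
    rw [Submodule.restrictScalars_mem, Submodule.restrictScalars_mem, ← Finset.map_univ_equiv e,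
      ← Q.map_idF e.toEmbedding]
    refine (Ideal.mem_map_iff_of_surjective _ (rename_surjective e e.surjective)).trans ?_
    exact ⟨fun ⟨_, hy, h⟩ => rename_injective e e.injective h ▸ hy, fun h => ⟨x, h, rfl⟩⟩
  rw [Qv.chW, Qv.chW, ← e1, W_mapR Q e ⊤ hQ e2, e3, ch_equiv]
end Equiv

end Crest.Agent.R059
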