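import Crest.Agent.R059.DecDefs

/-! Row 59: auxiliary lemmas for `DecA.lean` (translations of polynomial rings, gradings). -/

set_option autoImplicit false
set_option linter.unusedSectionVars false
set_option linter.unusedVariables false

noncomputable section
open Classical MvPolynomial

namespace Crest.Agent.R059

section General
variable {σ τ R : Type} [CommRing R]

/-- Translation of the variables along `π`. -/
def decaTr (π : σ → τ) : MvPolynomial σ R →ₐ[R] MvPolynomial τ (MvPolynomial σ R) :=
  aeval fun x => C (X x) + X (π x)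

/-- Homogeneous for the total grading. -/
def DecaG (D : ℕ) (p : MvPolynomial τ (MvPolynomial σ R)) : Prop :=
  ∀ b : τ →₀ ℕ, (coeff b p).IsHomogeneous (D - b.degree) ∧ (D < b.degree → coeff b p = 0)

lemma DecaG.mul {D D' : ℕ} {p q : MvPolynomial τ (MvPolynomial σ R)} (hp : DecaG D p)
    (hq : DecaG D' q) : DecaG (D + D') (p * q) := by
  intro b
  rw [coeff_mul]
  refine ⟨IsHomogeneous.sum _ _ _ fun x hx => ?_, fun h => Finset.sum_eq_zero fun x hx => ?_⟩
  · have e : x.1.degree + x.2.degree = b.degree := by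
      rw [← map_add, Finset.HasAntidiagonal.mem_antidiagonal.1 hx]
    rcases lt_or_ge D x.1.degree with h1 | h1
    · rw [(hp x.1).2 h1, zero_mul]; exact isHomogeneous_zero _ _ _
    rcases lt_or_ge D' x.2.degree with h2 | h2
    · rw [(hq x.2).2 h2, mul_zero]; exact isHomogeneous_zero _ _ _
    have := (hp x.1).1.mul (hq x.2).1
    rwa [show D - x.1.degree + (D' - x.2.degree) = D + D' - b.degree by omega] at this
  · have e : x.1.degree + x.2.degree = b.degree := by
      rw [← map_add, Finset.HasAntidiagonal.mem_antidiagonal.1 hx]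
    rcases lt_or_ge D x.1.degree with h1 | h1
    · rw [(hp x.1).2 h1, zero_mul]
    · rw [(hq x.2).2 (by omega), mul_zero]

lemma DecaG.C {D : ℕ} {p : MvPolynomial σ R} (hp : p.IsHomogeneous D) :
    DecaG D (C p : MvPolynomial τ (MvPolynomial σ R)) := by
  intro b
  rw [coeff_C]
  split_ifs with h
  · subst h
    exact ⟨by simpa using hp, fun h => by simp at h⟩
  · exact ⟨isHomogeneous_zero _ _ _, fun _ => rfl⟩

lemma DecaG.X (t : τ) : DecaG 1 (X t : MvPolynomial τ (MvPolynomial σ R)) := by
  intro b
  rw [coeff_X']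
  split_ifs with h
  · subst h
    exact ⟨by simpa using isHomogeneous_one σ R, fun h => by simp at h⟩
  · exact ⟨isHomogeneous_zero _ _ _, fun _ => rfl⟩

lemma DecaG.add {D : ℕ} {p q : MvPolynomial τ (MvPolynomial σ R)} (hp : DecaG D p)
    (hq : DecaG D q) : DecaG D (p + q) := by
  intro b
  rw [coeff_add]
  exact ⟨(hp b).1.add (hq b).1, fun h => by rw [(hp b).2 h, (hq b).2 h, add_zero]⟩

lemma DecaG.pow {p : MvPolynomial τ (MvPolynomial σ R)} (hp : DecaG 1 p) (k : ℕ) :
    DecaG k (p ^ k) := by
  induction k with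
  | zero => simpa using DecaG.C (τ := τ) (isHomogeneous_one σ R)
  | succ k ih => rw [pow_succ]; exact ih.mul hp

lemma decaG_monomial (π : σ → τ) (m : σ →₀ ℕ) (c : R) :
    DecaG m.degree (decaTr π (monomial m c)) := by
  induction m using Finsupp.induction_linear generalizing c with
  | zero =>
    rw [monomial_zero', ← algebraMap_eq, AlgHom.commutes]
    exact DecaG.C (isHomogeneous_C σ c)
  | add m m' ih ih' =>
    rw [← mul_one c, ← monomial_mul, map_mul, map_add]
    exact (ih c).mul (ih' 1)
  | single i k =>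
    rw [← C_mul_X_pow_eq_monomial, map_mul, map_pow, ← algebraMap_eq, AlgHom.commutes,
      Finsupp.degree_single, decaTr, aeval_X]
    simpa using (DecaG.C (τ := τ) (isHomogeneous_C σ c)).mul
      (((DecaG.C (isHomogeneous_X R i)).add (DecaG.X (π i))).pow k)

lemma decaG_tr (π : σ → τ) {D : ℕ} {p : MvPolynomial σ R} (hp : p.IsHomogeneous D) :
    DecaG D (decaTr π p) := by
  intro b
  rw [p.as_sum, map_sum, coeff_sum]
  have e : ∀ m ∈ p.support, m.degree = D := fun m hm => by
    by_contra h
    exact mem_support_iff.1 hm (hp.coeff_eq_zero h)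
  exact ⟨IsHomogeneous.sum _ _ _ fun m hm => e m hm ▸ (decaG_monomial π m _ b).1,
    fun h => Finset.sum_eq_zero fun m hm => (decaG_monomial π m _ b).2 (e m hm ▸ h)⟩

/-- Components of a linear map that shifts the degree. -/
lemma deca_hom_shift (L : MvPolynomial σ R →ₗ[R] MvPolynomial σ R) (d : ℕ)
    (hL : ∀ n p, p.IsHomogeneous n → (L p).IsHomogeneous (n + d)) (D : ℕ) (p : MvPolynomial σ R) :
    homogeneousComponent D (L p) = if d ≤ D then L (homogeneousComponent (D - d) p) else 0 := by
  induction p using MvPolynomial.induction_on' with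
  | monomial m c =>
    rw [homogeneousComponent_of_mem (hL _ _ (isHomogeneous_monomial c rfl)),
      homogeneousComponent_of_mem (isHomogeneous_monomial c rfl)]
    split_ifs <;> first | rfl | omega | simp
  | add p q hp hq =>
    simp only [map_add, hp, hq]
    split_ifs <;> simp

lemma deca_coeff_tr_hom (π : σ → τ) (b : τ →₀ ℕ) (D : ℕ) (p : MvPolynomial σ R) :
    coeff b (decaTr π (homogeneousComponent D p)) =
      if b.degree ≤ D then homogeneousComponent (D - b.degree) (coeff b (decaTr π p)) else 0 := by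
  induction p using MvPolynomial.induction_on' with
  | monomial m c =>
    have h := decaG_monomial π m c b
    rw [homogeneousComponent_of_mem (isHomogeneous_monomial c rfl),
      homogeneousComponent_of_mem h.1]
    split_ifs with h1 h2 h3 h2 h3
    · rfl
    · omega
    · exact h.2 (by omega)
    · rw [map_zero, coeff_zero, h.2 (by omega)]
    · simp
    · simp
  | add p q hp hq =>
    simp only [map_add, coeff_add, hp, hq]
    split_ifs <;> simp

lemma deca_coeff_coeff_mem (π : σ → τ) (J : Ideal R) {N : ℕ} {p : MvPolynomial σ R}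
    (hp : ∀ m : σ →₀ ℕ, N ≤ m.degree → coeff m p ∈ J) (b : τ →₀ ℕ) (b' : σ →₀ ℕ)
    (hb : N - b.degree ≤ b'.degree) : coeff b' (coeff b (decaTr π p)) ∈ J := by
  rw [p.as_sum, map_sum, coeff_sum, coeff_sum]
  refine J.sum_mem fun m _ => ?_
  rcases le_or_gt N m.degree with h | h
  · rw [← mul_one (coeff m p), ← smul_eq_mul, ← smul_monomial, map_smul, coeff_smul, coeff_smul,
      smul_eq_mul]
    exact J.mul_mem_right _ (hp m h)
  · have h1 := decaG_monomial π m (coeff m p) b
    rcases lt_or_ge m.degree b.degree with h2 | h2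
    · rw [h1.2 h2, coeff_zero]; exact J.zero_mem
    · rw [h1.1.coeff_eq_zero (by omega)]; exact J.zero_mem

lemma deca_coeff_zero (π : σ → τ) (p : MvPolynomial σ R) : coeff 0 (decaTr π p) = p := by
  rw [← constantCoeff_eq]
  induction p using MvPolynomial.induction_on with
  | C c => rw [← algebraMap_eq, AlgHom.commutes]; simp [MvPolynomial.algebraMap_apply]
  | add p q hp hq => rw [map_add, map_add, hp, hq]
  | mul_X p i hp => rw [map_mul, map_mul, hp]; simp [decaTr]

end General

variable {α β : Type} [Fintype α] [Fintype β]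

lemma deca_tr_eq (r : Setoid α) : tr r = decaTr (blk r) := rfl

lemma deca_rename_mem_map (e : α ≃ β) (U : Submodule ℂ (P α)) (x : P α) :
    rename e x ∈ U.map (act e) ↔ x ∈ U :=
  ⟨fun ⟨_, hy, h⟩ => rename_injective e e.injective h ▸ hy, fun h => ⟨x, h, rfl⟩⟩

lemma deca_eq_map (e : α ≃ β) {U : Submodule ℂ (P α)} {U' : Submodule ℂ (P β)}
    (h : ∀ x, rename e x ∈ U' ↔ x ∈ U) : U' = U.map (act e) := by
  ext y
  obtain ⟨x, rfl⟩ := rename_surjective e e.surjective y
  rw [h, deca_rename_mem_map]

lemma deca_sMon_isHomogeneous (b : Finset α →₀ ℕ) : (sMon b).IsHomogeneous b.degree := by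
  rw [Finsupp.degree_apply]
  refine IsHomogeneous.prod _ _ _ fun B _ => ?_
  simpa [sB] using (IsHomogeneous.sum B X 1 fun x _ => isHomogeneous_X ℂ x).pow (b B)

lemma deca_hom_mul_sMon (q : P α) (b : Finset α →₀ ℕ) (D : ℕ) :
    homogeneousComponent D (q * sMon b) =
      if b.degree ≤ D then homogeneousComponent (D - b.degree) q * sMon b else 0 :=
  deca_hom_shift (LinearMap.mulRight ℂ (sMon b)) b.degree
    (fun _ _ hp => hp.mul (deca_sMon_isHomogeneous b)) D q

lemma deca_rename_sMon (e : α ≃ β) (b : Finset α →₀ ℕ) :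
    rename e (sMon b) = sMon (b.mapDomain e.finsetCongr) := by
  rw [sMon, sMon, Finsupp.prod_mapDomain_index_inj e.finsetCongr.injective, Finsupp.prod,
    map_prod]
  refine Finset.prod_congr rfl fun B _ => ?_
  simp [sB, Equiv.finsetCongr_apply]

end Crest.Agent.R059
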