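import Mathlib

/-! Row 59: top degree parts and divisibility by differences of variables (auxiliary to `DecC`). -/

set_option autoImplicit false
set_option linter.unusedSectionVars false
set_option linter.unusedVariables false

noncomputable section
open Classical MvPolynomial

namespace Crest.Agent.R059.DecC

variable {σ S : Type} [CommRing S]

/-- Polynomials all of whose exponents satisfy `f b ≤ n`. -/
def Bd (S : Type) [CommRing S] (f : (σ →₀ ℕ) →+ ℤ) (n : ℤ) : Submodule S (MvPolynomial σ S) where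
  carrier := {p | ∀ b, n < f b → coeff b p = 0}
  zero_mem' := fun b _ => coeff_zero b
  add_mem' := fun {p q} hp hq b hb => by rw [coeff_add, hp b hb, hq b hb, add_zero]
  smul_mem' := fun c p hp b hb => by rw [coeff_smul, hp b hb, smul_zero]

variable {f : (σ →₀ ℕ) →+ ℤ} {n m : ℤ} {p q t u : MvPolynomial σ S} {D E : ℕ}

lemma Bd_mono (h : n ≤ m) (hp : p ∈ Bd S f n) : p ∈ Bd S f m := fun b hb => hp b (h.trans_lt hb)

lemma Bd_mul (hp : p ∈ Bd S f n) (hq : q ∈ Bd S f m) : p * q ∈ Bd S f (n + m) := by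
  intro b hb
  rw [coeff_mul]
  refine Finset.sum_eq_zero fun x hx => ?_
  rw [← Finset.HasAntidiagonal.mem_antidiagonal.1 hx, map_add] at hb
  by_cases h : n < f x.1
  · rw [hp _ h, zero_mul]
  · rw [hq x.2 (by omega), mul_zero]

lemma Bd_monomial {c : σ →₀ ℕ} (x : S) (h : f c ≤ n) : monomial c x ∈ Bd S f n := by
  intro b hb
  rw [coeff_monomial, if_neg]
  rintro rfl
  omega

lemma Bd_C (x : S) : (C x : MvPolynomial σ S) ∈ Bd S f 0 := Bd_monomial x (by simp)

lemma Bd_X {i : σ} (h : f (Finsupp.single i 1) ≤ n) : (X i : MvPolynomial σ S) ∈ Bd S f n :=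
  Bd_monomial 1 h

lemma Bd_prod {ι : Type} (s : Finset ι) (g : ι → MvPolynomial σ S) (k : ι → ℤ)
    (h : ∀ i ∈ s, g i ∈ Bd S f (k i)) : ∏ i ∈ s, g i ∈ Bd S f (∑ i ∈ s, k i) := by
  induction s using Finset.induction_on with
  | empty => simpa using Bd_C (f := f) (1 : S)
  | insert a s ha ih =>
    rw [Finset.prod_insert ha, Finset.sum_insert ha]
    exact Bd_mul (h a (by simp)) (ih fun i hi => h i (by simp [hi]))

lemma Bd_pow (hp : p ∈ Bd S f n) (k : ℕ) : p ^ k ∈ Bd S f (k * n) := by
  simpa using Bd_prod (Finset.range k) (fun _ => p) (fun _ => n) fun _ _ => hp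

/-- The total degree of an exponent. -/
def dg (σ : Type) : (σ →₀ ℕ) →+ ℤ := (Nat.castAddMonoidHom ℤ).comp Finsupp.degree

lemma dg_apply (b : σ →₀ ℕ) : dg σ b = (b.degree : ℤ) := rfl

lemma Bd_of_hom (h : t.IsHomogeneous D) : t ∈ Bd S (dg σ) D := fun b hb =>
  h.coeff_eq_zero (by rw [dg_apply] at hb; omega)

/-- `t` is the degree `D` part of `p`, and `p` has degree at most `D`. -/
def Top (D : ℕ) (p t : MvPolynomial σ S) : Prop :=
  t.IsHomogeneous D ∧ p - t ∈ Bd S (dg σ) (D - 1)

lemma Top.mem (h : Top D p t) : p ∈ Bd S (dg σ) D := by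
  have := add_mem (Bd_mono (by omega) h.2) (Bd_of_hom h.1)
  rwa [sub_add_cancel] at this

lemma Top.mul (h : Top D p t) (h' : Top E q u) : Top (D + E) (p * q) (t * u) := by
  refine ⟨h.1.mul h'.1, ?_⟩
  have := add_mem (Bd_mono (m := ((D + E : ℕ) : ℤ) - 1) (by omega) (Bd_mul h.2 h'.mem))
    (Bd_mono (by omega) (Bd_mul (Bd_of_hom h.1) h'.2))
  rwa [show (p - t) * q + t * (q - u) = p * q - t * u by ring] at this

lemma Top.refl (h : t.IsHomogeneous D) : Top D t t := ⟨h, by rw [sub_self]; exact zero_mem _⟩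

lemma Top.prod {ι : Type} (s : Finset ι) (g v : ι → MvPolynomial σ S) (k : ι → ℕ)
    (h : ∀ i ∈ s, Top (k i) (g i) (v i)) : Top (∑ i ∈ s, k i) (∏ i ∈ s, g i) (∏ i ∈ s, v i) := by
  induction s using Finset.induction_on with
  | empty => simpa using Top.refl (isHomogeneous_one σ S)
  | insert a s ha ih =>
    rw [Finset.prod_insert ha, Finset.prod_insert ha, Finset.sum_insert ha]
    exact (h a (by simp)).mul (ih fun i hi => h i (by simp [hi]))

lemma Top.pow (h : Top 1 p t) (k : ℕ) : Top k (p ^ k) (t ^ k) := by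
  simpa using Top.prod (Finset.range k) (fun _ => p) (fun _ => t) (fun _ => 1) fun _ _ => h

lemma Top.sum {ι : Type} (s : Finset ι) (g v : ι → MvPolynomial σ S)
    (h : ∀ i ∈ s, Top D (g i) (v i)) : Top D (∑ i ∈ s, g i) (∑ i ∈ s, v i) := by
  refine ⟨IsHomogeneous.sum _ _ _ fun i hi => (h i hi).1, ?_⟩
  rw [← Finset.sum_sub_distrib]
  exact Submodule.sum_mem _ fun i hi => (h i hi).2

lemma Top.eq_zero (h : Top D p t) (hp : p ∈ Bd S (dg σ) (D - 1)) : t = 0 := by
  have h1 := sub_mem hp h.2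
  rw [sub_sub_cancel] at h1
  ext b
  by_cases hb : b.degree = D
  · exact h1 b (by rw [dg_apply]; omega)
  · exact h.1.coeff_eq_zero hb

lemma Top.sub_mem (h : Top D p t) (h' : Top D q t) : p - q ∈ Bd S (dg σ) (D - 1) := by
  have := _root_.sub_mem h.2 h'.2
  rwa [sub_sub_sub_cancel_right] at this

lemma Top.hc (hp : p ∈ Bd S (dg σ) D) : Top D p (homogeneousComponent D p) := by
  refine ⟨homogeneousComponent_isHomogeneous _ _, fun b hb => ?_⟩
  rw [coeff_sub, coeff_homogeneousComponent]
  split_ifs with h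
  · exact sub_self _
  · rw [dg_apply] at hb
    rw [hp b (by rw [dg_apply]; omega), sub_zero]

lemma Top.C_add (x : S) (h : t.IsHomogeneous 1) : Top 1 (C x + t) t :=
  ⟨h, by rw [add_sub_cancel_right]; exact Bd_C x⟩

lemma hc_aeval (g : σ → MvPolynomial σ S) (hg : ∀ i, (g i).IsHomogeneous 1) (D : ℕ)
    (p : MvPolynomial σ S) :
    homogeneousComponent D (aeval g p) = aeval g (homogeneousComponent D p) := by
  induction p using MvPolynomial.induction_on' with
  | monomial d c =>
    have h1 := isHomogeneous_monomial (σ := σ) (d := d) c rfl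
    have h2 := h1.aeval g hg
    rw [one_mul] at h2
    rw [homogeneousComponent_of_mem h1, homogeneousComponent_of_mem h2]
    split_ifs <;> simp
  | add p q hp hq => simp only [map_add, hp, hq]

lemma X_pow_dvd {j : σ} {a : ℕ} (h : ∀ b, b j < a → coeff b p = 0) : X j ^ a ∣ p := by
  rw [p.as_sum]
  refine Finset.dvd_sum fun b hb => ?_
  have h1 : a ≤ b j := not_lt.1 fun h1 => mem_support_iff.1 hb (h b h1)
  refine ⟨monomial (b - Finsupp.single j a) (coeff b p), ?_⟩
  rw [X_pow_eq_monomial, monomial_mul, one_mul, add_tsub_cancel_of_le (Finsupp.single_le_iff.2 h1)]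

/-- The shear `X j ↦ X j + X i`. -/
def shear (S : Type) [CommRing S] (i j : σ) : MvPolynomial σ S →ₐ[S] MvPolynomial σ S :=
  aeval fun c => if c = j then X j + X i else X c

/-- The degree outside of the variable `j`. -/
def dgOut (j : σ) : (σ →₀ ℕ) →+ ℤ := dg σ - (Nat.castAddMonoidHom ℤ).comp (Finsupp.applyAddHom j)

lemma dgOut_apply (j : σ) (b : σ →₀ ℕ) : dgOut j b = (b.degree : ℤ) - b j := rfl

lemma sub_pow_dvd {i j : σ} (hij : i ≠ j) {k a : ℕ} (h : shear S i j p ∈ Bd S (dgOut j) k) :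
    (X j - X i) ^ a ∣ homogeneousComponent (k + a) p := by
  let s' : MvPolynomial σ S →ₐ[S] MvPolynomial σ S :=
    aeval fun c => if c = j then X j - X i else X c
  have h1 : s'.comp (shear S i j) = AlgHom.id S _ := by
    refine MvPolynomial.algHom_ext fun c => ?_
    by_cases hc : c = j <;> simp [s', shear, hc, hij]
  have h2 : X j ^ a ∣ shear S i j (homogeneousComponent (k + a) p) := by
    refine X_pow_dvd fun b hb => ?_
    rw [shear, ← hc_aeval _ fun c => ?_, coeff_homogeneousComponent]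
    · split_ifs with h3
      · exact h b (by rw [dgOut_apply]; omega)
      · rfl
    · split_ifs
      · exact (isHomogeneous_X _ _).add (isHomogeneous_X _ _)
      · exact isHomogeneous_X _ _
  have h3 := map_dvd s' h2
  rw [← AlgHom.comp_apply, h1, map_pow] at h3
  simpa [s'] using h3

lemma mul_trunc [DecidableEq σ] (s : Finset σ) {m k : ℕ} {N G : MvPolynomial σ S}
    (hN : ∀ c, coeff c N ≠ 0 → c.degree = m ∧ c.support ⊆ s)
    (hP : ∀ b, coeff b (N * G) ≠ 0 → b.degree = m + k ∧ b.support ⊆ s) :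
    N * G = N * ∑ b ∈ s.finsuppAntidiag k, monomial b (coeff b G) := by
  have hE : ∀ b : σ →₀ ℕ, b ∈ s.finsuppAntidiag k ↔ b.degree = k ∧ b.support ⊆ s := fun b =>
    Finset.mem_finsuppAntidiag'
  have hc : ∀ d, coeff d (∑ b ∈ s.finsuppAntidiag k, monomial b (coeff b G)) =
      if d.degree = k ∧ d.support ⊆ s then coeff d G else 0 := fun d => by
    simp only [coeff_sum, coeff_monomial, Finset.sum_ite_eq', hE]
  ext b
  by_cases hb : b.degree = m + k ∧ b.support ⊆ s
  · rw [coeff_mul, coeff_mul]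
    refine Finset.sum_congr rfl fun x hx => ?_
    by_cases h : coeff x.1 N = 0
    · rw [h, zero_mul, zero_mul]
    · have h1 := Finset.HasAntidiagonal.mem_antidiagonal.1 hx
      have h2 := (hN _ h).1
      rw [← h1, map_add] at hb
      have h3 : x.2.support ⊆ s := fun i hi => hb.2 (by
        rw [Finsupp.mem_support_iff] at hi ⊢
        rw [Finsupp.add_apply]
        omega)
      rw [hc, if_pos ⟨by omega, h3⟩]
  · rw [by_contra fun h => hb (hP b h), coeff_mul]
    refine (Finset.sum_eq_zero fun x hx => ?_).symm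
    by_cases h : coeff x.1 N = 0
    · rw [h, zero_mul]
    · rw [hc, if_neg, mul_zero]
      intro h3
      refine hb ?_
      rw [← Finset.HasAntidiagonal.mem_antidiagonal.1 hx, map_add, (hN _ h).1, h3.1]
      exact ⟨rfl, Finsupp.support_add.trans (Finset.union_subset (hN _ h).2 h3.2)⟩

lemma supp_of_supported {s : Finset σ} (hp : p ∈ supported S (s : Set σ)) {b : σ →₀ ℕ}
    (hb : coeff b p ≠ 0) : b.support ⊆ s := fun i hi =>
  mem_supported.1 hp ((mem_vars_iff_mem_support i).2 ⟨b, mem_support_iff.2 hb, hi⟩)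

variable [Algebra ℂ S]

lemma coeff_mem_of_mul {N : MvPolynomial σ ℂ} (hN : N ≠ 0) (U : Submodule ℂ S)
    {G : MvPolynomial σ S} (h : ∀ b, coeff b (map (algebraMap ℂ S) N * G) ∈ U) (b : σ →₀ ℕ) :
    coeff b G ∈ U := by
  by_contra hb
  obtain ⟨l, h1, h2⟩ := U.exists_le_ker_of_notMem hb
  have hc : ∀ d, coeff d (∑ b ∈ G.support, monomial b (l (coeff b G))) = l (coeff d G) := fun d => by
    simp only [coeff_sum, coeff_monomial, Finset.sum_ite_eq']
    split_ifs with h3
    · rfl
    · rw [notMem_support_iff.1 h3, map_zero]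
  have h3 : N * ∑ b ∈ G.support, monomial b (l (coeff b G)) = 0 := by
    ext d
    have h4 : l _ = 0 := h2 (h d)
    rw [coeff_mul, map_sum] at h4
    rw [coeff_mul, coeff_zero, ← h4]
    refine Finset.sum_congr rfl fun x _ => ?_
    rw [hc, coeff_map, ← Algebra.smul_def, map_smul, smul_eq_mul]
  have h4 := (mul_eq_zero.1 h3).resolve_left hN
  exact h1 (by rw [← hc, h4, coeff_zero])

lemma eq_zero_of_mul {N : MvPolynomial σ ℂ} (hN : N ≠ 0) {G : MvPolynomial σ S}
    (h : map (algebraMap ℂ S) N * G = 0) : G = 0 := by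
  ext b
  exact coeff_mem_of_mul hN ⊥ (fun b => by rw [h]; exact zero_mem _) b

lemma sub_regular {i j : σ} (hij : i ≠ j) (h : (X i - X j) * q = 0) : q = 0 :=
  eq_zero_of_mul (N := X i - X j) (sub_ne_zero.2 fun e => hij (X_injective e)) (by simpa using h)

lemma dvd_of_dvd_sub_mul {i j i' j' : σ} (hij : i ≠ j) (h1 : ¬ (i = i' ∧ j = j'))
    (h2 : ¬ (i = j' ∧ j = i')) (h : X j' - X i' ∣ (X j - X i) * q) : X j' - X i' ∣ q := by
  let φ : MvPolynomial σ S →ₐ[S] MvPolynomial σ S := rename fun c => if c = j' then i' else c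
  have h3 : ∀ q : MvPolynomial σ S, X j' - X i' ∣ q - φ q := by
    intro q
    induction q using MvPolynomial.induction_on with
    | C a => simp [φ]
    | add p q hp hq =>
      rw [map_add, add_sub_add_comm]
      exact dvd_add hp hq
    | mul_X p c hp =>
      rw [map_mul, show p * X c - φ p * φ (X c) = (p - φ p) * X c + φ p * (X c - φ (X c)) by ring]
      refine dvd_add (hp.mul_right _) (Dvd.dvd.mul_left ?_ _)
      by_cases hc : c = j' <;> simp [φ, hc]
  have h4 := map_dvd φ h
  have h5 : φ (X j' - X i') = 0 := by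
    by_cases hc : i' = j' <;> simp [φ, hc]
  rw [h5, zero_dvd_iff, map_mul, map_sub, rename_X, rename_X] at h4
  have h6 := h3 q
  rwa [sub_regular (by split_ifs <;> grind) h4, sub_zero] at h6

lemma pow_dvd_of_dvd_mul {l L : MvPolynomial σ S} (hl : ∀ q, l * q = 0 → q = 0)
    (hL : ∀ q, l ∣ L * q → l ∣ q) (c : ℕ) : ∀ q, l ^ c ∣ L * q → l ^ c ∣ q := by
  induction c with
  | zero => simp
  | succ c ih =>
    intro q hq
    obtain ⟨q', rfl⟩ := hL q ((dvd_pow_self l (Nat.succ_ne_zero c)).trans hq)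
    obtain ⟨v, hv⟩ := hq
    rw [pow_succ']
    refine mul_dvd_mul_left l (ih q' ⟨v, sub_eq_zero.1 (hl _ ?_)⟩)
    linear_combination hv

lemma prod_sub_pow_dvd (o : σ → ℕ) (e : σ × σ → ℕ) (I : Finset (σ × σ))
    (hI : ∀ x ∈ I, o x.1 < o x.2) (h : ∀ x ∈ I, (X x.2 - X x.1) ^ e x ∣ p) :
    ∏ x ∈ I, (X x.2 - X x.1) ^ e x ∣ p := by
  induction I using Finset.induction_on with
  | empty => simp
  | insert y I hy ih =>
    obtain ⟨q, rfl⟩ := ih (fun x hx => hI x (by simp [hx])) fun x hx => h x (by simp [hx])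
    rw [Finset.prod_insert hy, mul_comm]
    have h0 := hI y (by simp)
    refine mul_dvd_mul_left _ (pow_dvd_of_dvd_mul (fun q => sub_regular fun e => by simp [e] at h0)
      ?_ _ _ (h y (by simp)))
    refine Finset.prod_induction _
      (fun L => ∀ q : MvPolynomial σ S, X y.2 - X y.1 ∣ L * q → X y.2 - X y.1 ∣ q)
      (fun a b ha hb q hq => hb q (ha _ (by rwa [← mul_assoc]))) (fun q hq => by simpa using hq)
      fun x hx => ?_
    have h1 := hI x (by simp [hx])
    induction e x with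
    | zero => intro q hq; simpa using hq
    | succ k ih =>
      intro q hq
      rw [pow_succ, mul_assoc] at hq
      refine dvd_of_dvd_sub_mul (fun e => by simp [e] at h1) (fun e => hy ?_) (fun e => ?_) (ih _ hq)
      · rwa [← Prod.ext e.1 e.2]
      · rw [e.1, e.2] at h1
        omega

end Crest.Agent.R059.DecC
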