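import Crest.Agent.R059.DecA
import Crest.Agent.R059.DecCAux

/-! Row 59: the top symbol. -/

set_option autoImplicit false
set_option linter.unusedSectionVars false
set_option linter.unusedVariables false

noncomputable section
open Classical MvPolynomial

namespace Crest.Agent.R059

variable {α β : Type} [Fintype α] [Fintype β]

namespace DecC
variable (Q : Qv α) (r : Setoid α)

/-- Translation followed by reduction modulo `J r`. -/
def Φ : P α →ₐ[ℂ] MvPolynomial (Finset α) (P α ⧸ Q.J r) :=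
  (mapAlgHom (Ideal.Quotient.mkₐ ℂ (Q.J r))).comp (tr r)

lemma coeff_Φ (w : P α) (b : Finset α →₀ ℕ) :
    coeff b (Φ Q r w) = Ideal.Quotient.mk _ (coeff b (tr r w)) := by
  simp [Φ, coeff_map]

lemma Φ_X (x : α) : Φ Q r (X x) = C (Ideal.Quotient.mk _ (X x)) + X (blk r x) := by
  simp [Φ, tr]

lemma mem_Low_iff {N : ℕ} {w : P α} : w ∈ Q.Low r N ↔ Φ Q r w ∈ Bd _ (dg _) ((N : ℤ) - 1) := by
  refine forall_congr' fun b => ?_
  rw [coeff_Φ, Ideal.Quotient.eq_zero_iff_mem, dg_apply]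
  exact imp_congr_left (by omega)

lemma blk_of_mem {B : Finset α} (hB : B ∈ parts r) (x : α) : blk r x = B ↔ x ∈ B := by
  obtain ⟨z, -, rfl⟩ := Finset.mem_image.1 hB
  rw [blk_eq_iff, mem_blk]
  exact ⟨fun h => r.symm h, fun h => r.symm h⟩

lemma blk_mem (x : α) : blk r x ∈ parts r := Finset.mem_image_of_mem _ (Finset.mem_univ x)

lemma X_supported (x : α) : (X (blk r x) : MvPolynomial (Finset α) (P α ⧸ Q.J r)) ∈
    supported _ (parts r : Set (Finset α)) := Algebra.subset_adjoin ⟨_, blk_mem r x, rfl⟩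

lemma Φ_supported (w : P α) : Φ Q r w ∈ supported _ (parts r : Set (Finset α)) := by
  induction w using MvPolynomial.induction_on with
  | C a =>
    rw [← algebraMap_eq, AlgHom.commutes, IsScalarTower.algebraMap_apply ℂ (P α ⧸ Q.J r)]
    exact Subalgebra.algebraMap_mem _ _
  | add p q hp hq => rw [map_add]; exact add_mem hp hq
  | mul_X p x hp =>
    rw [map_mul, Φ_X]
    exact mul_mem hp (add_mem (Subalgebra.algebraMap_mem _ _) (X_supported Q r x))

/-- The top part of the Euler class. -/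
def N₀ : MvPolynomial (Finset α) ℂ :=
  ∏ p ∈ upP r, (X (blk r p.2) - X (blk r p.1)) ^ Q.a p.1 p.2

lemma N₀_ne : N₀ Q r ≠ 0 := by
  refine Finset.prod_ne_zero_iff.2 fun p hp => pow_ne_zero _ (sub_ne_zero.2 fun e => ?_)
  have := (Finset.mem_filter.1 hp).2
  rw [X_injective e] at this
  exact lt_irrefl _ this

lemma map_N₀ : map (algebraMap ℂ (P α ⧸ Q.J r)) (N₀ Q r) =
    ∏ p ∈ upP r, (X (blk r p.2) - X (blk r p.1)) ^ Q.a p.1 p.2 := by
  simp [N₀]

lemma top_Num : Top (Q.M r) (Φ Q r (Q.NumR r)) (map (algebraMap ℂ (P α ⧸ Q.J r)) (N₀ Q r)) := by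
  rw [map_N₀, Qv.NumR, Qv.NumO, map_prod]
  refine Top.prod _ _ _ _ fun p _ => ?_
  rw [map_pow]
  refine Top.pow ?_ _
  rw [map_sub, Φ_X, Φ_X]
  convert Top.C_add (Ideal.Quotient.mk (Q.J r) (X p.2) - Ideal.Quotient.mk _ (X p.1))
    ((isHomogeneous_X _ (blk r p.2)).sub (isHomogeneous_X _ (blk r p.1))) using 1
  rw [map_sub]
  ring

/-- The leading coefficient of a monomial in the block sums. -/
def cB (b : Finset α →₀ ℕ) : ℂ := b.prod fun B j => (B.card : ℂ) ^ j

lemma cB_ne {b : Finset α →₀ ℕ} (hb : b.support ⊆ parts r) : cB b ≠ 0 := by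
  refine Finset.prod_ne_zero_iff.2 fun B hB => pow_ne_zero _ (Nat.cast_ne_zero.2 ?_)
  obtain ⟨z, -, rfl⟩ := Finset.mem_image.1 (hb hB)
  exact Finset.card_ne_zero.2 ⟨z, (mem_blk r z z).2 (r.refl z)⟩

lemma top_sB {B : Finset α} (hB : B ∈ parts r) :
    Top 1 (Φ Q r (sB B)) (C (algebraMap ℂ (P α ⧸ Q.J r) B.card) * X B) := by
  have := Top.sum (D := 1) B (fun x => Φ Q r (X x)) (fun _ => X B) fun x hx => by
    rw [Φ_X, (blk_of_mem r hB x).2 hx]
    exact Top.C_add _ (isHomogeneous_X _ _)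
  rw [← map_sum, Finset.sum_const, nsmul_eq_mul] at this
  rwa [map_natCast, map_natCast]

lemma top_sMon {b : Finset α →₀ ℕ} (hb : b.support ⊆ parts r) :
    Top b.degree (Φ Q r (sMon b)) (monomial b (algebraMap ℂ (P α ⧸ Q.J r) (cB b))) := by
  have := Top.prod b.support _ _ _ fun B hB => (top_sB Q r (hb hB)).pow (b B)
  simp only [mul_pow, Finset.prod_mul_distrib, ← map_pow, ← map_prod] at this
  rw [monomial_eq]
  exact this

lemma top_W {q : P α} (hq : q ∈ Q.W r) : Top 0 (Φ Q r q) (C (Ideal.Quotient.mk _ q)) := by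
  have h1 := Top.hc (D := 0) (by simpa using (mem_Low_iff Q r).1 hq.1)
  have h2 : ∀ q : P α, constantCoeff (tr r q) = q := by
    intro q
    induction q using MvPolynomial.induction_on with
    | C a => simp [tr]
    | add p q hp hq => rw [map_add, map_add, hp, hq]
    | mul_X p x hp => rw [map_mul, map_mul, hp]; simp [tr]
  rwa [homogeneousComponent_zero, coeff_Φ, ← constantCoeff_eq, h2] at h1

lemma top_gen {q : P α} (hq : q ∈ Q.W r) {b : Finset α →₀ ℕ} (hb : b.support ⊆ parts r) :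
    Top b.degree (Φ Q r (q * sMon b)) (monomial b (cB b • Ideal.Quotient.mk _ q)) := by
  have := (top_W Q r hq).mul (top_sMon Q r hb)
  rwa [zero_add, ← map_mul, C_mul_monomial, mul_comm (Ideal.Quotient.mk _ q),
    ← Algebra.smul_def] at this

lemma mem_E {k : ℕ} {b : Finset α →₀ ℕ} :
    b ∈ (parts r).finsuppAntidiag k ↔ b.degree = k ∧ b.support ⊆ parts r :=
  Finset.mem_finsuppAntidiag'

lemma top_sum {k : ℕ} {q : (Finset α →₀ ℕ) → P α} (hq : ∀ b, q b ∈ Q.W r) :
    Top k (Φ Q r (∑ b ∈ (parts r).finsuppAntidiag k, q b * sMon b))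
      (∑ b ∈ (parts r).finsuppAntidiag k, monomial b (cB b • Ideal.Quotient.mk _ (q b))) := by
  rw [map_sum]
  refine Top.sum _ _ _ fun b hb => ?_
  obtain ⟨rfl, h⟩ := (mem_E r).1 hb
  exact top_gen Q r (hq b) h

lemma gen_mem_Vlt {k : ℕ} {q : P α} (hq : q ∈ Q.W r) {b : Finset α →₀ ℕ}
    (hb : b.support ⊆ parts r) (hk : b.degree < k) : q * sMon b ∈ Q.Vlt r k :=
  Submodule.mem_sup_right (Submodule.subset_span ⟨q, hq, b, hb, hk, rfl⟩)

lemma Vlt_le_Low (k : ℕ) : Q.Vlt r k ≤ Q.Low r k := by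
  refine sup_le (Q.Jc_le_Low le_rfl k) (Submodule.span_le.2 ?_)
  rintro _ ⟨q, hq, b, hb, hk, rfl⟩
  exact (mem_Low_iff Q r).2 (Bd_mono (by omega) (top_gen Q r hq hb).mem)

lemma normal_form {k : ℕ} {y : P α} (hy : y ∈ Q.Vlt r (k + 1)) :
    ∃ q : (Finset α →₀ ℕ) → P α, (∀ b, q b ∈ Q.W r) ∧
      y - ∑ b ∈ (parts r).finsuppAntidiag k, q b * sMon b ∈ Q.Vlt r k := by
  obtain ⟨j, hj, z, hz, rfl⟩ := Submodule.mem_sup.1 hy
  have : ∃ q : (Finset α →₀ ℕ) → P α, (∀ b, q b ∈ Q.W r) ∧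
      z - ∑ b ∈ (parts r).finsuppAntidiag k, q b * sMon b ∈ Q.Vlt r k := by
    clear hy
    induction hz using Submodule.span_induction with
    | mem z hz =>
      obtain ⟨q, hq, b, hb, hk, rfl⟩ := hz
      by_cases h : b.degree = k
      · refine ⟨fun c => if c = b then q else 0, fun c => ?_, ?_⟩
        · dsimp only
          split_ifs
          · exact hq
          · exact zero_mem _
        · simp only [ite_mul, zero_mul, Finset.sum_ite_eq', if_pos ((mem_E r).2 ⟨h, hb⟩), sub_self]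
          exact zero_mem _
      · exact ⟨0, fun _ => zero_mem _, by simpa using gen_mem_Vlt Q r hq hb (by omega)⟩
    | zero => exact ⟨0, fun _ => zero_mem _, by simp⟩
    | add x y _ _ hx hy =>
      obtain ⟨q, hq, h⟩ := hx
      obtain ⟨q', hq', h'⟩ := hy
      refine ⟨q + q', fun b => add_mem (hq b) (hq' b), ?_⟩
      simp only [Pi.add_apply, add_mul, Finset.sum_add_distrib, add_sub_add_comm]
      exact add_mem h h'
    | smul c x _ hx =>
      obtain ⟨q, hq, h⟩ := hx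
      refine ⟨c • q, fun b => Submodule.smul_mem _ c (hq b), ?_⟩
      simp only [Pi.smul_apply, smul_mul_assoc, ← Finset.smul_sum, ← smul_sub]
      exact Submodule.smul_mem _ c h
  obtain ⟨q, hq, h⟩ := this
  refine ⟨q, hq, ?_⟩
  rw [add_sub_assoc]
  exact add_mem (Submodule.mem_sup_left hj) h

lemma sum_aa_parts : ∑ B ∈ parts r, Q.aa B B = ∑ x, ∑ y ∈ blk r x, Q.a x y := by
  rw [← Finset.sum_fiberwise_of_maps_to (s := Finset.univ) (t := parts r) (g := blk r)
    fun x _ => blk_mem r x]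
  refine Finset.sum_congr rfl fun B hB => ?_
  refine (Finset.sum_congr ?_ fun x hx => ?_).symm
  · ext x
    simp [blk_of_mem r hB]
  · rw [(blk_of_mem r hB x).2 hx]

/-- Merging two blocks. -/
lemma exists_merge (hQ : Q.Sym) (hr : Q.Zero r) {B B' : Finset α} (hB : B ∈ parts r)
    (hB' : B' ∈ parts r) (hne : B ≠ B') :
    ∃ (r₁ : Setoid α) (ρ : Finset α → Finset α), r ≤ r₁ ∧ Q.Zero r₁ ∧
      Q.M r = Q.M r₁ + Q.aa B B' ∧ ∀ x, ρ (blk r₁ x) = if blk r x = B' then B else blk r x := by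
  let r₁ : Setoid α := Setoid.ker fun x => if blk r x = B' then B else blk r x
  have h1 : ∀ x y, y ∈ blk r₁ x ↔
      (if blk r x = B' then B else blk r x) = if blk r y = B' then B else blk r y :=
    fun x y => mem_blk r₁ x y
  have h2 : ∀ x y, y ∈ blk r x ↔ blk r x = blk r y := fun x y => by rw [mem_blk, blk_eq_iff]
  have hb := blk_of_mem r hB
  have hb' := blk_of_mem r hB'
  have hd : Disjoint B B' := Finset.disjoint_left.2 fun x h h' =>
    hne (((hb x).2 h).symm.trans ((hb' x).2 h'))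
  have h3 : ∀ x, blk r₁ x = if x ∈ B ∪ B' then B ∪ B' else blk r x := by
    intro x
    ext y
    rw [h1]
    split_ifs with g1 g2 g3 g4 g5 g6 g7 <;>
      simp only [Finset.mem_union, ← hb, ← hb', h2] at * <;> grind
  have hwB : Q.wt B = 0 := by
    obtain ⟨z, -, rfl⟩ := Finset.mem_image.1 hB
    exact hr z
  have hwB' : Q.wt B' = 0 := by
    obtain ⟨z, -, rfl⟩ := Finset.mem_image.1 hB'
    exact hr z
  have hz : Q.Zero r₁ := by
    intro x
    rw [h3]
    split_ifs
    · rw [Qv.wt, Finset.sum_union hd]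
      exact (congrArg₂ (· + ·) hwB hwB').trans (add_zero 0)
    · exact hr x
  refine ⟨r₁, fun D => if D = B ∪ B' then B else D, fun x y h => ?_, hz, ?_, fun x => ?_⟩
  · change (if blk r x = B' then B else blk r x) = if blk r y = B' then B else blk r y
    rw [(blk_eq_iff r x y).2 h]
  · have e1 := Q.two_mul_M hQ hr ord ord_injective
    have e2 := Q.two_mul_M hQ hz ord ord_injective
    have e3 := hQ B B' hwB hwB'
    have e4 : ∑ x, ∑ y ∈ blk r₁ x, Q.a x y =
        ∑ x, ∑ y ∈ blk r x, Q.a x y + Q.aa B B' + Q.aa B' B := by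
      rw [Qv.aa, Qv.aa, ← Finset.sum_ite_mem_eq B, ← Finset.sum_ite_mem_eq B',
        ← Finset.sum_add_distrib, ← Finset.sum_add_distrib]
      refine Finset.sum_congr rfl fun x _ => ?_
      rw [h3]
      by_cases g1 : x ∈ B
      · rw [if_pos (Finset.mem_union_left _ g1), if_pos g1, if_neg (Finset.disjoint_left.1 hd g1),
          Finset.sum_union hd, (hb x).2 g1, add_zero]
      · by_cases g2 : x ∈ B'
        · rw [if_pos (Finset.mem_union_right _ g2), if_neg g1, if_pos g2, Finset.sum_union hd,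
            (hb' x).2 g2, add_zero, add_comm]
        · rw [if_neg (by simp [g1, g2]), if_neg g1, if_neg g2, add_zero, add_zero]
    rw [sum_aa_parts] at e1 e2
    unfold Qv.M upP
    omega
  · have h4 : x ∈ blk r x := (h2 x x).2 rfl
    simp only [h3]
    by_cases g1 : x ∈ B ∪ B'
    · rw [if_pos g1, if_pos rfl]
      split_ifs with g2
      · rfl
      · exact ((hb x).2 ((Finset.mem_union.1 g1).resolve_right fun g => g2 ((hb' x).2 g))).symm
    · rw [if_neg g1, if_neg fun g : blk r x = B ∪ B' => g1 (g ▸ h4),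
        if_neg fun g => g1 (Finset.mem_union_right _ ((hb' x).1 g))]

lemma shear_mem {r₁ : Setoid α} {ρ : Finset α → Finset α} (hle : r ≤ r₁) {B B' : Finset α}
    (hρ : ∀ x, ρ (blk r₁ x) = if blk r x = B' then B else blk r x) {n : ℕ} {w : P α}
    (hw : w ∈ Q.Low r₁ (n + 1)) : shear _ B B' (Φ Q r w) ∈ Bd _ (dgOut B') n := by
  let κ : MvPolynomial (Finset α) (P α ⧸ Q.J r) →ₐ[P α ⧸ Q.J r]
      MvPolynomial (Finset α) (P α ⧸ Q.J r) := aeval fun D => if D = B' then X B' else 0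
  have hκ : ∀ p, κ p ∈ Bd _ (dgOut B') 0 := by
    intro p
    induction p using MvPolynomial.induction_on with
    | C a => simpa [κ] using Bd_C a
    | add p q hp hq => rw [map_add]; exact add_mem hp hq
    | mul_X p D hp =>
      rw [map_mul, ← add_zero (0 : ℤ)]
      refine Bd_mul hp ?_
      simp only [κ, aeval_X]
      split_ifs
      · exact Bd_X (by simp [dgOut_apply])
      · exact zero_mem _
  let θ : P α →+* MvPolynomial (Finset α) (P α ⧸ Q.J r) := κ.toRingHom.comp (Φ Q r).toRingHom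
  have hθ : ∀ u, θ u = κ (Φ Q r u) := fun _ => rfl
  have h1 : ∀ w, shear _ B B' (Φ Q r w) = eval₂Hom θ (fun D => X (ρ D)) (tr r₁ w) := by
    intro w
    induction w using MvPolynomial.induction_on with
    | C a =>
      have e1 : Φ Q r (C a) = C (algebraMap ℂ _ a) := (Φ Q r).commutes a
      have e2 : tr r₁ (C a) = C (C a) := (tr r₁).commutes a
      rw [e2, eval₂Hom_C, hθ, e1]
      exact ((shear _ B B').commutes _).trans (κ.commutes _).symm
    | add p q hp hq => simp only [map_add, hp, hq]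
    | mul_X p x hp =>
      have e2 : tr r₁ (X x) = C (X x) + X (blk r₁ x) := aeval_X _ _
      rw [map_mul, map_mul, map_mul, map_mul, hp, e2, map_add, eval₂Hom_C, eval₂Hom_X', hθ, Φ_X, hρ]
      congr 1
      by_cases hx : blk r x = B' <;> simp [shear, κ, hx, add_assoc]
  rw [h1, coe_eval₂Hom, eval₂_eq]
  refine Submodule.sum_mem _ fun c _ => ?_
  by_cases hc : n + 1 ≤ c.degree
  · have h2 : Φ Q r (coeff c (tr r₁ w)) = 0 := by
      ext b
      rw [coeff_Φ, coeff_zero, Ideal.Quotient.eq_zero_iff_mem]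
      exact Q.coeff_tr_mem_J hle (hw c hc) b
    rw [hθ, h2, map_zero, zero_mul]
    exact zero_mem _
  · refine Bd_mono ?_ (Bd_mul (hκ _) (Bd_prod _ _ (fun D => (c D : ℤ) * 1) fun D _ =>
      Bd_pow (Bd_X ?_) _))
    · rw [Finsupp.degree_apply] at hc
      simp only [mul_one, zero_add, ← Nat.cast_sum]
      omega
    · rw [dgOut_apply, Finsupp.degree_single]
      omega

lemma N_eq : map (algebraMap ℂ (P α ⧸ Q.J r)) (N₀ Q r) =
    ∏ x ∈ (parts r ×ˢ parts r).filter (fun x => ord x.1 < ord x.2),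
      (X x.2 - X x.1) ^ Q.aa x.1 x.2 := by
  rw [map_N₀, ← Finset.prod_fiberwise_of_maps_to (s := upP r)
    (t := (parts r ×ˢ parts r).filter (fun x => ord x.1 < ord x.2))
    (g := fun p => (blk r p.1, blk r p.2)) fun p hp => Finset.mem_filter.2
      ⟨Finset.mem_product.2 ⟨blk_mem r _, blk_mem r _⟩, (Finset.mem_filter.1 hp).2⟩]
  refine Finset.prod_congr rfl fun x hx => ?_
  obtain ⟨hx, ho⟩ := Finset.mem_filter.1 hx
  obtain ⟨h1, h2⟩ := Finset.mem_product.1 hx
  rw [Qv.aa, ← Finset.sum_product', ← Finset.prod_pow_eq_pow_sum]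
  refine Finset.prod_congr ?_ fun p hp => ?_
  · ext p
    simp only [upP, upO, Finset.mem_filter, Finset.mem_univ, true_and, Finset.mem_product,
      ← blk_of_mem r h1, ← blk_of_mem r h2, Prod.ext_iff]
    exact ⟨fun h => h.2, fun h => ⟨by rw [h.1, h.2]; exact ho, h⟩⟩
  · obtain ⟨g1, g2⟩ := Finset.mem_product.1 hp
    rw [(blk_of_mem r h1 _).2 g1, (blk_of_mem r h2 _).2 g2]

end DecC

open DecC

namespace Qv
variable (Q : Qv α)

/-- Injectivity of the symbol. -/
lemma mem_Vlt_of_NumR_mul {r : Setoid α} {k : ℕ} {y : P α} (hy : y ∈ Q.Vlt r (k + 1))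
    (h : Q.NumR r * y ∈ Q.Low r (Q.M r + k)) : y ∈ Q.Vlt r k := by
  obtain ⟨q, hq, hy'⟩ := normal_form Q r hy
  have h1 := Q.mul_mem_Low r (Q.mem_Low_of_isHomogeneous r (Q.NumO_isHomogeneous r ord))
    (Vlt_le_Low Q r k hy')
  have h2 := sub_mem h h1
  rw [show Q.NumO r ord = Q.NumR r from rfl, ← mul_sub, sub_sub_cancel, mem_Low_iff, map_mul] at h2
  have h3 := eq_zero_of_mul (N₀_ne Q r) (((top_Num Q r).mul (top_sum Q r hq)).eq_zero h2)
  have h4 : ∑ b ∈ (parts r).finsuppAntidiag k, q b * sMon b ∈ Q.J r := by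
    refine Ideal.sum_mem _ fun b hb => Ideal.mul_mem_right _ _ ?_
    have h5 := congrArg (coeff b) h3
    simp only [coeff_sum, coeff_monomial, Finset.sum_ite_eq', if_pos hb, coeff_zero] at h5
    exact Ideal.Quotient.eq_zero_iff_mem.1
      ((smul_eq_zero.1 h5).resolve_left (cB_ne r ((mem_E r).1 hb).2))
  have h5 := add_mem hy' (Submodule.mem_sup_left (show _ ∈ Q.Jc r from h4))
  rwa [sub_add_cancel] at h5
/-- Surjectivity of the symbol. -/
lemma exists_symbol (hQ : Q.Sym) {r : Setoid α} (hr : Q.Zero r) {k : ℕ} {w : P α}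
    (hw : w ∈ Q.Fil k (parts r).card) :
    ∃ y ∈ Q.Vlt r (k + 1), w - Q.NumR r * y ∈ Q.Low r (Q.M r + k) := by
  have hw' : ∀ r', Q.Zero r' →
      w ∈ Q.Low r' (Q.M r' + k + if (parts r').card ≤ (parts r).card then 1 else 0) :=
    fun r' h => (Submodule.mem_iInf _).1 ((Submodule.mem_iInf _).1 hw r') h
  have h0 : w ∈ Q.Low r (Q.M r + k + 1) := by simpa using hw' r hr
  have h1 := Top.hc (D := Q.M r + k) (by simpa using (mem_Low_iff Q r).1 h0)
  have h2 : map (algebraMap ℂ (P α ⧸ Q.J r)) (N₀ Q r) ∣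
      homogeneousComponent (Q.M r + k) (Φ Q r w) := by
    rw [N_eq]
    refine prod_sub_pow_dvd ord (fun x => Q.aa x.1 x.2) _ (fun x hx => (Finset.mem_filter.1 hx).2)
      fun x hx => ?_
    obtain ⟨hx, ho⟩ := Finset.mem_filter.1 hx
    obtain ⟨g1, g2⟩ := Finset.mem_product.1 hx
    have hne : x.1 ≠ x.2 := fun e => by rw [e] at ho; exact lt_irrefl _ ho
    obtain ⟨r₁, ρ, hle, hz, hM, hρ⟩ := exists_merge Q r hQ hr g1 g2 hne
    have h3 := hw' r₁ hz
    rw [if_pos (by
      rcases hle.lt_or_eq with h | h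
      · exact (card_parts_lt h).le
      · rw [h])] at h3
    rw [hM, add_right_comm]
    exact sub_pow_dvd hne (shear_mem Q r hle hρ h3)
  obtain ⟨G, hG⟩ := h2
  have h3 : ∀ b, coeff b G ∈ (Q.W r).map (Ideal.Quotient.mkₐ ℂ (Q.J r)).toLinearMap := by
    refine coeff_mem_of_mul (N₀_ne Q r) _ fun b => ?_
    rw [← hG, coeff_homogeneousComponent]
    split_ifs with hb
    · refine ⟨coeff b (tr r w), ⟨?_, ?_⟩, (coeff_Φ Q r w b).symm⟩
      · have := Q.coeff_tr_mem_Low le_rfl h0 b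
        rwa [hb, Nat.add_sub_cancel_left] at this
      · refine (Submodule.mem_iInf _).2 fun r' => (Submodule.mem_iInf _).2 fun h => ?_
        have h4 := hw' r' h.2
        rw [if_neg (not_le.2 (card_parts_lt h.1)), add_zero] at h4
        have := Q.coeff_tr_mem_Low h.1.le h4 b
        rwa [hb, Nat.add_sub_add_right] at this
    · exact zero_mem _
  choose q hq hq' using h3
  have h4 := mul_trunc (parts r) (m := Q.M r) (k := k)
    (N := map (algebraMap ℂ (P α ⧸ Q.J r)) (N₀ Q r)) (G := G)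
    (fun c hc => ⟨by_contra fun h => hc ((top_Num Q r).1.coeff_eq_zero h), supp_of_supported (by
      rw [map_N₀]
      exact prod_mem fun p _ => pow_mem (Subalgebra.sub_mem _ (X_supported Q r _)
        (X_supported Q r _)) _) hc⟩)
    (fun b hb => by
      rw [← hG, coeff_homogeneousComponent] at hb
      split_ifs at hb with h
      · exact ⟨h, supp_of_supported (Φ_supported Q r w) hb⟩
      · exact absurd rfl hb)
  have h5 := top_sum Q r (k := k) (q := fun b => (cB b)⁻¹ • q b)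
    fun b => Submodule.smul_mem _ _ (hq b)
  have h6 : ∑ b ∈ (parts r).finsuppAntidiag k,
      monomial b (cB b • Ideal.Quotient.mk (Q.J r) ((cB b)⁻¹ • q b)) =
      ∑ b ∈ (parts r).finsuppAntidiag k, monomial b (coeff b G) := by
    refine Finset.sum_congr rfl fun b hb => ?_
    congr 1
    rw [← hq', ← Ideal.Quotient.mkₐ_eq_mk ℂ, map_smul, smul_inv_smul₀ (cB_ne r ((mem_E r).1 hb).2)]
    rfl
  refine ⟨_, Submodule.sum_mem _ fun b hb => gen_mem_Vlt Q r
    (Submodule.smul_mem _ (cB b)⁻¹ (hq b)) ((mem_E r).1 hb).2 (((mem_E r).1 hb).1 ▸ k.lt_succ_self),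
    ?_⟩
  rw [mem_Low_iff, map_sub, map_mul]
  refine h1.sub_mem ?_
  rw [hG, h4, ← h6]
  exact (top_Num Q r).mul h5
/-- One block: `V ⊤ = W ⊤ [s]` is free over `ℂ[s]` modulo `idF`. -/
lemma chV_top [Nonempty α] (hQ : Q.Sym) (h0 : Q.wt Finset.univ = 0) {σ : Equiv.Perm α}
    (hσ : Q.Aut σ) : Q.chV ⊤ σ * (1 - PowerSeries.X) = Q.chW σ := by
  have hp : parts (⊤ : Setoid α) = {Finset.univ} := by
    rw [parts, show blk (⊤ : Setoid α) = fun _ => Finset.univ from funext blk_top,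
      Finset.image_const Finset.univ_nonempty]
  have hsupp : ∀ j : ℕ, (Finsupp.single (Finset.univ : Finset α) j).support ⊆ parts ⊤ :=
    fun j => hp ▸ Finsupp.support_single_subset
  have hsM : ∀ j : ℕ, sMon (Finsupp.single (Finset.univ : Finset α) j) = sB Finset.univ ^ j :=
    fun j => Finsupp.prod_single_index (pow_zero _)
  have hgen : ∀ (j k : ℕ), j < k →
      (Q.W ⊤).map (LinearMap.mulLeft ℂ (sB Finset.univ ^ j)) ≤ Q.Vlt ⊤ k := by
    rintro j k hjk _ ⟨q, hq, rfl⟩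
    rw [LinearMap.mulLeft_apply, mul_comm, ← hsM]
    exact gen_mem_Vlt Q ⊤ hq (hsupp j) (by rwa [Finsupp.degree_single])
  have hz : (Q.comap σ).Zero ⊤ := fun x => by rw [hσ.comap, blk_top, h0]
  have hm : mapR σ (⊤ : Setoid α) = ⊤ := (mapR_eq_iff σ ⊤).2 fun _ _ => Iff.rfl
  have hW : Stab σ (Q.W ⊤) := fun f hf => by
    have := W_mapR Q σ ⊤ hQ hz
    rw [hm, hσ.comap] at this
    rw [this]
    exact ⟨f, hf, rfl⟩
  have hJ : Stab σ (Q.Jc ⊤) := fun f hf => by
    have := Jc_mapR Q σ ⊤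
    rw [hm, hσ.comap] at this
    rw [this]
    exact ⟨f, hf, rfl⟩
  have hs : rename σ (sB (Finset.univ : Finset α)) = sB Finset.univ := by
    simp only [sB, map_sum, rename_X]
    exact Equiv.sum_comp σ _
  have key : ∀ K : ℕ, ch (Q.Vlt ⊤ K) (Q.Jc ⊤) σ =
      (∑ i ∈ Finset.range K, PowerSeries.X ^ i) * Q.chW σ := by
    intro K
    have h1 := ch_strat σ (ι := Fin K) 1 Fin.val (fun _ => rfl) (Q.Jc ⊤) (fun _ => Q.W ⊤)
      (fun _ => Q.Jc ⊤) (fun i => sB Finset.univ ^ (i : ℕ)) Fin.val (fun _ => 1)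
      (fun i => by
        simpa [sB] using (IsHomogeneous.sum Finset.univ (fun x : α => (X x : P α)) 1
          fun x _ => isHomogeneous_X _ _).pow i)
      (fun _ => rfl) (Q.isGr_Jc ⊤) (fun _ => Q.isGr_W ⊤) (fun _ => Q.isGr_Jc ⊤)
      (fun _ => Q.Jc_le_W ⊤) hJ (fun _ => hW) (fun _ => hJ)
      (fun i y hy => Submodule.mem_sup_left (Ideal.mul_mem_left (Q.J ⊤) _ hy))
      (fun κ y hy h i hi => by
        rw [Finset.sum_eq_single_of_mem i (by simp [hi]) fun j hj hji =>
          absurd (Fin.ext ((Finset.mem_filter.1 hj).2.trans hi.symm)) hji] at h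
        have h2 : Ult Fin.val (Q.Jc ⊤) (fun _ : Fin K => Q.W ⊤)
            (fun i => LinearMap.mulLeft ℂ (sB Finset.univ ^ (i : ℕ))) κ ≤ Q.Vlt ⊤ κ :=
          sup_le le_sup_left (iSup_le fun j => iSup_le fun hj => hgen j κ hj)
        have h3 := (mem_Low_iff Q ⊤).1 (Vlt_le_Low Q ⊤ κ (h2 h))
        have h4 := top_gen Q ⊤ (hy i) (hsupp i)
        rw [Finsupp.degree_single, hsM, mul_comm, hi] at h4
        rw [hi] at h3
        have h5 := monomial_eq_zero.1 (h4.eq_zero h3)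
        exact Ideal.Quotient.eq_zero_iff_mem.1
          ((smul_eq_zero.1 h5).resolve_left (cB_ne ⊤ (hsupp κ))))
      (fun i y hy => by
        rw [map_mul, map_pow, hs, one_smul, Equiv.Perm.one_apply, sub_self]
        exact zero_mem _)
    have h2 : Q.Jc ⊤ ⊔ ⨆ i : Fin K, (Q.W ⊤).map (LinearMap.mulLeft ℂ (sB Finset.univ ^ (i : ℕ))) =
        Q.Vlt ⊤ K := by
      refine le_antisymm (sup_le le_sup_left (iSup_le fun j => hgen j K j.2))
        (sup_le_sup_left (Submodule.span_le.2 ?_) _)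
      rintro _ ⟨q, hq, b, hb, hk, rfl⟩
      rw [hp] at hb
      have e1 := Finsupp.support_subset_singleton.1 hb
      rw [e1, Finsupp.degree_single] at hk
      refine Submodule.mem_iSup_of_mem (⟨_, hk⟩ : Fin K) ⟨q, hq, ?_⟩
      rw [LinearMap.mulLeft_apply, mul_comm, ← hsM, ← e1]
    rw [h2] at h1
    rw [h1, Finset.sum_mul, ← Fin.sum_univ_eq_sum_range (fun i => PowerSeries.X ^ i * Q.chW σ)]
    refine Finset.sum_congr (by ext i; simp) fun i _ => ?_
    rw [map_one, one_mul, chW, Jc, Q.J_top]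
  ext D
  have h1 : PowerSeries.X ^ (D + 1) ∣ Q.chV ⊤ σ - ch (Q.Vlt ⊤ (D + 1)) (Q.Jc ⊤) σ := by
    refine PowerSeries.X_pow_dvd_iff.2 fun m hm => ?_
    rw [map_sub, chV, ch, ch, PowerSeries.coeff_mk, PowerSeries.coeff_mk, Q.Vlt_inf_hom ⊤ hm,
      sub_self]
  have h2 : PowerSeries.X ^ (D + 1) ∣ Q.chV ⊤ σ * (1 - PowerSeries.X) - Q.chW σ := by
    have h3 := geom_sum_mul_neg (PowerSeries.X : PowerSeries ℂ) (D + 1)
    have h4 := dvd_sub (h1.mul_right (1 - PowerSeries.X)) (dvd_mul_right _ (Q.chW σ))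
    rw [key] at h4
    convert h4 using 1
    linear_combination Q.chW σ * h3
  have h3 := PowerSeries.X_pow_dvd_iff.1 h2 D D.lt_succ_self
  rwa [map_sub, sub_eq_zero] at h3

end Qv
end Crest.Agent.R059
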