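import Crest.Agent.R059.Num

/-! Row 59: set partitions, translations, the growth filtration and the spaces `W`, `V`. -/

set_option autoImplicit false
set_option linter.unusedSectionVars false
set_option linter.unusedVariables false

noncomputable section
open Classical MvPolynomial

namespace Crest.Agent.R059

variable {α β : Type} [Fintype α] [Fintype β]

instance setoidFinite : Finite (Setoid α) :=
  Finite.of_injective (fun r : Setoid α => r.r) (fun _ _ h => Setoid.ext (fun a b => by
    have := congrFun (congrFun h a) b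
    exact iff_of_eq this))
instance setoidFintype : Fintype (Setoid α) := Fintype.ofFinite _

/-- The block of `x`. -/
def blk (r : Setoid α) (x : α) : Finset α := Finset.univ.filter (fun y => r x y)
def parts (r : Setoid α) : Finset (Finset α) := Finset.univ.image (blk r)
/-- An arbitrary total order on subsets. -/
def ord (B : Finset α) : ℕ := (Fintype.equivFin (Finset α) B : ℕ)
/-- Pairs of points in different blocks, the first block being the smaller one. -/
def upO (r : Setoid α) (o : Finset α → ℕ) : Finset (α × α) :=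
  Finset.univ.filter (fun p => o (blk r p.1) < o (blk r p.2))
def upP (r : Setoid α) : Finset (α × α) := upO r ord
/-- Transport of a partition along a bijection. -/
def mapR (e : α ≃ β) (r : Setoid α) : Setoid β := r.comap e.symm
def StabR (σ : Equiv.Perm α) (r : Setoid α) : Prop := ∀ x y, r (σ x) (σ y) ↔ r x y
/-- Translation of each block by its own variable. -/
def tr (r : Setoid α) : P α →ₐ[ℂ] MvPolynomial (Finset α) (P α) :=
  aeval fun x => C (X x) + X (blk r x)
def sB (B : Finset α) : P α := ∑ x ∈ B, X x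
/-- Monomial in the block sums. -/
def sMon (b : Finset α →₀ ℕ) : P α := b.prod fun B j => sB B ^ j

namespace Qv
variable (Q : Qv α)

def Zero (r : Setoid α) : Prop := ∀ x, Q.wt (blk r x) = 0
def M (r : Setoid α) : ℕ := ∑ p ∈ upP r, Q.a p.1 p.2
def NumO (r : Setoid α) (o : Finset α → ℕ) : P α :=
  ∏ p ∈ upO r o, (X p.2 - X p.1) ^ Q.a p.1 p.2
def NumR (r : Setoid α) : P α := Q.NumO r ord
def J (r : Setoid α) : Ideal (P α) := ⨆ x, Q.idF (blk r x)
def Jc (r : Setoid α) : Submodule ℂ (P α) := (Q.J r).restrictScalars ℂ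
/-- The sign by which `σ` acts on `∏_{B<B'} (t_{B'} - t_B)^{a(B,B')}`. -/
def sg (r : Setoid α) (σ : Equiv.Perm α) : ℤ :=
  ∏ p ∈ (upP r).filter (fun p => ord ((blk r p.2).map σ.toEmbedding) <
    ord ((blk r p.1).map σ.toEmbedding)), (-1) ^ Q.a p.1 p.2
/-- The translate of `w` along `r` has degree `< N` modulo `J r`. -/
def Low (r : Setoid α) (N : ℕ) : Submodule ℂ (P α) where
  carrier := {w | ∀ b : Finset α →₀ ℕ, N ≤ b.degree → coeff b (tr r w) ∈ Q.J r}
  zero_mem' := by intro b _; simp
  add_mem' := by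
    intro x y hx hy b hb
    rw [map_add, coeff_add]; exact add_mem (hx b hb) (hy b hb)
  smul_mem' := by
    intro c x hx b hb
    rw [map_smul, coeff_smul]
    exact Submodule.smul_of_tower_mem _ c (hx b hb)
/-- Primitive translation invariant elements relative to `r`. -/
def W (r : Setoid α) : Submodule ℂ (P α) :=
  Q.Low r 1 ⊓ ⨅ r' : Setoid α, ⨅ _ : r' < r ∧ Q.Zero r', Q.Low r' (Q.M r' - Q.M r)
/-- `W r` times polynomials of degree `< k` in the block sums, plus `J r`. -/
def Vlt (r : Setoid α) (k : ℕ) : Submodule ℂ (P α) :=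
  Q.Jc r ⊔ Submodule.span ℂ {z | ∃ q ∈ Q.W r, ∃ b : Finset α →₀ ℕ,
    b.support ⊆ parts r ∧ b.degree < k ∧ z = q * sMon b}
def V (r : Setoid α) : Submodule ℂ (P α) :=
  Submodule.span ℂ {z | ∃ q ∈ Q.W r, ∃ b : Finset α →₀ ℕ, b.support ⊆ parts r ∧ z = q * sMon b}
/-- The growth filtration: `Fil k j` = growth `< M r + k + 1`, and `< M r + k` as soon as `r`
has more than `j` blocks. -/
def Fil (k j : ℕ) : Submodule ℂ (P α) :=
  ⨅ r : Setoid α, ⨅ _ : Q.Zero r, Q.Low r (Q.M r + k + if (parts r).card ≤ j then 1 else 0)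
def chV (r : Setoid α) (σ : Equiv.Perm α) : PowerSeries ℂ := ch (Q.V r) (Q.Jc r) σ
def chW (σ : Equiv.Perm α) : PowerSeries ℂ :=
  ch (Q.W ⊤) ((Q.idF Finset.univ).restrictScalars ℂ) σ

end Qv
end Crest.Agent.R059
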