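import Crest.Agent.R059.DecA

/-! Row 59: finite dimensionality of `W`. -/

set_option autoImplicit false
set_option linter.unusedSectionVars false
set_option linter.unusedVariables false

noncomputable section
open Classical MvPolynomial

namespace Crest.Agent.R059

variable {α β : Type} [Fintype α] [Fintype β]

lemma fin_self_mem_blk (r : Setoid α) (x : α) : x ∈ blk r x := (mem_blk r x x).2 (r.refl' x)

lemma fin_card_blk_ne (r : Setoid α) (x : α) : ((blk r x).card : ℂ) ≠ 0 :=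
  Nat.cast_ne_zero.2 (Finset.card_pos.2 ⟨x, fin_self_mem_blk r x⟩).ne'

lemma fin_blk_eq {r : Setoid α} {x y : α} (h : y ∈ blk r x) : blk r y = blk r x :=
  ((blk_eq_iff r x y).2 ((mem_blk r x y).1 h)).symm

/-- The mean of the variables of `B`. -/
def finMean (B : Finset α) : P α := C ((B.card : ℂ)⁻¹) * sB B
/-- Projection to the translation invariant polynomials. -/
def finRho (r : Setoid α) : P α →ₐ[ℂ] P α := aeval fun x => X x - finMean (blk r x)
def finKap (r : Setoid α) : P α →+* MvPolynomial (Finset α) (P α) :=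
  (MvPolynomial.map (finRho r : P α →+* P α)).comp (tr r : P α →+* MvPolynomial (Finset α) (P α))
/-- The ideal generated by the block sums. -/
def finS (r : Setoid α) : Ideal (P α) := Ideal.span (Set.range fun x => sB (blk r x))

lemma finKap_X (r : Setoid α) (x : α) :
    finKap r (X x) = C (X x - finMean (blk r x)) + X (blk r x) := by
  simp [finKap, tr, finRho]

lemma eval_finKap (r : Setoid α) (w : P α) : eval finMean (finKap r w) = w := by
  have : (eval finMean).comp (finKap r) = RingHom.id (P α) := by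
    refine MvPolynomial.ringHom_ext (fun a => ?_) (fun x => ?_)
    · simp [finKap, tr, finRho, MvPolynomial.algebraMap_apply]
    · simp [finKap_X]
  exact RingHom.congr_fun this w

lemma finKap_sB (r : Setoid α) (x : α) :
    finKap r (sB (blk r x)) = ((blk r x).card : MvPolynomial (Finset α) (P α)) * X (blk r x) := by
  rw [sB, map_sum, Finset.sum_congr rfl fun y hy => by rw [finKap_X, fin_blk_eq hy],
    Finset.sum_add_distrib, ← map_sum, Finset.sum_sub_distrib, Finset.sum_const, Finset.sum_const,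
    nsmul_eq_mul, nsmul_eq_mul, finMean, ← mul_assoc, ← map_natCast (C : ℂ →+* P α), ← map_mul,
    mul_inv_cancel₀ (fin_card_blk_ne r x), map_one, one_mul, sB, sub_self, map_zero, zero_add]

lemma coeff_finKap_eq_zero (r : Setoid α) {N : ℕ} {u : P α} (hu : u ∈ finS r ^ N)
    (b : Finset α →₀ ℕ) (hb : b.degree < N) : coeff b (finKap r u) = 0 := by
  have h1 : (finS r).map (finKap r) ≤ idealOfVars (Finset α) (P α) := by
    rw [finS, Ideal.map_span, Ideal.span_le]
    rintro _ ⟨_, ⟨x, rfl⟩, rfl⟩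
    rw [finKap_sB]
    exact Ideal.mul_mem_left _ _ (Ideal.subset_span ⟨_, rfl⟩)
  have h2 := Ideal.mem_map_of_mem (finKap r) hu
  rw [Ideal.map_pow] at h2
  exact (mem_pow_idealOfVars_iff' N _).1 (Ideal.pow_right_mono h1 N h2) b hb

lemma fin_mem_pow_of_isHomogeneous {D : ℕ} {w : P α} (hw : w.IsHomogeneous D) :
    w ∈ idealOfVars α ℂ ^ D :=
  (mem_pow_idealOfVars_iff' D w).2 fun _ hx => hw.coeff_eq_zero hx.ne

/-- Splitting a block. -/
def finSplit (r : Setoid α) (S : Finset α) : Setoid α := r ⊓ Setoid.ker fun x => x ∈ S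

lemma finSplit_iff (r : Setoid α) (S : Finset α) (x y : α) :
    finSplit r S x y ↔ r x y ∧ (x ∈ S ↔ y ∈ S) := by
  rw [finSplit, Setoid.inf_iff_and, Setoid.ker_def, eq_iff_iff]

lemma blk_finSplit {r : Setoid α} {x0 : α} {S : Finset α} (hS : S ⊆ blk r x0) (x : α) :
    blk (finSplit r S) x = S ∨ blk (finSplit r S) x = blk r x0 \ S ∨
      blk (finSplit r S) x = blk r x := by
  by_cases h1 : x ∈ S
  · refine Or.inl (Finset.ext fun y => ?_)
    rw [mem_blk, finSplit_iff, ← mem_blk, fin_blk_eq (hS h1)]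
    exact ⟨fun h => h.2.1 h1, fun h => ⟨hS h, iff_of_true h1 h⟩⟩
  by_cases h2 : x ∈ blk r x0
  · refine Or.inr (Or.inl (Finset.ext fun y => ?_))
    rw [mem_blk, finSplit_iff, ← mem_blk, fin_blk_eq h2, Finset.mem_sdiff]
    exact and_congr_right fun _ => ⟨fun h k => h1 (h.2 k), fun h => iff_of_false h1 h⟩
  · refine Or.inr (Or.inr (Finset.ext fun y => ?_))
    rw [mem_blk, finSplit_iff, ← mem_blk]
    refine ⟨fun h => h.1, fun h => ⟨h, iff_of_false h1 fun k => h2 ?_⟩⟩
    rw [← fin_blk_eq (hS k), fin_blk_eq h]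
    exact fin_self_mem_blk r x

lemma finSplit_lt {r : Setoid α} {x0 : α} {S : Finset α} (hS : S ⊆ blk r x0) {x y : α}
    (hx : x ∈ S) (hy : y ∈ blk r x0 \ S) : finSplit r S < r := by
  refine lt_of_le_of_ne inf_le_left fun h => ?_
  have h1 : r x y := by
    rw [← mem_blk, fin_blk_eq (hS hx)]; exact (Finset.mem_sdiff.1 hy).1
  rw [← h, finSplit_iff] at h1
  exact (Finset.mem_sdiff.1 hy).2 (h1.2.1 hx)

namespace Qv
variable (Q : Qv α)

lemma fin_idF_le_J (r : Setoid α) (x : α) : Q.idF (blk r x) ≤ Q.J r :=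
  le_iSup (fun x => Q.idF (blk r x)) x

lemma finRho_mem_J (r : Setoid α) {w : P α} (hw : w ∈ Q.J r) : finRho r w ∈ Q.J r := by
  have : Q.J r ≤ (Q.J r).comap (finRho r) := by
    refine iSup_le fun x => Ideal.span_le.2 ?_
    rintro _ ⟨S, hS, hw, rfl⟩
    have e : finRho r (Q.Num S (blk r x \ S)) = Q.Num S (blk r x \ S) := by
      simp only [Num, map_prod, map_pow, map_sub]
      refine Finset.prod_congr rfl fun a ha => Finset.prod_congr rfl fun b hb => ?_
      simp only [finRho, aeval_X, fin_blk_eq (hS ha), fin_blk_eq (Finset.mem_sdiff.1 hb).1,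
        sub_sub_sub_cancel_right]
    show finRho r _ ∈ Q.J r
    rw [e]
    exact Q.fin_idF_le_J r x (Ideal.subset_span ⟨S, hS, hw, rfl⟩)
  exact this hw

lemma fin_mem_J (r : Setoid α) {N : ℕ} {w : P α} (h1 : w ∈ Q.J r ⊔ finS r ^ N)
    (h2 : w ∈ Q.Low r N) : w ∈ Q.J r := by
  obtain ⟨j, hj, u, hu, rfl⟩ := Submodule.mem_sup.1 h1
  have key : ∀ b, coeff b (finKap r (j + u)) ∈ Q.J r := fun b => by
    have e : ∀ w, coeff b (finKap r w) = finRho r (coeff b (tr r w)) := fun w => coeff_map _ _ _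
    by_cases hb : b.degree < N
    · rw [map_add, coeff_add, coeff_finKap_eq_zero r hu b hb, add_zero, e]
      exact Q.finRho_mem_J r (Q.coeff_tr_mem_J le_rfl hj b)
    · rw [e]
      exact Q.finRho_mem_J r (h2 b (not_lt.1 hb))
  rw [← eval_finKap r (j + u), eval_eq]
  exact Ideal.sum_mem _ fun b _ => Ideal.mul_mem_right _ _ (key b)

lemma fin_wt_sdiff {S B : Finset α} (h : S ⊆ B) : Q.wt (B \ S) + Q.wt S = Q.wt B :=
  Finset.sum_sdiff h

lemma fin_Num_mul_left {S B : Finset α} (hS : S ⊆ B) {z : P α} (hz : z ∈ Q.idF S) :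
    Q.Num S (B \ S) * z ∈ Q.idF B := by
  have : Q.idF S ≤ (Q.idF B).colon {Q.Num S (B \ S)} := by
    refine Ideal.span_le.2 ?_
    rintro _ ⟨T, hT, hw, rfl⟩
    refine Submodule.mem_colon_singleton.2 ?_
    refine Ideal.mem_of_dvd _ ?_ (Ideal.subset_span ⟨T, hT.trans hS, hw, rfl⟩)
    have e : B \ T = (S \ T) ∪ (B \ S) := by
      ext y
      have h1 := @hS y
      have h2 := @hT y
      simp only [Finset.mem_sdiff, Finset.mem_union]
      tauto
    have e' : Q.Num T (B \ T) = Q.Num T (S \ T) * Q.Num T (B \ S) := by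
      rw [e, Num, Num, Num, ← Finset.prod_mul_distrib]
      refine Finset.prod_congr rfl fun a _ => Finset.prod_union ?_
      exact Finset.disjoint_left.2 fun y h1 h2 =>
        (Finset.mem_sdiff.1 h2).2 (Finset.mem_sdiff.1 h1).1
    rw [e', smul_eq_mul]
    exact mul_dvd_mul_left _ (Q.Num_dvd hT le_rfl)
  rw [mul_comm]
  exact Submodule.mem_colon_singleton.1 (this hz)

lemma fin_Num_mul_right {S B : Finset α} (hS : S ⊆ B) (h0 : Q.wt S = 0) {z : P α}
    (hz : z ∈ Q.idF (B \ S)) : Q.Num S (B \ S) * z ∈ Q.idF B := by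
  have : Q.idF (B \ S) ≤ (Q.idF B).colon {Q.Num S (B \ S)} := by
    refine Ideal.span_le.2 ?_
    rintro _ ⟨T, hT, hw, rfl⟩
    refine Submodule.mem_colon_singleton.2 ?_
    have hd : Disjoint S T :=
      Finset.disjoint_left.2 fun y h1 h2 => (Finset.mem_sdiff.1 (hT h2)).2 h1
    have hw' : Q.wt (S ∪ T) < 0 := by
      rw [wt, Finset.sum_union hd]
      change Q.wt S + Q.wt T < 0
      omega
    refine Ideal.mem_of_dvd _ ?_ (Ideal.subset_span
      ⟨S ∪ T, Finset.union_subset hS (hT.trans Finset.sdiff_subset), hw', rfl⟩)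
    have e : B \ (S ∪ T) = (B \ S) \ T := by
      ext y
      simp only [Finset.mem_sdiff, Finset.mem_union]
      tauto
    have e' : Q.Num (S ∪ T) ((B \ S) \ T) = Q.Num T ((B \ S) \ T) * Q.Num S ((B \ S) \ T) := by
      rw [Num, Finset.prod_union hd, mul_comm]; rfl
    rw [e, e', smul_eq_mul]
    exact mul_dvd_mul_left _ (Q.Num_dvd le_rfl Finset.sdiff_subset)
  rw [mul_comm]
  exact Submodule.mem_colon_singleton.1 (this hz)

/-- The intersection of the ideals of the finer partitions. -/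
def finZ (r : Setoid α) : Ideal (P α) := ⨅ r' : Setoid α, ⨅ _ : r' < r ∧ Q.Zero r', Q.J r'

lemma fin_Num_mem_colon {r : Setoid α} (hr : Q.Zero r) {x0 : α} {S : Finset α}
    (hS : S ⊆ blk r x0) {x y : α} (hx : x ∈ S) (hy : y ∈ blk r x0 \ S) :
    Q.Num S (blk r x0 \ S) ∈ (Q.J r).colon (Q.finZ r) ∨
      Q.Num (blk r x0 \ S) S ∈ (Q.J r).colon (Q.finZ r) := by
  have hw := Q.fin_wt_sdiff hS
  rw [hr x0] at hw
  rcases lt_trichotomy (Q.wt S) 0 with h | h | h
  · exact Or.inl (Submodule.mem_colon.2 fun z _ => Ideal.mul_mem_right _ _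
      (Q.fin_idF_le_J r x0 (Ideal.subset_span ⟨S, hS, h, rfl⟩)))
  · refine Or.inl (Submodule.mem_colon.2 fun z hz => ?_)
    have hz' : Q.Zero (finSplit r S) := fun a => by
      rcases blk_finSplit hS a with e | e | e <;> rw [e]
      · exact h
      · omega
      · exact hr a
    have h1 : z ∈ Q.J (finSplit r S) :=
      (Submodule.mem_iInf _).1 ((Submodule.mem_iInf _).1 hz _) ⟨finSplit_lt hS hx hy, hz'⟩
    have h2 : Q.J (finSplit r S) ≤ (Q.J r).colon {Q.Num S (blk r x0 \ S)} := by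
      refine iSup_le fun a z hz => Submodule.mem_colon_singleton.2 ?_
      rw [smul_eq_mul, mul_comm]
      rcases blk_finSplit hS a with e | e | e <;> rw [e] at hz
      · exact Q.fin_idF_le_J r x0 (Q.fin_Num_mul_left hS hz)
      · exact Q.fin_idF_le_J r x0 (Q.fin_Num_mul_right hS h hz)
      · exact Ideal.mul_mem_left _ _ (Q.fin_idF_le_J r a hz)
    rw [smul_eq_mul, mul_comm]
    exact Submodule.mem_colon_singleton.1 (h2 h1)
  · refine Or.inr (Submodule.mem_colon.2 fun z _ => Ideal.mul_mem_right _ _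
      (Q.fin_idF_le_J r x0 (Ideal.subset_span ⟨blk r x0 \ S, Finset.sdiff_subset, by omega, ?_⟩)))
    rw [Finset.sdiff_sdiff_eq_self hS]

lemma fin_aeval_Num_ne (v : α → ℂ) {S T : Finset α} (h : ∀ x ∈ S, ∀ y ∈ T, v y ≠ v x) :
    aeval v (Q.Num S T) ≠ 0 := by
  simp only [Num, map_prod, map_pow, map_sub, aeval_X]
  exact Finset.prod_ne_zero_iff.2 fun x hx => Finset.prod_ne_zero_iff.2 fun y hy =>
    pow_ne_zero _ (sub_ne_zero.2 (h x hx y hy))

lemma fin_le_radical {r : Setoid α} (hr : Q.Zero r) :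
    idealOfVars α ℂ ≤ ((Q.J r).colon (Q.finZ r) ⊔ finS r).radical := by
  rw [← vanishingIdeal_zeroLocus_eq_radical (K := ℂ), Ideal.span_le]
  rintro _ ⟨x0, rfl⟩ v hv
  rw [aeval_X]
  have h1 : ∀ y ∈ blk r x0, v y = v x0 := by
    by_contra hc
    push Not at hc
    obtain ⟨y, hy, hy'⟩ := hc
    have hS : (blk r x0).filter (fun y => v y = v x0) ⊆ blk r x0 := Finset.filter_subset _ _
    have hne : ∀ a ∈ (blk r x0).filter (fun y => v y = v x0),
        ∀ b ∈ blk r x0 \ (blk r x0).filter (fun y => v y = v x0), v b ≠ v a := by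
      intro a ha b hb e
      rw [(Finset.mem_filter.1 ha).2] at e
      exact (Finset.mem_sdiff.1 hb).2 (Finset.mem_filter.2 ⟨(Finset.mem_sdiff.1 hb).1, e⟩)
    rcases Q.fin_Num_mem_colon hr hS (x := x0) (y := y)
      (Finset.mem_filter.2 ⟨fin_self_mem_blk r x0, rfl⟩)
      (Finset.mem_sdiff.2 ⟨hy, fun h => hy' (Finset.mem_filter.1 h).2⟩) with h | h
    · exact Q.fin_aeval_Num_ne v hne (hv _ (Ideal.mem_sup_left h))
    · exact Q.fin_aeval_Num_ne v (fun b hb a ha => (hne a ha b hb).symm)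
        (hv _ (Ideal.mem_sup_left h))
  have h2 := hv (sB (blk r x0)) (Ideal.mem_sup_right (Ideal.subset_span ⟨x0, rfl⟩))
  rw [sB, map_sum, Finset.sum_congr rfl fun y hy => by rw [aeval_X, h1 y hy], Finset.sum_const,
    nsmul_eq_mul] at h2
  exact (mul_eq_zero.1 h2).resolve_left (fin_card_blk_ne r x0)

lemma fin_step {r : Setoid α} (hr : Q.Zero r) (N : ℕ) : ∃ D0 : ℕ, ∀ D, D0 < D → ∀ w : P α,
    w.IsHomogeneous D → w ∈ Q.finZ r → w ∈ Q.Low r N → w ∈ Q.J r := by
  obtain ⟨n, hn⟩ := Ideal.exists_pow_le_of_le_radical_of_fg (Q.fin_le_radical hr)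
    (idealOfVars_fg α ℂ)
  obtain ⟨k, hk⟩ := Ideal.exists_pow_inf_eq_pow_smul (idealOfVars α ℂ) (Q.finZ r)
  refine ⟨k + n * (1 + N), fun D hD w hw hZ hL => Q.fin_mem_J r ?_ hL⟩
  have h1 : w ∈ idealOfVars α ℂ ^ D • (⊤ : Ideal (P α)) ⊓ Q.finZ r := by
    refine ⟨?_, hZ⟩
    rw [smul_eq_mul, Ideal.mul_top]
    exact fin_mem_pow_of_isHomogeneous hw
  rw [hk D (by omega)] at h1
  have h2 : idealOfVars α ℂ ^ (D - k) ≤ (Q.J r).colon (Q.finZ r) ⊔ finS r ^ N := by
    refine (Ideal.pow_le_pow_right (show n * (1 + N) ≤ D - k by omega)).trans ?_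
    rw [pow_mul]
    refine (Ideal.pow_right_mono hn _).trans (Ideal.sup_pow_add_le_pow_sup_pow.trans ?_)
    rw [pow_one]
  refine Submodule.smul_induction_on h1 (fun a ha z hz => ?_) fun _ _ => add_mem
  obtain ⟨c, hc, u, hu, rfl⟩ := Submodule.mem_sup.1 (h2 ha)
  rw [add_smul]
  exact add_mem (Ideal.mem_sup_left (Submodule.mem_colon.1 hc z hz.2))
    (Ideal.mem_sup_right (Ideal.mul_mem_right _ _ hu))

lemma fin_W_le_Low {r : Setoid α} (hr : Q.Zero r) : Q.W ⊤ ≤ Q.Low r (Q.M r + 1) := by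
  rcases (le_top : r ≤ ⊤).lt_or_eq with h | rfl
  · refine le_trans ?_ (Q.Low_mono r (show Q.M r - Q.M ⊤ ≤ Q.M r + 1 by omega))
    exact inf_le_right.trans (iInf₂_le r ⟨h, hr⟩)
  · exact inf_le_left.trans (Q.Low_mono ⊤ (by omega))

lemma fin_idF_eq_bot (h0 : ∀ x, Q.η x = 0) (Y : Finset α) : Q.idF Y = ⊥ := by
  refine le_bot_iff.1 (Ideal.span_le.2 ?_)
  rintro _ ⟨S, -, hw, -⟩
  simp [wt, h0] at hw

lemma fin_J_eq_bot (h0 : ∀ x, Q.η x = 0) (r : Setoid α) : Q.J r = ⊥ := by
  simp [J, Q.fin_idF_eq_bot h0]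

theorem W_top_finite [Nonempty α] (h0 : Q.wt Finset.univ = 0) :
    ∃ D0 : ℕ, ∀ D, D0 < D → ∀ w ∈ Q.W ⊤, w.IsHomogeneous D → w ∈ Q.idF Finset.univ := by
  have h1 : ∀ r : Setoid α, ∃ D0 : ℕ, Q.Zero r → ∀ D, D0 < D → ∀ w : P α,
      w.IsHomogeneous D → w ∈ Q.finZ r → w ∈ Q.Low r (Q.M r + 1) → w ∈ Q.J r := fun r => by
    by_cases hr : Q.Zero r
    · obtain ⟨D0, h⟩ := Q.fin_step hr (Q.M r + 1)
      exact ⟨D0, fun _ => h⟩
    · exact ⟨0, fun h => absurd h hr⟩
  choose d hd using h1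
  refine ⟨Finset.univ.sup d, fun D hD w hw hh => ?_⟩
  have key : ∀ r : Setoid α, Q.Zero r → w ∈ Q.J r := fun r => by
    induction r using WellFoundedLT.induction with
    | ind r ih =>
      intro hr
      refine hd r hr D ((Finset.le_sup (Finset.mem_univ r)).trans_lt hD) w hh ?_
        (Q.fin_W_le_Low hr hw)
      exact (Submodule.mem_iInf _).2 fun r' => (Submodule.mem_iInf _).2 fun h => ih r' h.1 h.2
  rw [← Q.J_top]
  exact key ⊤ fun x => by rw [blk_top, h0]

/-- Degenerate case: a vertex of negative weight with no arrows to non-negative vertices. -/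
lemma chW_eq_zero_of_neg (h : ∀ x y, Q.η x < 0 → 0 ≤ Q.η y → Q.a x y = 0) (x : α)
    (hx : Q.η x < 0) (σ : Equiv.Perm α) : Q.chW σ = 0 := by
  have : Nonempty α := ⟨x⟩
  have h1 : Q.idF Finset.univ = ⊤ := by
    rw [Ideal.eq_top_iff_one]
    refine Ideal.subset_span ⟨Finset.univ.filter fun y => Q.η y < 0, Finset.subset_univ _, ?_, ?_⟩
    · exact Finset.sum_neg (fun y hy => (Finset.mem_filter.1 hy).2) ⟨x, by simpa using hx⟩
    · refine (Finset.prod_eq_one fun a ha => Finset.prod_eq_one fun b hb => ?_).symm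
      rw [h a b (Finset.mem_filter.1 ha).2 (by simpa using hb), pow_zero]
  have h2 : Q.W ⊤ = ⊤ := by
    refine top_le_iff.1 (le_trans ?_ (Q.Jc_le_W ⊤))
    rw [Jc, J_top, h1, Submodule.restrictScalars_top]
  rw [chW, h1, h2, Submodule.restrictScalars_top, ch_self]
lemma chW_eq_zero_of_zero (h : ∀ x y, Q.a x y = 0) (h0 : ∀ x, Q.η x = 0)
    (hc : 2 ≤ Fintype.card α) (σ : Equiv.Perm α) : Q.chW σ = 0 := by
  have hlt : (⊥ : Setoid α) < ⊤ := by
    obtain ⟨x, y, hxy⟩ := Fintype.exists_pair_of_one_lt_card (α := α) hc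
    refine lt_of_le_of_ne bot_le fun e => hxy ?_
    have : (⊥ : Setoid α) x y := by rw [e]; trivial
    exact this
  have h2 : Q.W ⊤ = ⊥ := by
    refine le_bot_iff.1 ((inf_le_right.trans
      (iInf₂_le ⊥ ⟨hlt, fun x => by simp [wt, h0]⟩)).trans ?_)
    rw [show Q.M ⊥ = 0 by simp [M, h], Nat.zero_sub, Low_zero, Jc, Q.fin_J_eq_bot h0,
      Submodule.restrictScalars_bot]
  rw [chW, Q.fin_idF_eq_bot h0, h2, Submodule.restrictScalars_bot, ch_self]
lemma chW_eq_one (h0 : ∀ x, Q.η x = 0) (hc : Fintype.card α = 1) (σ : Equiv.Perm α) :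
    Q.chW σ = 1 := by
  have hs : Subsingleton α := Fintype.card_le_one_iff_subsingleton.1 hc.le
  have htr : ∀ U : Submodule ℂ (P α), trOn (act σ) U = LinearMap.trace ℂ U LinearMap.id := by
    intro U
    have e : act σ = LinearMap.id := by
      rw [Subsingleton.elim σ 1]
      ext1 p
      simp [act]
    rw [e]
    exact dif_pos fun x hx => hx
  have hb : trOn (act σ) (⊥ : Submodule ℂ (P α)) = 0 := by
    rw [htr, Subsingleton.elim (LinearMap.id : (⊥ : Submodule ℂ (P α)) →ₗ[ℂ] _) 0, map_zero]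
  rw [chW, Q.fin_idF_eq_bot h0, Submodule.restrictScalars_bot]
  ext D
  rw [ch, PowerSeries.coeff_mk, bot_inf_eq, hb, sub_zero, PowerSeries.coeff_one]
  split_ifs with hD
  · subst hD
    have h1 : homogeneousSubmodule α ℂ 0 ≤ Q.W ⊤ := fun w hw => by
      refine ⟨Q.mem_Low_of_isHomogeneous ⊤ hw, ?_⟩
      refine (Submodule.mem_iInf _).2 fun r => (Submodule.mem_iInf _).2 fun h => ?_
      exact absurd (Setoid.ext fun a b =>
        iff_of_true (by rw [Subsingleton.elim a b]) trivial) h.1.ne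
    rw [inf_eq_right.2 h1, homogeneousSubmodule_zero, Submodule.one_eq_span, htr,
      LinearMap.trace_id, finrank_span_singleton one_ne_zero, Nat.cast_one]
  · have h1 : Q.W ⊤ ⊓ homogeneousSubmodule α ℂ D = ⊥ := by
      refine le_bot_iff.1 fun w hw => ?_
      have h2 : idealOfVars α ℂ ≤ finS ⊤ := by
        refine Ideal.span_le.2 ?_
        rintro _ ⟨x, rfl⟩
        refine Ideal.subset_span ⟨x, ?_⟩
        show sB (blk ⊤ x) = X x
        rw [sB, blk_top]
        exact Fintype.sum_subsingleton _ x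
      have h3 : w ∈ finS (⊤ : Setoid α) ^ 1 := by
        rw [pow_one]
        exact h2 (Ideal.pow_le_self hD (fin_mem_pow_of_isHomogeneous hw.2))
      have := Q.fin_mem_J ⊤ (Ideal.mem_sup_right h3) hw.1.1
      rw [Q.fin_J_eq_bot h0] at this
      exact this
    rw [h1, hb]

end Qv
end Crest.Agent.R059
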