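import Crest.Agent.R059.DecT

/-! Row 59: the sign `sg`. -/

set_option autoImplicit false
set_option linter.unusedSectionVars false
set_option linter.unusedVariables false

noncomputable section
open Classical MvPolynomial

namespace Crest.Agent.R059

variable {α β : Type} [Fintype α] [Fintype β]

/-- weighted number of inversions between two orders -/
def sgInv (a : α → α → ℕ) (u v : α → ℕ) : ℕ :=
  ∑ p : α × α, if u p.1 < u p.2 ∧ v p.2 < v p.1 then a p.1 p.2 else 0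

/-- `u` orders the blocks of `r` -/
def SgAdm (r : Setoid α) (u : α → ℕ) : Prop := ∀ x y, u x = u y ↔ r x y

def SgSwap (a : α → α → ℕ) (r : Setoid α) : Prop :=
  ∀ ρ : α → α → Prop, (∀ x x' y y', r x x' → r y y' → ρ x y → ρ x' y') →
    (∑ p : α × α, if ρ p.1 p.2 then a p.1 p.2 else 0) =
      ∑ p : α × α, if ρ p.2 p.1 then a p.1 p.2 else 0

lemma sgInv_symm {a : α → α → ℕ} {r : Setoid α} (h : SgSwap a r) {u v : α → ℕ} (hu : SgAdm r u)
    (hv : SgAdm r v) : sgInv a u v = sgInv a v u := by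
  have := h (fun x y => u x < u y ∧ v y < v x) fun x x' y y' e1 e2 => by
    rw [(hu _ _).2 e1, (hu _ _).2 e2, (hv _ _).2 e1, (hv _ _).2 e2]; exact id
  unfold sgInv
  convert this using 3 with p
  exact and_comm

lemma sgInv_cocycle {a : α → α → ℕ} {r : Setoid α} (h : SgSwap a r) {u v w : α → ℕ}
    (hu : SgAdm r u) (hv : SgAdm r v) (hw : SgAdm r w) :
    Even (sgInv a u w + sgInv a u v + sgInv a v w) := by
  have h1 := h (fun x y => u y < u x ∧ v x < v y ∧ w y < w x) fun x x' y y' e1 e2 => by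
    rw [(hu _ _).2 e1, (hu _ _).2 e2, (hv _ _).2 e1, (hv _ _).2 e2, (hw _ _).2 e1, (hw _ _).2 e2]
    exact id
  have key : sgInv a u w + sgInv a u v + sgInv a v w +
      (∑ p : α × α, if u p.1 < u p.2 ∧ v p.2 < v p.1 ∧ w p.1 < w p.2 then a p.1 p.2 else 0) =
      2 * sgInv a u w + 2 * (∑ p : α × α,
        if u p.1 < u p.2 ∧ v p.2 < v p.1 ∧ w p.1 < w p.2 then a p.1 p.2 else 0) +
      ∑ p : α × α, if u p.2 < u p.1 ∧ v p.1 < v p.2 ∧ w p.2 < w p.1 then a p.1 p.2 else 0 := by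
    unfold sgInv
    simp only [Finset.mul_sum, ← Finset.sum_add_distrib]
    refine Finset.sum_congr rfl fun p _ => ?_
    have e1 : u p.1 = u p.2 ↔ v p.1 = v p.2 := (hu _ _).trans (hv _ _).symm
    have e2 : u p.1 = u p.2 ↔ w p.1 = w p.2 := (hu _ _).trans (hw _ _).symm
    split_ifs <;> omega
  have h2 : (∑ p : α × α, if u p.2 < u p.1 ∧ v p.1 < v p.2 ∧ w p.2 < w p.1 then a p.1 p.2 else 0) =
      ∑ p : α × α, if u p.1 < u p.2 ∧ v p.2 < v p.1 ∧ w p.1 < w p.2 then a p.1 p.2 else 0 := by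
    convert h1
  rw [h2] at key
  exact ⟨sgInv a u w + ∑ p : α × α,
    if u p.1 < u p.2 ∧ v p.2 < v p.1 ∧ w p.1 < w p.2 then a p.1 p.2 else 0, by omega⟩

lemma sgInv_equiv (a : β → β → ℕ) (e : α ≃ β) (u v : β → ℕ) :
    sgInv (fun x y => a (e x) (e y)) (u ∘ e) (v ∘ e) = sgInv a u v := by
  unfold sgInv
  exact Fintype.sum_equiv (e.prodCongr e) _ _ fun p => rfl

lemma SgAdm.comp {r : Setoid α} {u : α → ℕ} (hu : SgAdm r u) {σ : Equiv.Perm α} (hs : StabR σ r) :
    SgAdm r (u ∘ σ) := fun x y => (hu _ _).trans (hs x y)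

lemma sgInv_indep {a : α → α → ℕ} {r : Setoid α} (h : SgSwap a r) {u v : α → ℕ} (hu : SgAdm r u)
    (hv : SgAdm r v) {σ : Equiv.Perm α} (hσ : ∀ x y, a (σ x) (σ y) = a x y) (hs : StabR σ r) :
    (-1 : ℤ) ^ sgInv a u (u ∘ σ) = (-1) ^ sgInv a v (v ∘ σ) := by
  have h1 := sgInv_cocycle h hu hv (hu.comp hs)
  have h2 := sgInv_cocycle h hv (hv.comp hs) (hu.comp hs)
  have h3 : sgInv a (v ∘ σ) (u ∘ σ) = sgInv a v u := by
    rw [← sgInv_equiv a σ v u]; congr 1; funext x y; exact (hσ x y).symm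
  have h4 := sgInv_symm h hu hv
  rw [neg_one_pow_eq_pow_mod_two, neg_one_pow_eq_pow_mod_two (n := sgInv a v (v ∘ σ))]
  congr 1
  obtain ⟨k, hk⟩ := h1
  obtain ⟨l, hl⟩ := h2
  omega

lemma sg_blk_map {r : Setoid α} {σ : Equiv.Perm α} (hs : StabR σ r) (x : α) :
    (blk r x).map σ.toEmbedding = blk r (σ x) := by
  ext y
  obtain ⟨y, rfl⟩ := σ.surjective y
  simp [mem_blk, hs x y]

lemma sgAdm_ord (r : Setoid α) : SgAdm r (fun x => ord (blk r x)) := fun x y =>
  ord_injective.eq_iff.trans (blk_eq_iff r x y)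

lemma sg_eq (Q : Qv α) {r : Setoid α} {σ : Equiv.Perm α} (hs : StabR σ r) :
    Q.sg r σ = (-1) ^ sgInv Q.a (fun x => ord (blk r x)) ((fun x => ord (blk r x)) ∘ σ) := by
  unfold Qv.sg sgInv upP upO
  rw [Finset.prod_pow_eq_pow_sum, Finset.filter_filter, Finset.sum_filter]
  simp only [sg_blk_map hs, Function.comp]

lemma sgSwap_of_sym (Q : Qv α) (hQ : Q.Sym) {r : Setoid α} (hr : Q.Zero r) : SgSwap Q.a r := by
  intro ρ hρ
  have key : ∀ ρ : α → α → Prop, (∀ x x' y y', r x x' → r y y' → ρ x y → ρ x' y') →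
      (∑ p : α × α, if ρ p.1 p.2 then Q.a p.1 p.2 else 0) =
        ∑ B ∈ parts r, ∑ B' ∈ parts r,
          if ∃ x y, blk r x = B ∧ blk r y = B' ∧ ρ x y then Q.aa B B' else 0 := by
    intro ρ hρ
    rw [Fintype.sum_prod_type,
      ← Finset.sum_fiberwise_of_maps_to (s := Finset.univ) (t := parts r) (g := blk r)
        (fun x _ => Finset.mem_image_of_mem _ (Finset.mem_univ x))]
    refine Finset.sum_congr rfl fun B hB => ?_
    obtain ⟨x₀, -, rfl⟩ := Finset.mem_image.1 hB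
    have hf : ∀ z : α, Finset.univ.filter (fun x => blk r x = blk r z) = blk r z := by
      intro z; ext x
      rw [Finset.mem_filter, blk_eq_iff, mem_blk]
      exact ⟨fun h => r.symm h.2, fun h => ⟨Finset.mem_univ _, r.symm h⟩⟩
    rw [hf, Finset.sum_comm,
      ← Finset.sum_fiberwise_of_maps_to (s := Finset.univ) (t := parts r) (g := blk r)
        (fun x _ => Finset.mem_image_of_mem _ (Finset.mem_univ x))]
    refine Finset.sum_congr rfl fun B' hB' => ?_
    obtain ⟨y₀, -, rfl⟩ := Finset.mem_image.1 hB'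
    rw [hf, Finset.sum_comm]
    split_ifs with h
    · obtain ⟨x, y, e1, e2, e3⟩ := h
      refine Finset.sum_congr rfl fun x' hx' => Finset.sum_congr rfl fun y' hy' => if_pos ?_
      exact hρ x x' y y' (r.trans ((blk_eq_iff _ _ _).1 e1) ((mem_blk _ _ _).1 hx'))
        (r.trans ((blk_eq_iff _ _ _).1 e2) ((mem_blk _ _ _).1 hy')) e3
    · refine Finset.sum_eq_zero fun x' hx' => Finset.sum_eq_zero fun y' hy' => if_neg fun e => h ?_
      exact ⟨x', y', (blk_eq_iff _ _ _).2 (r.symm ((mem_blk _ _ _).1 hx')),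
        (blk_eq_iff _ _ _).2 (r.symm ((mem_blk _ _ _).1 hy')), e⟩
  rw [key ρ hρ, key (fun x y => ρ y x) fun x x' y y' e1 e2 => hρ y y' x x' e2 e1, Finset.sum_comm]
  refine Finset.sum_congr rfl fun B hB => Finset.sum_congr rfl fun B' hB' => ?_
  obtain ⟨x₀, -, rfl⟩ := Finset.mem_image.1 hB
  obtain ⟨y₀, -, rfl⟩ := Finset.mem_image.1 hB'
  rw [hQ _ _ (hr y₀) (hr x₀)]
  refine if_congr ⟨?_, ?_⟩ rfl rfl
  · rintro ⟨x, y, e1, e2, e3⟩; exact ⟨y, x, e2, e1, e3⟩
  · rintro ⟨x, y, e1, e2, e3⟩; exact ⟨y, x, e2, e1, e3⟩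

lemma sg_eq_adm (Q : Qv α) (hQ : Q.Sym) {r : Setoid α} (hr : Q.Zero r) {σ : Equiv.Perm α}
    (hσ : Q.Aut σ) (hs : StabR σ r) {u : α → ℕ} (hu : SgAdm r u) :
    Q.sg r σ = (-1) ^ sgInv Q.a u (u ∘ σ) := by
  rw [sg_eq Q hs]
  exact sgInv_indep (sgSwap_of_sym Q hQ hr) (sgAdm_ord r) hu hσ.1 hs

lemma sg_mapR (Q : Qv β) (hQ : Q.Sym) (e : α ≃ β) {r : Setoid α} (hr : (Q.comap e).Zero r)
    {σ : Equiv.Perm α} (hσ : (Q.comap e).Aut σ) (hs : StabR σ r) :
    Q.sg (mapR e r) (e.permCongr σ) = (Q.comap e).sg r σ := by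
  have hs' : StabR (e.permCongr σ) (mapR e r) := fun x y => by
    show r (e.symm (e.permCongr σ x)) (e.symm (e.permCongr σ y)) ↔ r (e.symm x) (e.symm y)
    simpa using hs (e.symm x) (e.symm y)
  have hu : SgAdm r ((fun x => ord (blk (mapR e r) x)) ∘ e) := fun x y =>
    (sgAdm_ord (mapR e r) (e x) (e y)).trans (by
      show r (e.symm (e x)) (e.symm (e y)) ↔ r x y
      simp)
  rw [sg_eq Q hs', sg_eq_adm (Q.comap e) (hQ.comap e.toEmbedding) hr hσ hs hu, ← sgInv_equiv Q.a e]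
  congr 2
  funext x
  simp

lemma sg_res_val {σ : Equiv.Perm α} {S : Finset α} (hσS : StabS σ S) (x : {x // x ∈ S}) :
    (res σ S x : α) = σ x := by
  unfold res; rw [dif_pos hσS]; rfl

lemma sg_res_eq (Q : Qv α) (hQ : Q.Sym) {σ : Equiv.Perm α} (hσ : Q.Aut σ) {r : Setoid α}
    (hs : StabR σ r) {S : Finset α} (hr : (Q.comap Subtype.val).Zero (resR r S)) (hσS : StabS σ S)
    {u : α → ℕ} (hu : SgAdm r u) :
    (Q.comap Subtype.val).sg (resR r S) (res σ S) = (-1) ^ ∑ p : α × α,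
      if (p.1 ∈ S ∧ p.2 ∈ S) ∧ u p.1 < u p.2 ∧ u (σ p.2) < u (σ p.1) then Q.a p.1 p.2 else 0 := by
  rw [sg_eq_adm (Q.comap Subtype.val) (hQ.comap (Function.Embedding.subtype _)) hr
    (σ := res σ S) ⟨fun x y => by simp [Qv.comap, sg_res_val hσS, hσ.1],
      fun x => by simp [Qv.comap, sg_res_val hσS, hσ.2]⟩
    (fun x y => by
      show r (res σ S x : α) (res σ S y : α) ↔ r (x : α) (y : α)
      rw [sg_res_val hσS, sg_res_val hσS]; exact hs x y)
    (u := u ∘ Subtype.val) (fun x y => hu x y)]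
  congr 1
  unfold sgInv
  simp only [Fintype.sum_prod_type, Function.comp, sg_res_val hσS, Qv.comap]
  rw [Finset.sum_coe_sort S (fun x => ∑ y : {x // x ∈ S},
      if u x < u y ∧ u (σ y) < u (σ x) then Q.a x y else 0),
    ← Finset.sum_subset (Finset.subset_univ S) (fun x _ hx => by simp [hx])]
  refine Finset.sum_congr rfl fun x hx => ?_
  rw [Finset.sum_coe_sort S (fun y => if u x < u y ∧ u (σ y) < u (σ x) then Q.a x y else 0),
    ← Finset.sum_subset (Finset.subset_univ S) (fun y _ hy => by simp [hy])]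
  exact Finset.sum_congr rfl fun y hy => by simp [hx, hy]

lemma sg_split (Q : Qv α) (hQ : Q.Sym) {σ : Equiv.Perm α} (hσ : Q.Aut σ) {r : Setoid α}
    (hr : Q.Zero r) (hs : StabR σ r) {S : Finset α} (hS : UB r S) (hσS : StabS σ S) :
    Q.sg r σ = (Q.comap Subtype.val).sg (resR r S) (res σ S) *
      (Q.comap Subtype.val).sg (resR r Sᶜ) (res σ Sᶜ) := by
  obtain ⟨h1, h2⟩ := (zero_split Q hS).1 hr
  have hσS' : StabS σ Sᶜ := fun x => by simp [hσS x]
  set K := Fintype.card (Finset α) with hK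
  have hlt : ∀ B : Finset α, ord B < K := fun B => (Fintype.equivFin (Finset α) B).2
  set u : α → ℕ := fun x => if x ∈ S then ord (blk r x) else K + ord (blk r x) with hu
  have hadm : SgAdm r u := by
    intro x y
    have e1 := sgAdm_ord r x y
    have e2 := hS x y
    have e3 := hlt (blk r x)
    have e4 := hlt (blk r y)
    simp only [hu] at e1 ⊢
    split_ifs with a b b
    · exact e1
    · exact ⟨fun e => by omega, fun e => absurd ((e2 e).1 a) b⟩
    · exact ⟨fun e => by omega, fun e => absurd ((e2 e).2 b) a⟩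
    · rw [← e1]; omega
  have hcross : ∀ x y, x ∈ S → y ∉ S → u x < u y := by
    intro x y a b
    have e3 := hlt (blk r x)
    simp only [hu, if_pos a, if_neg b]; omega
  rw [sg_eq_adm Q hQ hr hσ hs hadm, sg_res_eq Q hQ hσ hs h1 hσS hadm,
    sg_res_eq Q hQ hσ hs h2 hσS' hadm, ← pow_add, ← Finset.sum_add_distrib]
  congr 1
  refine Finset.sum_congr rfl fun p _ => ?_
  simp only [Function.comp, Finset.mem_compl]
  by_cases a : p.1 ∈ S <;> by_cases b : p.2 ∈ S
  · simp [a, b]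
  · have := hcross _ _ ((hσS _).2 a) (fun e => b ((hσS _).1 e))
    simp [a, b]; omega
  · have := hcross _ _ b a
    simp [a, b]; omega
  · simp [a, b]

lemma sg_rot (e : ℕ) :
    sgInv (fun _ _ : Fin (e + 1) => 1) Fin.val (Fin.val ∘ finRotate (e + 1)) = e := by
  unfold sgInv
  rw [Fintype.sum_prod_type, Finset.sum_comm, Fin.sum_univ_castSucc]
  have h1 : ∀ j : Fin e, (finRotate (e + 1) j.castSucc : ℕ) = j + 1 := fun j => by
    rw [coe_finRotate_of_ne_last (Fin.castSucc_ne_last j)]; rfl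
  have h2 : (finRotate (e + 1) (Fin.last e) : ℕ) = 0 := by simp
  have h3 : ∑ j : Fin e, ∑ i : Fin (e + 1), (if (i : ℕ) < (j.castSucc : ℕ) ∧
      (Fin.val ∘ finRotate (e + 1)) j.castSucc < (Fin.val ∘ finRotate (e + 1)) i then 1 else 0) =
      0 := by
    refine Finset.sum_eq_zero fun j _ => Finset.sum_eq_zero fun i _ => if_neg ?_
    induction i using Fin.lastCases with
    | last => simp
    | cast i =>
      simp only [Function.comp, h1, Fin.val_castSucc]; omega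
  rw [h3, zero_add, Fin.sum_univ_castSucc]
  simp only [Function.comp, h1, h2]
  simp

lemma sg_model [Nonempty α] (Q : Qv α) (e : ℕ) (g : Equiv.Perm α) :
    (Q.comap (Prod.snd : Fin (e + 1) × α → α)).sg (Setoid.ker Prod.fst) (cyc e g) =
      (-1) ^ (e * Q.aa Finset.univ Finset.univ) := by
  have hc : ∀ p : Fin (e + 1) × α, (cyc e g p).1 = finRotate (e + 1) p.1 := fun p => rfl
  have hs : StabR (cyc e g) (Setoid.ker (Prod.fst : Fin (e + 1) × α → Fin (e + 1))) := fun x y => by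
    simp only [Setoid.ker_def, hc]; exact (finRotate (e + 1)).injective.eq_iff
  obtain ⟨x₀⟩ := ‹Nonempty α›
  set o : Fin (e + 1) → ℕ := fun i =>
    ord (blk (Setoid.ker (Prod.fst : Fin (e + 1) × α → Fin (e + 1))) (i, x₀)) with ho
  have h1 : ∀ p : Fin (e + 1) × α, ord (blk (Setoid.ker Prod.fst) p) = o p.1 := fun p =>
    (sgAdm_ord _ _ _).2 rfl
  have h2 : SgAdm ⊥ o := fun i j => (sgAdm_ord _ (i, x₀) (j, x₀)).trans (by simp [Setoid.ker_def])
  have h3 : SgAdm (⊥ : Setoid (Fin (e + 1))) Fin.val := fun i j => by simp [Fin.ext_iff]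
  have h4 : SgSwap (fun _ _ : Fin (e + 1) => 1) ⊥ := fun ρ _ =>
    Fintype.sum_equiv (Equiv.prodComm _ _) _ _ fun p => rfl
  have h5 := sgInv_indep h4 h2 h3 (σ := finRotate (e + 1)) (fun _ _ => rfl) (fun x y => by simp)
  rw [sg_rot e] at h5
  rw [sg_eq _ hs, pow_mul, ← h5, ← pow_mul]
  congr 1
  unfold sgInv Qv.aa
  simp only [Function.comp, h1, hc, Fintype.sum_prod_type, Qv.comap, Finset.sum_mul]
  refine Finset.sum_congr rfl fun i _ => ?_
  rw [Finset.sum_comm]
  refine Finset.sum_congr rfl fun j _ => ?_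
  split_ifs <;> simp

end Crest.Agent.R059
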