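import Crest.Agent.R059.DecA

/-! Row 59: slices of polynomials in two sets of variables (helpers for `DecT`). -/

set_option autoImplicit false
set_option linter.unusedSectionVars false
set_option linter.unusedVariables false

noncomputable section
open Classical MvPolynomial TensorProduct

namespace Crest.Agent.R059

variable {α β : Type} [Fintype α] [Fintype β]

lemma dt_T_tmul (a : P α) (b : P β) :
    tensorEquivSum ℂ α β ℂ (a ⊗ₜ b) = rename Sum.inl a * rename Sum.inr b := by
  have h1 : ∀ a : P α, tensorEquivSum ℂ α β ℂ (a ⊗ₜ 1) = rename Sum.inl a := by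
    intro a
    have : ((tensorEquivSum ℂ α β ℂ).toAlgHom.comp Algebra.TensorProduct.includeLeft :
        P α →ₐ[ℂ] P (α ⊕ β)) = rename Sum.inl := by
      ext i; simp
    exact AlgHom.congr_fun this a
  have h2 : ∀ b : P β, tensorEquivSum ℂ α β ℂ (1 ⊗ₜ b) = rename Sum.inr b := by
    intro b
    have : ((tensorEquivSum ℂ α β ℂ).toAlgHom.comp Algebra.TensorProduct.includeRight :
        P β →ₐ[ℂ] P (α ⊕ β)) = rename Sum.inr := by
      ext i; simp
    exact AlgHom.congr_fun this b
  rw [← h1, ← h2, ← map_mul, Algebra.TensorProduct.tmul_mul_tmul, mul_one, one_mul]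

/-- Apply a functional to the second group of variables. -/
def dt_sl (l : P β →ₗ[ℂ] ℂ) : P (α ⊕ β) →ₗ[ℂ] P α :=
  (TensorProduct.rid ℂ (P α)).toLinearMap ∘ₗ LinearMap.lTensor (P α) l ∘ₗ
    (tensorEquivSum ℂ α β ℂ).symm.toLinearMap

lemma dt_sl_mul (l : P β →ₗ[ℂ] ℂ) (a : P α) (b : P β) :
    dt_sl l (rename Sum.inl a * rename Sum.inr b) = l b • a := by
  rw [← dt_T_tmul]
  simp [dt_sl]

lemma dt_mem_prodSub {A : Submodule ℂ (P α)} {B : Submodule ℂ (P β)} {a : P α} {b : P β}
    (ha : a ∈ A) (hb : b ∈ B) : rename Sum.inl a * rename Sum.inr b ∈ prodSub A B :=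
  Submodule.subset_span ⟨a, ha, b, hb, rfl⟩

lemma dt_prodSub_le {A : Submodule ℂ (P α)} {B : Submodule ℂ (P β)} {U : Submodule ℂ (P (α ⊕ β))}
    (h : ∀ a ∈ A, ∀ b ∈ B, rename Sum.inl a * rename Sum.inr b ∈ U) : prodSub A B ≤ U := by
  unfold prodSub
  rw [Submodule.span_le]
  rintro _ ⟨a, ha, b, hb, rfl⟩
  exact h a ha b hb

lemma dt_prodSub_mono {A A' : Submodule ℂ (P α)} {B B' : Submodule ℂ (P β)} (hA : A ≤ A')
    (hB : B ≤ B') : prodSub A B ≤ prodSub A' B' :=
  dt_prodSub_le fun a ha b hb => dt_mem_prodSub (hA ha) (hB hb)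

lemma dt_sl_mem {A : Submodule ℂ (P α)} {B' : Submodule ℂ (P β)} (l : P β →ₗ[ℂ] ℂ)
    (hl : ∀ b ∈ B', l b = 0) {z : P (α ⊕ β)} (hz : z ∈ prodSub A ⊤ ⊔ prodSub ⊤ B') :
    dt_sl l z ∈ A := by
  have : prodSub A ⊤ ⊔ prodSub ⊤ B' ≤ A.comap (dt_sl l) := by
    refine sup_le (dt_prodSub_le fun a ha b _ => ?_) (dt_prodSub_le fun a _ b hb => ?_)
    · rw [Submodule.mem_comap, dt_sl_mul]
      exact A.smul_mem _ ha
    · rw [Submodule.mem_comap, dt_sl_mul, hl b hb, zero_smul]
      exact A.zero_mem
  exact this hz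

lemma dt_mem_of_sl {A : Submodule ℂ (P α)} {B' : Submodule ℂ (P β)} {z : P (α ⊕ β)}
    (h : ∀ l : P β →ₗ[ℂ] ℂ, (∀ b ∈ B', l b = 0) → dt_sl l z ∈ A) :
    z ∈ prodSub A ⊤ ⊔ prodSub ⊤ B' := by
  obtain ⟨C, hC⟩ := B'.exists_isCompl
  let π := Submodule.projectionOnto C B' hC.symm
  let bC := Module.Basis.ofVectorSpace ℂ C
  let T := tensorEquivSum ℂ α β ℂ
  obtain ⟨t, rfl⟩ := T.surjective z
  let F := TensorProduct.equivFinsuppOfBasisRight bC (LinearMap.lTensor (P α) π t)
  have h1 : ∀ i, F i ∈ A := by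
    intro i
    have := h (bC.coord i ∘ₗ π) (fun b hb => by
      rw [LinearMap.comp_apply, Submodule.projectionOnto_apply_of_mem_right hC.symm hb, map_zero])
    convert this using 1
    simp only [F, TensorProduct.equivFinsuppOfBasisRight_apply, dt_sl, LinearMap.comp_apply,
      LinearMap.lTensor_comp]
    simp [T]
  have h2 : ∀ t : P α ⊗[ℂ] P β, T t - T (LinearMap.lTensor (P α) C.subtype
      (LinearMap.lTensor (P α) π t)) ∈ prodSub (⊤ : Submodule ℂ (P α)) B' := by
    intro t
    induction t using TensorProduct.induction_on with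
    | zero => simp
    | tmul a b =>
      rw [← map_sub, LinearMap.lTensor_tmul, LinearMap.lTensor_tmul, ← TensorProduct.tmul_sub,
        dt_T_tmul]
      exact dt_mem_prodSub trivial (Submodule.sub_projection_mem hC.symm b)
    | add x y hx hy =>
      simp only [map_add]
      rw [add_sub_add_comm]
      exact add_mem hx hy
  have h3 : T (LinearMap.lTensor (P α) C.subtype (LinearMap.lTensor (P α) π t)) ∈
      prodSub A (⊤ : Submodule ℂ (P β)) := by
    have e : LinearMap.lTensor (P α) π t = F.sum fun i m => m ⊗ₜ bC i := by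
      rw [← TensorProduct.equivFinsuppOfBasisRight_symm_apply, LinearEquiv.symm_apply_apply]
    rw [e, Finsupp.sum, map_sum, map_sum]
    refine Submodule.sum_mem _ fun i _ => ?_
    rw [LinearMap.lTensor_tmul, dt_T_tmul]
    exact dt_mem_prodSub (h1 i) trivial
  have := add_mem (Submodule.mem_sup_left h3 : _ ∈ prodSub A ⊤ ⊔ prodSub ⊤ B')
    (Submodule.mem_sup_right (h2 t))
  rwa [add_sub_cancel] at this

lemma dt_prodSub_swap (A : Submodule ℂ (P α)) (B : Submodule ℂ (P β)) :
    (prodSub B A).map (act (Equiv.sumComm β α)) ≤ prodSub A B := by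
  rw [Submodule.map_le_iff_le_comap]
  refine dt_prodSub_le fun b hb a ha => ?_
  rw [Submodule.mem_comap]
  have : act (Equiv.sumComm β α) (rename Sum.inl b * rename Sum.inr a) =
      rename Sum.inl a * rename Sum.inr b := by
    simp only [act, AlgHom.toLinearMap_apply, map_mul, rename_rename]
    rw [mul_comm]
    rfl
  rw [this]
  exact dt_mem_prodSub ha hb

lemma dt_prodSub_sup_right (A : Submodule ℂ (P α)) (B B' : Submodule ℂ (P β)) :
    prodSub A (B ⊔ B') ≤ prodSub A B ⊔ prodSub A B' := by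
  refine dt_prodSub_le fun a ha b hb => ?_
  obtain ⟨x, hx, y, hy, rfl⟩ := Submodule.mem_sup.1 hb
  rw [map_add, mul_add]
  exact add_mem (Submodule.mem_sup_left (dt_mem_prodSub ha hx))
    (Submodule.mem_sup_right (dt_mem_prodSub ha hy))

/-- A submodule closed under the block sums and containing `W` contains `V`. -/
lemma dt_mul_sMon {U : Submodule ℂ (P α)} {S : Finset (Finset α)}
    (hU : ∀ B ∈ S, ∀ u ∈ U, u * sB B ∈ U) (b : Finset α →₀ ℕ) (hb : b.support ⊆ S) :
    ∀ u ∈ U, u * sMon b ∈ U := by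
  unfold sMon Finsupp.prod
  refine Finset.prod_induction _ (fun p => ∀ u ∈ U, u * p ∈ U) ?_ ?_ ?_
  · intro p q hp hq u hu
    rw [← mul_assoc]
    exact hq _ (hp u hu)
  · intro u hu
    rwa [mul_one]
  · intro B hB
    show ∀ u ∈ U, u * sB B ^ b B ∈ U
    generalize b B = j
    induction j with
    | zero => intro u hu; rwa [pow_zero, mul_one]
    | succ j ih =>
      intro u hu
      rw [pow_succ, ← mul_assoc]
      exact hU B (hb hB) _ (ih u hu)

lemma dt_V_le (Q : Qv α) (r : Setoid α) {U : Submodule ℂ (P α)} (hW : Q.W r ≤ U)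
    (hU : ∀ B ∈ parts r, ∀ u ∈ U, u * sB B ∈ U) : Q.V r ≤ U := by
  unfold Qv.V
  rw [Submodule.span_le]
  rintro _ ⟨q, hq, b, hb, rfl⟩
  exact dt_mul_sMon hU b hb q (hW hq)

lemma dt_V_mul (Q : Qv α) (r : Setoid α) {B : Finset α} (hB : B ∈ parts r) :
    ∀ u ∈ Q.V r, u * sB B ∈ Q.V r := by
  intro u hu
  induction hu using Submodule.span_induction with
  | mem z hz =>
    obtain ⟨q, hq, b, hb, rfl⟩ := hz
    refine Submodule.subset_span ⟨q, hq, b + Finsupp.single B 1, ?_, ?_⟩
    · refine Finsupp.support_add.trans (Finset.union_subset hb ?_)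
      exact Finsupp.support_single_subset.trans (Finset.singleton_subset_iff.2 hB)
    · unfold sMon
      rw [Finsupp.prod_add_index' (fun _ => pow_zero _) (fun _ _ _ => pow_add _ _ _),
        Finsupp.prod_single_index (h := fun x j => sB x ^ j) (pow_zero _), pow_one, mul_assoc]
  | zero => simp
  | add x y _ _ hx hy => rw [add_mul]; exact add_mem hx hy
  | smul c x _ hx => rw [smul_mul_assoc]; exact Submodule.smul_mem _ _ hx

lemma dt_rename_sB (f : α ↪ β) (B : Finset α) : rename f (sB B) = sB (B.map f) := by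
  simp [sB, Finset.sum_map]

/-- Renaming along an embedding compatible with the partitions preserves `J`. -/
lemma dt_rename_J (Q : Qv β) (f : α ↪ β) {r : Setoid α} {R : Setoid β}
    (h : ∀ x, blk R (f x) = (blk r x).map f) {a : P α} (ha : a ∈ (Q.comap f).J r) :
    rename f a ∈ Q.J R := by
  have : ((Q.comap f).J r).map (rename f : P α →ₐ[ℂ] P β) ≤ Q.J R := by
    unfold Qv.J
    rw [Ideal.map_iSup]
    refine iSup_le fun x => ?_
    rw [Qv.map_idF, ← h]
    exact le_iSup (fun y => Q.idF (blk R y)) (f x)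
  exact this (Ideal.mem_map_of_mem _ ha)

lemma dt_tr_rename (f : α ↪ β) {r : Setoid α} {R : Setoid β}
    (h : ∀ x, blk R (f x) = (blk r x).map f) (a : P α) :
    tr R (rename f a) = rename (Finset.map f)
      (MvPolynomial.map ((rename f : P α →ₐ[ℂ] P β) : P α →+* P β) (tr r a)) := by
  induction a using MvPolynomial.induction_on with
  | C c => simp [tr]
  | add p q hp hq => simp only [map_add, hp, hq]
  | mul_X p x hp => 
    simp only [map_mul, hp]
    simp [tr, h]

lemma dt_rename_Low (Q : Qv β) (f : α ↪ β) {r : Setoid α} {R : Setoid β}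
    (h : ∀ x, blk R (f x) = (blk r x).map f) {N : ℕ} {a : P α} (ha : a ∈ (Q.comap f).Low r N) :
    rename f a ∈ Q.Low R N := by
  intro b hb
  rw [dt_tr_rename f h]
  by_cases hc : coeff b (rename (Finset.map f)
      (MvPolynomial.map ((rename f : P α →ₐ[ℂ] P β) : P α →+* P β) (tr r a))) = 0
  · rw [hc]; exact Submodule.zero_mem _
  obtain ⟨d, rfl, -⟩ := coeff_rename_ne_zero _ _ _ hc
  rw [coeff_rename_mapDomain _ (Finset.map_injective f), coeff_map]
  rw [Finsupp.degree_mapDomain] at hb
  exact dt_rename_J Q f h (ha d hb)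

lemma dt_stab_V (Q : Qv α) (hQ : Q.Sym) {σ : Equiv.Perm α} (hσ : Q.Aut σ) {r : Setoid α}
    (hr : Q.Zero r) (hs : StabR σ r) : Stab σ (Q.V r) := by
  intro f hf
  have h := V_mapR Q σ r hQ (by rw [hσ.comap]; exact hr)
  rw [hσ.comap, (mapR_eq_iff σ r).2 hs] at h
  rw [h]
  exact Submodule.mem_map_of_mem hf

lemma dt_stab_Jc (Q : Qv α) {σ : Equiv.Perm α} (hσ : Q.Aut σ) {r : Setoid α}
    (hs : StabR σ r) : Stab σ (Q.Jc r) := by
  intro f hf
  have h := Jc_mapR Q σ r
  rw [hσ.comap, (mapR_eq_iff σ r).2 hs] at h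
  rw [h]
  exact Submodule.mem_map_of_mem hf

lemma dt_prod_update {m : ℕ} (y : Fin m → P α) (i : Fin m) (a : P α) :
    (∏ j, rename (Prod.mk j) (y j)) * rename (Prod.mk i) a =
      ∏ j, rename (Prod.mk j) (Function.update y i (y i * a) j) := by
  rw [← Finset.mul_prod_erase _ _ (Finset.mem_univ i),
    ← Finset.mul_prod_erase _ _ (Finset.mem_univ i), Function.update_self, map_mul]
  have : ∏ j ∈ Finset.univ.erase i, rename (Prod.mk j) (Function.update y i (y i * a) j) =
      ∏ j ∈ Finset.univ.erase i, rename (Prod.mk j) (y j) :=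
    Finset.prod_congr rfl (fun j hj => by rw [Function.update_of_ne (Finset.ne_of_mem_erase hj)])
  rw [this]
  ring

lemma dt_powSub_top (m : ℕ) : powSub m (⊤ : Submodule ℂ (P α)) = ⊤ := by
  rw [eq_top_iff]
  rintro z -
  induction z using MvPolynomial.induction_on with
  | C a =>
    have : (1 : P (Fin m × α)) ∈ powSub m (⊤ : Submodule ℂ (P α)) :=
      Submodule.subset_span ⟨fun _ => 1, fun _ => trivial, by simp⟩
    have := Submodule.smul_mem _ a this
    rwa [smul_eq_C_mul, mul_one] at this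
  | add p q hp hq => exact add_mem hp hq
  | mul_X p x hp =>
    induction hp using Submodule.span_induction with
    | mem z hz =>
      obtain ⟨y, -, rfl⟩ := hz
      obtain ⟨i, x⟩ := x
      refine Submodule.subset_span ⟨Function.update y i (y i * X x), fun _ => trivial, ?_⟩
      rw [← dt_prod_update, rename_X]
    | zero => simp
    | add u v _ _ hu hv => rw [add_mul]; exact add_mem hu hv
    | smul c u _ hu => rw [smul_mul_assoc]; exact Submodule.smul_mem _ _ hu

lemma dt_powJ_eq (m : ℕ) (I : Ideal (P α)) :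
    powJ m (I.restrictScalars ℂ) = (⨆ i : Fin m, I.map
      (rename (Prod.mk i) : P α →ₐ[ℂ] P (Fin m × α))).restrictScalars ℂ := by
  apply le_antisymm
  · unfold powJ
    rw [Submodule.span_le]
    rintro _ ⟨y, ⟨i, hi⟩, rfl⟩
    rw [← Finset.mul_prod_erase _ _ (Finset.mem_univ i)]
    refine Ideal.mul_mem_right _ _ ?_
    exact le_iSup (fun i : Fin m => I.map (rename (Prod.mk i) : P α →ₐ[ℂ] P (Fin m × α))) i
      (Ideal.mem_map_of_mem _ hi)
  · have key : ∀ (i : Fin m) (a : P α), a ∈ I → ∀ p : P (Fin m × α),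
        p * rename (Prod.mk i) a ∈ powJ m (I.restrictScalars ℂ) := by
      intro i a ha p
      have hp : p ∈ powSub m (⊤ : Submodule ℂ (P α)) := by rw [dt_powSub_top]; trivial
      induction hp using Submodule.span_induction with
      | mem z hz =>
        obtain ⟨y, -, rfl⟩ := hz
        refine Submodule.subset_span ⟨Function.update y i (y i * a), ⟨i, ?_⟩, ?_⟩
        · rw [Function.update_self]; exact I.mul_mem_left _ ha
        rw [← dt_prod_update]
      | zero => simp
      | add u v _ _ hu hv => rw [add_mul]; exact add_mem hu hv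
      | smul c u _ hu => rw [smul_mul_assoc]; exact Submodule.smul_mem _ _ hu
    have key2 : ∀ z ∈ (⨆ i : Fin m, I.map (rename (Prod.mk i) : P α →ₐ[ℂ] P (Fin m × α))),
        ∀ p : P (Fin m × α), p * z ∈ powJ m (I.restrictScalars ℂ) := by
      intro z hz
      induction hz using Submodule.iSup_induction' with
      | mem i z hz =>
        induction hz using Submodule.span_induction with
        | mem z hz => obtain ⟨a, ha, rfl⟩ := hz; exact key i a ha
        | zero => simp
        | add u v _ _ hu hv => intro p; rw [mul_add]; exact add_mem (hu p) (hv p)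
        | smul c u _ hu => intro p; rw [smul_eq_mul, ← mul_assoc]; exact hu _
      | zero => simp
      | add u v _ _ hu hv => intro p; rw [mul_add]; exact add_mem (hu p) (hv p)
    intro z hz
    simpa using key2 z hz 1

end Crest.Agent.R059
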