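import Crest.Agent.R059.Grp

/-! Row 59: factorisations `g = g₋ g₀ g₊`, charts. -/

set_option autoImplicit false
set_option linter.unusedSectionVars false
set_option linter.unusedVariables false

noncomputable section
open Classical

namespace Crest.Agent.R059

variable {L : Type} [AddCommGroup L] {Ω : Form L} {deg : L →+ ℤ}

section Fact
variable {Γ : Type} [AddCommGroup Γ] [LinearOrder Γ] [IsOrderedAddMonoid Γ]
variable {Γ' : Type} [AddCommGroup Γ'] [LinearOrder Γ'] [IsOrderedAddMonoid Γ']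

def negM (θ : L →+ Γ) : AddSubmonoid L where
  carrier := {n | n = 0 ∨ θ n < 0}
  zero_mem' := Or.inl rfl
  add_mem' := by
    rintro a b (rfl | ha) (rfl | hb)
    · simp
    · simp [hb]
    · simp [ha]
    · exact Or.inr (by rw [map_add]; exact add_neg ha hb)
def posM (θ : L →+ Γ) : AddSubmonoid L := negM (-θ)
def zerM (θ : L →+ Γ) : AddSubmonoid L := AddMonoidHom.mker θ
def nnM (θ : L →+ Γ) : AddSubmonoid L where
  carrier := {n | 0 ≤ θ n}
  zero_mem' := by simp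
  add_mem' := fun {a b} ha hb => by
    show 0 ≤ θ (a + b)
    rw [map_add]; exact add_nonneg ha hb
def npM (θ : L →+ Γ) : AddSubmonoid L := nnM (-θ)

def IsFact (θ : L →+ Γ) (g a z b : QT Ω deg) : Prop :=
  IsG a ∧ IsG z ∧ IsG b ∧ SuppIn (negM θ) a ∧ SuppIn (zerM θ) z ∧ SuppIn (posM θ) b ∧
    g = a * z * b

lemma mem_negM {θ : L →+ Γ} {n : L} : n ∈ (negM θ : Set L) ↔ n = 0 ∨ θ n < 0 := Iff.rfl
lemma mem_posM {θ : L →+ Γ} {n : L} : n ∈ (posM θ : Set L) ↔ n = 0 ∨ 0 < θ n := by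
  show n = 0 ∨ (-θ) n < 0 ↔ _
  simp
lemma mem_zerM {θ : L →+ Γ} {n : L} : n ∈ (zerM θ : Set L) ↔ θ n = 0 := Iff.rfl
lemma mem_nnM {θ : L →+ Γ} {n : L} : n ∈ (nnM θ : Set L) ↔ 0 ≤ θ n := Iff.rfl
lemma mem_npM {θ : L →+ Γ} {n : L} : n ∈ (npM θ : Set L) ↔ θ n ≤ 0 := by
  show 0 ≤ (-θ) n ↔ _
  simp

/-- The submonoid of `0` and the elements of positive degree. -/
def degPos (deg : L →+ ℤ) : AddSubmonoid L := posM deg

lemma mem_degPos {deg : L →+ ℤ} {n : L} : n ∈ degPos deg ↔ n = 0 ∨ 0 < deg n :=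
  mem_posM (θ := deg)

lemma IsG.suppIn_degPos {a : QT Ω deg} (ha : IsG a) : SuppIn (degPos deg) a := by
  intro n hn
  by_cases h0 : n = 0
  · exact mem_degPos.2 (Or.inl h0)
  · exact mem_degPos.2 (Or.inr (ha.2 n h0 hn))

lemma SuppIn.inf {M N : AddSubmonoid L} {a : QT Ω deg} (h1 : SuppIn M a) (h2 : SuppIn N a) :
    SuppIn (M ⊓ N : AddSubmonoid L) a := fun n hn => ⟨h1 n hn, h2 n hn⟩

lemma SuppIn.mono' {S T : Set L} {a : QT Ω deg} (h : SuppIn S a) (hST : S ⊆ T) : SuppIn T a :=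
  fun n hn => hST (h n hn)

/-- Difference of two product coefficients, possibly for different degree functions. -/
lemma mul_c_sub_het {deg' : L →+ ℤ} (a b : QT Ω deg) (a' b' : QT Ω deg') (n : L)
    (t : Finset L)
    (h : ∀ p, p ∉ t → (a.c p ≠ 0 ∧ b.c (n - p) ≠ 0) ∨ (a'.c p ≠ 0 ∧ b'.c (n - p) ≠ 0) →
      a.c p = a'.c p ∧ b.c (n - p) = b'.c (n - p)) :
    (a * b).c n - (a' * b').c n =
      ∑ p ∈ t, (a.c p * b.c (n - p) - a'.c p * b'.c (n - p)) * vp (Ω.w p n) := by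
  set s : Finset L := (a.adm.finite_pairs b.adm n).toFinset ∪
    (a'.adm.finite_pairs b'.adm n).toFinset ∪ t with hs
  rw [QT.mul_c_eq_sum a b n s (fun p h1 h2 => by simp [hs, h1, h2]),
    QT.mul_c_eq_sum a' b' n s (fun p h1 h2 => by simp [hs, h1, h2]), ← Finset.sum_sub_distrib]
  symm
  rw [show (∑ p ∈ s, (a.c p * b.c (n - p) * vp (Ω.w p n) - a'.c p * b'.c (n - p) * vp (Ω.w p n)))
      = ∑ p ∈ s, (a.c p * b.c (n - p) - a'.c p * b'.c (n - p)) * vp (Ω.w p n) from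
    Finset.sum_congr rfl (fun p _ => by ring)]
  refine Finset.sum_subset (fun p hp => by simp [hs, hp]) (fun p hp hpt => ?_)
  have : (a.c p ≠ 0 ∧ b.c (n - p) ≠ 0) ∨ (a'.c p ≠ 0 ∧ b'.c (n - p) ≠ 0) := by
    simpa [hs, hpt] using hp
  obtain ⟨h1, h2⟩ := h p hpt this
  rw [h1, h2, sub_self, zero_mul]

lemma lower_aux {M : AddSubmonoid L} {S : Set L} (hS : LowerIn M S) {n p : L} (hn : n ∈ S)
    (h1 : p ∈ M) (h2 : n - p ∈ M) : p ∈ S ∧ n - p ∈ S :=
  ⟨hS p h1 (n - p) h2 (by simpa using hn), hS (n - p) h2 p h1 (by simpa using hn)⟩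

lemma mul_c_eq_het {deg' : L →+ ℤ} {M : AddSubmonoid L} {S : Set L} (hS : LowerIn M S)
    {a b : QT Ω deg} {a' b' : QT Ω deg'} (ha : SuppIn M a) (hb : SuppIn M b)
    (ha' : SuppIn M a') (hb' : SuppIn M b') (h1 : ∀ x ∈ S, a.c x = a'.c x)
    (h2 : ∀ x ∈ S, b.c x = b'.c x) {n : L} (hn : n ∈ S) : (a * b).c n = (a' * b').c n := by
  have := mul_c_sub_het a b a' b' n ∅ (fun p _ hp => by
    have hm : p ∈ M ∧ n - p ∈ M := by
      rcases hp with hp | hp
      · exact ⟨ha _ hp.1, hb _ hp.2⟩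
      · exact ⟨ha' _ hp.1, hb' _ hp.2⟩
    obtain ⟨k1, k2⟩ := lower_aux hS hn hm.1 hm.2
    exact ⟨h1 _ k1, h2 _ k2⟩)
  simpa [sub_eq_zero] using this

lemma mul_top_het {deg' δ : L →+ ℤ} {M : AddSubmonoid L} {S : Set L} (hS : LowerIn M S)
    (hδ : ∀ x ∈ M, x ≠ 0 → 0 < δ x)
    {a b : QT Ω deg} {a' b' : QT Ω deg'} (ha : SuppIn M a) (hb : SuppIn M b)
    (ha' : SuppIn M a') (hb' : SuppIn M b') (ha0 : a.c 0 = 1) (hb0 : b.c 0 = 1)
    (ha0' : a'.c 0 = 1) (hb0' : b'.c 0 = 1) {n : L} (hn : n ∈ S) (hn0 : n ≠ 0)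
    (h1 : ∀ x ∈ S, δ x < δ n → a.c x = a'.c x) (h2 : ∀ x ∈ S, δ x < δ n → b.c x = b'.c x) :
    (a * b).c n - (a' * b').c n = (a.c n - a'.c n) + (b.c n - b'.c n) := by
  have := mul_c_sub_het a b a' b' n {0, n} (fun p hpt hp => by
    have hm : p ∈ M ∧ n - p ∈ M := by
      rcases hp with hp | hp
      · exact ⟨ha _ hp.1, hb _ hp.2⟩
      · exact ⟨ha' _ hp.1, hb' _ hp.2⟩
    obtain ⟨k1, k2⟩ := lower_aux hS hn hm.1 hm.2
    simp only [Finset.mem_insert, Finset.mem_singleton, not_or] at hpt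
    have d1 := hδ p hm.1 hpt.1
    have d2 := hδ (n - p) hm.2 (sub_ne_zero.2 (Ne.symm hpt.2))
    rw [map_sub] at d2
    exact ⟨h1 _ k1 (by omega), h2 _ k2 (by rw [map_sub]; omega)⟩)
  rw [this, Finset.sum_pair (Ne.symm hn0)]
  simp only [sub_zero, sub_self, map_zero, AddMonoidHom.zero_apply, Ω.alt, vp_zero, ha0, hb0,
    ha0', hb0']
  ring

lemma mul3_top_het {deg' δ : L →+ ℤ} {M : AddSubmonoid L} {S : Set L} (hS : LowerIn M S)
    (hδ : ∀ x ∈ M, x ≠ 0 → 0 < δ x)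
    {a z b : QT Ω deg} {a' z' b' : QT Ω deg'} (ha : SuppIn M a) (hz : SuppIn M z)
    (hb : SuppIn M b) (ha' : SuppIn M a') (hz' : SuppIn M z') (hb' : SuppIn M b')
    (ga : IsG a) (gz : IsG z) (gb : IsG b) (ga' : IsG a') (gz' : IsG z') (gb' : IsG b')
    {n : L} (hn : n ∈ S) (hn0 : n ≠ 0)
    (h1 : ∀ x ∈ S, δ x < δ n → a.c x = a'.c x) (h2 : ∀ x ∈ S, δ x < δ n → z.c x = z'.c x)
    (h3 : ∀ x ∈ S, δ x < δ n → b.c x = b'.c x) :
    (a * z * b).c n - (a' * z' * b').c n =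
      (a.c n - a'.c n) + (z.c n - z'.c n) + (b.c n - b'.c n) := by
  have hS' : LowerIn M {x | x ∈ S ∧ δ x < δ n} := by
    intro x hx y hy hxy
    refine ⟨hS x hx y hy hxy.1, ?_⟩
    have h := hxy.2
    rw [map_add] at h
    by_cases hy0 : y = 0
    · simpa [hy0] using h
    · have := hδ y hy hy0
      omega
  rw [mul_top_het hS hδ (ha.mul hz) hb (ha'.mul hz') hb' (ga.mul gz).1 gb.1 (ga'.mul gz').1 gb'.1
    hn hn0 (fun x hx hd => mul_c_eq_het hS' ha hz ha' hz' (fun y hy => h1 y hy.1 hy.2)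
      (fun y hy => h2 y hy.1 hy.2) ⟨hx, hd⟩) h3,
    mul_top_het hS hδ ha hz ha' hz' ga.1 gz.1 ga'.1 gz'.1 hn hn0 h1 h2]

/-- Fixed points of degree-contracting maps. -/
lemma exists_fix (P : Set L) (hP : ∀ x ∈ P, 0 < deg x) (T : QT Ω deg → QT Ω deg)
    (hTP : ∀ F, SuppIn P F → SuppIn P (T F))
    (hT : ∀ F F' n, SuppIn P F → SuppIn P F' → (∀ x, deg x < deg n → F.c x = F'.c x) →
      (T F).c n = (T F').c n) : ∃ F, SuppIn P F ∧ T F = F := by
  let Fk : ℕ → QT Ω deg := fun k => T^[k] 0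
  have hs : ∀ k, Fk (k + 1) = T (Fk k) := fun k => Function.iterate_succ_apply' T k 0
  have hPk : ∀ k, SuppIn P (Fk k) := by
    intro k
    induction k with
    | zero => intro n hn; exact absurd rfl hn
    | succ k ih => rw [hs]; exact hTP _ ih
  have hz : ∀ k x, deg x ≤ 0 → (Fk k).c x = 0 := fun k x hx => by
    by_contra h
    have := hP x (hPk k x h)
    omega
  have h1 : ∀ (k : ℕ) (x : L), deg x ≤ k → (Fk (k + 1)).c x = (Fk k).c x := by
    intro k
    induction k with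
    | zero => intro x hx; rw [hz _ x (by simpa using hx), hz _ x (by simpa using hx)]
    | succ k ih =>
      intro x hx
      rw [hs (k + 1)]
      conv_rhs => rw [hs k]
      exact hT _ _ x (hPk _) (hPk _) (fun y hy => ih y (by push_cast at hx; omega))
  have h2 : ∀ (k j : ℕ) (x : L), deg x ≤ k → k ≤ j → (Fk j).c x = (Fk k).c x := by
    intro k j x hx hkj
    induction j, hkj using Nat.le_induction with
    | base => rfl
    | succ j hkj ih => rw [h1 j x (by omega), ih]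
  have h3 : ∀ (k : ℕ) (x : L), deg x ≤ k → (Fk (deg x).toNat).c x = (Fk k).c x :=
    fun k x hx => (h2 (deg x).toNat k x (by omega) (by omega)).symm
  let F : QT Ω deg := ⟨fun x => (Fk (deg x).toNat).c x, fun D =>
    ((Fk D.toNat).adm D).subset (fun x hx => ⟨by
      rw [← h3 D.toNat x (by have := hx.2; omega)]; exact hx.1, hx.2⟩)⟩
  have hF : SuppIn P F := fun x hx => hPk _ x hx
  refine ⟨F, hF, QT.ext (funext fun n => ?_)⟩
  have e1 : (T F).c n = (T (Fk (deg n).toNat)).c n :=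
    hT _ _ n hF (hPk _) (fun x hx => h3 _ x (by omega))
  rw [e1, ← hs, h1 _ n (by omega)]

lemma one_c_apply (n : L) : (1 : QT Ω deg).c n = if n = 0 then 1 else 0 := by
  rw [QT.one_c, Pi.single_apply]

lemma one_add_restrict_c (A : Set L) (F : QT Ω deg) (n : L) :
    (1 + restrict A F).c n = (if n = 0 then 1 else 0) + (if n ∈ A then F.c n else 0) := by
  rw [QT.add_c, Pi.add_apply, one_c_apply]; rfl

lemma exists_fact_in (M : AddSubmonoid L) (θ : L →+ Γ) {g : QT Ω deg} (hg : IsG g)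
    (hM : SuppIn M g) : ∃ a z b : QT Ω deg, IsFact θ g a z b ∧
      SuppIn M a ∧ SuppIn M z ∧ SuppIn M b := by
  let P : Set L := {x | x ∈ M ∧ 0 < deg x}
  let N : AddSubmonoid L := M ⊓ degPos deg
  have hδ : ∀ x ∈ N, x ≠ 0 → 0 < deg x := fun x hx h0 =>
    (mem_degPos.1 hx.2).resolve_left h0
  let R : Set L → QT Ω deg → QT Ω deg := fun A F => 1 + restrict A F
  have hF0 : ∀ F : QT Ω deg, SuppIn P F → F.c 0 = 0 := fun F hF => by
    by_contra h
    have := (hF 0 h).2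
    simp at this
  have hRG : ∀ A F, SuppIn P F → IsG (R A F) := fun A F hF => by
    refine ⟨by simp [R, one_add_restrict_c, hF0 F hF], fun n hn h => ?_⟩
    rw [one_add_restrict_c, if_neg hn, zero_add] at h
    exact (hF n (fun h0 => h (by simp [h0]))).2
  have hRS : ∀ (A : Set L) F (N' : AddSubmonoid L), (∀ x ∈ A, F.c x ≠ 0 → x ∈ N') →
      SuppIn N' (R A F) := fun A F N' h n hn => by
    by_cases h0 : n = 0
    · rw [h0]; exact N'.zero_mem
    · rw [one_add_restrict_c, if_neg h0, zero_add] at hn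
      by_cases hA : n ∈ A
      · rw [if_pos hA] at hn; exact h n hA hn
      · rw [if_neg hA] at hn; exact absurd rfl hn
  have hRN : ∀ A F, SuppIn P F → SuppIn N (R A F) := fun A F hF =>
    hRS A F N (fun x _ hx => ⟨(hF x hx).1, mem_degPos.2 (Or.inr (hF x hx).2)⟩)
  let A1 : Set L := {x | θ x < 0}
  let A2 : Set L := {x | θ x = 0}
  let A3 : Set L := {x | 0 < θ x}
  let T : QT Ω deg → QT Ω deg := fun F => g - R A1 F * R A2 F * R A3 F + F
  obtain ⟨F, hF, hTF⟩ := exists_fix P (fun x hx => hx.2) T (fun F hF n hn => by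
    have G := ((hRG A1 F hF).mul (hRG A2 F hF)).mul (hRG A3 F hF)
    have S := ((hRN A1 F hF).mul (hRN A2 F hF)).mul (hRN A3 F hF)
    have e : (T F).c n = g.c n - (R A1 F * R A2 F * R A3 F).c n + F.c n := rfl
    by_cases h0 : n = 0
    · subst h0
      rw [e, hg.1, G.1, hF0 F hF] at hn
      simp at hn
    · by_contra hc
      apply hn
      have k1 : g.c n = 0 := by
        by_contra k; exact hc ⟨hM n k, hg.2 n h0 k⟩
      have k2 : (R A1 F * R A2 F * R A3 F).c n = 0 := by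
        by_contra k; exact hc ⟨(S n k).1, G.2 n h0 k⟩
      have k3 : F.c n = 0 := by
        by_contra k; exact hc (hF n k)
      rw [e, k1, k2, k3]; simp) (fun F F' n hF hF' h => by
    have e : ∀ F, (T F).c n = g.c n - (R A1 F * R A2 F * R A3 F).c n + F.c n := fun _ => rfl
    rw [e, e]
    by_cases h0 : n = 0
    · subst h0
      rw [(((hRG A1 F hF).mul (hRG A2 F hF)).mul (hRG A3 F hF)).1,
        (((hRG A1 F' hF').mul (hRG A2 F' hF')).mul (hRG A3 F' hF')).1, hF0 F hF, hF0 F' hF']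
    · have hA : ∀ A x, x ∈ (Set.univ : Set L) → deg x < deg n → (R A F).c x = (R A F').c x :=
        fun A x _ hx => by rw [one_add_restrict_c, one_add_restrict_c, h x hx]
      have := mul3_top_het (S := Set.univ) (M := N) (fun _ _ _ _ _ => trivial) hδ
        (hRN A1 F hF) (hRN A2 F hF) (hRN A3 F hF) (hRN A1 F' hF') (hRN A2 F' hF')
        (hRN A3 F' hF') (hRG A1 F hF) (hRG A2 F hF) (hRG A3 F hF) (hRG A1 F' hF')
        (hRG A2 F' hF') (hRG A3 F' hF') (Set.mem_univ n) h0 (hA A1) (hA A2) (hA A3)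
      simp only [R, one_add_restrict_c, A1, A2, A3, Set.mem_ofPred_eq] at this
      rcases lt_trichotomy (θ n) 0 with h1 | h1 | h1
      · simp only [if_pos h1, if_neg h1.ne, if_neg (not_lt.2 h1.le)] at this
        linear_combination -this
      · simp only [if_pos h1, if_neg (not_lt.2 h1.le), if_neg (not_lt.2 h1.ge)] at this
        linear_combination -this
      · simp only [if_pos h1, if_neg h1.ne', if_neg (not_lt.2 h1.le)] at this
        linear_combination -this)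
  refine ⟨R A1 F, R A2 F, R A3 F, ⟨hRG _ _ hF, hRG _ _ hF, hRG _ _ hF,
    hRS _ _ _ (fun x hx _ => Or.inr hx), hRS _ _ _ (fun x hx _ => hx),
    hRS _ _ _ (fun x hx _ => mem_posM.2 (Or.inr hx)), ?_⟩,
    hRS _ _ _ (fun x _ hx => (hF x hx).1), hRS _ _ _ (fun x _ hx => (hF x hx).1),
    hRS _ _ _ (fun x _ hx => (hF x hx).1)⟩
  have : g - R A1 F * R A2 F * R A3 F + F = F := hTF
  rw [add_eq_right, sub_eq_zero] at this
  exact this

lemma exists_fact (θ : L →+ Γ) {g : QT Ω deg} (hg : IsG g) :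
    ∃ t : QT Ω deg × QT Ω deg × QT Ω deg, IsFact θ g t.1 t.2.1 t.2.2 := by
  obtain ⟨a, z, b, h, -⟩ := exists_fact_in ⊤ θ hg (fun _ _ => trivial)
  exact ⟨(a, z, b), h⟩

def fact (θ : L →+ Γ) (g : QT Ω deg) : QT Ω deg × QT Ω deg × QT Ω deg :=
  if hg : IsG g then (exists_fact θ hg).choose else (1, 1, 1)
def fneg (g : QT Ω deg) (θ : L →+ Γ) : QT Ω deg := (fact θ g).1
def fzer (g : QT Ω deg) (θ : L →+ Γ) : QT Ω deg := (fact θ g).2.1
def fpos (g : QT Ω deg) (θ : L →+ Γ) : QT Ω deg := (fact θ g).2.2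
/-- The chart of `f` at `θ`. -/
def chart (g : QT Ω deg) (θ : L →+ Γ) (f : QT Ω deg) : QT Ω deg :=
  inv (fneg g θ) * f * fneg g θ
/-- The asymptotic coefficient. -/
def asym (g f : QT Ω deg) (m : L) : K := (chart g (Ω.th m) f).c m
/-- The attractor invariant. -/
def att (g : QT Ω deg) (n : L) : K := lg (fzer g (Ω.th n)) n
/-- Lexicographic refinement. -/
def lexθ (θ : L →+ Γ) (θ' : L →+ Γ') : L →+ Lex (Γ × Γ') where
  toFun n := toLex (θ n, θ' n)
  map_zero' := by simp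
  map_add' a b := by simp; rfl
/-- `θ` and `θ'` have the same signs on `S`. -/
def SameSign (S : Set L) (θ : L →+ Γ) (θ' : L →+ Γ') : Prop :=
  ∀ n ∈ S, (θ n < 0 ↔ θ' n < 0) ∧ (θ n = 0 ↔ θ' n = 0)

lemma isFact_fact (θ : L →+ Γ) {g : QT Ω deg} (hg : IsG g) :
    IsFact θ g (fneg g θ) (fzer g θ) (fpos g θ) := by
  have := (exists_fact θ hg).choose_spec
  simpa only [fneg, fzer, fpos, fact, dif_pos hg] using this

lemma IsFact.isG {θ : L →+ Γ} {g a z b : QT Ω deg} (h : IsFact θ g a z b) : IsG g := by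
  rw [h.2.2.2.2.2.2]; exact (h.1.mul h.2.1).mul h.2.2.1

lemma IsFact.agree_het {deg' δ : L →+ ℤ} {M : AddSubmonoid L} {S : Set L} (hS : LowerIn M S)
    (hδ : ∀ x ∈ M, x ≠ 0 → 0 < δ x) {θ : L →+ Γ} {θ' : L →+ Γ'} {g a z b : QT Ω deg}
    {g' a' z' b' : QT Ω deg'} (h : IsFact θ g a z b) (h' : IsFact θ' g' a' z' b')
    (ha : SuppIn M a) (hz : SuppIn M z) (hb : SuppIn M b) (ha' : SuppIn M a')
    (hz' : SuppIn M z') (hb' : SuppIn M b') (hgg : ∀ n ∈ S, g.c n = g'.c n)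
    (hθ : SameSign (S ∩ M) θ θ') :
    ∀ n ∈ S, a.c n = a'.c n ∧ z.c n = z'.c n ∧ b.c n = b'.c n := by
  obtain ⟨ga, gz, gb, sa, sz, sb, e⟩ := h
  obtain ⟨ga', gz', gb', sa', sz', sb', e'⟩ := h'
  have hout : ∀ n, n ∉ M → a.c n = a'.c n ∧ z.c n = z'.c n ∧ b.c n = b'.c n := fun n hn => by
    have k : ∀ {d : L →+ ℤ} {u : QT Ω d}, SuppIn M u → u.c n = 0 := fun hu => by
      by_contra k; exact hn (hu n k)
    rw [k ha, k hz, k hb, k ha', k hz', k hb']; exact ⟨rfl, rfl, rfl⟩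
  have key : ∀ d : ℕ, ∀ n ∈ S, δ n < d →
      a.c n = a'.c n ∧ z.c n = z'.c n ∧ b.c n = b'.c n := by
    intro d
    induction d with
    | zero =>
      intro n _ hd
      refine hout n (fun hn => ?_)
      by_cases h0 : n = 0
      · simp [h0] at hd
      · have := hδ n hn h0
        omega
    | succ d ih =>
      intro n hn hd
      by_cases h0 : n = 0
      · subst h0
        rw [ga.1, gz.1, gb.1, ga'.1, gz'.1, gb'.1]; exact ⟨rfl, rfl, rfl⟩
      by_cases hM : n ∈ M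
      swap
      · exact hout n hM
      have t := mul3_top_het hS hδ ha hz hb ha' hz' hb' ga gz gb ga' gz' gb' hn h0
        (fun x hx hd' => (ih x hx (by push_cast at hd; omega)).1)
        (fun x hx hd' => (ih x hx (by push_cast at hd; omega)).2.1)
        (fun x hx hd' => (ih x hx (by push_cast at hd; omega)).2.2)
      rw [← e, ← e', hgg n hn, sub_self] at t
      obtain ⟨s1, s2⟩ := hθ n ⟨hn, hM⟩
      have za : ¬ θ n < 0 → a.c n = 0 ∧ a'.c n = 0 := fun k =>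
        ⟨by by_contra q; exact (mem_negM.1 (sa n q)).elim h0 k,
         by by_contra q; exact (mem_negM.1 (sa' n q)).elim h0 (fun q => k (s1.2 q))⟩
      have zz : θ n ≠ 0 → z.c n = 0 ∧ z'.c n = 0 := fun k =>
        ⟨by by_contra q; exact k (mem_zerM.1 (sz n q)),
         by by_contra q; exact k (s2.2 (mem_zerM.1 (sz' n q)))⟩
      have zb : θ n ≤ 0 → b.c n = 0 ∧ b'.c n = 0 := fun k =>
        ⟨by by_contra q; exact (mem_posM.1 (sb n q)).elim h0 (not_lt.2 k),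
         by
          by_contra q
          refine (mem_posM.1 (sb' n q)).elim h0 (fun q => ?_)
          rcases k.lt_or_eq with k | k
          · exact lt_asymm q (s1.1 k)
          · exact q.ne' (s2.1 k)⟩
      rcases lt_trichotomy (θ n) 0 with k | k | k
      · obtain ⟨q1, q2⟩ := zz k.ne
        obtain ⟨q3, q4⟩ := zb k.le
        rw [q1, q2, q3, q4] at t ⊢
        exact ⟨by linear_combination -t, rfl, rfl⟩
      · obtain ⟨q1, q2⟩ := za (not_lt.2 k.ge)
        obtain ⟨q3, q4⟩ := zb k.le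
        rw [q1, q2, q3, q4] at t ⊢
        exact ⟨rfl, by linear_combination -t, rfl⟩
      · obtain ⟨q1, q2⟩ := za (not_lt.2 k.le)
        obtain ⟨q3, q4⟩ := zz k.ne'
        rw [q1, q2, q3, q4] at t ⊢
        exact ⟨rfl, rfl, by linear_combination -t⟩
  intro n hn
  exact key ((δ n).toNat + 1) n hn (by push_cast; omega)

lemma IsFact.unique {θ : L →+ Γ} {g a z b a' z' b' : QT Ω deg} (h : IsFact θ g a z b)
    (h' : IsFact θ g a' z' b') : a = a' ∧ z = z' ∧ b = b' := by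
  have := IsFact.agree_het (δ := deg) (M := degPos deg) (S := Set.univ)
    (fun _ _ _ _ _ => trivial) (fun x hx h0 => (mem_degPos.1 hx).resolve_left h0) h h'
    h.1.suppIn_degPos h.2.1.suppIn_degPos h.2.2.1.suppIn_degPos
    h'.1.suppIn_degPos h'.2.1.suppIn_degPos h'.2.2.1.suppIn_degPos (fun _ _ => rfl)
    (fun _ _ => ⟨Iff.rfl, Iff.rfl⟩)
  exact ⟨QT.ext (funext fun n => (this n trivial).1), QT.ext (funext fun n => (this n trivial).2.1),
    QT.ext (funext fun n => (this n trivial).2.2)⟩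

lemma IsFact.suppIn {M : AddSubmonoid L} {θ : L →+ Γ} {g a z b : QT Ω deg}
    (h : IsFact θ g a z b) (hM : SuppIn M g) : SuppIn M a ∧ SuppIn M z ∧ SuppIn M b := by
  obtain ⟨a', z', b', h', k⟩ := exists_fact_in M θ h.isG hM
  obtain ⟨rfl, rfl, rfl⟩ := h.unique h'
  exact k
/-- Uniqueness and locality of factorisations. -/
lemma IsFact.agree {M : AddSubmonoid L} {S : Set L} (hS : LowerIn M S) {θ : L →+ Γ}
    {θ' : L →+ Γ'} {g a z b g' a' z' b' : QT Ω deg} (h : IsFact θ g a z b)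
    (h' : IsFact θ' g' a' z' b') (hM : SuppIn M g) (hM' : SuppIn M g') (hgg : Agree S g g')
    (hθ : SameSign (S ∩ M) θ θ') : Agree S a a' ∧ Agree S z z' ∧ Agree S b b' := by
  obtain ⟨k1, k2, k3⟩ := h.suppIn (hM.inf h.isG.suppIn_degPos)
  obtain ⟨k4, k5, k6⟩ := h'.suppIn (hM'.inf h'.isG.suppIn_degPos)
  have := IsFact.agree_het (δ := deg) (M := M ⊓ degPos deg) (S := S)
    (fun x hx y hy hxy => hS x hx.1 y hy.1 hxy)
    (fun x hx h0 => (mem_degPos.1 hx.2).resolve_left h0) h h' k1 k2 k3 k4 k5 k6 hgg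
    (fun n hn => hθ n ⟨hn.1, hn.2.1⟩)
  exact ⟨fun n hn => (this n hn).1, fun n hn => (this n hn).2.1, fun n hn => (this n hn).2.2⟩
lemma IsFact.eq {θ : L →+ Γ} {g a z b : QT Ω deg} (h : IsFact θ g a z b) :
    fneg g θ = a ∧ fzer g θ = z ∧ fpos g θ = b := (isFact_fact θ h.isG).unique h
/-- The factorisation does not depend on the degree function. -/
lemma fact_c_eq {deg' : L →+ ℤ} (θ : L →+ Γ) {g : QT Ω deg} {g' : QT Ω deg'} (hg : IsG g)
    (hg' : IsG g') (h : g.c = g'.c) :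
    (fneg g θ).c = (fneg g' θ).c ∧ (fzer g θ).c = (fzer g' θ).c ∧
      (fpos g θ).c = (fpos g' θ).c := by
  have s1 : SuppIn (degPos deg) g := hg.suppIn_degPos
  have s2 : SuppIn (degPos deg) g' := fun n hn => s1 n (by rwa [h])
  obtain ⟨k1, k2, k3⟩ := (isFact_fact θ hg).suppIn s1
  obtain ⟨k4, k5, k6⟩ := (isFact_fact θ hg').suppIn s2
  have := IsFact.agree_het (δ := deg) (M := degPos deg) (S := Set.univ)
    (fun _ _ _ _ _ => trivial) (fun x hx h0 => (mem_degPos.1 hx).resolve_left h0)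
    (isFact_fact θ hg) (isFact_fact θ hg') k1 k2 k3 k4 k5 k6 (fun n _ => by rw [h])
    (fun _ _ => ⟨Iff.rfl, Iff.rfl⟩)
  exact ⟨funext fun n => (this n trivial).1, funext fun n => (this n trivial).2.1,
    funext fun n => (this n trivial).2.2⟩

lemma lexθ_lt_zero (θ : L →+ Γ) (θ' : L →+ Γ') (n : L) :
    lexθ θ θ' n < 0 ↔ θ n < 0 ∨ θ n = 0 ∧ θ' n < 0 :=
  Prod.Lex.toLex_lt_toLex (x := (θ n, θ' n)) (y := (0, 0))
lemma zero_lt_lexθ (θ : L →+ Γ) (θ' : L →+ Γ') (n : L) :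
    0 < lexθ θ θ' n ↔ 0 < θ n ∨ 0 = θ n ∧ 0 < θ' n :=
  Prod.Lex.toLex_lt_toLex (y := (θ n, θ' n)) (x := (0, 0))
lemma lexθ_eq_zero (θ : L →+ Γ) (θ' : L →+ Γ') (n : L) :
    lexθ θ θ' n = 0 ↔ θ n = 0 ∧ θ' n = 0 :=
  (toLex_inj (a := (θ n, θ' n)) (b := (0, 0))).trans Prod.ext_iff

lemma fact_lex (θ : L →+ Γ) (θ' : L →+ Γ') {g : QT Ω deg} (hg : IsG g) :
    fneg g (lexθ θ θ') = fneg g θ * fneg (fzer g θ) θ' ∧
      fzer g (lexθ θ θ') = fzer (fzer g θ) θ' := by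
  obtain ⟨ga, gz, gb, sa, sz, sb, e⟩ := isFact_fact θ hg
  have hz := isFact_fact θ' gz
  obtain ⟨k1, k2, k3⟩ := hz.suppIn sz
  obtain ⟨ga', gz', gb', sa', sz', sb', e'⟩ := hz
  have : IsFact (lexθ θ θ') g (fneg g θ * fneg (fzer g θ) θ') (fzer (fzer g θ) θ')
      (fpos (fzer g θ) θ' * fpos g θ) := by
    refine ⟨ga.mul ga', gz', gb'.mul gb, SuppIn.mul (fun n hn => ?_) (fun n hn => ?_),
      fun n hn => ?_, SuppIn.mul (fun n hn => ?_) (fun n hn => ?_), ?_⟩
    · exact (mem_negM.1 (sa n hn)).imp id (fun h => (lexθ_lt_zero θ θ' n).2 (Or.inl h))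
    · exact (mem_negM.1 (sa' n hn)).imp id
        (fun h => (lexθ_lt_zero θ θ' n).2 (Or.inr ⟨k1 n hn, h⟩))
    · exact (lexθ_eq_zero θ θ' n).2 ⟨k2 n hn, sz' n hn⟩
    · exact mem_posM.2 ((mem_posM.1 (sb' n hn)).imp id
        (fun h => (zero_lt_lexθ θ θ' n).2 (Or.inr ⟨(mem_zerM.1 (k3 n hn)).symm, h⟩)))
    · exact mem_posM.2 ((mem_posM.1 (sb n hn)).imp id
        (fun h => (zero_lt_lexθ θ θ' n).2 (Or.inl h)))
    · conv_lhs => rw [e, e']
      simp only [mul_assoc]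
  exact ⟨this.eq.1, this.eq.2.1⟩

lemma IsG.eq_one {a : QT Ω deg} (ha : IsG a) (h : ∀ n, a.c n ≠ 0 → n = 0) : a = 1 := by
  refine QT.ext (funext fun n => ?_)
  rw [one_c_apply]
  split_ifs with h0
  · rw [h0, ha.1]
  · by_contra k; exact h0 (h n k)

lemma suppIn_one (M : AddSubmonoid L) : SuppIn M (1 : QT Ω deg) := fun n hn => by
  rw [one_c_apply] at hn
  by_cases h0 : n = 0
  · rw [h0]; exact M.zero_mem
  · simp [h0] at hn

lemma fneg_eq_one (θ : L →+ Γ) {b : QT Ω deg} (hb : IsG b) (h : SuppIn (nnM θ) b) :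
    fneg b θ = 1 := by
  have hf := isFact_fact θ hb
  refine hf.1.eq_one (fun n hn => ?_)
  exact (mem_negM.1 (hf.2.2.2.1 n hn)).resolve_right
    (not_lt.2 (mem_nnM.1 ((hf.suppIn h).1 n hn)))

lemma fpos_eq_one (θ : L →+ Γ) {b : QT Ω deg} (hb : IsG b) (h : SuppIn (npM θ) b) :
    fpos b θ = 1 := by
  have hf := isFact_fact θ hb
  refine hf.2.2.1.eq_one (fun n hn => ?_)
  exact (mem_posM.1 (hf.2.2.2.2.2.1 n hn)).resolve_right
    (not_lt.2 (mem_npM.1 ((hf.suppIn h).2.2 n hn)))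

lemma restrict_zer_mul_pos (θ : L →+ Γ) {z b : QT Ω deg} (gb : IsG b)
    (hz : SuppIn (zerM θ) z) (hb : SuppIn (posM θ) b) : restrict (zerM θ) (z * b) = z := by
  refine QT.ext (funext fun n => ?_)
  show (if n ∈ (zerM θ : Set L) then (z * b).c n else 0) = z.c n
  split_ifs with hn
  · rw [QT.mul_c_eq_sum z b n {n} (fun p h1 h2 => ?_)]
    · simp [gb.1, Ω.alt, vp_zero]
    · have k1 := mem_zerM.1 (hz p h1)
      have k2 := mem_posM.1 (hb _ h2)
      rw [map_sub, k1, mem_zerM.1 hn, sub_zero] at k2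
      rcases k2 with k2 | k2
      · simp [(sub_eq_zero.1 k2).symm]
      · exact absurd k2 (lt_irrefl _)
  · by_contra k
    exact hn (hz n (Ne.symm k))

lemma conj_suppIn_neg (θ : L →+ Γ) {u u' b : QT Ω deg} (huu : u * u' = 1)
    (hu : SuppIn (zerM θ) u) (hu' : SuppIn (zerM θ) u') (gb : IsG b)
    (hb : SuppIn (negM θ) b) : SuppIn (negM θ) (u * b * u') := by
  intro n hn
  by_cases h0 : n = 0
  · exact Or.inl h0
  have e : u * b * u' = 1 + u * (b - 1) * u' := by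
    rw [mul_sub, sub_mul, mul_one, huu]; abel
  rw [e, QT.add_c, Pi.add_apply, one_c_apply, if_neg h0, zero_add] at hn
  obtain ⟨p, h1, h2⟩ := QT.exists_of_mul_c_ne_zero _ _ _ hn
  obtain ⟨q, h3, h4⟩ := QT.exists_of_mul_c_ne_zero _ _ _ h1
  have k1 := mem_zerM.1 (hu' _ h2)
  have k2 := mem_zerM.1 (hu _ h3)
  rw [QT.sub_c, Pi.sub_apply, one_c_apply] at h4
  have k3 : p - q ≠ 0 := fun k => h4 (by rw [k, gb.1]; simp)
  rw [if_neg k3, sub_zero] at h4
  have k4 := (mem_negM.1 (hb _ h4)).resolve_left k3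
  rw [map_sub] at k1 k4
  rw [k2, sub_zero, ← sub_eq_zero.1 k1] at k4
  exact Or.inr k4

lemma suppIn_zerM_neg {θ : L →+ Γ} {u : QT Ω deg} (hu : SuppIn (zerM θ) u) :
    SuppIn (zerM (-θ)) u := fun n hn => by
  have := mem_zerM.1 (hu n hn)
  exact mem_zerM.2 (by simp [this])

/-- Two-step factorisations. -/
lemma fact_neg_nn (θ : L →+ Γ) {a b : QT Ω deg} (ha : IsG a) (hb : IsG b)
    (h1 : SuppIn (negM θ) a) (h2 : SuppIn (nnM θ) b) :
    fneg (a * b) θ = a ∧ fzer (a * b) θ = restrict (zerM θ) b := by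
  obtain ⟨-, gz, gb, -, sz, sb, e⟩ := isFact_fact θ hb
  rw [fneg_eq_one θ hb h2, one_mul] at e
  have : IsFact θ (a * b) a (fzer b θ) (fpos b θ) :=
    ⟨ha, gz, gb, h1, sz, sb, by rw [mul_assoc, ← e]⟩
  refine ⟨this.eq.1, this.eq.2.1.trans ?_⟩
  conv_rhs => rw [e]
  exact (restrict_zer_mul_pos θ gb sz sb).symm
lemma fact_np_nn (θ : L →+ Γ) {a b : QT Ω deg} (ha : IsG a) (hb : IsG b)
    (h1 : SuppIn (npM θ) a) (h2 : SuppIn (nnM θ) b) :
    fneg (a * b) θ = fneg a θ ∧ fzer (a * b) θ = fzer a θ * fzer b θ ∧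
      a = fneg a θ * fzer a θ := by
  obtain ⟨-, gz, gb, -, sz, sb, e⟩ := isFact_fact θ hb
  rw [fneg_eq_one θ hb h2, one_mul] at e
  obtain ⟨ga', gz', -, sa', sz', -, e'⟩ := isFact_fact θ ha
  rw [fpos_eq_one θ ha h1, mul_one] at e'
  have : IsFact θ (a * b) (fneg a θ) (fzer a θ * fzer b θ) (fpos b θ) :=
    ⟨ga', gz'.mul gz, gb, sa', sz'.mul sz, sb, by
      conv_lhs => rw [e, e']
      simp only [mul_assoc]⟩
  exact ⟨this.eq.1, this.eq.2.1, e'⟩
lemma fact_neg_mul (θ : L →+ Γ) {a b : QT Ω deg} (ha : IsG a) (hb : IsG b)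
    (h1 : SuppIn (negM θ) a) : fzer (a * b) θ = fzer b θ := by
  obtain ⟨ga, gz, gb, sa, sz, sb, e⟩ := isFact_fact θ hb
  have : IsFact θ (a * b) (a * fneg b θ) (fzer b θ) (fpos b θ) :=
    ⟨ha.mul ga, gz, gb, h1.mul sa, sz, sb, by
      conv_lhs => rw [e]
      simp only [mul_assoc]⟩
  exact this.eq.2.1
lemma fact_mul_pos (θ : L →+ Γ) {a b : QT Ω deg} (ha : IsG a) (hb : IsG b)
    (h1 : SuppIn (posM θ) b) : fzer (a * b) θ = fzer a θ := by
  obtain ⟨ga, gz, gb, sa, sz, sb, e⟩ := isFact_fact θ ha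
  have : IsFact θ (a * b) (fneg a θ) (fzer a θ) (fpos a θ * b) :=
    ⟨ga, gz, gb.mul hb, sa, sz, sb.mul h1, by
      conv_lhs => rw [e]
      simp only [mul_assoc]⟩
  exact this.eq.2.1
lemma fact_zer_mul (θ : L →+ Γ) {a b : QT Ω deg} (ha : IsG a) (hb : IsG b)
    (h1 : SuppIn (zerM θ) a) : fzer (a * b) θ = a * fzer b θ := by
  obtain ⟨ga, gz, gb, sa, sz, sb, e⟩ := isFact_fact θ hb
  have u1 : a * inv a = 1 := Ring.mul_inverse_cancel a ha.isUnit
  have u2 : inv a * a = 1 := Ring.inverse_mul_cancel a ha.isUnit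
  have : IsFact θ (a * b) (a * fneg b θ * inv a) (a * fzer b θ) (fpos b θ) :=
    ⟨(ha.mul ga).mul ha.inv, ha.mul gz, gb,
      conj_suppIn_neg θ u1 h1 (ha.suppIn_inv h1) ga sa, h1.mul sz, sb, by
      conv_lhs => rw [e]
      simp only [mul_assoc]
      rw [← mul_assoc (inv a) a, u2, one_mul]⟩
  exact this.eq.2.1
lemma fact_mul_zer (θ : L →+ Γ) {a b : QT Ω deg} (ha : IsG a) (hb : IsG b)
    (h1 : SuppIn (zerM θ) b) : fzer (a * b) θ = fzer a θ * b := by
  obtain ⟨ga, gz, gb, sa, sz, sb, e⟩ := isFact_fact θ ha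
  have u1 : b * inv b = 1 := Ring.mul_inverse_cancel b hb.isUnit
  have u2 : inv b * b = 1 := Ring.inverse_mul_cancel b hb.isUnit
  have : IsFact θ (a * b) (fneg a θ) (fzer a θ * b) (inv b * fpos a θ * b) :=
    ⟨ga, gz.mul hb, (hb.inv.mul gb).mul hb, sa, sz.mul h1,
      conj_suppIn_neg (-θ) u2 (suppIn_zerM_neg (hb.suppIn_inv h1)) (suppIn_zerM_neg h1) gb sb, by
      conv_lhs => rw [e]
      simp only [mul_assoc]
      rw [← mul_assoc b (inv b), u1, one_mul]⟩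
  exact this.eq.2.1

lemma shift_zero (S : Set L) : shift 0 S = S := by
  ext x; simp [shift]

lemma chart_agree {M : AddSubmonoid L} {S : Set L} (hS : LowerIn M S) {θ : L →+ Γ}
    {θ' : L →+ Γ'} {g g' f f' : QT Ω deg} {p : L} (hg : IsG g) (hg' : IsG g')
    (hM : SuppIn M g) (hM' : SuppIn M g') (hgg : Agree S g g') (hθ : SameSign (S ∩ M) θ θ')
    (hf : SuppIn (shift p M) f) (hf' : SuppIn (shift p M) f') (hff : Agree (shift p S) f f') :
    Agree (shift p S) (chart g θ f) (chart g' θ' f') := by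
  have h := isFact_fact θ hg
  have h' := isFact_fact θ' hg'
  have k := (h.agree hS h' hM hM' hgg hθ).1
  have s := (h.suppIn hM).1
  have s' := (h'.suppIn hM').1
  have ki := Agree.inv hS h.1 h'.1 s s' k
  have si := h.1.suppIn_inv s
  have si' := h'.1.suppIn_inv s'
  rw [← shift_zero S] at k ki
  rw [← shift_zero (M : Set L)] at s s' si si'
  have := Agree.mul hS (si.mul_shift hf) (si'.mul_shift hf') s s'
    (Agree.mul hS si si' hf hf' ki hff) k
  simpa only [zero_add, add_zero, chart] using this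
lemma chart_suppIn {M : AddSubmonoid L} (θ : L →+ Γ) {g f : QT Ω deg} {p : L} (hg : IsG g)
    (hM : SuppIn M g) (hf : SuppIn (shift p M) f) : SuppIn (shift p M) (chart g θ f) := by
  have h := isFact_fact θ hg
  have s := (h.suppIn hM).1
  have si := h.1.suppIn_inv s
  rw [← shift_zero (M : Set L)] at s si
  have := (si.mul_shift hf).mul_shift s
  simpa only [zero_add, add_zero, chart] using this
lemma chart_mul (θ : L →+ Γ) {g : QT Ω deg} (hg : IsG g) (f f' : QT Ω deg) :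
    chart g θ (f * f') = chart g θ f * chart g θ f' := by
  have u1 : fneg g θ * inv (fneg g θ) = 1 :=
    Ring.mul_inverse_cancel _ (isFact_fact θ hg).1.isUnit
  simp only [chart, mul_assoc]
  rw [← mul_assoc (fneg g θ) (inv (fneg g θ)), u1, one_mul]

lemma conj_mul_c {A h : QT Ω deg} (f : QT Ω deg) (m : L) (hA : IsG A) (hh : IsG h)
    (hm : SuppIn (zerM (Ω.th m)) h) :
    (inv (A * h) * f * (A * h)).c m = (inv A * f * A).c m := by
  have e : inv (A * h) * f * (A * h) = inv h * (inv A * f * A) * h := by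
    rw [show inv (A * h) = inv h * inv A from Ring.inverse_mul (Or.inl hA.isUnit)]
    simp only [mul_assoc]
  rw [e]
  exact conj_c_of_comm _ m hh hm

lemma asym_eq_of_weak {A B : QT Ω deg} (f : QT Ω deg) (m : L) (hA : IsG A) (hB : IsG B)
    (h1 : SuppIn (npM (Ω.th m)) A) (h2 : SuppIn (nnM (Ω.th m)) B) :
    asym (A * B) f m = (inv A * f * A).c m := by
  obtain ⟨k1, -, k3⟩ := fact_np_nn (Ω.th m) hA hB h1 h2
  have h := isFact_fact (Ω.th m) hA
  rw [asym, chart, k1]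
  conv_rhs => rw [k3]
  exact (conj_mul_c f m h.1 h.2.1 h.2.2.2.2.1).symm
lemma asym_eq_lex {g : QT Ω deg} (hg : IsG g) (f : QT Ω deg) (m : L) (θ' : L →+ Γ') :
    (chart g (lexθ (Ω.th m) θ') f).c m = asym g f m := by
  have h := isFact_fact (Ω.th m) hg
  have h' := isFact_fact θ' h.2.1
  rw [asym, chart, chart, (fact_lex (Ω.th m) θ' hg).1]
  exact conj_mul_c f m h.1 h'.1 (h'.suppIn h.2.2.2.2.1).1
end Fact
end Crest.Agent.R059
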