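import Crest.Agent.R059.MassAux

/-! Row 59: the total mass. -/

set_option autoImplicit false
set_option linter.unusedSectionVars false
set_option linter.unusedVariables false

noncomputable section
open Classical
open Crest.CombinatoricsR.UnitInterval

namespace Crest.Agent.R059

section
variable {L : Type} [AddCommGroup L] [Module.Free ℤ L] [Module.Finite ℤ L]
variable {Ω : Form L} {W : Type} [Fintype W]

/-- Words without `P`-descents. -/
def Conf.H (C : Conf Ω W) (deg : L →+ ℤ) (j : ℕ) : QT Ω deg :=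
  ∑ w ∈ Finset.univ.filter (fun w : Fin j → W =>
      ∀ i i' : Fin j, i'.val = i.val + 1 → ¬ (C.P (w i') + C.ℓ ≤ C.P (w i))),
    (List.ofFn fun i => (QT.mono (C.x (w i)) 1 : QT Ω deg)).prod

lemma Conf.mass_H_eq (C : Conf Ω W) (deg : L →+ ℤ) (j : ℕ) :
    C.H deg j = mS (fun y => (QT.mono (C.x y) 1 : QT Ω deg))
      (fun a b => ¬ (C.P b + C.ℓ ≤ C.P a)) j := by
  unfold Conf.H mS
  rw [Finset.sum_filter]
  refine Finset.sum_congr rfl fun w _ => ?_
  exact if_congr Iff.rfl rfl rfl

lemma Conf.mass_chain (C : Conf Ω W) (hl : 0 < C.ℓ) {k : ℕ} {w : Fin k → W}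
    (hw : MCons (fun a b => C.P b + C.ℓ ≤ C.P a) w) {i i' : Fin k} (hi : i < i') :
    C.P (w i') + C.ℓ ≤ C.P (w i) := by
  obtain ⟨d, hd⟩ : ∃ d, i'.val = i.val + d + 1 := ⟨i'.val - i.val - 1, by
    have : i.val < i'.val := hi
    omega⟩
  clear hi
  induction d generalizing i' with
  | zero => exact hw i i' hd
  | succ d ih =>
    have h1 := ih (i' := ⟨i.val + d + 1, by omega⟩) rfl
    have h2 := hw ⟨i.val + d + 1, by omega⟩ i' (by simp only; omega)
    simp only at h2
    omega

lemma Conf.mass_E_eq (C : Conf Ω W) (hl : 0 < C.ℓ) (deg : L →+ ℤ) (k : ℕ) :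
    mS (fun y => (QT.mono (C.x y) 1 : QT Ω deg)) (fun a b => C.P b + C.ℓ ≤ C.P a) k =
      C.E deg k := by
  letI : LinearOrder W := LinearOrder.lift' (fun y => - C.P y)
    (fun a b h => C.inj (neg_injective h))
  have hlt : ∀ a b : W, a < b ↔ C.P b < C.P a := fun a b => by
    show -C.P a < -C.P b ↔ _
    exact neg_lt_neg_iff
  have hsm : ∀ w : Fin k → W, MCons (fun a b => C.P b + C.ℓ ≤ C.P a) w → StrictMono w := by
    intro w hw i i' hi
    have := C.mass_chain hl hw hi
    rw [hlt]; omega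
  unfold mS Conf.E
  rw [← Finset.sum_filter]
  refine Finset.sum_nbij (fun w => Finset.univ.image w) ?_ ?_ ?_ ?_
  · intro w hw
    have hw' := (Finset.mem_filter.1 hw).2
    refine Finset.mem_filter.2 ⟨Finset.mem_univ _, ?_, ?_⟩
    · rw [Finset.card_image_of_injective _ (hsm w hw').injective]; simp
    · intro y hy y' hy' hne
      obtain ⟨i, -, rfl⟩ := Finset.mem_image.1 hy
      obtain ⟨i', -, rfl⟩ := Finset.mem_image.1 hy'
      rcases lt_trichotomy i i' with h | h | h
      · have := C.mass_chain hl hw' h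
        exact le_abs.2 (Or.inl (by omega))
      · exact absurd (h ▸ rfl) hne
      · have := C.mass_chain hl hw' h
        exact le_abs.2 (Or.inr (by omega))
  · intro w hw w' hw' h
    have h1 := hsm w (Finset.mem_filter.1 (Finset.mem_coe.1 hw)).2
    have h2 := hsm w' (Finset.mem_filter.1 (Finset.mem_coe.1 hw')).2
    rw [← h1.range_inj h2, ← Set.image_univ, ← Set.image_univ, ← Finset.coe_univ,
      ← Finset.coe_image, ← Finset.coe_image]
    exact congrArg _ h
  · intro S hS
    obtain ⟨-, hc, hI⟩ := Finset.mem_filter.1 (Finset.mem_coe.1 hS)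
    refine ⟨S.orderEmbOfFin hc, Finset.mem_coe.2 (Finset.mem_filter.2 ⟨Finset.mem_univ _, ?_⟩), ?_⟩
    · intro i i' hi
      have h1 : S.orderEmbOfFin hc i < S.orderEmbOfFin hc i' :=
        (S.orderEmbOfFin hc).strictMono (by rw [Fin.lt_def]; omega)
      have h2 := hI _ (S.orderEmbOfFin_mem hc i) _ (S.orderEmbOfFin_mem hc i') h1.ne
      rw [hlt] at h1
      rw [abs_of_pos (by omega)] at h2
      show _ ≤ _
      omega
    · apply Finset.coe_injective
      simp
  · intro w hw
    have hw' := (Finset.mem_filter.1 hw).2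
    unfold mwd
    rw [mass_prod_mono (fun i => C.x (w i)), Conf.xS,
      Finset.sum_image fun i _ i' _ h => (hsm w hw').injective h]
    congr 1
    rw [Finset.sum_eq_zero, vp_zero]
    refine fun i _ => Finset.sum_eq_zero fun i' _ => ?_
    split_ifs with h
    · have := C.mass_chain hl hw' h
      rw [C.compat, adjS, if_neg (by omega), if_neg (by omega)]
    · rfl

theorem Conf.H_mem_span (C : Conf Ω W) (hl : 0 < C.ℓ) (deg : L →+ ℤ) (j : ℕ) :
    C.H deg j ∈ Submodule.span K {f | ∃ μ : List ℕ, μ.sum = j ∧ f = C.EL deg μ} := by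
  induction j using Nat.strong_induction_on with
  | _ j ih =>
    cases j with
    | zero =>
      rw [C.mass_H_eq, mS_zero]
      exact Submodule.subset_span ⟨[], rfl, rfl⟩
    | succ j =>
      rw [C.mass_H_eq, mS_not]
      refine Submodule.sum_mem _ fun k hk => zsmul_mem ?_ _
      have hk' := Finset.mem_range.1 hk
      rw [C.mass_E_eq hl, ← C.mass_H_eq]
      have := ih (j - k) (by omega)
      generalize C.H deg (j - k) = g at this
      induction this using Submodule.span_induction with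
      | mem f hf =>
        obtain ⟨μ, hμ, rfl⟩ := hf
        exact Submodule.subset_span ⟨(k + 1) :: μ, by rw [List.sum_cons, hμ]; omega, rfl⟩
      | zero => simp
      | add f g _ _ hf hg => rw [mul_add]; exact Submodule.add_mem _ hf hg
      | smul a f _ hf => rw [QT.mul_smul']; exact Submodule.smul_mem _ _ hf

/-- words without `P`-descent with a given exponent -/
def Conf.massW (C : Conf Ω W) (j : ℕ) (p : L) : Finset (Fin j → W) :=
  Finset.univ.filter (fun w : Fin j → W =>
    (∀ i i' : Fin j, i'.val = i.val + 1 → ¬ (C.P (w i') + C.ℓ ≤ C.P (w i))) ∧ ∑ i, C.x (w i) = p)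

lemma Conf.mem_massW (C : Conf Ω W) {j : ℕ} {p : L} {w : Fin j → W} : w ∈ C.massW j p ↔
    (∀ i i' : Fin j, i'.val = i.val + 1 → ¬ (C.P (w i') + C.ℓ ≤ C.P (w i))) ∧
      ∑ i, C.x (w i) = p := by
  simp only [Conf.massW, Finset.mem_filter, Finset.mem_univ, true_and]

lemma Conf.mass_H_c (C : Conf Ω W) (deg : L →+ ℤ) (j : ℕ) (p : L) :
    (C.H deg j).c p = ∑ w ∈ C.massW j p,
      vp (∑ i, ∑ i', if i < i' then adjS C.ℓ (C.P (w i)) (C.P (w i')) else 0) := by
  unfold Conf.H Conf.massW
  rw [QT.sum_c, ← Finset.filter_filter, Finset.sum_filter (fun w : Fin j → W => ∑ i, C.x (w i) = p)]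
  refine Finset.sum_congr rfl fun w _ => ?_
  rw [mass_prod_mono (fun i => C.x (w i)), QT.mono_c, Pi.single_apply]
  simp only [C.compat, eq_comm]
end

variable {n s : ℕ} {h : Fin n → ℕ} {slot : Fin n → Fin s} {π : Fin n ≃ Fin n}

lemma mass_x (y : Vx n s) : (confW slot 0).x y = ev y := by
  cases y with
  | inl i =>
    have : kk n 0 i = 0 := Nat.div_eq_of_lt (by have := i.2; omega)
    show ev (Sum.inl i) + kk n 0 i • dl (slot i) = _
    rw [this, zero_smul, add_zero]
  | inr j => rfl

lemma mass_sum_ev {j : ℕ} (w : Fin j → Vx n s) (y : Vx n s) :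
    (∑ i, ev (w i)) (Sum.inl y) = ((Finset.univ.filter fun i => w i = y).card : ℤ) := by
  rw [Finset.sum_apply, Finset.card_filter]
  push_cast
  refine Finset.sum_congr rfl fun i _ => ?_
  simp [ev, Pi.single_apply, eq_comm]

lemma mass_pos {j : ℕ} (w : Fin j → Vx n s) (i : Fin j) : 0 < (∑ i, ev (w i)) (Sum.inl (w i)) := by
  rw [mass_sum_ev]
  exact_mod_cast Finset.card_pos.2 ⟨i, by simp⟩

theorem H_c_bExp {deg : LW n s →+ ℤ} (j : ℕ) (lam : Fin (s + 1) → ℕ) (hl : ∑ i, lam i = j) :
    ((confW slot 0).H deg j).c (bExp lam) = 1 := by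
  obtain ⟨u, ⟨hu, hu'⟩, huniq⟩ := mass_exists_unique lam hl
  have hb1 : ∀ a : Fin n, bExp lam (Sum.inl (Sum.inl a) : Vx n s ⊕ Bool) = 0 := fun a => by
    simp [bExp, ev, Finset.sum_apply]
  have hb2 : ∀ a, bExp lam (Sum.inl (Sum.inr a) : Vx n s ⊕ Bool) = lam a := fun a => by
    simp [bExp, ev, Finset.sum_apply, Pi.single_apply]
  have hP : ∀ a b : Fin (s + 1), ¬ ((confW slot 0).P (Sum.inr b) + (confW slot 0).ℓ ≤
      (confW slot 0).P (Sum.inr a)) ↔ a ≤ b := by
    intro a b
    show ¬ ((b : ℤ) * (n + 1) + (n + 1) ≤ (a : ℤ) * (n + 1)) ↔ _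
    rw [← add_one_mul, mul_le_mul_iff_left₀ (by positivity), Fin.le_def]
    omega
  rw [Conf.mass_H_c, Finset.sum_eq_single_of_mem (fun i => Sum.inr (u i))]
  · rw [Finset.sum_eq_zero, vp_zero]
    refine fun i _ => Finset.sum_eq_zero fun i' _ => ?_
    split_ifs with h
    · have h1 := hP (u i) (u i')
      show adjS (n + 1) ((u i : ℤ) * (n + 1)) ((u i' : ℤ) * (n + 1)) = 0
      have hn : (0 : ℤ) < n + 1 := by positivity
      unfold adjS
      rw [← add_one_mul, ← add_one_mul]
      simp only [mul_lt_mul_iff_left₀ hn]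
      rw [if_neg (by omega), if_neg (by omega)]
    · rfl
  · refine (Conf.mem_massW _).2 ⟨fun i i' hi => ?_, ?_⟩
    · exact (hP _ _).2 (hu (by rw [Fin.le_def]; omega))
    · simp only [mass_x]
      funext y
      rcases y with (a | a) | b
      · rw [hb1, mass_sum_ev]; simp
      · rw [hb2, mass_sum_ev, ← hu']; simp
      · simp [bExp, ev, Finset.sum_apply]
  · intro w hw hne
    exfalso
    obtain ⟨h1, h2⟩ := (Conf.mem_massW _).1 hw
    simp only [mass_x] at h2
    have h3 : ∀ i, ∃ a, w i = Sum.inr a := fun i => by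
      have := mass_pos w i
      rw [h2] at this
      rcases hw : w i with a | a
      · rw [hw, hb1] at this; exact absurd this (lt_irrefl _)
      · exact ⟨a, rfl⟩
    choose v hv using h3
    obtain rfl : w = fun i => Sum.inr (v i) := funext hv
    refine hne ?_
    rw [huniq v ⟨mass_monotone fun i i' hi => (hP _ _).1 (h1 i i' hi), fun a => ?_⟩]
    have := congrFun h2 (Sum.inl (Sum.inr a))
    rw [hb2, mass_sum_ev] at this
    simpa using this

lemma mass_edge_symm {a b : Fin n} : IsEdge h a b ↔ IsEdge h b a := or_comm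

lemma mass_exp (hr : Realises h slot π) (σ : Equiv.Perm (Fin n)) :
    (∑ i, ∑ i', if i < i' then adjS (n + 1) (posW slot 0 (Sum.inl (π (σ i))))
      (posW slot 0 (Sum.inl (π (σ i')))) else 0) = nE h + -2 * (ginv h σ : ℤ) := by
  have e1 : (nE h : ℤ) = ∑ i, ∑ i', if σ i < σ i' ∧ IsEdge h (σ i) (σ i') then 1 else 0 := by
    unfold nE
    rw [Finset.card_filter, Fintype.sum_prod_type, ← Equiv.sum_comp σ]
    push_cast
    refine Finset.sum_congr rfl fun i _ => ?_
    rw [← Equiv.sum_comp σ]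
  have e2 : (ginv h σ : ℤ) =
      ∑ i, ∑ i', if i < i' ∧ σ i' < σ i ∧ IsEdge h (σ i) (σ i') then 1 else 0 := by
    unfold ginv
    rw [Finset.card_filter, Fintype.sum_prod_type]
    push_cast
    rfl
  have e3 : (ginv h σ : ℤ) =
      ∑ i, ∑ i', if i' < i ∧ σ i < σ i' ∧ IsEdge h (σ i) (σ i') then 1 else 0 := by
    rw [e2, Finset.sum_comm]
    refine Finset.sum_congr rfl fun i _ => Finset.sum_congr rfl fun i' _ => ?_
    exact if_congr (by rw [mass_edge_symm]) rfl rfl
  have e4 : (nE h : ℤ) + -2 * (ginv h σ : ℤ) = nE h - ginv h σ - ginv h σ := by ring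
  rw [e4]
  nth_rewrite 1 [e3]
  rw [e2, e1, ← Finset.sum_sub_distrib, ← Finset.sum_sub_distrib]
  refine Finset.sum_congr rfl fun i _ => ?_
  rw [← Finset.sum_sub_distrib, ← Finset.sum_sub_distrib]
  refine Finset.sum_congr rfl fun i' _ => ?_
  rcases lt_trichotomy i i' with hi | hi | hi
  · rcases lt_trichotomy (σ i) (σ i') with hs | hs | hs
    · obtain ⟨h1, h2⟩ := hr _ _ hs
      by_cases he : IsEdge h (σ i) (σ i')
      · have := h2.1 he
        simp [adjS, hi, hs, he, h1, this, hi.not_gt, hs.not_gt]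
      · have := mt h2.2 he
        simp [adjS, hi, hs, he, this, h1.not_gt]
    · exact absurd (σ.injective hs) hi.ne
    · obtain ⟨h1, h2⟩ := hr _ _ hs
      rw [mass_edge_symm] at h2
      by_cases he : IsEdge h (σ i) (σ i')
      · have := h2.1 he
        simp [adjS, hi, hs, he, h1, this, hi.not_gt, hs.not_gt, h1.not_gt]
      · have := mt h2.2 he
        simp [adjS, hi, hs, he, this, h1.not_gt]
  · subst hi; simp
  · simp [hi, hi.not_gt]

theorem H_c_uAll (hr : Realises h slot π) {deg : LW n s →+ ℤ} :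
    ((confW slot 0).H deg n).c uAll =
      vp (nE h) * evq (∑ σ ∈ descentSet h, Polynomial.X ^ ginv h σ) := by
  have hb1 : ∀ a : Fin n, uAll (Sum.inl (Sum.inl a) : Vx n s ⊕ Bool) = 1 := fun a => by
    simp [uAll, ev, Finset.sum_apply, Pi.single_apply]
  have hb2 : ∀ a, uAll (Sum.inl (Sum.inr a) : Vx n s ⊕ Bool) = 0 := fun a => by
    simp [uAll, ev, Finset.sum_apply]
  have hD : ∀ a b : Fin n, a ≠ b → (¬ ((confW slot 0).P (Sum.inl (π b)) + (confW slot 0).ℓ ≤
      (confW slot 0).P (Sum.inl (π a))) ↔ (b < a → IsEdge h b a)) := by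
    intro a b hab
    show ¬ (posW slot 0 (Sum.inl (π b)) + (n + 1) ≤ posW slot 0 (Sum.inl (π a))) ↔ _
    rcases lt_or_gt_of_ne hab with hs | hs
    · have := (hr _ _ hs).1
      exact ⟨fun _ h' => absurd h' hs.not_gt, fun _ => by omega⟩
    · rw [not_le, ← (hr _ _ hs).2]
      exact ⟨fun h' _ => h', fun h' => h' hs⟩
  rw [Conf.mass_H_c, map_sum, Finset.mul_sum]
  symm
  refine Finset.sum_nbij (fun σ i => Sum.inl (π (σ i))) ?_ ?_ ?_ ?_
  · intro σ hσ
    have hσ' := (Finset.mem_filter.1 hσ).2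
    refine (Conf.mem_massW _).2 ⟨fun i i' hi => ?_, ?_⟩
    · refine (hD _ _ fun h' => ?_).2 (hσ' i i' hi)
      have := congrArg Fin.val (σ.injective h')
      omega
    · simp only [mass_x]
      exact Equiv.sum_comp (σ.trans π) fun a => ev (Sum.inl a)
  · intro σ _ τ _ hστ
    ext i
    have := congrFun hστ i
    simp only [Sum.inl.injEq, EmbeddingLike.apply_eq_iff_eq] at this
    rw [this]
  · intro w hw
    obtain ⟨h1, h2⟩ := (Conf.mem_massW _).1 (Finset.mem_coe.1 hw)
    simp only [mass_x] at h2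
    have h3 : ∀ i, ∃ a, w i = Sum.inl a := fun i => by
      have := mass_pos w i
      rw [h2] at this
      rcases hw : w i with a | a
      · exact ⟨a, rfl⟩
      · rw [hw, hb2] at this; exact absurd this (lt_irrefl _)
    choose v hv using h3
    obtain rfl : w = fun i => Sum.inl (v i) := funext hv
    have hsurj : Function.Surjective v := fun a => by
      have := congrFun h2 (Sum.inl (Sum.inl a))
      rw [hb1, mass_sum_ev] at this
      have h4 : 0 < (Finset.univ.filter fun i => (Sum.inl (v i) : Vx n s) = Sum.inl a).card := by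
        omega
      obtain ⟨i, hi⟩ := Finset.card_pos.1 h4
      exact ⟨i, by simpa using hi⟩
    let τ : Equiv.Perm (Fin n) := Equiv.ofBijective v (Finite.surjective_iff_bijective.1 hsurj)
    have hτ : ∀ i, π ((τ.trans π.symm) i) = v i := fun i => by simp [τ]
    refine ⟨τ.trans π.symm, Finset.mem_coe.2 (Finset.mem_filter.2
      ⟨Finset.mem_univ _, fun i i' hi => ?_⟩), ?_⟩
    · refine (hD _ _ fun h' => ?_).1 ?_
      · have := congrArg Fin.val ((τ.trans π.symm).injective h')
        omega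
      · rw [hτ, hτ]; exact h1 i i' hi
    · funext i
      simp only [hτ]
  · intro σ _
    rw [evq_X_pow, ← vp_add, ← mass_exp hr σ]
    rfl

end Crest.Agent.R059
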