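import Crest.Agent.R059.Word

/-! Row 59: every Hessenberg function comes from a word. -/

set_option autoImplicit false
set_option linter.unusedSectionVars false
set_option linter.unusedVariables false

noncomputable section
open Classical
open Crest.CombinatoricsR.UnitInterval

namespace Crest.Agent.R059

/-- Number of steps of `g` needed to reach `0`. -/
def wxLvl (g : ℕ → ℕ) (x : ℕ) : ℕ := if h : g x < x then wxLvl g (g x) + 1 else 0
termination_by x

/-- A numeric form of the lexicographic key of the `g`-orbit of `x`. -/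
def wxKey (g : ℕ → ℕ) (e : ℚ) (x : ℕ) : ℚ :=
  if h : g x < x then wxKey g e (g x) + x * e ^ wxLvl g x else 0
termination_by x

section
variable {g : ℕ → ℕ} (hm : Monotone g) (hlt : ∀ x, 0 < x → g x < x)

lemma wxLvl_zero (g : ℕ → ℕ) : wxLvl g 0 = 0 := by
  rw [wxLvl]; simp

lemma wxKey_zero (g : ℕ → ℕ) (e : ℚ) : wxKey g e 0 = 0 := by
  rw [wxKey]; simp

include hlt in
lemma wxLvl_pos {x : ℕ} (hx : 0 < x) : wxLvl g x = wxLvl g (g x) + 1 := by
  conv_lhs => rw [wxLvl]
  simp [hlt x hx]

include hlt in
lemma wxKey_pos (e : ℚ) {x : ℕ} (hx : 0 < x) :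
    wxKey g e x = wxKey g e (g x) + x * e ^ wxLvl g x := by
  conv_lhs => rw [wxKey]
  simp [hlt x hx]

include hm hlt in
lemma wxLvl_mono : ∀ y x : ℕ, x ≤ y → wxLvl g x ≤ wxLvl g y := by
  intro y
  induction y using Nat.strong_induction_on with
  | _ y ih =>
    intro x hxy
    rcases Nat.eq_zero_or_pos x with rfl | hx
    · simp [wxLvl_zero]
    · have hy : 0 < y := by omega
      rw [wxLvl_pos hlt hx, wxLvl_pos hlt hy]
      have := ih (g y) (hlt y hy) (g x) (hm hxy)
      omega

include hlt in
lemma wxLvl_surj : ∀ y j : ℕ, 1 ≤ j → j ≤ wxLvl g y → ∃ x, 1 ≤ x ∧ x ≤ y ∧ wxLvl g x = j := by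
  intro y
  induction y using Nat.strong_induction_on with
  | _ y ih =>
    intro j hj hjy
    rcases Nat.eq_zero_or_pos y with rfl | hy
    · rw [wxLvl_zero] at hjy; omega
    · rcases hjy.eq_or_lt with h | h
      · exact ⟨y, hy, le_rfl, h.symm⟩
      · rw [wxLvl_pos hlt hy] at h
        obtain ⟨x, h1, h2, h3⟩ := ih (g y) (hlt y hy) j hj (by omega)
        exact ⟨x, h1, h2.trans (hlt y hy).le, h3⟩

include hm hlt in
lemma wxKey_step {e : ℚ} (he : 0 < e) : ∀ y x : ℕ, x < y → wxLvl g x = wxLvl g y →
    wxKey g e x + e ^ wxLvl g x ≤ wxKey g e y := by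
  intro y
  induction y using Nat.strong_induction_on with
  | _ y ih =>
    intro x hxy hl
    have hy : 0 < y := by omega
    rcases Nat.eq_zero_or_pos x with rfl | hx
    · rw [wxLvl_zero, wxLvl_pos hlt hy] at hl; omega
    · have hk : wxKey g e (g x) ≤ wxKey g e (g y) := by
        rcases (hm hxy.le).eq_or_lt with h | h
        · rw [h]
        · have h1 := wxLvl_pos hlt hx
          have h2 := wxLvl_pos hlt hy
          have h3 := ih (g y) (hlt y hy) (g x) h (by omega)
          have h4 : 0 < e ^ wxLvl g (g x) := pow_pos he _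
          linarith
      rw [wxKey_pos hlt e hx, wxKey_pos hlt e hy, ← hl]
      have h4 : 0 < e ^ wxLvl g x := pow_pos he _
      have h5 : (x : ℚ) + 1 ≤ y := by exact_mod_cast hxy
      nlinarith

include hm hlt in
lemma wxKey_lt {e : ℚ} (he : 0 < e) {x y : ℕ} (hxy : x < y) (hl : wxLvl g x = wxLvl g y) :
    wxKey g e x < wxKey g e y := by
  have h1 := wxKey_step hm hlt he y x hxy hl
  have h4 : 0 < e ^ wxLvl g x := pow_pos he _
  linarith

include hm hlt in
lemma wxKey_lt_of_le {e : ℚ} (he : 0 < e) {x y : ℕ} (hl : wxLvl g y = wxLvl g x + 1)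
    (hxy : x ≤ g y) : wxKey g e x < wxKey g e y := by
  have hy : 0 < y := by
    rcases Nat.eq_zero_or_pos y with rfl | hy
    · rw [wxLvl_zero] at hl; omega
    · exact hy
  have h1 := wxLvl_pos hlt hy
  have hk : wxKey g e x ≤ wxKey g e (g y) := by
    rcases hxy.eq_or_lt with h | h
    · rw [h]
    · exact (wxKey_lt hm hlt he h (by omega)).le
  rw [wxKey_pos hlt e hy]
  have h4 : 0 < e ^ wxLvl g y := pow_pos he _
  have h5 : (0 : ℚ) < y := by exact_mod_cast hy
  nlinarith [mul_pos h5 h4]

include hm hlt in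
lemma wxKey_lt_of_gt {e : ℚ} (he : 0 < e) {x y : ℕ} (hye : (y : ℚ) * e < 1)
    (hl : wxLvl g y = wxLvl g x + 1) (hxy : g y < x) : wxKey g e y < wxKey g e x := by
  have hy : 0 < y := by
    rcases Nat.eq_zero_or_pos y with rfl | hy
    · rw [wxLvl_zero] at hl; omega
    · exact hy
  have h1 := wxLvl_pos hlt hy
  have h2 : wxLvl g (g y) = wxLvl g x := by omega
  have h3 := wxKey_step hm hlt he x (g y) hxy h2
  rw [wxKey_pos hlt e hy, hl, pow_succ]
  rw [h2] at h3
  have h4 : 0 < e ^ wxLvl g x := pow_pos he _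
  nlinarith [mul_lt_mul_of_pos_left hye h4]

end

/-- The shifted predecessor function of a Hessenberg function. -/
lemma wx_exists_g {n : ℕ} (h : Fin n → ℕ) (hh : IsHessenberg h) :
    ∃ g : ℕ → ℕ, Monotone g ∧ (∀ x, 0 < x → g x < x) ∧
      ∀ a b : Fin n, (a.val + 1 ≤ g (b.val + 1) ↔ h a ≤ b.val) := by
  refine ⟨fun x => (Finset.univ.filter fun c : Fin n => h c < x).card, ?_, ?_, ?_⟩
  · intro x y hxy
    refine Finset.card_le_card fun c hc => ?_
    simp only [Finset.mem_filter, Finset.mem_univ, true_and] at hc ⊢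
    omega
  · intro x hx
    have h1 : (Finset.univ.filter fun c : Fin n => h c < x).card ≤ (Finset.range (x - 1)).card := by
      refine Finset.card_le_card_of_injOn (fun c => c.val) (fun c hc => ?_)
        (fun c _ d _ hcd => Fin.ext hcd)
      simp only [Finset.coe_filter, Finset.mem_univ, true_and, Set.mem_ofPred_eq] at hc
      have := (hh.2 c).1
      simp only [Finset.coe_range, Set.mem_Iio]
      omega
    rw [Finset.card_range] at h1
    show (Finset.univ.filter fun c : Fin n => h c < x).card < x
    omega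
  · intro a b
    constructor
    · intro hab
      by_contra hc
      have h1 : (Finset.univ.filter fun c : Fin n => h c < b.val + 1) ⊆ Finset.Iio a := by
        intro c hc'
        simp only [Finset.mem_filter, Finset.mem_univ, true_and] at hc'
        rw [Finset.mem_Iio]
        by_contra hca
        have := hh.1 (not_lt.1 hca)
        omega
      have h2 := Finset.card_le_card h1
      rw [Fin.card_Iio] at h2
      have hab' : a.val + 1 ≤ (Finset.univ.filter fun c : Fin n => h c < b.val + 1).card := hab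
      omega
    · intro hab
      have h1 : Finset.Iic a ⊆ (Finset.univ.filter fun c : Fin n => h c < b.val + 1) := by
        intro c hc
        rw [Finset.mem_Iic] at hc
        have := hh.1 hc
        simp only [Finset.mem_filter, Finset.mem_univ, true_and]
        omega
      have h2 := Finset.card_le_card h1
      rw [Fin.card_Iic] at h2
      exact h2

lemma wx_posW {n s : ℕ} (slot : Fin n → Fin s) (i : Fin n) :
    posW slot 0 (Sum.inl i) = (slot i : ℤ) * (n + 1) + (i + 1) := by
  have h1 : kk n 0 i = 0 := by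
    unfold kk
    exact Nat.div_eq_of_lt (by have := i.2; omega)
  simp [posW, h1]

theorem exists_word {n : ℕ} (h : Fin n → ℕ) (hh : IsHessenberg h) :
    ∃ (s : ℕ) (slot : Fin n → Fin s) (π : Fin n ≃ Fin n), Function.Surjective slot ∧
      Realises h slot π := by
  obtain ⟨g, hm, hlt, hg⟩ := wx_exists_g h hh
  have hn1 : (0 : ℚ) < (n : ℚ) + 1 := by positivity
  have he : (0 : ℚ) < 1 / ((n : ℚ) + 1) := by positivity
  set e : ℚ := 1 / ((n : ℚ) + 1) with he'
  let κ : Fin n → ℚ := fun a => wxKey g e (a.val + 1)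
  let π : Fin n ≃ Fin n := (Tuple.sort κ).symm
  have hπ : ∀ a b : Fin n, κ a < κ b → π a < π b := by
    intro a b hab
    by_contra hc
    have h1 := Tuple.monotone_sort κ (not_lt.1 hc)
    simp only [Function.comp_apply, π, Equiv.apply_symm_apply] at h1
    linarith
  have hL : ∀ a : Fin n, 1 ≤ wxLvl g (a.val + 1) ∧ wxLvl g (a.val + 1) ≤ wxLvl g n := by
    intro a
    refine ⟨?_, wxLvl_mono hm hlt _ _ a.2⟩
    rw [wxLvl_pos hlt (Nat.succ_pos _)]; omega
  let sl : Fin n → Fin (wxLvl g n) := fun a => ⟨wxLvl g (a.val + 1) - 1, by have := hL a; omega⟩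
  refine ⟨wxLvl g n, fun i => sl (π.symm i), π, ?_, ?_⟩
  · intro j
    obtain ⟨x, h1, h2, h3⟩ := wxLvl_surj hlt n (j.val + 1) (by omega) j.2
    refine ⟨π ⟨x - 1, by omega⟩, Fin.ext ?_⟩
    simp only [Equiv.symm_apply_apply, sl]
    rw [show x - 1 + 1 = x by omega, h3]; omega
  · intro a b hab
    have hab' : a.val < b.val := hab
    have hE : IsEdge h a b ↔ ¬ (a.val + 1 ≤ g (b.val + 1)) := by
      rw [hg a b]
      unfold IsEdge
      constructor
      · rintro (h1 | h1)
        · omega
        · exact absurd h1.1 (not_lt.2 hab.le)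
      · intro h1
        exact Or.inl ⟨hab, by omega⟩
    simp only [wx_posW, Equiv.symm_apply_apply]
    have ha := hL a
    have hb := hL b
    have hsa : (sl a).val + 1 = wxLvl g (a.val + 1) := by simp only [sl]; omega
    have hsb : (sl b).val + 1 = wxLvl g (b.val + 1) := by simp only [sl]; omega
    have hmono := wxLvl_mono hm hlt (b.val + 1) (a.val + 1) (by omega)
    have hb1 := wxLvl_pos hlt (Nat.succ_pos b.val)
    have hpa : ((π a).val : ℤ) < n := by exact_mod_cast (π a).2
    have hpb : ((π b).val : ℤ) < n := by exact_mod_cast (π b).2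
    have hpa0 : (0 : ℤ) ≤ (π a).val := Int.natCast_nonneg _
    have hpb0 : (0 : ℤ) ≤ (π b).val := Int.natCast_nonneg _
    obtain ⟨d, hd⟩ : ∃ d : ℕ, (sl b).val = (sl a).val + d := ⟨(sl b).val - (sl a).val, by omega⟩
    have hd' : ((sl b).val : ℤ) = (sl a).val + d := by exact_mod_cast hd
    rw [hd', hE]
    rcases d with _ | _ | d
    · have h1 : π a < π b := hπ a b (wxKey_lt hm hlt he (by omega) (by omega))
      have h2 : ((π a).val : ℤ) < (π b).val := by exact_mod_cast h1
      refine ⟨by push_cast; linarith, fun _ => by push_cast; linarith, fun _ hc => ?_⟩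
      have := wxLvl_mono hm hlt _ _ hc
      simp only [Nat.succ_eq_add_one] at hb1
      omega
    · refine ⟨by push_cast; linarith, fun hc => ?_, fun hc hc' => ?_⟩
      · have hye : ((b.val + 1 : ℕ) : ℚ) * e < 1 := by
          rw [he', mul_one_div, div_lt_one hn1]
          have : b.val + 1 < n + 1 := by have := b.2; omega
          exact_mod_cast this
        have h1 : π b < π a := hπ b a (wxKey_lt_of_gt hm hlt he hye (by omega) (by omega))
        have h2 : ((π b).val : ℤ) < (π a).val := by exact_mod_cast h1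
        push_cast; linarith
      · have h1 : π a < π b := hπ a b (wxKey_lt_of_le hm hlt he (by omega) hc')
        have h2 : ((π a).val : ℤ) < (π b).val := by exact_mod_cast h1
        push_cast at hc; linarith
    · have hd0 : (0 : ℤ) ≤ (d : ℤ) * (n + 1) := by positivity
      refine ⟨by push_cast; nlinarith, fun hc => ?_, fun hc => ?_⟩
      · have := wxLvl_mono hm hlt _ _ (not_le.1 hc).le
        simp only [Nat.succ_eq_add_one] at hb1
        omega
      · push_cast at hc; nlinarith

end Crest.Agent.R059
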