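import Crest.Agent.R059.Supp
import Crest.Agent.R059.Col
import Crest.Agent.R059.Mass
import Crest.Agent.R059.WordEx

/-! Row 59: assembly. -/

set_option autoImplicit false
set_option linter.unusedSectionVars false
set_option linter.unusedVariables false

noncomputable section
open Classical
open Crest.CombinatoricsR.UnitInterval

namespace Crest.Agent.R059

lemma esymm_hom (N k : ℕ) (R : Type) [CommRing R] :
    (MvPolynomial.esymm (Fin N) R k).IsHomogeneous k := by
  unfold MvPolynomial.esymm
  refine MvPolynomial.IsHomogeneous.sum _ _ _ fun t ht => ?_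
  have := MvPolynomial.IsHomogeneous.prod t (fun i => (MvPolynomial.X i : MvPolynomial (Fin N) R))
    (fun _ => 1) (fun i _ => MvPolynomial.isHomogeneous_X R i)
  simpa [(Finset.mem_powersetCard.1 ht).2] using this

lemma esymmPart_ofSums {N r n : ℕ} (lam : Fin r → ℕ) (hl : (Finset.univ.val.map lam).sum = n) :
    MvPolynomial.esymmPart (Fin N) (Polynomial ℤ) (Nat.Partition.ofSums n _ hl) =
      MvPolynomial.map (Int.castRingHom (Polynomial ℤ))
        (∏ j, MvPolynomial.esymm (Fin N) ℤ (lam j)) := by
  rw [map_prod]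
  simp only [MvPolynomial.map_esymm]
  unfold MvPolynomial.esymmPart Nat.Partition.ofSums
  simp only
  rw [Finset.prod_eq_multiset_prod]
  have key : ∀ m : Multiset ℕ,
      ((m.filter (· ≠ 0)).map (MvPolynomial.esymm (Fin N) (Polynomial ℤ))).prod =
        (m.map (MvPolynomial.esymm (Fin N) (Polynomial ℤ))).prod := by
    intro m
    induction m using Multiset.induction_on with
    | empty => simp
    | cons a m ih =>
      by_cases ha : a = 0
      · subst ha
        rw [Multiset.filter_cons_of_neg _ (by simp), ih]; simp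
      · rw [Multiset.filter_cons_of_pos (p := (· ≠ 0)) _ ha, Multiset.map_cons, Multiset.map_cons,
          Multiset.prod_cons, Multiset.prod_cons, ih]
  rw [key, Multiset.map_map]; rfl

theorem final (n : ℕ) (h : Fin n → ℕ) (hh : IsHessenberg h) :
    ∃ θ : {σ : Equiv.Perm (Fin n) // σ ∈ descentSet h} → Nat.Partition n,
      ∀ N : ℕ, chromaticQSym h N =
        ∑ σ : {σ : Equiv.Perm (Fin n) // σ ∈ descentSet h},
          MvPolynomial.C (Polynomial.X ^ ginv h σ.1) *
            MvPolynomial.esymmPart (Fin N) (Polynomial ℤ) (θ σ) := by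
  rcases Nat.eq_zero_or_pos n with rfl | hn
  · refine ⟨fun _ => Nat.Partition.indiscrete 0, fun N => ?_⟩
    have h1 : (1 : Equiv.Perm (Fin 0)) ∈ descentSet h := by simp [descentSet]
    have hu : (Finset.univ : Finset {σ : Equiv.Perm (Fin 0) // σ ∈ descentSet h}) = {⟨1, h1⟩} := by
      ext x; simp only [Finset.mem_univ, Finset.mem_singleton, true_iff]
      exact Subtype.ext (Subsingleton.elim _ _)
    rw [hu, Finset.sum_singleton]
    simp [chromaticQSym, ascents, ginv]
  obtain ⟨s, slot, π, hs, hr⟩ := exists_word h hh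
  obtain ⟨deg, hdeg⟩ := (isSeed_seedX slot).exists_deg
  have hd : DegOK deg (seedX slot) := fun F hF => by rw [hdeg F hF]; exact one_pos
  obtain ⟨c, hcN, hc⟩ := exists_coeffs slot hn hs hd
  set t := (Finset.Iic (fun _ : Fin (s + 1) => n)).filter
    (fun lam => Antitone lam ∧ ∑ j, lam j = n) with ht
  have hspan : ∀ f ∈ Submodule.span K
      {f | ∃ μ : List ℕ, μ.sum = n ∧ f = (confW slot 0).EL deg μ},
      f.c uAll = ∑ lam ∈ t, f.c (bExp lam) * c lam := by
    intro f hf
    induction hf using Submodule.span_induction with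
    | mem f hf =>
      obtain ⟨μ, hμ, rfl⟩ := hf
      rw [hc μ hμ]
      exact Finset.sum_congr rfl fun lam _ => by rw [EL_c_bExp]
    | zero => simp
    | add f g _ _ hf hg => simp [hf, hg, add_mul, Finset.sum_add_distrib]
    | smul a f _ hf => simp [hf, Finset.mul_sum, mul_assoc]
  have hmass := hspan _ ((confW slot 0).H_mem_span (by show (0 : ℤ) < n + 1; omega) deg n)
  rw [H_c_uAll hr] at hmass
  have hmass' : ∑ lam ∈ t, c lam = vp (nE h) * evq
      ((∑ σ : {σ : Equiv.Perm (Fin n) // σ ∈ descentSet h},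
        (Polynomial.X : Polynomial ℕ) ^ ginv h σ.1).map (Nat.castRingHom ℤ)) := by
    rw [Polynomial.map_sum]
    simp only [Polynomial.map_pow, Polynomial.map_X]
    rw [Finset.sum_coe_sort (descentSet h) (fun σ => (Polynomial.X : Polynomial ℤ) ^ ginv h σ),
      hmass]
    refine Finset.sum_congr rfl fun lam hlam => ?_
    rw [H_c_bExp n lam (Finset.mem_filter.1 hlam).2.2, one_mul]
  obtain ⟨c', hc', hsum⟩ := exists_poly_of_sum t c hcN _ _ hmass'
  obtain ⟨θ0, hθt, hθ⟩ := exists_assign
    (fun σ : {σ : Equiv.Perm (Fin n) // σ ∈ descentSet h} => ginv h σ.1) t c' hsum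
  have hθs : ∀ σ, (Finset.univ.val.map (θ0 σ)).sum = n := fun σ =>
    (Finset.mem_filter.1 (hθt σ)).2.2
  refine ⟨fun σ => Nat.Partition.ofSums n _ (hθs σ), fun N => ?_⟩
  have hR : ∑ σ : {σ : Equiv.Perm (Fin n) // σ ∈ descentSet h},
      MvPolynomial.C (Polynomial.X ^ ginv h σ.1) *
        MvPolynomial.esymmPart (Fin N) (Polynomial ℤ) (Nat.Partition.ofSums n _ (hθs σ)) =
      ∑ lam ∈ t, MvPolynomial.C ((c' lam).map (Nat.castRingHom ℤ)) *
        MvPolynomial.map (Int.castRingHom (Polynomial ℤ))
          (∏ j, MvPolynomial.esymm (Fin N) ℤ (lam j)) := by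
    rw [← Finset.sum_fiberwise_of_maps_to (fun σ _ => hθt σ)]
    refine Finset.sum_congr rfl fun lam hlam => ?_
    rw [hθ lam hlam, Polynomial.map_sum, map_sum, Finset.sum_mul]
    refine Finset.sum_congr (by ext; simp) fun σ hσ => ?_
    have hσ' : θ0 σ = lam := by simpa using hσ
    rw [esymmPart_ofSums, hσ']
    simp
  rw [hR]
  refine MvPolynomial.ext _ _ fun a => ?_
  rw [MvPolynomial.coeff_sum]
  simp only [MvPolynomial.coeff_C_mul, MvPolynomial.coeff_map]
  by_cases ha : ∑ i, a i = n
  · apply evq_injective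
    apply mul_left_cancel₀ (vp_ne_zero (nE h))
    have h1 := EL_c_uAll (deg := deg) hr (fun i => a i)
    rw [Finsupp.equivFunOnFinite_symm_coe] at h1
    rw [← h1, hc _ (by rw [List.sum_reverse, List.sum_ofFn]; exact ha), map_sum, Finset.mul_sum]
    refine Finset.sum_congr rfl fun lam hlam => ?_
    rw [hc' lam hlam, map_mul, List.map_reverse, List.prod_reverse, List.map_ofFn,
      List.prod_ofFn]
    have h2 := coeff_prod_esymm_symm (fun i => a i) lam
    rw [Finsupp.equivFunOnFinite_symm_coe] at h2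
    simp only [Function.comp_apply]
    rw [h2]
    simp only [eq_intCast, map_intCast]
    ring
  · rw [coeff_chromaticQSym_eq_zero a ha]
    refine (Finset.sum_eq_zero fun lam hlam => ?_).symm
    have hh := MvPolynomial.IsHomogeneous.prod Finset.univ
      (fun j => MvPolynomial.esymm (Fin N) ℤ (lam j)) lam (fun j _ => esymm_hom N (lam j) ℤ)
    rw [hh.coeff_eq_zero (by
      rw [(Finset.mem_filter.1 hlam).2.2, Finsupp.degree_eq_sum]; exact ha)]
    simp

end Crest.Agent.R059
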