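import Crest.Agent.R059.QT

/-! Row 59: the group `1 + (positive degree)`, factorisations, the log-coefficients `lg`. -/

set_option autoImplicit false
set_option linter.unusedSectionVars false
set_option linter.unusedVariables false

noncomputable section
open Classical

namespace Crest.Agent.R059

variable {L : Type} [AddCommGroup L] {Ω : Form L} {deg : L →+ ℤ}

def SuppIn (S : Set L) (a : QT Ω deg) : Prop := ∀ n, a.c n ≠ 0 → n ∈ S
def IsG (a : QT Ω deg) : Prop := a.c 0 = 1 ∧ ∀ n, n ≠ 0 → a.c n ≠ 0 → 0 < deg n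
def Agree (S : Set L) (a b : QT Ω deg) : Prop := ∀ n ∈ S, a.c n = b.c n
/-- `S` is closed under taking summands in `M`. -/
def LowerIn (M : AddSubmonoid L) (S : Set L) : Prop := ∀ x ∈ M, ∀ y ∈ M, x + y ∈ S → x ∈ S
/-- The summands of `n` in `M`. -/
def below (M : AddSubmonoid L) (n : L) : Set L := {x | x ∈ M ∧ n - x ∈ M}
/-- The translate `p + S`. -/
def shift (p : L) (S : Set L) : Set L := {x | x - p ∈ S}
abbrev inv (a : QT Ω deg) : QT Ω deg := Ring.inverse a
/-- Restriction of the coefficients to a set. -/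
def restrict (S : Set L) (a : QT Ω deg) : QT Ω deg :=
  ⟨fun n => if n ∈ S then a.c n else 0, a.adm.mono (fun n h => by
    by_cases hn : n ∈ S <;> simp_all)⟩
/-- The derivation attached to an additive function. -/
def Der (ξ : L →+ ℤ) (a : QT Ω deg) : QT Ω deg :=
  ⟨fun n => (ξ n : K) * a.c n, a.adm.mono (fun n h => right_ne_zero_of_mul h)⟩
/-- The coefficient of `z^n` in `log a` (meaningful when the support of `a` commutes with `n`). -/
def lg (a : QT Ω deg) (n : L) : K := (inv a * Der deg a).c n / (deg n : K)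
/-- `θ_m = ω(·, m)`. -/
def Form.th (Ω : Form L) (m : L) : L →+ ℤ := Ω.w.flip m

lemma lowerIn_below (M : AddSubmonoid L) (n : L) : LowerIn M (below M n) := by
  intro x hx y hy h
  refine ⟨hx, ?_⟩
  have := M.add_mem h.2 hy
  rwa [show n - (x + y) + y = n - x by abel] at this
lemma SuppIn.mul {M : AddSubmonoid L} {a b : QT Ω deg} (ha : SuppIn M a) (hb : SuppIn M b) :
    SuppIn M (a * b) := by
  intro n hn
  obtain ⟨p, h1, h2⟩ := QT.exists_of_mul_c_ne_zero a b n hn
  have := M.add_mem (ha p h1) (hb _ h2)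
  rwa [add_sub_cancel] at this
lemma SuppIn.mul_shift {M : AddSubmonoid L} {p q : L} {a b : QT Ω deg}
    (ha : SuppIn (shift p M) a) (hb : SuppIn (shift q M) b) :
    SuppIn (shift (p + q) M) (a * b) := by
  intro n hn
  obtain ⟨r, h1, h2⟩ := QT.exists_of_mul_c_ne_zero a b n hn
  have := M.add_mem (ha r h1) (hb _ h2)
  rwa [show r - p + (n - r - q) = n - (p + q) by abel] at this
lemma grp_one_c_ne {n : L} (h : (1 : QT Ω deg).c n ≠ 0) : n = 0 := by
  by_contra hn
  exact h (by rw [QT.one_c, Pi.single_eq_of_ne hn])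
lemma IsG.one : IsG (1 : QT Ω deg) :=
  ⟨by rw [QT.one_c, Pi.single_eq_same], fun n hn h => absurd (grp_one_c_ne h) hn⟩
lemma IsG.deg_nonneg {a : QT Ω deg} (ha : IsG a) {n : L} (h : a.c n ≠ 0) : 0 ≤ deg n := by
  by_cases hn : n = 0
  · rw [hn, map_zero]
  · exact (ha.2 n hn h).le
lemma IsG.mul {a b : QT Ω deg} (ha : IsG a) (hb : IsG b) : IsG (a * b) := by
  constructor
  · rw [QT.mul_c_eq_sum a b 0 {0}]
    · simp [ha.1, hb.1, vp_zero]
    · intro p h1 h2
      by_contra hp
      have h3 := ha.2 p (by simpa using hp) h1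
      have h4 := hb.deg_nonneg h2
      rw [map_sub, map_zero] at h4
      omega
  · intro n hn h
    obtain ⟨p, h1, h2⟩ := QT.exists_of_mul_c_ne_zero a b n h
    have h3 := ha.deg_nonneg h1
    have h4 := hb.deg_nonneg h2
    rw [map_sub] at h4
    by_cases hp : p = 0
    · subst hp
      rw [sub_zero] at h2
      exact hb.2 n hn h2
    · have := ha.2 p hp h1
      omega
lemma grp_deg_pow {a : QT Ω deg} (ha : IsG a) (k : ℕ) :
    ∀ n, ((1 - a) ^ k).c n ≠ 0 → (k : ℤ) ≤ deg n := by
  induction k with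
  | zero =>
    intro n hn
    rw [pow_zero] at hn
    rw [grp_one_c_ne hn, map_zero]
    rfl
  | succ k ih =>
    intro n hn
    rw [pow_succ] at hn
    obtain ⟨p, h1, h2⟩ := QT.exists_of_mul_c_ne_zero _ _ n hn
    have h3 := ih p h1
    have h4 : 0 < deg (n - p) := by
      rw [QT.sub_c, Pi.sub_apply] at h2
      by_cases h0 : n - p = 0
      · rw [h0, ha.1, IsG.one.1] at h2
        exact absurd (sub_self _) h2
      · refine ha.2 _ h0 fun h5 => h2 ?_
        rw [h5, QT.one_c, Pi.single_eq_of_ne h0, sub_zero]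
    rw [map_sub] at h4
    push_cast
    omega
/-- The degreewise finite geometric series. -/
def grpGeo (a : QT Ω deg) : QT Ω deg :=
  ⟨fun n => ∑ k ∈ Finset.range ((deg n).toNat + 1), ((1 - a) ^ k).c n, fun D => by
    refine ((Finset.range (D.toNat + 1)).finite_toSet.biUnion
      fun k _ => ((1 - a) ^ k).adm D).subset ?_
    rintro n ⟨h1, h2⟩
    obtain ⟨k, hk, h3⟩ := Finset.exists_ne_zero_of_sum_ne_zero h1
    refine Set.mem_biUnion (x := k) ?_ ⟨h3, h2⟩
    rw [Finset.mem_coe, Finset.mem_range] at *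
    omega⟩
lemma grpGeo_c {a : QT Ω deg} (ha : IsG a) {n : L} {N : ℕ} (h : deg n < N) :
    (grpGeo a).c n = (∑ k ∈ Finset.range N, (1 - a) ^ k).c n := by
  rw [QT.sum_c]
  have key : ∀ N N' : ℕ, deg n < N → N ≤ N' → ∑ k ∈ Finset.range N, ((1 - a) ^ k).c n =
      ∑ k ∈ Finset.range N', ((1 - a) ^ k).c n := by
    intro N N' h1 h2
    refine Finset.sum_subset (Finset.range_subset_range.2 h2) fun k _ hk => ?_
    by_contra h3
    have := grp_deg_pow ha k n h3
    rw [Finset.mem_range] at hk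
    omega
  exact (key _ (max N ((deg n).toNat + 1)) (by omega) (le_max_right _ _)).trans
    (key _ _ h (le_max_left _ _)).symm
lemma grp_mul_geo {a : QT Ω deg} (ha : IsG a) : a * grpGeo a = 1 := by
  refine QT.ext (funext fun n => ?_)
  have hN : deg n < ((deg n).toNat + 1 : ℕ) := by omega
  generalize (deg n).toNat + 1 = N at hN
  have h1 : (a * grpGeo a).c n = (a * ∑ k ∈ Finset.range N, (1 - a) ^ k).c n := by
    rw [QT.mul_c, QT.mul_c]
    refine finsum_congr fun p => ?_
    by_cases hp : a.c p = 0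
    · simp [hp]
    · have := ha.deg_nonneg hp
      rw [grpGeo_c ha (N := N) (by rw [map_sub]; omega)]
  have h2 := mul_neg_geom_sum (1 - a) N
  rw [sub_sub_cancel] at h2
  have h3 : ((1 - a) ^ N).c n = 0 := by
    by_contra h3
    have := grp_deg_pow ha N n h3
    omega
  rw [h1, h2, QT.sub_c, Pi.sub_apply, h3, sub_zero]
lemma grp_geo_mul {a : QT Ω deg} (ha : IsG a) : grpGeo a * a = 1 := by
  refine QT.ext (funext fun n => ?_)
  have hN : deg n < ((deg n).toNat + 1 : ℕ) := by omega
  generalize (deg n).toNat + 1 = N at hN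
  have h1 : (grpGeo a * a).c n = ((∑ k ∈ Finset.range N, (1 - a) ^ k) * a).c n := by
    rw [QT.mul_c, QT.mul_c]
    refine finsum_congr fun p => ?_
    by_cases hp : a.c (n - p) = 0
    · simp [hp]
    · have := ha.deg_nonneg hp
      rw [map_sub] at this
      rw [grpGeo_c ha (N := N) (by omega)]
  have h2 := geom_sum_mul_neg (1 - a) N
  rw [sub_sub_cancel] at h2
  have h3 : ((1 - a) ^ N).c n = 0 := by
    by_contra h3
    have := grp_deg_pow ha N n h3
    omega
  rw [h1, h2, QT.sub_c, Pi.sub_apply, h3, sub_zero]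
lemma IsG.isUnit {a : QT Ω deg} (ha : IsG a) : IsUnit a :=
  ⟨⟨a, grpGeo a, grp_mul_geo ha, grp_geo_mul ha⟩, rfl⟩
/-- The inverse is the geometric series. -/
lemma IsG.inv_c {a : QT Ω deg} (ha : IsG a) {n : L} {N : ℕ} (h : deg n < N) :
    (R059.inv a).c n = ∑ k ∈ Finset.range N, ((1 - a) ^ k).c n := by
  have : R059.inv a = grpGeo a :=
    Ring.inverse_unit (⟨a, grpGeo a, grp_mul_geo ha, grp_geo_mul ha⟩ : (QT Ω deg)ˣ)
  rw [this, grpGeo_c ha h, QT.sum_c]
lemma IsG.inv {a : QT Ω deg} (ha : IsG a) : IsG (inv a) := by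
  constructor
  · rw [ha.inv_c (N := 1) (by simp), Finset.sum_range_one, pow_zero]
    exact IsG.one.1
  · intro n hn h
    rw [ha.inv_c (N := (deg n).toNat + 1) (by omega)] at h
    obtain ⟨k, -, hk⟩ := Finset.exists_ne_zero_of_sum_ne_zero h
    have h1 := grp_deg_pow ha k n hk
    rcases Nat.eq_zero_or_pos k with rfl | h0
    · rw [pow_zero] at hk
      exact absurd (grp_one_c_ne hk) hn
    · omega
lemma grp_suppIn_one (M : AddSubmonoid L) : SuppIn M (1 : QT Ω deg) := fun n hn => by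
  rw [grp_one_c_ne hn]
  exact M.zero_mem
lemma grp_suppIn_one_sub {M : AddSubmonoid L} {a : QT Ω deg} (h : SuppIn M a) :
    SuppIn M (1 - a) := fun n hn => by
  by_cases h1 : a.c n = 0
  · rw [QT.sub_c, Pi.sub_apply, h1, sub_zero] at hn
    exact grp_suppIn_one M n hn
  · exact h n h1
lemma grp_suppIn_pow {M : AddSubmonoid L} {a : QT Ω deg} (h : SuppIn M a) (k : ℕ) :
    SuppIn M (a ^ k) := by
  induction k with
  | zero => rw [pow_zero]; exact grp_suppIn_one M
  | succ k ih => rw [pow_succ]; exact ih.mul h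
lemma IsG.suppIn_inv {M : AddSubmonoid L} {a : QT Ω deg} (ha : IsG a) (h : SuppIn M a) :
    SuppIn M (R059.inv a) := by
  intro n hn
  rw [ha.inv_c (N := (deg n).toNat + 1) (by omega)] at hn
  obtain ⟨k, -, hk⟩ := Finset.exists_ne_zero_of_sum_ne_zero hn
  exact grp_suppIn_pow (grp_suppIn_one_sub h) k n hk
/-- The inverse does not depend on the degree function. -/
lemma inv_c_eq {deg' : L →+ ℤ} {a : QT Ω deg} {a' : QT Ω deg'} (ha : IsG a) (ha' : IsG a')
    (h : a.c = a'.c) : (inv a).c = (inv a').c := by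
  have key : ∀ k : ℕ, ((1 - a) ^ k).c = ((1 - a') ^ k).c := by
    intro k
    induction k with
    | zero => rw [pow_zero, pow_zero, QT.one_c, QT.one_c]
    | succ k ih =>
      rw [pow_succ, pow_succ, QT.mul_c, QT.mul_c, ih, QT.sub_c, QT.sub_c, h, QT.one_c, QT.one_c]
  funext n
  rw [ha.inv_c (N := (deg n).toNat + (deg' n).toNat + 1) (by omega),
    ha'.inv_c (N := (deg n).toNat + (deg' n).toNat + 1) (by omega)]
  exact Finset.sum_congr rfl fun k _ => by rw [key]
lemma Agree.mul {M : AddSubmonoid L} {S : Set L} (hS : LowerIn M S) {p q : L}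
    {a a' b b' : QT Ω deg} (ha : SuppIn (shift p M) a) (ha' : SuppIn (shift p M) a')
    (hb : SuppIn (shift q M) b) (hb' : SuppIn (shift q M) b')
    (h1 : Agree (shift p S) a a') (h2 : Agree (shift q S) b b') :
    Agree (shift (p + q) S) (a * b) (a' * b') := by
  intro n hn
  rw [QT.mul_c, QT.mul_c]
  refine finsum_congr fun r => ?_
  by_cases hr : r - p ∈ M
  · by_cases hr' : n - r - q ∈ M
    · have e1 : r - p + (n - r - q) ∈ S := by
        rwa [show r - p + (n - r - q) = n - (p + q) by abel]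
      rw [h1 r (hS _ hr _ hr' e1), h2 (n - r) (hS _ hr' _ hr (by rwa [add_comm]))]
    · have e1 : b.c (n - r) = 0 := by_contra fun h => hr' (hb _ h)
      have e2 : b'.c (n - r) = 0 := by_contra fun h => hr' (hb' _ h)
      simp [e1, e2]
  · have e1 : a.c r = 0 := by_contra fun h => hr (ha _ h)
    have e2 : a'.c r = 0 := by_contra fun h => hr (ha' _ h)
    simp [e1, e2]
lemma grp_shift_zero (S : Set L) : shift 0 S = S := by
  ext x
  simp [shift]
lemma Agree.mul_zero_shift {M : AddSubmonoid L} {S : Set L} (hS : LowerIn M S)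
    {a a' b b' : QT Ω deg} (ha : SuppIn M a) (ha' : SuppIn M a') (hb : SuppIn M b)
    (hb' : SuppIn M b') (h1 : Agree S a a') (h2 : Agree S b b') : Agree S (a * b) (a' * b') := by
  have := Agree.mul hS (p := 0) (q := 0) (a := a) (a' := a') (b := b) (b' := b')
  simp only [add_zero, grp_shift_zero] at this
  exact this ha ha' hb hb' h1 h2
lemma Agree.inv {M : AddSubmonoid L} {S : Set L} (hS : LowerIn M S) {a a' : QT Ω deg}
    (ha : IsG a) (ha' : IsG a') (hM : SuppIn M a) (hM' : SuppIn M a') (h : Agree S a a') :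
    Agree S (inv a) (inv a') := by
  have h1 : Agree S (1 - a) (1 - a') := fun n hn => by
    rw [QT.sub_c, QT.sub_c, Pi.sub_apply, Pi.sub_apply, h n hn]
  have key : ∀ k : ℕ, Agree S ((1 - a) ^ k) ((1 - a') ^ k) := by
    intro k
    induction k with
    | zero => intro n _; rw [pow_zero, pow_zero]
    | succ k ih =>
      rw [pow_succ, pow_succ]
      exact Agree.mul_zero_shift hS (grp_suppIn_pow (grp_suppIn_one_sub hM) k)
        (grp_suppIn_pow (grp_suppIn_one_sub hM') k) (grp_suppIn_one_sub hM)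
        (grp_suppIn_one_sub hM') ih h1
  intro n hn
  rw [ha.inv_c (N := (deg n).toNat + 1) (by omega), ha'.inv_c (N := (deg n).toNat + 1) (by omega)]
  exact Finset.sum_congr rfl fun k _ => key k n hn
/-- Trace property. -/
lemma mul_c_comm {a : QT Ω deg} (b : QT Ω deg) (m : L) (ha : SuppIn {x | Ω.w x m = 0} a) :
    (a * b).c m = (b * a).c m := by
  rw [QT.mul_c, QT.mul_c]
  unfold mulF
  rw [← finsum_comp_equiv (Equiv.subLeft m)]
  refine finsum_congr fun p => ?_
  simp only [Equiv.subLeft_apply, sub_sub_cancel]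
  by_cases hp : a.c (m - p) = 0
  · simp [hp]
  · have h1 : Ω.w (m - p) m = 0 := ha _ hp
    have h2 : Ω.w p m = 0 := by
      rw [map_sub, AddMonoidHom.sub_apply, Ω.alt] at h1
      omega
    rw [h1, h2, mul_comm (b.c p)]
lemma conj_c_of_comm {h : QT Ω deg} (f : QT Ω deg) (m : L) (hh : IsG h)
    (hm : SuppIn {x | Ω.w x m = 0} h) : (inv h * f * h).c m = f.c m := by
  have h1 : SuppIn {x | Ω.w x m = 0} (inv h) :=
    hh.suppIn_inv (M := AddMonoidHom.mker (Ω.th m)) hm
  rw [mul_assoc, mul_c_comm _ m h1, mul_assoc, Ring.mul_inverse_cancel _ hh.isUnit, mul_one]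
lemma Der_mul (ξ : L →+ ℤ) (a b : QT Ω deg) : Der ξ (a * b) = Der ξ a * b + a * Der ξ b := by
  refine QT.ext (funext fun n => ?_)
  have hs : ∀ p, a.c p ≠ 0 → b.c (n - p) ≠ 0 → p ∈ (a.adm.finite_pairs b.adm n).toFinset :=
    fun p h1 h2 => (Set.Finite.mem_toFinset _).2 ⟨h1, h2⟩
  generalize (a.adm.finite_pairs b.adm n).toFinset = s at hs
  rw [QT.add_c, Pi.add_apply,
    QT.mul_c_eq_sum (Der ξ a) b n s fun p h1 h2 => hs p (right_ne_zero_of_mul h1) h2,
    QT.mul_c_eq_sum a (Der ξ b) n s fun p h1 h2 => hs p h1 (right_ne_zero_of_mul h2)]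
  change (ξ n : K) * (a * b).c n = _
  rw [QT.mul_c_eq_sum a b n s hs, Finset.mul_sum, ← Finset.sum_add_distrib]
  refine Finset.sum_congr rfl fun p _ => ?_
  change _ = (ξ p : K) * a.c p * b.c (n - p) * _ + a.c p * ((ξ (n - p) : K) * b.c (n - p)) * _
  rw [map_sub]
  push_cast
  ring

end Crest.Agent.R059
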