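import Crest.Agent.R059.Fact

/-! Row 59: properties of `lg`, attractor invariants, Kontsevich–Soibelman bijection, and the
expansion of an element through its asymptotic coefficients. -/

set_option autoImplicit false
set_option linter.unusedSectionVars false
set_option linter.unusedVariables false

noncomputable section
open Classical

namespace Crest.Agent.R059

variable {L : Type} [AddCommGroup L] {Ω : Form L} {deg : L →+ ℤ}
variable {Γ : Type} [AddCommGroup Γ] [LinearOrder Γ] [IsOrderedAddMonoid Γ]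

/-- A pointed cone with finitely many points of bounded degree. -/
def GoodCone (deg : L →+ ℤ) (M : AddSubmonoid L) : Prop :=
  (∀ n ∈ M, n ≠ 0 → 0 < deg n) ∧ ∀ D : ℤ, {n | n ∈ M ∧ deg n ≤ D}.Finite

lemma charZero_K_lg : CharZero K :=
  charZero_of_injective_ringHom (f := (HahnSeries.C : ℂ →+* K)) HahnSeries.C_injective

lemma intCast_ne_zero_lg {k : ℤ} (h : k ≠ 0) : (k : K) ≠ 0 := by
  have := charZero_K_lg
  exact Int.cast_ne_zero.2 h

lemma GoodCone.nonneg {M : AddSubmonoid L} (hM : GoodCone deg M) {n : L} (hn : n ∈ M) :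
    0 ≤ deg n := by
  by_cases h : n = 0
  · simp [h]
  · exact (hM.1 n hn h).le

lemma IsG.nonneg_lg {a : QT Ω deg} (ha : IsG a) {n : L} (h : a.c n ≠ 0) : 0 ≤ deg n := by
  by_cases h0 : n = 0
  · simp [h0]
  · exact (ha.2 n h0 h).le

lemma shift_zero_lg (S : Set L) : shift 0 S = S := by
  ext x; simp [shift]

lemma Agree.mul0_lg {M : AddSubmonoid L} {S : Set L} (hS : LowerIn M S)
    {a a' b b' : QT Ω deg} (ha : SuppIn M a) (ha' : SuppIn M a') (hb : SuppIn M b)
    (hb' : SuppIn M b') (h1 : Agree S a a') (h2 : Agree S b b') : Agree S (a * b) (a' * b') := by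
  have := Agree.mul hS (p := 0) (q := 0) (a := a) (a' := a') (b := b) (b' := b')
  simp only [add_zero, shift_zero_lg] at this
  exact this ha ha' hb hb' h1 h2

lemma SuppIn.der_lg {S : Set L} {a : QT Ω deg} (h : SuppIn S a) (ξ : L →+ ℤ) :
    SuppIn S (Der ξ a) := fun n hn => h n (right_ne_zero_of_mul hn)

lemma SuppIn.inf_lg {M N : AddSubmonoid L} {a : QT Ω deg} (h1 : SuppIn M a) (h2 : SuppIn N a) :
    SuppIn ((M ⊓ N : AddSubmonoid L) : Set L) a := fun n hn => ⟨h1 n hn, h2 n hn⟩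

lemma mem_posM_lg {n : L} : n ∈ posM deg ↔ n = 0 ∨ 0 < deg n := by
  change n = 0 ∨ (-deg) n < 0 ↔ _
  simp

lemma IsG.suppIn_posM_lg {a : QT Ω deg} (ha : IsG a) : SuppIn (posM deg) a := by
  intro n hn
  by_cases h0 : n = 0
  · exact mem_posM_lg.2 (Or.inl h0)
  · exact mem_posM_lg.2 (Or.inr (ha.2 n h0 hn))

lemma LowerIn.inf_lg {M : AddSubmonoid L} {S : Set L} (hS : LowerIn M S) (N : AddSubmonoid L) :
    LowerIn (M ⊓ N) S := fun x hx y hy h => hS x hx.1 y hy.1 h

lemma deg_induction_lg (δ : L → ℤ) {P : L → Prop}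
    (h : ∀ n, (∀ m, 0 ≤ δ m → δ m < δ n → P m) → P n) (n : L) : P n := by
  induction' hk : (δ n).toNat using Nat.strong_induction_on with k ih generalizing n
  exact h n (fun m h1 h2 => ih (δ m).toNat (by omega) m rfl)

lemma der_ne_zero_lg {ξ : L →+ ℤ} {a : QT Ω deg} {n : L} (h : (Der ξ a).c n ≠ 0) :
    ξ n ≠ 0 ∧ n ≠ 0 ∧ a.c n ≠ 0 := by
  have h1 : (ξ n : K) ≠ 0 := left_ne_zero_of_mul h
  have h2 : ξ n ≠ 0 := fun e => h1 (by simp [e])
  exact ⟨h2, fun e => h2 (by simp [e]), right_ne_zero_of_mul h⟩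

lemma J_deg_pos_lg {a : QT Ω deg} (ha : IsG a) (ξ : L →+ ℤ) {n : L}
    (h : (inv a * Der ξ a).c n ≠ 0) : 0 < deg n := by
  obtain ⟨p, h1, h2⟩ := QT.exists_of_mul_c_ne_zero _ _ _ h
  obtain ⟨_, h3, h4⟩ := der_ne_zero_lg h2
  have h5 := ha.inv.nonneg_lg h1
  have h6 := ha.2 _ h3 h4
  rw [map_sub] at h6
  omega

lemma J_neg_lg {a : QT Ω deg} (ha : IsG a) (ξ : L →+ ℤ) {θ : L →+ Γ} (h : SuppIn (negM θ) a)
    {n : L} (hn : θ n = 0) : (inv a * Der ξ a).c n = 0 := by
  by_contra h0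
  obtain ⟨p, h1, h2⟩ := QT.exists_of_mul_c_ne_zero _ _ _ h0
  obtain ⟨_, h3, h4⟩ := der_ne_zero_lg h2
  have h5 : p = 0 ∨ θ p < 0 := ha.suppIn_inv h p h1
  have h6 : θ (n - p) < 0 := (show n - p = 0 ∨ θ (n - p) < 0 from h _ h4).resolve_left h3
  rw [map_sub, hn, zero_sub, neg_lt_zero] at h6
  rcases h5 with h5 | h5
  · simp [h5] at h6
  · exact lt_asymm h5 h6

lemma J_mul_lg {a b : QT Ω deg} (ha : IsG a) (hb : IsG b) (ξ : L →+ ℤ) (n : L)
    (h2 : SuppIn {x | Ω.w x n = 0} b) :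
    (inv (a * b) * Der ξ (a * b)).c n = (inv a * Der ξ a).c n + (inv b * Der ξ b).c n := by
  have e : inv (a * b) * Der ξ (a * b) = inv b * (inv a * Der ξ a) * b + inv b * Der ξ b := by
    rw [inv, Ring.inverse_mul (Or.inl ha.isUnit), Der_mul, mul_add, mul_assoc (Ring.inverse b) _ (a * _),
      Ring.inverse_mul_cancel_left _ _ ha.isUnit]
    simp only [mul_assoc]
  rw [e, QT.add_c, Pi.add_apply, conj_c_of_comm _ n hb h2]

lemma J_fact_lg {a : QT Ω deg} (ha : IsG a) (ξ : L →+ ℤ) (n : L)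
    (h1 : SuppIn {x | Ω.w x n = 0} a) (η : L →+ Γ) (hη : η n = 0) :
    (inv a * Der ξ a).c n = (inv (fzer a η) * Der ξ (fzer a η)).c n := by
  have hf := isFact_fact η ha
  obtain ⟨s1, s2, s3⟩ := hf.suppIn (M := zerM (Ω.th n)) h1
  obtain ⟨g1, g2, g3, t1, t2, t3, e⟩ := hf
  conv_lhs => rw [e]
  rw [J_mul_lg (g1.mul g2) g3 ξ n s3, J_mul_lg g1 g2 ξ n s2, J_neg_lg g1 ξ t1 hη,
    J_neg_lg g3 ξ (θ := -η) t3 (by simp [hη]), zero_add, add_zero]

lemma mul_c_left_lg {d b : QT Ω deg} {n : L} (h : ∀ p, d.c p ≠ 0 → b.c (n - p) ≠ 0 → p = n) :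
    (d * b).c n = d.c n * b.c 0 := by
  rw [QT.mul_c_eq_sum d b n {n} (fun p h1 h2 => Finset.mem_singleton.2 (h p h1 h2))]
  simp [Ω.alt, vp_zero]

lemma mul_c_right_lg {a d : QT Ω deg} {n : L} (h : ∀ p, a.c p ≠ 0 → d.c (n - p) ≠ 0 → p = 0) :
    (a * d).c n = a.c 0 * d.c n := by
  rw [QT.mul_c_eq_sum a d n {0} (fun p h1 h2 => Finset.mem_singleton.2 (h p h1 h2))]
  simp [vp_zero]

lemma sub_ne_zero_lg {M : AddSubmonoid L} {S : Set L} {a a' : QT Ω deg} (hM : SuppIn M a)
    (hM' : SuppIn M a') (h : Agree S a a') {p : L} (hp : (a - a').c p ≠ 0) : p ∈ M ∧ p ∉ S := by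
  rw [QT.sub_c, Pi.sub_apply, sub_ne_zero] at hp
  refine ⟨?_, fun h' => hp (h p h')⟩
  by_contra h'
  have h1 : a.c p = 0 := by by_contra h1; exact h' (hM p h1)
  have h2 : a'.c p = 0 := by by_contra h2; exact h' (hM' p h2)
  exact hp (h1.trans h2.symm)

lemma mul_first_lg {M : AddSubmonoid L} {a a' b b' : QT Ω deg} (ha : SuppIn M a)
    (ha' : SuppIn M a') (hb : SuppIn M b) (hb' : SuppIn M b') {n : L}
    (h1 : Agree (below M n \ {n}) a a') (h2 : Agree (below M n \ {n}) b b') :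
    (a * b).c n - (a' * b').c n = (a.c n - a'.c n) * b.c 0 + a'.c 0 * (b.c n - b'.c n) := by
  have e : a * b - a' * b' = (a - a') * b + a' * (b - b') := by
    rw [sub_mul, mul_sub]; abel
  have e' := congrArg (fun x : QT Ω deg => x.c n) e
  simp only [QT.sub_c, QT.add_c, Pi.sub_apply, Pi.add_apply] at e'
  rw [e', mul_c_left_lg, mul_c_right_lg]
  · rfl
  · intro p hp hq
    obtain ⟨h3, h4⟩ := sub_ne_zero_lg hb hb' h2 hq
    by_contra h5
    exact h4 ⟨⟨h3, by simpa using ha' p hp⟩, by simpa using h5⟩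
  · intro p hp hq
    obtain ⟨h3, h4⟩ := sub_ne_zero_lg ha ha' h1 hp
    by_contra h5
    exact h4 ⟨⟨h3, hb _ hq⟩, h5⟩

lemma lowerIn_below_diff_lg (M : AddSubmonoid L) (n : L) :
    LowerIn (M ⊓ posM deg) (below (M ⊓ posM deg) n \ {n}) := by
  rintro x hx y hy ⟨h1, h2⟩
  refine ⟨lowerIn_below _ n x hx y hy h1, fun e => h2 ?_⟩
  have e' : x = n := e
  have h3 := mem_posM_lg.1 h1.2.2
  have h4 := mem_posM_lg.1 hy.2
  rw [e', show n - (n + y) = -y by abel, neg_eq_zero, map_neg] at h3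
  have : y = 0 := by
    rcases h3 with h3 | h3
    · exact h3
    · rcases h4 with h4 | h4
      · exact h4
      · omega
  simp [e', this]

lemma conj_c_top_lg {M : AddSubmonoid L} {h d : QT Ω deg} (hh : IsG h) (hM : SuppIn M h) (m : L)
    (hd : ∀ x, m - x ∈ M → x ≠ m → d.c x = 0) : (inv h * d * h).c m = d.c m := by
  have hM' := hh.suppIn_inv hM
  rw [mul_c_left_lg, mul_c_right_lg, hh.1, hh.inv.1, one_mul, mul_one]
  · intro r h1 h2
    by_contra h3
    exact h2 (hd _ (by simpa using hM' r h1) (by simpa using h3))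
  · intro q h1 h2
    obtain ⟨r, h3, h4⟩ := QT.exists_of_mul_c_ne_zero _ _ _ h1
    have h5 : q - r = m := by
      by_contra h5
      refine h4 (hd _ ?_ h5)
      rw [show m - (q - r) = (m - q) + r by abel]
      exact add_mem (hM _ h2) (hM' r h3)
    by_contra h6
    have h7 := hh.2 _ (fun e => h6 (sub_eq_zero.1 e).symm) h2
    have h8 := hh.inv.nonneg_lg h3
    rw [← h5, map_sub, map_sub] at h7
    omega

lemma tri_solve_lg (δ : L → ℕ) (P : Set L) (T : (L → K) → L → K)
    (hT : ∀ f f' n, n ∈ P → (∀ m, δ m < δ n → f m = f' m) → T f n - T f' n = f n - f' n)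
    (y : L → K) : ∃ f, ∀ n ∈ P, T f n = y n := by
  let F : (n : L) → ((m : L) → InvImage (· < ·) δ m n → K) → K := fun n rec =>
    y n - T (fun m => if h : δ m < δ n then rec m h else 0) n
  let f : L → K := (InvImage.wf δ Nat.lt_wfRel.wf).fix F
  refine ⟨f, fun n hn => ?_⟩
  have e : f n = y n - T (fun m => if h : δ m < δ n then f m else 0) n :=
    WellFounded.fix_eq _ F n
  have := hT f (fun m => if h : δ m < δ n then f m else 0) n hn (fun m hm => by rw [dif_pos hm])
  rw [dif_neg (lt_irrefl _), e] at this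
  linear_combination this

lemma GoodCone.adm {M : AddSubmonoid L} (hM : GoodCone deg M) (p : L) {a : L → K}
    (h : ∀ n, a n ≠ 0 → n - p ∈ M) : Adm deg a := by
  intro D
  refine ((hM.2 (D - deg p)).image (fun m => p + m)).subset ?_
  rintro n ⟨h1, h2⟩
  exact ⟨n - p, ⟨h n h1, by rw [map_sub]; omega⟩, by simp⟩
lemma GoodCone.below_finite {M : AddSubmonoid L} (hM : GoodCone deg M) (n : L) :
    (below M n).Finite := by
  refine (hM.2 (deg n)).subset ?_
  rintro x ⟨h1, h2⟩
  have := hM.nonneg h2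
  rw [map_sub] at this
  exact ⟨h1, by omega⟩
lemma goodCone_closure (s : Finset L) (hs : ∀ F ∈ s, 0 < deg F) :
    GoodCone deg (AddSubmonoid.closure (s : Set L)) := by
  have h1 : ∀ n ∈ AddSubmonoid.closure (s : Set L), n = 0 ∨ 0 < deg n := by
    intro n hn
    induction hn using AddSubmonoid.closure_induction_left with
    | zero => exact Or.inl rfl
    | add_left x hx y hy ih =>
      have := hs x hx
      right
      rw [map_add]
      rcases ih with ih | ih
      · simpa [ih] using this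
      · omega
  have h2 : ∀ k : ℕ, {n | n ∈ AddSubmonoid.closure (s : Set L) ∧ deg n ≤ k}.Finite := by
    intro k
    induction k with
    | zero =>
      refine (Set.finite_singleton 0).subset ?_
      rintro n ⟨h3, h4⟩
      rcases h1 n h3 with h | h
      · exact h
      · simp at h4; omega
    | succ k ih =>
      refine ((Set.finite_singleton 0).union (s.finite_toSet.image2 (· + ·) ih)).subset ?_
      rintro n ⟨h3, h4⟩
      induction h3 using AddSubmonoid.closure_induction_left with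
      | zero => exact Or.inl rfl
      | add_left x hx y hy _ =>
        have := hs x hx
        rw [map_add] at h4
        exact Or.inr ⟨x, hx, y, ⟨hy, by push_cast at h4; omega⟩, rfl⟩
  refine ⟨fun n hn h0 => (h1 n hn).resolve_left h0, fun D => (h2 D.toNat).subset ?_⟩
  rintro n ⟨h3, h4⟩
  exact ⟨h3, by omega⟩

lemma lg_zero {a : QT Ω deg} : lg a 0 = 0 := by simp [lg]
lemma lg_one (n : L) : lg (1 : QT Ω deg) n = 0 := by
  have : Der deg (1 : QT Ω deg) = 0 := by
    ext1; funext m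
    by_cases h : m = 0 <;> simp [Der, QT.one_c, h]
  simp [lg, this]
lemma lg_eq_zero {M : AddSubmonoid L} {a : QT Ω deg} (ha : IsG a) (hM : SuppIn M a) {n : L}
    (hn : n ∉ M) : lg a n = 0 := by
  have : (inv a * Der deg a).c n = 0 := by
    by_contra h
    exact hn ((ha.suppIn_inv hM).mul (hM.der_lg deg) n h)
  simp [lg, this]
lemma lg_agree {M : AddSubmonoid L} {S : Set L} (hS : LowerIn M S) {a a' : QT Ω deg}
    (ha : IsG a) (ha' : IsG a') (hM : SuppIn M a) (hM' : SuppIn M a') (h : Agree S a a')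
    {n : L} (hn : n ∈ S) : lg a n = lg a' n := by
  unfold lg
  rw [Agree.mul0_lg hS (ha.suppIn_inv hM) (ha'.suppIn_inv hM') (hM.der_lg deg) (hM'.der_lg deg)
    (Agree.inv hS ha ha' hM hM' h) (fun m hm => by simp only [Der]; rw [h m hm]) n hn]
lemma agree_of_lg {M : AddSubmonoid L} {S : Set L} (hS : LowerIn M S) {a a' : QT Ω deg}
    (ha : IsG a) (ha' : IsG a') (hM : SuppIn M a) (hM' : SuppIn M a')
    (h : ∀ n ∈ S, lg a n = lg a' n) : Agree S a a' := by
  have hJ : Agree S (inv a * Der deg a) (inv a' * Der deg a') := by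
    intro n hn
    by_cases h0 : deg n = 0
    · have h1 : (inv a * Der deg a).c n = 0 := by
        by_contra h1; have := J_deg_pos_lg ha deg h1; omega
      have h2 : (inv a' * Der deg a').c n = 0 := by
        by_contra h2; have := J_deg_pos_lg ha' deg h2; omega
      rw [h1, h2]
    · exact (div_left_inj' (intCast_ne_zero_lg h0)).1 (h n hn)
  have sJ := (ha.suppIn_inv hM).mul (hM.der_lg deg)
  have sJ' := (ha'.suppIn_inv hM').mul (hM'.der_lg deg)
  intro n
  refine deg_induction_lg deg (P := fun n => n ∈ S → a.c n = a'.c n) (fun n ih hn => ?_) n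
  by_cases hn0 : n = 0
  · rw [hn0, ha.1, ha'.1]
  by_cases h0 : deg n = 0
  · have h1 : a.c n = 0 := by by_contra h1; have := ha.2 n hn0 h1; omega
    have h2 : a'.c n = 0 := by by_contra h2; have := ha'.2 n hn0 h2; omega
    rw [h1, h2]
  have e : a * (inv a * Der deg a) - a' * (inv a' * Der deg a') =
      (a - a') * (inv a * Der deg a) + a' * (inv a * Der deg a - inv a' * Der deg a') := by
    rw [sub_mul, mul_sub]; abel
  rw [Ring.mul_inverse_cancel_left _ _ ha.isUnit, Ring.mul_inverse_cancel_left _ _ ha'.isUnit] at e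
  have e1 : ((a - a') * (inv a * Der deg a)).c n = 0 := by
    by_contra h1
    obtain ⟨p, h2, h3⟩ := QT.exists_of_mul_c_ne_zero _ _ _ h1
    have h4 := J_deg_pos_lg ha deg h3
    rw [map_sub] at h4
    rw [QT.sub_c, Pi.sub_apply, sub_ne_zero] at h2
    have h5 : p ∈ M ∧ 0 ≤ deg p := by
      by_cases h6 : a.c p = 0
      · have h7 : a'.c p ≠ 0 := fun e => h2 (h6.trans e.symm)
        exact ⟨hM' p h7, ha'.nonneg_lg h7⟩
      · exact ⟨hM p h6, ha.nonneg_lg h6⟩
    exact h2 (ih p h5.2 (by omega) (hS p h5.1 _ (sJ _ h3) (by simpa using hn)))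
  have e2 : (a' * (inv a * Der deg a - inv a' * Der deg a')).c n = 0 := by
    by_contra h1
    obtain ⟨p, h2, h3⟩ := QT.exists_of_mul_c_ne_zero _ _ _ h1
    obtain ⟨h4, h5⟩ := sub_ne_zero_lg sJ sJ' hJ h3
    exact h5 (hS _ h4 p (hM' p h2) (by simpa using hn))
  have e' := congrArg (fun x : QT Ω deg => x.c n) e
  simp only [QT.add_c, Pi.add_apply, e1, e2, add_zero] at e'
  rw [QT.sub_c, Pi.sub_apply, sub_eq_zero] at e'
  exact mul_left_cancel₀ (intCast_ne_zero_lg h0) e'
lemma lg_mul {a b : QT Ω deg} (ha : IsG a) (hb : IsG b) (n : L)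
    (h1 : SuppIn {x | Ω.w x n = 0} a) (h2 : SuppIn {x | Ω.w x n = 0} b) :
    lg (a * b) n = lg a n + lg b n := by
  unfold lg
  rw [J_mul_lg ha hb deg n h2, add_div]
/-- Any derivation computes `lg` (factor `a` with respect to `deg n • ξ - ξ n • deg`). -/
lemma lg_der {a : QT Ω deg} (ha : IsG a) (n : L) (h1 : SuppIn {x | Ω.w x n = 0} a)
    (ξ : L →+ ℤ) : (inv a * Der ξ a).c n = (ξ n : K) * lg a n := by
  by_cases h0 : deg n = 0
  · have h2 : (inv a * Der ξ a).c n = 0 := by
      by_contra h2; have := J_deg_pos_lg ha ξ h2; omega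
    simp [h2, lg, h0]
  have hk := intCast_ne_zero_lg h0
  let ζ : L →+ ℤ := deg n • ξ - ξ n • deg
  have hζ : ζ n = 0 := by simp [ζ, mul_comm]
  have e1 : Der ζ a = (deg n : K) • Der ξ a - (ξ n : K) • Der deg a := by
    ext1; funext m
    simp [Der, ζ]
    ring
  have e2 : Der ζ (fzer a ζ) = 0 := by
    ext1; funext m
    by_cases hm : (fzer a ζ).c m = 0
    · simp [Der, hm]
    · have : ζ m = 0 := (isFact_fact ζ ha).2.2.2.2.1 m hm
      simp [Der, this]
  have e3 := J_fact_lg ha ζ n h1 ζ hζ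
  rw [e2, mul_zero, e1, mul_sub, QT.mul_smul', QT.mul_smul'] at e3
  simp only [QT.sub_c, QT.smul_c, Pi.sub_apply, Pi.smul_apply, smul_eq_mul, QT.zero_c,
    Pi.zero_apply] at e3
  unfold lg
  field_simp
  linear_combination e3
lemma lg_c_eq {deg' : L →+ ℤ} {a : QT Ω deg} {a' : QT Ω deg'} (ha : IsG a) (ha' : IsG a')
    (h : a.c = a'.c) (n : L) (h1 : SuppIn {x | Ω.w x n = 0} a) : lg a n = lg a' n := by
  have hJ : ∀ ξ : L →+ ℤ, (inv a * Der ξ a).c n = (inv a' * Der ξ a').c n := by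
    intro ξ
    rw [QT.mul_c, QT.mul_c, inv_c_eq ha ha' h]
    simp only [Der, h]
  have h1' : SuppIn {x | Ω.w x n = 0} a' := fun m hm => h1 m (by rwa [h])
  by_cases h0 : deg n = 0
  · by_cases h0' : deg' n = 0
    · simp [lg, h0, h0']
    · have := hJ deg'
      rw [lg_der ha n h1, lg_der ha' n h1'] at this
      exact mul_left_cancel₀ (intCast_ne_zero_lg h0') this
  · have := hJ deg
    rw [lg_der ha n h1, lg_der ha' n h1'] at this
    exact mul_left_cancel₀ (intCast_ne_zero_lg h0) this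
/-- If `Der deg a = a * j` then `lg a n = j n / deg n`. -/
lemma lg_eq_of_der {a j : QT Ω deg} (ha : IsG a) (h : Der deg a = a * j) (n : L) :
    lg a n = j.c n / (deg n : K) := by
  unfold lg
  rw [h, Ring.inverse_mul_cancel_left _ _ ha.isUnit]
/-- On elements commuting with `n`, `lg · n` only sees the zero part for any `η` killing `n`. -/
lemma lg_fzer {a : QT Ω deg} (ha : IsG a) (n : L) (h1 : SuppIn {x | Ω.w x n = 0} a)
    (η : L →+ Γ) (hη : η n = 0) : lg (fzer a η) n = lg a n := by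
  unfold lg
  rw [J_fact_lg ha deg n h1 η hη]
/-- First order dependence on the top coefficient. -/
lemma lg_fzer_first {M : AddSubmonoid L} {g g' : QT Ω deg} (hg : IsG g) (hg' : IsG g')
    (hM : SuppIn M g) (hM' : SuppIn M g') (θ : L →+ Γ) {n : L} (hn : n ≠ 0) (hθ : θ n = 0)
    (h : Agree (below M n \ {n}) g g') :
    lg (fzer g θ) n - lg (fzer g' θ) n = g.c n - g'.c n := by
  have hf := isFact_fact θ hg
  have hf' := isFact_fact θ hg'
  have hN := hM.inf_lg hg.suppIn_posM_lg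
  have hN' := hM'.inf_lg hg'.suppIn_posM_lg
  have hS := lowerIn_below_diff_lg (deg := deg) M n
  have hA : Agree (below (M ⊓ posM deg) n \ {n}) g g' :=
    fun x hx => h x ⟨⟨hx.1.1.1, hx.1.2.1⟩, hx.2⟩
  obtain ⟨a1, a2, a3⟩ := IsFact.agree hS hf hf' hN hN' hA (fun _ _ => ⟨Iff.rfl, Iff.rfl⟩)
  obtain ⟨s1, s2, s3⟩ := hf.suppIn hN
  obtain ⟨s1', s2', s3'⟩ := hf'.suppIn hN'
  obtain ⟨g1, g2, g3, t1, t2, t3, e⟩ := hf
  obtain ⟨g1', g2', g3', t1', t2', t3', e'⟩ := hf'
  have z : ∀ {η : L →+ Γ} {x : QT Ω deg}, SuppIn (negM η) x → η n = 0 → x.c n = 0 := by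
    intro η x hx hη
    by_contra h1
    rcases (show n = 0 ∨ η n < 0 from hx n h1) with h2 | h2
    · exact hn h2
    · exact lt_irrefl _ (hη ▸ h2)
  have m1 := mul_first_lg s1 s1' s2 s2' a1 a2
  have m2 := mul_first_lg (s1.mul s2) (s1'.mul s2') s3 s3'
    (Agree.mul0_lg hS s1 s1' s2 s2' a1 a2) a3
  rw [← e, ← e', m1, z t1 hθ, z t1' hθ, z (η := -θ) t3 (by simp [hθ]),
    z (η := -θ) t3' (by simp [hθ]), g1'.1, g3.1] at m2
  have m3 := mul_first_lg (g2.suppIn_inv s2) (g2'.suppIn_inv s2') (s2.der_lg deg) (s2'.der_lg deg)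
    (Agree.inv hS g2 g2' s2 s2' a2) (fun m hm => by simp only [Der]; rw [a2 m hm])
  rw [g2'.inv.1] at m3
  by_cases h0 : deg n = 0
  · have h1 : g.c n = 0 := by by_contra h1; have := hg.2 n hn h1; omega
    have h2 : g'.c n = 0 := by by_contra h2; have := hg'.2 n hn h2; omega
    simp [lg, h0, h1, h2]
  have hk := intCast_ne_zero_lg h0
  unfold lg
  rw [← sub_div, m3, m2]
  simp only [Der, map_zero, Int.cast_zero]
  field_simp
  ring
lemma att_c_eq {deg' : L →+ ℤ} {g : QT Ω deg} {g' : QT Ω deg'} (hg : IsG g) (hg' : IsG g')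
    (h : g.c = g'.c) (n : L) : att g n = att g' n := by
  exact lg_c_eq (isFact_fact _ hg).2.1 (isFact_fact _ hg').2.1 (fact_c_eq _ hg hg' h).2.1 n
    (isFact_fact (Ω.th n) hg).2.2.2.2.1
lemma att_agree {M : AddSubmonoid L} {S : Set L} (hS : LowerIn M S) {g g' : QT Ω deg}
    (hg : IsG g) (hg' : IsG g') (hM : SuppIn M g) (hM' : SuppIn M g') (h : Agree S g g')
    {n : L} (hn : n ∈ S) : att g n = att g' n := by
  have hf := isFact_fact (Ω.th n) hg
  have hf' := isFact_fact (Ω.th n) hg'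
  exact lg_agree hS hf.2.1 hf'.2.1 (hf.suppIn hM).2.1 (hf'.suppIn hM').2.1
    (IsFact.agree hS hf hf' hM hM' h (fun _ _ => ⟨Iff.rfl, Iff.rfl⟩)).2.1 hn
/-- Kontsevich–Soibelman uniqueness. -/
lemma agree_of_att {M : AddSubmonoid L} {S : Set L} (hS : LowerIn M S) {g g' : QT Ω deg}
    (hg : IsG g) (hg' : IsG g') (hM : SuppIn M g) (hM' : SuppIn M g')
    (h : ∀ n ∈ S, att g n = att g' n) : Agree S g g' := by
  intro n
  refine deg_induction_lg deg (P := fun n => n ∈ S → g.c n = g'.c n) (fun n ih hn => ?_) n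
  by_cases hn0 : n = 0
  · rw [hn0, hg.1, hg'.1]
  have := lg_fzer_first hg hg' (hM.inf_lg hg.suppIn_posM_lg) (hM'.inf_lg hg'.suppIn_posM_lg)
    (Ω.th n) hn0 (Ω.alt n) (by
      rintro x ⟨⟨h1, h2⟩, h3⟩
      have h4 := (mem_posM_lg.1 h2.2).resolve_left (fun e => h3 (sub_eq_zero.1 e).symm)
      rw [map_sub] at h4
      refine ih x ?_ (by omega) (hS x h1.1 _ h2.1 (by simpa using hn))
      rcases mem_posM_lg.1 h1.2 with h5 | h5
      · simp [h5]
      · exact h5.le)
  change att g n - att g' n = _ at this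
  rw [h n hn, sub_self] at this
  exact sub_eq_zero.1 this.symm
/-- Kontsevich–Soibelman existence. -/
lemma exists_att {M : AddSubmonoid L} (hM : GoodCone deg M) (y : L → K)
    (hy : ∀ n, y n ≠ 0 → n ∈ M ∧ n ≠ 0) :
    ∃ g : QT Ω deg, IsG g ∧ SuppIn M g ∧ ∀ n, att g n = y n := by
  let G : (L → K) → QT Ω deg := fun f =>
    ⟨fun m => if m = 0 then 1 else if m ∈ M then f m else 0, hM.adm 0 (fun m hm => by
      rw [sub_zero]
      by_contra h1
      have h2 : m ≠ 0 := fun e => h1 (e ▸ zero_mem M)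
      simp [h1, h2] at hm)⟩
  have hS : ∀ f, SuppIn M (G f) := by
    intro f m hm
    by_contra h1
    have h2 : m ≠ 0 := fun e => h1 (e ▸ zero_mem M)
    have h3 : m ∉ M := h1
    simp [G, h3, h2] at hm
  have hG : ∀ f, IsG (G f) := fun f => ⟨by simp [G], fun m h0 hm => hM.1 m (hS f m hm) h0⟩
  obtain ⟨f, hf⟩ := tri_solve_lg (fun n => (deg n).toNat) {n | n ∈ M ∧ n ≠ 0}
    (fun f n => att (G f) n) (by
      rintro f f' n ⟨h1, h2⟩ h
      have := lg_fzer_first (hG f) (hG f') (hS f) (hS f') (Ω.th n) h2 (Ω.alt n) (by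
        rintro x ⟨⟨h3, h4⟩, h5⟩
        have h6 := hM.1 _ h4 (fun e => h5 (sub_eq_zero.1 e).symm)
        have h7 := hM.nonneg h3
        rw [map_sub] at h6
        simp only [G]
        rw [h x (by omega)])
      simpa [G, h1, h2, att] using this) y
  refine ⟨G f, hG f, hS f, fun n => ?_⟩
  by_cases hn : n ∈ M ∧ n ≠ 0
  · exact hf n hn
  · have h1 : y n = 0 := by by_contra h1; exact hn (hy n h1)
    rw [h1]
    by_cases h0 : n = 0
    · rw [h0]; exact lg_zero
    · have hf := isFact_fact (Ω.th n) (hG f)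
      exact lg_eq_zero hf.2.1 (hf.suppIn (hS f)).2.1 (fun h2 => hn ⟨h2, h0⟩)

lemma asym_add (g f f' : QT Ω deg) (m : L) : asym g (f + f') m = asym g f m + asym g f' m := by
  simp [asym, chart, mul_add, add_mul]
lemma asym_smul (g f : QT Ω deg) (x : K) (m : L) : asym g (x • f) m = x * asym g f m := by
  unfold asym chart
  rw [QT.mul_smul', QT.smul_mul']
  rfl
lemma asym_eq_zero {M : AddSubmonoid L} {g f : QT Ω deg} {p : L} (hg : IsG g)
    (hM : SuppIn M g) (hf : SuppIn (shift p M) f) {m : L} (hm : m - p ∉ M) :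
    asym g f m = 0 := by
  by_contra h
  exact hm (chart_suppIn (Ω.th m) hg hM hf m h)
/-- An element is determined by its asymptotic coefficients. -/
lemma eq_zero_of_asym {M : AddSubmonoid L} (hM : GoodCone deg M) {g f : QT Ω deg} {p : L}
    (hg : IsG g) (hgM : SuppIn M g) (hf : SuppIn (shift p M) f) (h : ∀ m, asym g f m = 0) :
    f = 0 := by
  ext1; funext n
  refine deg_induction_lg (fun n => deg (n - p)) (P := fun n => f.c n = 0) (fun n ih => ?_) n
  have hF := isFact_fact (Ω.th n) hg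
  rw [← conj_c_top_lg hF.1 (hF.suppIn hgM).1 n (d := f)]
  · exact h n
  · intro x h1 h2
    by_contra h3
    have h4 := hM.1 _ h1 (fun e => h2 (sub_eq_zero.1 e).symm)
    refine h3 (ih x (hM.nonneg (hf x h3)) ?_)
    simp only [map_sub] at h4 ⊢
    omega
/-- Theta functions exist. -/
lemma exists_asym {M : AddSubmonoid L} (hM : GoodCone deg M) {g : QT Ω deg} (p : L)
    (hg : IsG g) (hgM : SuppIn M g) (y : L → K) (hy : ∀ m, y m ≠ 0 → m - p ∈ M) :
    ∃ f : QT Ω deg, SuppIn (shift p M) f ∧ ∀ m, asym g f m = y m := by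
  let G : (L → K) → QT Ω deg := fun f =>
    ⟨fun m => if m - p ∈ M then f m else 0, hM.adm p (fun m hm => by
      by_contra h1
      simp [h1] at hm)⟩
  have hS : ∀ f, SuppIn (shift p M) (G f) := by
    intro f m hm
    by_contra h1
    have h2 : m - p ∉ M := h1
    simp [G, h2] at hm
  obtain ⟨f, hf⟩ := tri_solve_lg (fun n => (deg (n - p)).toNat) {n | n - p ∈ M}
    (fun f n => asym g (G f) n) (by
      intro f f' n h1 h
      have h1' : n - p ∈ M := h1
      have hF := isFact_fact (Ω.th n) hg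
      have := conj_c_top_lg hF.1 (hF.suppIn hgM).1 n (d := G f - G f') (by
        intro x h2 h3
        by_cases h4 : x - p ∈ M
        · have h5 := hM.1 _ h2 (fun e => h3 (sub_eq_zero.1 e).symm)
          have h6 := hM.nonneg h4
          have h7 : f x = f' x := h x (by
            simp only [map_sub] at h5 h6 ⊢
            omega)
          simp [G, h7]
        · simp [G, h4])
      rw [mul_sub, sub_mul] at this
      simpa [G, h1', asym, chart] using this) y
  refine ⟨G f, hS f, fun n => ?_⟩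
  by_cases hn : n - p ∈ M
  · exact hf n hn
  · have h1 : y n = 0 := by by_contra h1; exact hn (hy n h1)
    rw [h1]
    exact asym_eq_zero hg hgM (hS f) hn
/-- A monomial in the closed positive chamber is a theta function. -/
lemma asym_mono {M : AddSubmonoid L} {g : QT Ω deg} (hg : IsG g) (hM : SuppIn M g) {p : L}
    (hp : ∀ x ∈ M, 0 ≤ Ω.w x p) (m : L) :
    asym g (QT.mono p 1) m = if m = p then 1 else 0 := by
  have hF := isFact_fact (Ω.th m) hg
  split_ifs with hm
  · subst hm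
    unfold asym chart
    rw [conj_c_top_lg hF.1 (hF.suppIn hM).1 m (fun x _ h => by simp [QT.mono_c, h])]
    simp [QT.mono_c]
  · by_contra h0
    have hN := (hF.suppIn hM).1.inf_lg hF.2.2.2.1
    have h1 := SuppIn.mul_shift (M := M ⊓ negM (Ω.th m)) (p := 0) (q := p)
      (a := inv (fneg g (Ω.th m))) (b := QT.mono p 1)
      (by rw [shift_zero_lg]; exact hF.1.suppIn_inv hN)
      (fun x hx => by
        have : x = p := by by_contra h; simp [QT.mono_c, h] at hx
        simp [shift, this])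
    have h2 := SuppIn.mul_shift (q := 0) h1 (b := fneg g (Ω.th m)) (by rw [shift_zero_lg]; exact hN)
    have h3 : m - (0 + p + 0) ∈ M ⊓ negM (Ω.th m) := h2 m h0
    rw [zero_add, add_zero] at h3
    have h4 : Ω.w (m - p) m < 0 :=
      (show m - p = 0 ∨ Ω.w (m - p) m < 0 from h3.2).resolve_left (fun e => hm (sub_eq_zero.1 e))
    have h5 := hp _ h3.1
    have h6 := Ω.alt (m - p)
    rw [map_sub (Ω.w (m - p))] at h6
    omega

end Crest.Agent.R059
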