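import Crest.Agent.R059.Word

/-! Row 59: generating functions of words (auxiliary to `Mass`). -/

set_option autoImplicit false
set_option linter.unusedSectionVars false
set_option linter.unusedVariables false

noncomputable section
open Classical

namespace Crest.Agent.R059

section words
variable {W : Type} [Fintype W] {A : Type} [Ring A]

/-- all consecutive letters are related -/
def MCons (R : W → W → Prop) {j : ℕ} (w : Fin j → W) : Prop :=
  ∀ i i' : Fin j, i'.val = i.val + 1 → R (w i) (w i')

lemma mcons_cons_cons (R : W → W → Prop) {j : ℕ} (a b : W) (w : Fin j → W) :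
    MCons R (Fin.cons a (Fin.cons b w : Fin (j + 1) → W) : Fin (j + 2) → W) ↔
      R a b ∧ MCons R (Fin.cons b w : Fin (j + 1) → W) := by
  constructor
  · intro h
    refine ⟨h 0 1 rfl, fun i i' hi => ?_⟩
    have := h i.succ i'.succ (by simp [hi])
    simpa only [Fin.cons_succ] using this
  · rintro ⟨h1, h2⟩ i i' hi
    cases i' using Fin.cases with
    | zero => simp at hi
    | succ i' =>
      cases i using Fin.cases with
      | zero =>
        have : i' = 0 := Fin.ext (by simpa using hi)
        subst this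
        exact h1
      | succ i =>
        simp only [Fin.cons_succ]
        exact h2 i i' (by simpa using hi)

lemma mcons_single (R : W → W → Prop) (w : Fin 1 → W) : MCons R w := by
  intro i i' hi
  have := i'.2
  omega

lemma mcons_nil (R : W → W → Prop) (w : Fin 0 → W) : MCons R w := fun i => i.elim0

/-- the product of the letters -/
def mwd (m : W → A) {j : ℕ} (w : Fin j → W) : A := (List.ofFn fun i => m (w i)).prod

lemma mwd_cons (m : W → A) {j : ℕ} (a : W) (w : Fin j → W) :
    mwd m (Fin.cons a w : Fin (j + 1) → W) = m a * mwd m w := by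
  simp [mwd, List.ofFn_succ]

def mS (m : W → A) (R : W → W → Prop) (j : ℕ) : A :=
  ∑ w : Fin j → W, if MCons R w then mwd m w else 0

def mT (m : W → A) (R : W → W → Prop) (a : W) (j : ℕ) : A :=
  ∑ w : Fin j → W, if MCons R (Fin.cons a w : Fin (j + 1) → W) then mwd m w else 0

lemma mass_sum_cons {j : ℕ} (f : (Fin (j + 1) → W) → A) :
    ∑ w, f w = ∑ a : W, ∑ w : Fin j → W, f (Fin.cons a w) := by
  rw [← Equiv.sum_comp (Fin.consEquiv fun _ => W), Fintype.sum_prod_type]
  rfl

lemma mS_zero (m : W → A) (R : W → W → Prop) : mS m R 0 = 1 := by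
  simp [mS, mcons_nil, mwd]

lemma mT_zero (m : W → A) (R : W → W → Prop) (a : W) : mT m R a 0 = 1 := by
  simp [mT, mcons_single, mwd]

lemma mS_succ (m : W → A) (R : W → W → Prop) (j : ℕ) :
    mS m R (j + 1) = ∑ a, m a * mT m R a j := by
  rw [mS, mass_sum_cons]
  refine Finset.sum_congr rfl fun a _ => ?_
  rw [mT, Finset.mul_sum]
  refine Finset.sum_congr rfl fun w _ => ?_
  rw [mwd_cons]
  split_ifs <;> simp

lemma mT_succ (m : W → A) (R : W → W → Prop) (a : W) (j : ℕ) :
    mT m R a (j + 1) = ∑ b, if R a b then m b * mT m R b j else 0 := by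
  rw [mT, mass_sum_cons]
  refine Finset.sum_congr rfl fun b _ => ?_
  rw [mT, Finset.mul_sum]
  by_cases h : R a b
  · rw [if_pos h]
    refine Finset.sum_congr rfl fun w _ => ?_
    rw [mwd_cons, mcons_cons_cons]
    simp only [h, true_and]
    split_ifs <;> simp
  · rw [if_neg h]
    refine Finset.sum_eq_zero fun w _ => ?_
    rw [mcons_cons_cons, if_neg fun h' => h h'.1]

lemma mT_not (m : W → A) (D : W → W → Prop) (j : ℕ) : ∀ a : W,
    mT m (fun a b => ¬ D a b) a j = ∑ k ∈ Finset.range (j + 1),
      (-1 : ℤ) ^ k • (mT m D a k * mS m (fun a b => ¬ D a b) (j - k)) := by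
  induction j with
  | zero => intro a; simp [mT_zero, mS_zero]
  | succ j ih =>
    intro a
    rw [Finset.sum_range_succ', mT_zero, pow_zero, one_smul, one_mul, Nat.sub_zero, mT_succ,
      mS_succ]
    have e : ∑ k ∈ Finset.range (j + 1), (-1 : ℤ) ^ (k + 1) •
        (mT m D a (k + 1) * mS m (fun a b => ¬ D a b) (j + 1 - (k + 1))) =
        ∑ b, if D a b then -(m b * mT m (fun a b => ¬ D a b) b j) else 0 := by
      simp only [mT_succ m D a, Finset.sum_mul, Finset.smul_sum]
      rw [Finset.sum_comm]
      refine Finset.sum_congr rfl fun b _ => ?_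
      by_cases h : D a b
      · simp only [if_pos h]
        rw [ih b, Finset.mul_sum, ← Finset.sum_neg_distrib]
        refine Finset.sum_congr rfl fun k _ => ?_
        rw [Nat.add_sub_add_right, pow_succ, mul_neg_one, neg_smul, mul_smul_comm, mul_assoc]
      · simp [if_neg h]
    rw [e, ← Finset.sum_add_distrib]
    refine Finset.sum_congr rfl fun b _ => ?_
    by_cases h : D a b <;> simp [h]

lemma mS_not (m : W → A) (D : W → W → Prop) (j : ℕ) :
    mS m (fun a b => ¬ D a b) (j + 1) = ∑ k ∈ Finset.range (j + 1),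
      (-1 : ℤ) ^ k • (mS m D (k + 1) * mS m (fun a b => ¬ D a b) (j - k)) := by
  rw [mS_succ]
  simp only [mT_not m D j, mS_succ m D, Finset.mul_sum, Finset.sum_mul, Finset.smul_sum]
  rw [Finset.sum_comm]
  refine Finset.sum_congr rfl fun k _ => Finset.sum_congr rfl fun a _ => ?_
  rw [mul_smul_comm, mul_assoc]

end words

section
variable {L : Type} [AddCommGroup L] {Ω : Form L} {deg : L →+ ℤ}

lemma mass_prod_mono {j : ℕ} (x : Fin j → L) :
    (List.ofFn fun i => (QT.mono (x i) 1 : QT Ω deg)).prod =
      QT.mono (∑ i, x i) (vp (∑ i, ∑ i', if i < i' then Ω.w (x i) (x i') else 0)) := by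
  induction j with
  | zero => simp [vp_zero]; rfl
  | succ j ih =>
    rw [List.ofFn_succ, List.prod_cons, ih, QT.mono_mul_mono, one_mul, ← vp_add]
    simp only [Fin.sum_univ_succ, lt_self_iff_false, if_false, Fin.succ_pos, if_true, zero_add,
      Fin.not_lt_zero, Fin.succ_lt_succ_iff, map_sum]
    rw [add_comm (Finset.sum _ _) (Finset.sum _ _)]

end

lemma mass_count {α : Type} [DecidableEq α] {j : ℕ} (u : Fin j → α) (a : α) :
    (List.ofFn u).count a = (Finset.univ.filter fun i => u i = a).card := by
  rw [← Multiset.coe_count, ← Fin.univ_val_map, Multiset.count_map, Finset.card_def,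
    Finset.filter_val]
  simp only [eq_comm]

lemma mass_monotone {j : ℕ} {α : Type} [Preorder α] {u : Fin j → α}
    (h : ∀ i i' : Fin j, i'.val = i.val + 1 → u i ≤ u i') : Monotone u := by
  cases j with
  | zero => intro i; exact i.elim0
  | succ j => exact Fin.monotone_iff_le_succ.mpr fun i => h _ _ (by simp)

lemma mass_exists_unique {r j : ℕ} (lam : Fin r → ℕ) (hl : ∑ i, lam i = j) :
    ∃! u : Fin j → Fin r, Monotone u ∧ ∀ a, (Finset.univ.filter fun i => u i = a).card = lam a := by
  refine existsUnique_of_exists_of_unique ?_ ?_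
  · obtain ⟨l, h1, h2⟩ : ∃ l : List (Fin r), l.Pairwise (· ≤ ·) ∧
        (l : Multiset (Fin r)) = ∑ a, Multiset.replicate (lam a) a :=
      ⟨_, Multiset.pairwise_sort _ _, Multiset.sort_eq _ _⟩
    have h3 : l.length = j := by
      rw [← Multiset.coe_card, h2, ← hl]; simp
    subst h3
    refine ⟨l.get, ?_, fun a => ?_⟩
    · rw [← List.sortedLE_ofFn_iff, List.ofFn_get]
      exact h1.sortedLE
    · rw [← mass_count, List.ofFn_get, ← Multiset.coe_count, h2, Multiset.count_sum']
      simp [Multiset.count_replicate]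
  · rintro u v ⟨hu, hu'⟩ ⟨hv, hv'⟩
    refine List.ofFn_injective (List.Perm.eq_of_sortedLE hu.sortedLE_ofFn hv.sortedLE_ofFn ?_)
    rw [List.perm_iff_count]
    intro a
    rw [mass_count, mass_count, hu', hv']

end Crest.Agent.R059
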