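import Crest.Agent.R059.Seed

/-! Row 59: mutation invariance and green sequences. -/

set_option autoImplicit false
set_option linter.unusedSectionVars false
set_option linter.unusedVariables false

noncomputable section
open Classical

namespace Crest.Agent.R059

variable {L : Type} [AddCommGroup L] [Module.Free ℤ L] [Module.Finite ℤ L]
variable {Ω : Form L} {deg : L →+ ℤ}

lemma mut_exists_hom {s : Finset L} (hs : IsSeed s) (f : L → ℤ) :
    ∃ φ : L →+ ℤ, ∀ F ∈ s, φ F = f F := by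
  choose! κ h1 h2 using hs
  refine ⟨∑ G ∈ s, f G • κ G, fun F hF => ?_⟩
  rw [AddMonoidHom.finsetSum_apply, Finset.sum_eq_single F]
  · simp [h1 F hF]
  · intro G hG hne
    simp [h2 G hG F hF hne.symm]
  · exact fun h => absurd hF h

lemma mut_lgP_zero {F n : L} (k : ℤ) (h : ∀ e : ℕ, 0 < e → n ≠ e • F) : lgP F k n = 0 := by
  by_contra h'
  obtain ⟨e, he, h2⟩ := lgP_ne_zero h'
  exact h e he h2

lemma mut_lgP_w {F n : L} (k : ℤ) (h : Ω.w F n ≠ 0) : lgP F k n = 0 :=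
  mut_lgP_zero k fun e _ he => h (by simp [he, Ω.alt])

lemma mut_att_left {F : L} (hF : 0 < deg F) {u : QT Ω deg} (hu : IsG u) {n : L}
    (h : Ω.w F n ≤ 0) : att (Phi Ω deg F 1 * u) n = lgP F 1 n + att u n := by
  rcases h.lt_or_eq with h | h
  · rw [att, fact_neg_mul _ (isG_Phi F 1) hu (suppIn_Phi (M := negM (Ω.th n)) (Or.inr h) 1),
      mut_lgP_w 1 h.ne, zero_add, att]
  · have h1 : SuppIn (zerM (Ω.th n)) (Phi Ω deg F 1) := suppIn_Phi (M := zerM (Ω.th n)) h 1
    have h2 := isFact_fact (Ω.th n) hu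
    rw [att, fact_zer_mul _ (isG_Phi F 1) hu h1, lg_mul (isG_Phi F 1) h2.2.1 n h1 h2.2.2.2.2.1,
      lg_Phi hF, att]

lemma mut_att_right {F : L} (hF : 0 < deg F) {u : QT Ω deg} (hu : IsG u) {n : L}
    (h : 0 ≤ Ω.w F n) : att (u * Phi Ω deg F 1) n = lgP F 1 n + att u n := by
  rcases h.lt_or_eq with h | h
  · rw [att, fact_mul_pos _ hu (isG_Phi F 1)
      (suppIn_Phi (M := posM (Ω.th n)) (mem_posM.2 (Or.inr h)) 1), mut_lgP_w 1 h.ne', zero_add, att]
  · have h1 : SuppIn (zerM (Ω.th n)) (Phi Ω deg F 1) := suppIn_Phi (M := zerM (Ω.th n)) h.symm 1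
    have h2 := isFact_fact (Ω.th n) hu
    rw [att, fact_mul_zer _ hu (isG_Phi F 1) h1, lg_mul h2.2.1 (isG_Phi F 1) n h2.2.2.2.2.1 h1,
      lg_Phi hF, att, add_comm]

lemma mut_att_one (n : L) : att (1 : QT Ω deg) n = 0 := by
  have : IsFact (Ω.th n) (1 : QT Ω deg) 1 1 1 :=
    ⟨IsG.one, IsG.one, IsG.one, suppIn_one _, suppIn_one _, suppIn_one _, by simp⟩
  rw [att, this.eq.2.1, lg_one]

lemma mut_att_Phi {F : L} (hF : 0 < deg F) (n : L) : att (Phi Ω deg F 1) n = lgP F 1 n := by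
  rcases le_total (Ω.w F n) 0 with h | h
  · simpa [mut_att_one] using mut_att_left hF IsG.one h
  · simpa [mut_att_one] using mut_att_right hF IsG.one h

lemma mut_step {u : QT Ω deg} (hu : IsG u) (δ χ : L →+ ℤ) (h0 : SuppIn (posM δ) u) {n : L}
    (ih : ∀ x, δ x < δ n → u.c x ≠ 0 → 0 ≤ χ x) (ha : att u n = 0) (hn : χ n < 0) : u.c n = 0 := by
  have hn0 : n ≠ 0 := fun e => by simp [e] at hn
  by_contra hc
  have hδ : 0 < δ n := (mem_posM.1 (h0 n hc)).resolve_left hn0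
  have hr : ∀ x, (restrict {x | δ x < δ n} u).c x = if δ x < δ n then u.c x else 0 :=
    fun x => by simp [restrict]
  have hs : ∀ x, (restrict {x | δ x < δ n} u).c x ≠ 0 → δ x < δ n ∧ u.c x ≠ 0 := fun x hx => by
    rw [hr] at hx
    split_ifs at hx with h
    · exact ⟨h, hx⟩
    · exact absurd rfl hx
  have hG : IsG (restrict {x | δ x < δ n} u) :=
    ⟨by rw [hr, map_zero, if_pos hδ, hu.1], fun x hx h => hu.2 x hx (hs x h).2⟩
  have h1 := lg_fzer_first hu hG h0 (fun x hx => h0 x (hs x hx).2) (Ω.th n) hn0 (Ω.alt n) (by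
    rintro x ⟨⟨h2, h3⟩, h4⟩
    have h5 := (mem_posM.1 h3).resolve_left fun e => h4 (sub_eq_zero.1 e).symm
    rw [map_sub] at h5
    rw [hr, if_pos (by omega)])
  have h2 := isFact_fact (Ω.th n) hG
  have h3 : SuppIn (nnM χ) (restrict {x | δ x < δ n} u) := fun x hx =>
    mem_nnM.2 (ih x (hs x hx).1 (hs x hx).2)
  rw [lg_eq_zero h2.2.1 (h2.suppIn h3).2.1 (fun h => absurd (mem_nnM.1 h) (not_le.2 hn)), hr,
    if_neg (lt_irrefl _), sub_zero, sub_zero] at h1
  exact hc (h1.symm.trans ha)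

/-- restriction to a level set -/
abbrev mutR (ξ : L →+ ℤ) (e : ℤ) (a : QT Ω deg) : QT Ω deg := restrict {x | ξ x = e} a

lemma mutR_c (ξ : L →+ ℤ) (e : ℤ) (a : QT Ω deg) (x : L) :
    (mutR ξ e a).c x = if ξ x = e then a.c x else 0 := by simp [restrict]

lemma mutR_supp {ξ : L →+ ℤ} {e : ℤ} {a : QT Ω deg} (x : L) (h : (mutR ξ e a).c x ≠ 0) :
    ξ x = e := by
  by_contra h'
  exact h (by rw [mutR_c, if_neg h'])

lemma mutR_right {ξ : L →+ ℤ} (e : ℤ) {A : QT Ω deg} (hA : ∀ x, A.c x ≠ 0 → ξ x = 0)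
    (f : QT Ω deg) : mutR ξ e (f * A) = mutR ξ e f * A := by
  refine QT.ext (funext fun n => ?_)
  rw [mutR_c, QT.mul_c, QT.mul_c, mulF, mulF]
  have key : ∀ p, A.c (n - p) = 0 ∨ ξ p = ξ n := fun p => by
    by_cases h : A.c (n - p) = 0
    · exact Or.inl h
    · have := hA _ h
      rw [map_sub] at this
      exact Or.inr (by omega)
  split_ifs with hn
  · refine finsum_congr fun p => ?_
    rcases key p with h | h
    · simp [h]
    · rw [mutR_c, if_pos (h.trans hn)]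
  · refine (finsum_eq_zero_of_forall_eq_zero fun p => ?_).symm
    rcases key p with h | h
    · simp [h]
    · rw [mutR_c, if_neg (h ▸ hn), zero_mul, zero_mul]

lemma mutR_left {ξ : L →+ ℤ} (e : ℤ) {A : QT Ω deg} (hA : ∀ x, A.c x ≠ 0 → ξ x = 0)
    (f : QT Ω deg) : mutR ξ e (A * f) = A * mutR ξ e f := by
  refine QT.ext (funext fun n => ?_)
  rw [mutR_c, QT.mul_c, QT.mul_c, mulF, mulF]
  have key : ∀ p, A.c p = 0 ∨ ξ (n - p) = ξ n := fun p => by
    by_cases h : A.c p = 0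
    · exact Or.inl h
    · exact Or.inr (by rw [map_sub, hA _ h, sub_zero])
  split_ifs with hn
  · refine finsum_congr fun p => ?_
    rcases key p with h | h
    · simp [h]
    · rw [mutR_c, if_pos (h.trans hn)]
  · refine (finsum_eq_zero_of_forall_eq_zero fun p => ?_).symm
    rcases key p with h | h
    · simp [h]
    · rw [mutR_c, if_neg (h ▸ hn), mul_zero, zero_mul]

lemma mutR_ext (ξ : L →+ ℤ) {a b : QT Ω deg} (h : ∀ e, mutR ξ e a = mutR ξ e b) : a = b := by
  refine QT.ext (funext fun n => ?_)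
  have := congrArg (fun u : QT Ω deg => u.c n) (h (ξ n))
  simpa only [mutR_c, if_true] using this

lemma mut_Phi_w {F : L} {ξ : L →+ ℤ} (h : ξ F = 0) (x : L) (hx : (Phi Ω deg F 1).c x ≠ 0) :
    ξ x = 0 := suppIn_Phi (M := zerM ξ) h 1 x hx

lemma mut_Phi_pos {F : L} (hF : 0 < deg F) (e : ℕ) :
    Phi Ω deg F 1 = Phi Ω deg F (1 + 2 * e) * binP Ω deg F 1 e := by
  induction e with
  | zero => simp [binP]
  | succ e ih =>
    have h2 : 1 + 2 * ((e + 1 : ℕ) : ℤ) = 1 + 2 * e + 2 := by push_cast; ring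
    have h3 : 1 * (2 * (e : ℤ) + 1) = 1 + 2 * e := by ring
    rw [ih, Phi_odd hF (k := 1 + 2 * e) ((phi_odd_add 1 e).2 odd_one), h2, binP_succ, h3,
      binP_eq hF, phi_eq_ser hF, ← phiSer_CX hF, ← map_one (phiSer Ω hF), ← map_add]
    simp only [← map_mul]
    congr 1
    ring

lemma mut_Phi_neg {F : L} (hF : 0 < deg F) (e : ℕ) :
    Phi Ω deg F (1 + 2 * -e) = binP Ω deg F (-1) e * Phi Ω deg F 1 := by
  induction e with
  | zero => simp [binP]
  | succ e ih =>
    have h2 : 1 + 2 * -((e + 1 : ℕ) : ℤ) + 2 = 1 + 2 * -e := by push_cast; ring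
    have h3 : -1 * (2 * (e : ℤ) + 1) = 1 + 2 * -((e + 1 : ℕ) : ℤ) := by push_cast; ring
    rw [Phi_odd hF ((phi_odd_add 1 _).2 odd_one), h2, ih, binP_succ, h3,
      binP_eq hF, phi_eq_ser hF, ← phiSer_CX hF, ← map_one (phiSer Ω hF), ← map_add]
    simp only [← map_mul]
    congr 1
    ring

lemma mut_key_neg {F : L} (hF : 0 < deg F) {a : QT Ω deg} (b : QT Ω deg) {m : ℕ}
    (ha : ∀ x, a.c x ≠ 0 → Ω.w F x = -m) :
    Phi Ω deg F 1 * a = b * Phi Ω deg F 1 ↔ b = a * binP Ω deg F (-1) m := by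
  rw [phi_mul_comm hF 1 ha, mut_Phi_neg hF, ← mul_assoc,
    (isG_Phi (Ω := Ω) (deg := deg) F 1).isUnit.mul_left_inj, eq_comm]

lemma mut_key_pos {F : L} (hF : 0 < deg F) (a : QT Ω deg) {b : QT Ω deg} {m : ℕ}
    (hb : ∀ x, b.c x ≠ 0 → Ω.w F x = m) :
    Phi Ω deg F 1 * a = b * Phi Ω deg F 1 ↔ a = b * binP Ω deg F 1 m := by
  conv_lhs => rhs; rw [mut_Phi_pos hF m, ← mul_assoc, ← phi_mul_comm hF 1 hb, mul_assoc]
  exact (isG_Phi (Ω := Ω) (deg := deg) F 1).isUnit.mul_right_inj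

lemma mut_binP_supp (F : L) (s : ℤ) (m : ℕ) (x : L) (h : (binP Ω deg F s m).c x ≠ 0) :
    ∃ j : ℕ, j ≤ m ∧ x = j • F := by
  induction m generalizing x with
  | zero => exact ⟨0, le_rfl, by simpa using grp_one_c_ne (by simpa [binP] using h)⟩
  | succ m ih =>
    rw [binP_succ] at h
    obtain ⟨p, h1, h2⟩ := QT.exists_of_mul_c_ne_zero _ _ _ h
    obtain ⟨j, hj, rfl⟩ := ih p h1
    by_cases h3 : x - j • F = 0
    · exact ⟨j, by omega, sub_eq_zero.1 h3⟩
    · have h4 : x - j • F = F := by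
        by_contra h4
        exact h2 (by rw [QT.add_c, Pi.add_apply, one_c_apply, if_neg h3, QT.mono_c,
          Pi.single_eq_of_ne h4, add_zero])
      exact ⟨j + 1, by omega, by rw [add_smul, one_smul, add_comm, ← sub_eq_iff_eq_add, h4]⟩

lemma mut_binP_c (deg' : L →+ ℤ) (F : L) (s : ℤ) (m : ℕ) :
    (binP Ω deg F s m).c = (binP Ω deg' F s m).c := by
  induction m with
  | zero => rfl
  | succ m ih => rw [binP_succ, binP_succ, QT.mul_c, QT.mul_c, ih]; rfl

lemma mut_binP_comm (F : L) (s : ℤ) (m : ℕ) {p : L} (hp : Ω.w F p = 0) (y : K) :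
    Commute (QT.mono p y : QT Ω deg) (binP Ω deg F s m) := by
  induction m with
  | zero => simp [binP]
  | succ m ih =>
    rw [binP_succ]
    refine ih.mul_right ((Commute.one_right _).add_right ?_)
    have : Ω.w p F = 0 := by rw [Ω.skew, hp, neg_zero]
    rw [Commute, SemiconjBy, QT.mono_mul_mono, QT.mono_mul_mono, hp, this, add_comm, mul_comm y]

lemma mut_binP_pal (F : L) (s : ℤ) (m : ℕ) : binP Ω deg (-F) (-s) m =
    binP Ω deg F s m * QT.mono (-(m • F)) (vp (-s * m ^ 2)) := by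
  induction m with
  | zero => simp [binP, vp_zero]; rfl
  | succ m ih =>
    have h1 : (QT.mono (-(m • F)) (vp (-s * m ^ 2)) : QT Ω deg) *
        (1 + QT.mono (-F) (vp (-s * (2 * (m : ℤ) + 1)))) =
        (1 + QT.mono F (vp (s * (2 * (m : ℤ) + 1)))) *
          QT.mono (-((m + 1) • F)) (vp (-s * ((m + 1 : ℕ) : ℤ) ^ 2)) := by
      have e1 : Ω.w (-(m • F)) (-F) = 0 := by simp [Ω.alt]
      have e2 : Ω.w F (-((m + 1) • F)) = 0 := by simp [Ω.alt]
      rw [mul_add, add_mul, mul_one, one_mul, QT.mono_mul_mono, QT.mono_mul_mono, e1, e2, vp_zero,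
        mul_one, mul_one, ← vp_add, ← vp_add, add_comm]
      congr 2
      · rw [add_smul, one_smul]; abel
      · congr 1; push_cast; ring
      · rw [add_smul, one_smul]; abel
      · congr 1; push_cast; ring
    rw [binP_succ, binP_succ, ih, mul_assoc, h1, mul_assoc]

/-! ### transport along an isometry -/

/-- transport along an automorphism -/
def mutTr (T : L ≃+ L) (a : QT Ω deg) : QT Ω (deg.comp T.symm.toAddMonoidHom) :=
  ⟨fun n => a.c (T.symm n), fun D => ((a.adm D).image T).subset fun n hn =>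
    ⟨T.symm n, hn, T.apply_symm_apply n⟩⟩

lemma mutTr_mul {T : L ≃+ L} (hT : ∀ x y, Ω.w (T x) (T y) = Ω.w x y) (a b : QT Ω deg) :
    mutTr T (a * b) = mutTr T a * mutTr T b := by
  refine QT.ext (funext fun n => ?_)
  change mulF Ω a.c b.c (T.symm n) = mulF Ω (fun n => a.c (T.symm n)) (fun n => b.c (T.symm n)) n
  rw [mulF, mulF, ← finsum_comp_equiv T.symm.toEquiv]
  refine finsum_congr fun p => ?_
  rw [map_sub, ← hT]
  simp

lemma mutTr_one (T : L ≃+ L) : mutTr T (1 : QT Ω deg) = 1 := by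
  refine QT.ext (funext fun n => ?_)
  change (1 : QT Ω deg).c (T.symm n) = _
  simp [one_c_apply]

lemma mutTr_isG (T : L ≃+ L) {a : QT Ω deg} (ha : IsG a) : IsG (mutTr T a) :=
  ⟨by change a.c (T.symm 0) = 1; rw [map_zero, ha.1],
    fun n hn h => ha.2 (T.symm n) (by simpa using hn) h⟩

lemma mutTr_inv {T : L ≃+ L} (hT : ∀ x y, Ω.w (T x) (T y) = Ω.w x y) {a : QT Ω deg} (ha : IsG a) :
    inv (mutTr T a) = mutTr T (inv a) := by
  rw [inv, ← mul_one (Ring.inverse _),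
    Ring.inverse_mul_eq_iff_eq_mul _ _ _ (mutTr_isG T ha).isUnit, ← mutTr_mul hT,
    Ring.mul_inverse_cancel _ ha.isUnit, mutTr_one]

lemma mutTr_att {T : L ≃+ L} (hT : ∀ x y, Ω.w (T x) (T y) = Ω.w x y) {a : QT Ω deg} (ha : IsG a)
    (n : L) : att (mutTr T a) (T n) = att a n := by
  obtain ⟨g1, g2, g3, s1, s2, s3, e⟩ := isFact_fact (Ω.th n) ha
  have hth : ∀ x, Ω.th (T n) x = Ω.th n (T.symm x) := fun x => by
    change Ω.w x (T n) = Ω.w (T.symm x) n
    rw [← hT (T.symm x), T.apply_symm_apply]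
  have h : IsFact (Ω.th (T n)) (mutTr T a) (mutTr T (fneg a (Ω.th n))) (mutTr T (fzer a (Ω.th n)))
      (mutTr T (fpos a (Ω.th n))) := by
    refine ⟨mutTr_isG T g1, mutTr_isG T g2, mutTr_isG T g3, fun x hx => ?_, fun x hx => ?_,
      fun x hx => ?_, ?_⟩
    · rw [mem_negM, hth]
      simpa using mem_negM.1 (s1 _ hx)
    · rw [mem_zerM, hth]
      exact s2 _ hx
    · rw [mem_posM, hth]
      simpa using mem_posM.1 (s3 _ hx)
    · rw [← mutTr_mul hT, ← mutTr_mul hT, ← e]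
  have hD : Der (deg.comp T.symm.toAddMonoidHom) (mutTr T (fzer a (Ω.th n))) =
      mutTr T (Der deg (fzer a (Ω.th n))) := rfl
  rw [att, h.eq.2.1, lg, mutTr_inv hT g2, hD, ← mutTr_mul hT, att, lg]
  simp [mutTr]

/-- the shear `x ↦ x + ω(c, x) c` -/
def mutT (Ω : Form L) (c : L) : L ≃+ L where
  toFun x := x + Ω.w c x • c
  invFun x := x - Ω.w c x • c
  left_inv x := by simp [Ω.alt]
  right_inv x := by simp [Ω.alt]
  map_add' x y := by rw [map_add, add_smul]; abel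

lemma mutT_apply (c x : L) : mutT Ω c x = x + Ω.w c x • c := rfl
lemma mutT_symm_apply (c x : L) : (mutT Ω c).symm x = x - Ω.w c x • c := rfl

lemma mutT_iso (c x y : L) : Ω.w (mutT Ω c x) (mutT Ω c y) = Ω.w x y := by
  simp only [mutT_apply, map_add, map_zsmul, AddMonoidHom.add_apply, AddMonoidHom.zsmul_apply,
    Ω.alt, smul_eq_mul, Ω.skew x c]
  ring

lemma mut_lgP_map (T : L ≃+ L) (F n : L) : lgP (T F) 1 (T n) = lgP F 1 n := by
  unfold lgP
  refine finsum_congr fun e => ?_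
  rw [← map_nsmul, T.apply_eq_iff_eq]

/-! ### the main argument -/

lemma mut_mem_cone {s : Finset L} {c : L} {φ : L →+ ℤ} (h1 : φ c = -1)
    (h2 : ∀ F ∈ s, F ≠ c → φ F = (Ω.w c F).toNat) {y : L} (hy : y ∈ cone s) (j : ℤ)
    (hj : j ≤ φ y) : y + j • c ∈ cone (mutate Ω s c) := by
  have k1 : y + φ y • c ∈ cone (mutate Ω s c) := by
    clear hj
    induction hy using AddSubmonoid.closure_induction with
    | mem F hF =>
      by_cases h : F = c
      · rw [h, h1, neg_one_smul, add_neg_cancel]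
        exact zero_mem _
      · rw [h2 F hF h, natCast_zsmul]
        exact AddSubmonoid.subset_closure (Finset.mem_insert_of_mem
          (Finset.mem_image_of_mem _ (Finset.mem_erase.2 ⟨h, hF⟩)))
    | zero => simp
    | add x y _ _ hx hy =>
      rw [map_add, add_smul, add_add_add_comm]
      exact add_mem hx hy
  obtain ⟨i, hi⟩ := Int.eq_ofNat_of_zero_le (sub_nonneg.2 hj)
  have k2 : y + j • c = y + φ y • c + i • (-c) := by
    rw [← natCast_zsmul, ← hi, sub_smul, smul_neg, smul_neg]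
    abel
  rw [k2]
  exact add_mem k1 (AddSubmonoid.nsmul_mem _
    (AddSubmonoid.subset_closure (Finset.mem_insert_self _ _)) i)

lemma mut_att_h {s : Finset L} (hd : DegOK deg s) {c : L} (hc : c ∈ s) {g : QT Ω deg}
    (hg : IsCl s g) {n : L} (hn : Ω.w c n ≤ 0) :
    att (inv (Phi Ω deg c 1) * g) n = ∑ F ∈ s.erase c, lgP F 1 n := by
  have h1 := mut_att_left (hd c hc) ((isG_Phi c 1).inv.mul hg.1) hn
  rw [Ring.mul_inverse_cancel_left _ _ (isG_Phi c 1).isUnit, hg.2.2,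
    ← Finset.add_sum_erase _ _ hc] at h1
  exact (add_left_cancel h1).symm

lemma mut_att_hp {s : Finset L} (hd : DegOK deg s) {c : L} (hc : c ∈ s) {g : QT Ω deg}
    (hg : IsCl s g) {n : L} (hn : 0 ≤ Ω.w c n) :
    att (g * inv (Phi Ω deg c 1)) n = ∑ F ∈ s.erase c, lgP F 1 n := by
  have h1 := mut_att_right (hd c hc) (hg.1.mul (isG_Phi c 1).inv) hn
  rw [Ring.inverse_mul_cancel_right _ _ (isG_Phi c 1).isUnit, hg.2.2,
    ← Finset.add_sum_erase _ _ hc] at h1
  exact (add_left_cancel h1).symm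

lemma mut_rel (c : L) (g : QT Ω deg) (e : ℤ) :
    Phi Ω deg c 1 * mutR (Ω.w c) e (inv (Phi Ω deg c 1) * g) =
      mutR (Ω.w c) e (g * inv (Phi Ω deg c 1)) * Phi Ω deg c 1 := by
  rw [← mutR_left e (mut_Phi_w (Ω.alt c)), ← mutR_right e (mut_Phi_w (Ω.alt c)),
    Ring.mul_inverse_cancel_left _ _ (isG_Phi c 1).isUnit,
    Ring.inverse_mul_cancel_right _ _ (isG_Phi c 1).isUnit]

lemma mut_main {s : Finset L} (hs : IsSeed s) (hd : DegOK deg s) {c : L} (hc : c ∈ s)
    {g : QT Ω deg} (hg : IsCl s g) {φ : L →+ ℤ} (h1 : φ c = -1)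
    (h2 : ∀ F ∈ s, F ≠ c → φ F = (Ω.w c F).toNat) (n : L) :
    ((inv (Phi Ω deg c 1) * g).c n ≠ 0 → 0 ≤ φ n) ∧
      ((g * inv (Phi Ω deg c 1)).c n ≠ 0 → Ω.w c n ≤ φ n) := by
  obtain ⟨δ, hδ⟩ := mut_exists_hom hs fun F => if F = c then 0 else 1
  have δc : δ c = 0 := by simp [hδ c hc]
  have hE := isG_Phi (Ω := Ω) (deg := deg) c 1
  have sE : SuppIn (cone s) (Phi Ω deg c 1) := suppIn_Phi (AddSubmonoid.subset_closure hc) 1
  have sE' := hE.suppIn_inv sE
  have δ0 : ∀ x ∈ cone s, 0 ≤ δ x := fun x hx =>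
    (AddSubmonoid.closure_le (S := nnM δ)).2 (fun F hF => mem_nnM.2 (by
      rw [hδ F hF]; split_ifs <;> simp)) hx
  have hS : LowerIn (cone s) {x | δ x ≤ 0} := fun x _ y hy h => by
    have k1 := δ0 y hy
    have k2 : δ (x + y) ≤ 0 := h
    rw [map_add] at k2
    change δ x ≤ 0
    omega
  have hz : ∀ {χ : L →+ ℤ} {n : L}, (∀ F ∈ s, F ≠ c → 0 ≤ χ F) → χ n < 0 →
      ∑ F ∈ s.erase c, lgP F 1 n = 0 := fun {χ n} hχ hn =>
    Finset.sum_eq_zero fun F hF => mut_lgP_zero 1 fun e _ he => by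
      have k1 := hχ F (Finset.mem_of_mem_erase hF) (Finset.ne_of_mem_erase hF)
      rw [he, map_nsmul, nsmul_eq_mul] at hn
      exact absurd hn (not_lt.2 (by positivity))
  have hA : Agree {x | δ x ≤ 0} g (Phi Ω deg c 1) :=
    agree_of_att hS hg.1 hE hg.2.1 sE fun n hn => by
      rw [hg.2.2, mut_att_Phi (hd c hc), ← Finset.add_sum_erase _ _ hc, add_eq_left]
      refine Finset.sum_eq_zero fun F hF => mut_lgP_zero 1 fun e he0 he => ?_
      have k1 : δ n ≤ 0 := hn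
      rw [he, map_nsmul, hδ F (Finset.mem_of_mem_erase hF), if_neg (Finset.ne_of_mem_erase hF)] at k1
      simp at k1
      omega
  have hp : ∀ {u : QT Ω deg}, Agree {x | δ x ≤ 0} u 1 → SuppIn (posM δ) u := fun {u} hu x hx => by
    by_cases k : δ x ≤ 0
    · rw [hu x k] at hx
      exact mem_posM.2 (Or.inl (grp_one_c_ne hx))
    · exact mem_posM.2 (Or.inr (not_le.1 k))
  have p1 : SuppIn (posM δ) (inv (Phi Ω deg c 1) * g) := hp (by
    have := Agree.mul_zero_shift hS sE' sE' hg.2.1 sE (fun _ _ => rfl) hA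
    rwa [Ring.inverse_mul_cancel _ hE.isUnit] at this)
  have p2 : SuppIn (posM δ) (g * inv (Phi Ω deg c 1)) := hp (by
    have := Agree.mul_zero_shift hS hg.2.1 sE sE' sE' hA (fun _ _ => rfl)
    rwa [Ring.mul_inverse_cancel _ hE.isUnit] at this)
  have key : ∀ D : ℕ, ∀ n, δ n < D → ((inv (Phi Ω deg c 1) * g).c n ≠ 0 → 0 ≤ φ n) ∧
      ((g * inv (Phi Ω deg c 1)).c n ≠ 0 → Ω.w c n ≤ φ n) := by
    intro D
    induction D with
    | zero =>
      intro n hn
      have k : n ∉ (posM δ : Set L) := fun k => by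
        rcases mem_posM.1 k with k | k
        · simp [k] at hn
        · omega
      exact ⟨fun h => absurd (p1 n h) k, fun h => absurd (p2 n h) k⟩
    | succ D ih =>
      have q1 : ∀ n, δ n ≤ D → Ω.w c n ≤ 0 → (inv (Phi Ω deg c 1) * g).c n ≠ 0 → 0 ≤ φ n := by
        intro n k1 k2 k3
        by_contra k4
        refine k3 (mut_step (hE.inv.mul hg.1) δ φ p1 (fun x hx => (ih x (by omega)).1) ?_
          (not_le.1 k4))
        rw [mut_att_h hd hc hg k2]
        exact hz (χ := φ) (fun F hF hne => by rw [h2 F hF hne]; omega) (not_le.1 k4)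
      have q2 : ∀ n, δ n ≤ D → 0 ≤ Ω.w c n → (g * inv (Phi Ω deg c 1)).c n ≠ 0 →
          Ω.w c n ≤ φ n := by
        intro n k1 k2 k3
        by_contra k4
        have k5 : (φ - Ω.w c) n < 0 := by rw [AddMonoidHom.sub_apply]; omega
        refine k3 (mut_step (hg.1.mul hE.inv) δ (φ - Ω.w c) p2 (fun x hx hx' => ?_) ?_ k5)
        · have := (ih x (by omega)).2 hx'
          rw [AddMonoidHom.sub_apply]
          omega
        · rw [mut_att_hp hd hc hg k2]
          exact hz (χ := φ - Ω.w c)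
            (fun F hF hne => by rw [AddMonoidHom.sub_apply, h2 F hF hne]; omega) k5
      intro n hn
      have hn' : δ n ≤ D := by push_cast at hn; omega
      rcases le_total (Ω.w c n) 0 with k | k
      · refine ⟨q1 n hn' k, fun k3 => ?_⟩
        obtain ⟨m, hm⟩ := Int.eq_ofNat_of_zero_le (neg_nonneg.2 k)
        have hm' : Ω.w c n = -m := by omega
        have k4 := (mut_key_neg (hd c hc) _ mutR_supp).1 (mut_rel c g (-m))
        rw [← if_pos hm' (t := (g * inv (Phi Ω deg c 1)).c n) (e := 0), ← mutR_c, k4] at k3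
        obtain ⟨p, k5, k6⟩ := QT.exists_of_mul_c_ne_zero _ _ _ k3
        obtain ⟨j, hj, k7⟩ := mut_binP_supp _ _ _ _ k6
        have k8 := mutR_supp p k5
        rw [mutR_c, if_pos k8] at k5
        have k9 := congrArg δ k7
        have k10 := congrArg φ k7
        rw [map_sub, map_nsmul, nsmul_eq_mul] at k9 k10
        rw [δc] at k9
        rw [h1] at k10
        have := q1 p (by omega) (by omega) k5
        omega
      · refine ⟨fun k3 => ?_, q2 n hn' k⟩
        obtain ⟨m, hm'⟩ := Int.eq_ofNat_of_zero_le k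
        have k4 := (mut_key_pos (hd c hc) _ mutR_supp).1 (mut_rel c g m)
        rw [← if_pos hm' (t := (inv (Phi Ω deg c 1) * g).c n) (e := 0), ← mutR_c, k4] at k3
        obtain ⟨p, k5, k6⟩ := QT.exists_of_mul_c_ne_zero _ _ _ k3
        obtain ⟨j, hj, k7⟩ := mut_binP_supp _ _ _ _ k6
        have k8 := mutR_supp p k5
        rw [mutR_c, if_pos k8] at k5
        have k9 := congrArg δ k7
        have k10 := congrArg φ k7
        rw [map_sub, map_nsmul, nsmul_eq_mul] at k9 k10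
        rw [δc] at k9
        rw [h1] at k10
        have := q2 p (by omega) (by omega) k5
        omega
  exact key ((δ n).toNat + 1) n (by push_cast; omega)

lemma mut_exists_phi {s : Finset L} (hs : IsSeed s) {c : L} (hc : c ∈ s) :
    ∃ φ : L →+ ℤ, φ c = -1 ∧ ∀ F ∈ s, F ≠ c → φ F = (Ω.w c F).toNat := by
  obtain ⟨φ, hφ⟩ := mut_exists_hom hs fun F => if F = c then -1 else (Ω.w c F).toNat
  exact ⟨φ, by simp [hφ c hc], fun F hF h => by rw [hφ F hF, if_neg h]⟩

theorem mut_supp {s : Finset L} (hs : IsSeed s) (hd : DegOK deg s) {c : L} (hc : c ∈ s)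
    {g : QT Ω deg} (hg : IsCl s g) :
    SuppIn (cone s ⊓ cone (mutate Ω s c) : AddSubmonoid L) (inv (Phi Ω deg c 1) * g) := by
  obtain ⟨φ, h1, h2⟩ := mut_exists_phi (Ω := Ω) hs hc
  have h3 : SuppIn (cone s) (inv (Phi Ω deg c 1) * g) := ((isG_Phi c 1).suppIn_inv
    (suppIn_Phi (AddSubmonoid.subset_closure hc) 1)).mul hg.2.1
  refine h3.inf fun n hn => ?_
  simpa using mut_mem_cone h1 h2 (h3 n hn) 0 ((mut_main hs hd hc hg h1 h2 n).1 hn)

lemma mut_sum {s : Finset L} (hs : IsSeed s) {c : L} (hc : c ∈ s) (f : L → K) :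
    ∑ F ∈ mutate Ω s c, f F = f (-c) + ∑ F ∈ s.erase c, f (F + (Ω.w c F).toNat • c) := by
  have k : ∀ F ∈ s.erase c, ∃ κ : L →+ ℤ, κ F = 1 ∧ κ c = 0 ∧ ∀ G ∈ s, G ≠ F → κ G = 0 :=
    fun F hF => by
      obtain ⟨κ, k1, k2⟩ := hs F (Finset.mem_of_mem_erase hF)
      exact ⟨κ, k1, k2 c hc (Finset.ne_of_mem_erase hF).symm, k2⟩
  rw [mutate, Finset.sum_insert, Finset.sum_image]
  · intro F hF G hG h
    obtain ⟨κ, k1, k2, k3⟩ := k F hF
    by_contra hne
    have := congrArg κ h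
    simp [k1, k2, k3 G (Finset.mem_of_mem_erase hG) (Ne.symm hne)] at this
  · intro h
    obtain ⟨F, hF, h⟩ := Finset.mem_image.1 h
    obtain ⟨κ, k1, k2, k3⟩ := k F hF
    have := congrArg κ h
    simp [k1, k2] at this

theorem mut_isCl {deg' : L →+ ℤ} {s : Finset L} (hs : IsSeed s) (hd : DegOK deg s) {c : L}
    (hc : c ∈ s) (hd' : DegOK deg' (mutate Ω s c)) {g : QT Ω deg} (hg : IsCl s g)
    {h' : QT Ω deg'} (hh : h'.c = (inv (Phi Ω deg c 1) * g).c) :
    IsCl (mutate Ω s c) (h' * Phi Ω deg' (-c) 1) := by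
  obtain ⟨φ, h1, h2⟩ := mut_exists_phi (Ω := Ω) hs hc
  have hE := isG_Phi (Ω := Ω) (deg := deg) c 1
  have hE' := isG_Phi (Ω := Ω) (deg := deg') (-c) 1
  have hc' : -c ∈ mutate Ω s c := Finset.mem_insert_self _ _
  have dc' := hd' _ hc'
  have hM := hd'.goodCone
  have gh := hE.inv.mul hg.1
  have gp := hg.1.mul hE.inv
  have sh : SuppIn (cone (mutate Ω s c)) h' := fun n hn =>
    (mut_supp hs hd hc hg n (by rwa [← hh])).2
  have gh' : IsG h' := ⟨by rw [hh, gh.1], fun n hn h => hM.1 n (sh n h) hn⟩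
  have sp : SuppIn (cone s) (g * inv (Phi Ω deg c 1)) :=
    hg.2.1.mul (hE.suppIn_inv (suppIn_Phi (AddSubmonoid.subset_closure hc) 1))
  have sk : ∀ n, (g * inv (Phi Ω deg c 1)).c ((mutT Ω c).symm n) ≠ 0 → n ∈ cone (mutate Ω s c) :=
    fun n hn => by
      have := mut_mem_cone h1 h2 (sp _ hn) _ ((mut_main hs hd hc hg h1 h2 _).2 hn)
      rwa [← mutT_apply, AddEquiv.apply_symm_apply] at this
  let k' : QT Ω deg' := ⟨fun n => (g * inv (Phi Ω deg c 1)).c ((mutT Ω c).symm n),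
    hM.adm 0 fun n hn => by rw [sub_zero]; exact sk n hn⟩
  have hk : ∀ n, k'.c n = (g * inv (Phi Ω deg c 1)).c (n - Ω.w c n • c) := fun n => rfl
  have gk : IsG k' := ⟨by rw [hk, map_zero, zero_smul, sub_zero, gp.1],
    fun n hn h => hM.1 n (sk n h) hn⟩
  have hRh : ∀ e, (mutR (Ω.w c) e h').c = (mutR (Ω.w c) e (inv (Phi Ω deg c 1) * g)).c :=
    fun e => funext fun n => by rw [mutR_c, mutR_c, hh]
  have hw : ∀ {e : ℤ} {a : QT Ω deg'} (x : L), (mutR (Ω.w c) e a).c x ≠ 0 → Ω.w (-c) x = -e :=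
    fun x hx => by rw [map_neg, AddMonoidHom.neg_apply, mutR_supp x hx]
  have hsh : ∀ (m : ℕ) (n : L), Ω.w c (n - -(m • c)) = Ω.w c n ∧
      Ω.w n (-(m • c)) = m * Ω.w c n := fun m n => by
    simp [Ω.alt, Ω.skew n c]
  have hrel : Phi Ω deg' (-c) 1 * k' = h' * Phi Ω deg' (-c) 1 := by
    have hc0 : Ω.w c (-c) = 0 := by simp [Ω.alt]
    refine mutR_ext (Ω.w c) fun e => ?_
    rw [mutR_left e (mut_Phi_w hc0), mutR_right e (mut_Phi_w hc0)]
    rcases le_total e 0 with he | he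
    · obtain ⟨m, hm⟩ := Int.eq_ofNat_of_zero_le (neg_nonneg.2 he)
      obtain rfl : e = -m := by omega
      have k4 := (mut_key_neg (hd c hc) _ mutR_supp).1 (mut_rel c g (-m))
      refine (mut_key_pos (m := m) dc' _ fun x hx => (hw x hx).trans (neg_neg _)).2 ?_
      have k5 := mut_binP_pal (Ω := Ω) (deg := deg') c (-1) m
      rw [neg_neg] at k5
      refine QT.ext (funext fun n => ?_)
      rw [k5, ← mul_assoc, QT.mul_c, QT.mono_c, mulF_single_right, QT.mul_c, hRh,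
        mut_binP_c deg, ← QT.mul_c, ← k4, mutR_c, mutR_c, (hsh m n).1, (hsh m n).2]
      split_ifs with hn
      · rw [hk, hn, mul_assoc, ← vp_add, show (1 * (m : ℤ) ^ 2 + m * -m) = 0 by ring, vp_zero,
          mul_one, neg_smul, natCast_zsmul]
      · simp
    · obtain ⟨m, rfl⟩ := Int.eq_ofNat_of_zero_le he
      have k4 := (mut_key_pos (hd c hc) _ mutR_supp).1 (mut_rel c g m)
      refine (mut_key_neg (m := m) dc' _ hw).2 ?_
      rw [mut_binP_pal c 1 m, ← (mut_binP_comm c 1 m (by simp [Ω.alt]) _).eq, ← mul_assoc]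
      refine QT.ext ?_
      rw [hRh, k4, QT.mul_c, QT.mul_c, mut_binP_c deg']
      congr 1
      funext n
      rw [QT.mul_c, QT.mono_c, mulF_single_right, mutR_c, mutR_c, (hsh m n).1, (hsh m n).2]
      split_ifs with hn
      · rw [hk, (hsh m n).1, hn, mul_assoc, ← vp_add,
          show (-1 * (m : ℤ) ^ 2 + m * m) = 0 by ring, vp_zero, mul_one, natCast_zsmul,
          sub_neg_eq_add, add_sub_cancel_right]
      · simp
  refine ⟨gh'.mul hE', sh.mul (suppIn_Phi (AddSubmonoid.subset_closure hc') 1), fun n => ?_⟩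
  rw [mut_sum hs hc]
  rcases le_or_gt (Ω.w c n) 0 with hn | hn
  · rw [mut_att_right dc' gh' (by rw [map_neg, AddMonoidHom.neg_apply]; omega),
      att_c_eq gh' gh hh, mut_att_h hd hc hg hn]
    congr 1
    refine Finset.sum_congr rfl fun F _ => ?_
    rcases le_or_gt (Ω.w c F) 0 with hF | hF
    · rw [Int.toNat_eq_zero.2 hF, zero_smul, add_zero]
    · have k : ∀ G, Ω.w c G = Ω.w c F → lgP G 1 n = 0 := fun G hG => mut_lgP_zero 1 fun e he h => by
        rw [h, map_nsmul, hG, nsmul_eq_mul] at hn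
        exact absurd hn (not_le.2 (by positivity))
      rw [k F rfl, k _ (by simp [Ω.alt])]
  · obtain ⟨x, rfl⟩ := (mutT Ω c).surjective n
    have hx : Ω.w c (mutT Ω c x) = Ω.w c x := by simp [mutT_apply, Ω.alt]
    rw [← hrel, mut_att_left dc' gk (by rw [map_neg, AddMonoidHom.neg_apply]; omega),
      att_c_eq gk (mutTr_isG (mutT Ω c) gp) rfl, mutTr_att (mutT_iso c) gp,
      mut_att_hp hd hc hg (by omega)]
    congr 1
    refine Finset.sum_congr rfl fun F _ => ?_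
    rcases le_or_gt (Ω.w c F) 0 with hF | hF
    · have k : ∀ y, 0 < Ω.w c y → lgP F 1 y = 0 := fun y hy => mut_lgP_zero 1 fun e he h => by
        rw [h, map_nsmul, nsmul_eq_mul] at hy
        exact absurd hy (not_lt.2 (mul_nonpos_of_nonneg_of_nonpos (by positivity) hF))
      rw [Int.toNat_eq_zero.2 hF, zero_smul, add_zero, k _ hn, k x (by omega)]
    · rw [← mut_lgP_map (mutT Ω c), mutT_apply c F, ← natCast_zsmul, Int.toNat_of_nonneg hF.le]

end Crest.Agent.R059
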