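import Crest.Agent.R059.Tens

/-! Row 59: multilinear cohomological Hall algebra, Harder–Narasimhan perfection. -/

set_option autoImplicit false
set_option linter.unusedSectionVars false
set_option linter.unusedVariables false

noncomputable section
open Classical MvPolynomial

namespace Crest.Agent.R059

/-- Arrow numbers and a stability weight on a set of variables. -/
structure Qv (α : Type) where
  a : α → α → ℕ
  η : α → ℤ

namespace Qv
variable {α β : Type}

def comap (Q : Qv β) (f : α → β) : Qv α := ⟨fun x y => Q.a (f x) (f y), fun x => Q.η (f x)⟩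
def aa (Q : Qv α) (S S' : Finset α) : ℕ := ∑ x ∈ S, ∑ y ∈ S', Q.a x y
def wt (Q : Qv α) (S : Finset α) : ℤ := ∑ x ∈ S, Q.η x
def Num (Q : Qv α) (S S' : Finset α) : P α := ∏ x ∈ S, ∏ y ∈ S', (X y - X x) ^ Q.a x y
def idT (Q : Qv α) (Y : Finset α) : Ideal (P α) :=
  Ideal.span {z | ∃ S ⊆ Y, S.Nonempty ∧ 0 ≤ Q.wt S ∧ z = Q.Num (Y \ S) S}
def idF (Q : Qv α) (Y : Finset α) : Ideal (P α) :=
  Ideal.span {z | ∃ S ⊆ Y, Q.wt S < 0 ∧ z = Q.Num S (Y \ S)}
def Aut (Q : Qv α) (σ : Equiv.Perm α) : Prop :=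
  (∀ x y, Q.a (σ x) (σ y) = Q.a x y) ∧ ∀ x, Q.η (σ x) = Q.η x
/-- Numerical symmetry on weight zero subsets. -/
def Sym (Q : Qv α) : Prop :=
  ∀ S S' : Finset α, Q.wt S = 0 → Q.wt S' = 0 → Q.aa S S' = Q.aa S' S

lemma Num_isHomogeneous (Q : Qv α) (S S' : Finset α) :
    (Q.Num S S').IsHomogeneous (Q.aa S S') := by
  unfold Num aa
  refine IsHomogeneous.prod _ _ _ fun x _ => IsHomogeneous.prod _ _ _ fun y _ => ?_
  simpa using ((isHomogeneous_X ℂ y).sub (isHomogeneous_X ℂ x)).pow (Q.a x y)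
lemma Num_dvd (Q : Qv α) {S S' T T' : Finset α} (h : S ⊆ T) (h' : S' ⊆ T') :
    Q.Num S S' ∣ Q.Num T T' := by
  unfold Num
  exact dvd_trans (Finset.prod_dvd_prod_of_dvd _ _ fun x _ => Finset.prod_dvd_prod_of_subset _ _ _ h')
    (Finset.prod_dvd_prod_of_subset _ _ _ h)
lemma rename_Num (Q : Qv β) (f : α ↪ β) (S S' : Finset α) :
    rename f ((Q.comap f).Num S S') = Q.Num (S.map f) (S'.map f) := by
  simp [Num, comap, Finset.prod_map]
lemma wt_comap (Q : Qv β) (f : α ↪ β) (S : Finset α) : (Q.comap f).wt S = Q.wt (S.map f) := by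
  simp [wt, comap, Finset.sum_map]
lemma aa_comap (Q : Qv β) (f : α ↪ β) (S S' : Finset α) :
    (Q.comap f).aa S S' = Q.aa (S.map f) (S'.map f) := by
  simp [aa, comap, Finset.sum_map]
lemma map_idT (Q : Qv β) (f : α ↪ β) (Y : Finset α) :
    ((Q.comap f).idT Y).map (rename f : P α →ₐ[ℂ] P β) = Q.idT (Y.map f) := by
  unfold idT
  rw [Ideal.map_span]
  congr 1
  ext z
  constructor
  · rintro ⟨_, ⟨S, hS, hne, hw, rfl⟩, rfl⟩
    refine ⟨S.map f, Finset.map_subset_map.2 hS, Finset.map_nonempty.2 hne, ?_, ?_⟩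
    · rwa [← wt_comap]
    · rw [rename_Num, Finset.map_sdiff]
  · rintro ⟨S', hS', hne, hw, rfl⟩
    obtain ⟨S, hS, rfl⟩ := Finset.subset_map_iff.1 hS'
    refine ⟨_, ⟨S, hS, Finset.map_nonempty.1 hne, ?_, rfl⟩, ?_⟩
    · rwa [wt_comap]
    · rw [rename_Num, Finset.map_sdiff]
lemma map_idF (Q : Qv β) (f : α ↪ β) (Y : Finset α) :
    ((Q.comap f).idF Y).map (rename f : P α →ₐ[ℂ] P β) = Q.idF (Y.map f) := by
  unfold idF
  rw [Ideal.map_span]
  congr 1
  ext z
  constructor
  · rintro ⟨_, ⟨S, hS, hw, rfl⟩, rfl⟩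
    refine ⟨S.map f, Finset.map_subset_map.2 hS, ?_, ?_⟩
    · rwa [← wt_comap]
    · rw [rename_Num, Finset.map_sdiff]
  · rintro ⟨S', hS', hw, rfl⟩
    obtain ⟨S, hS, rfl⟩ := Finset.subset_map_iff.1 hS'
    refine ⟨_, ⟨S, hS, ?_, rfl⟩, ?_⟩
    · rwa [wt_comap]
    · rw [rename_Num, Finset.map_sdiff]
lemma isGr_span (s : Set (P α)) (h : ∀ z ∈ s, ∃ d, IsHomogeneous z d) :
    IsGr ((Ideal.span s).restrictScalars ℂ) := by
  let := (MvPolynomial.gradedAlgebra : GradedAlgebra (homogeneousSubmodule α ℂ))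
  have hh : (Ideal.span s).IsHomogeneous (homogeneousSubmodule α ℂ) :=
    Ideal.homogeneous_span _ _ fun z hz => by
      obtain ⟨d, hd⟩ := h z hz
      exact ⟨d, hd⟩
  intro f hf D
  have := hh D (show f ∈ Ideal.span s from hf)
  have e : ((DirectSum.decompose (homogeneousSubmodule α ℂ) f D : homogeneousSubmodule α ℂ D) : P α) =
      homogeneousComponent D f := MvPolynomial.decomposition.decompose'_apply f D
  rw [e] at this
  exact this
lemma isGr_idT (Q : Qv α) (Y : Finset α) : IsGr ((Q.idT Y).restrictScalars ℂ) :=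
  isGr_span _ fun z ⟨S, _, _, _, hz⟩ => ⟨_, hz ▸ Q.Num_isHomogeneous _ _⟩
lemma isGr_idF (Q : Qv α) (Y : Finset α) : IsGr ((Q.idF Y).restrictScalars ℂ) :=
  isGr_span _ fun z ⟨S, _, _, hz⟩ => ⟨_, hz ▸ Q.Num_isHomogeneous _ _⟩
lemma Aut.comap {Q : Qv α} {σ : Equiv.Perm α} (h : Q.Aut σ) : Q.comap σ = Q := by
  cases Q
  simp only [Qv.comap, Qv.mk.injEq]
  exact ⟨funext fun x => funext fun y => h.1 x y, funext h.2⟩
lemma Sym.comap {Q : Qv β} (h : Q.Sym) (f : α ↪ β) : (Q.comap f).Sym := by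
  intro S S' h1 h2
  rw [wt_comap] at h1 h2
  rw [aa_comap, aa_comap]
  exact h _ _ h1 h2
lemma Num_union_left (Q : Qv α) {S T : Finset α} (h : Disjoint S T) (U : Finset α) :
    Q.Num (S ∪ T) U = Q.Num S U * Q.Num T U := by
  unfold Num
  rw [Finset.prod_union h]
lemma Num_union_right (Q : Qv α) (U : Finset α) {S T : Finset α} (h : Disjoint S T) :
    Q.Num U (S ∪ T) = Q.Num U S * Q.Num U T := by
  unfold Num
  rw [← Finset.prod_mul_distrib]
  exact Finset.prod_congr rfl fun x _ => Finset.prod_union h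
lemma wt_union (Q : Qv α) {S T : Finset α} (h : Disjoint S T) :
    Q.wt (S ∪ T) = Q.wt S + Q.wt T := by
  unfold wt
  rw [Finset.sum_union h]

variable [Fintype α] [Fintype β]

def chT (Q : Qv α) (σ : Equiv.Perm α) : PowerSeries ℂ :=
  ch ⊤ ((Q.idT Finset.univ).restrictScalars ℂ) σ
def chF (Q : Qv α) (σ : Equiv.Perm α) : PowerSeries ℂ :=
  ch ⊤ ((Q.idF Finset.univ).restrictScalars ℂ) σ

end Qv

variable {α β : Type} [Fintype α] [Fintype β]

def chP (σ : Equiv.Perm α) : PowerSeries ℂ := ch (⊤ : Submodule ℂ (P α)) ⊥ σ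
/-- `S` is stable under `σ`. -/
def StabS (σ : Equiv.Perm α) (S : Finset α) : Prop := ∀ x, σ x ∈ S ↔ x ∈ S
/-- Restriction of a permutation to a stable subset (identity otherwise). -/
def res (σ : Equiv.Perm α) (S : Finset α) : Equiv.Perm {x // x ∈ S} :=
  if h : StabS σ S then σ.subtypePerm h else 1

lemma Num_map_top (e : α ≃ β) : (⊤ : Submodule ℂ (P α)).map (act e) = ⊤ := by
  rw [Submodule.map_top, LinearMap.range_eq_top]
  exact rename_surjective _ e.surjective
lemma Num_map_ideal (e : α ≃ β) (I : Ideal (P α)) :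
    (I.restrictScalars ℂ).map (act e) =
      (I.map (rename e : P α →ₐ[ℂ] P β)).restrictScalars ℂ := by
  ext z
  rw [Submodule.mem_map, Submodule.restrictScalars_mem,
    Ideal.mem_map_iff_of_surjective _ (rename_surjective _ e.surjective)]
  rfl

lemma chP_equiv (e : α ≃ β) (σ : Equiv.Perm α) : chP (e.permCongr σ) = chP σ := by
  unfold chP
  rw [← ch_equiv e ⊤ ⊥ σ, Num_map_top, Submodule.map_bot]
lemma chT_equiv (e : α ≃ β) (Q : Qv β) (σ : Equiv.Perm α) :
    Q.chT (e.permCongr σ) = (Q.comap e).chT σ := by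
  unfold Qv.chT
  rw [← ch_equiv e ⊤ _ σ, Num_map_top, Num_map_ideal]
  have := Q.map_idT e.toEmbedding Finset.univ
  rw [Finset.map_univ_equiv] at this
  rw [← this]
  rfl
lemma chF_equiv (e : α ≃ β) (Q : Qv β) (σ : Equiv.Perm α) :
    Q.chF (e.permCongr σ) = (Q.comap e).chF σ := by
  unfold Qv.chF
  rw [← ch_equiv e ⊤ _ σ, Num_map_top, Num_map_ideal]
  have := Q.map_idF e.toEmbedding Finset.univ
  rw [Finset.map_univ_equiv] at this
  rw [← this]
  rfl
lemma chT_empty [IsEmpty α] (Q : Qv α) (σ : Equiv.Perm α) : Q.chT σ = 1 := by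
  have : Q.idT Finset.univ = ⊥ := by
    unfold Qv.idT
    rw [Ideal.span_eq_bot]
    rintro z ⟨S, _, ⟨x, _⟩, _⟩
    exact isEmptyElim x
  unfold Qv.chT
  rw [this, Submodule.restrictScalars_bot, ch_empty]
lemma chF_empty [IsEmpty α] (Q : Qv α) (σ : Equiv.Perm α) : Q.chF σ = 1 := by
  have : Q.idF Finset.univ = ⊥ := by
    unfold Qv.idF
    rw [Ideal.span_eq_bot]
    rintro z ⟨S, _, h, _⟩
    rw [Finset.eq_empty_of_isEmpty S] at h
    simp [Qv.wt] at h
  unfold Qv.chF
  rw [this, Submodule.restrictScalars_bot, ch_empty]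
lemma chP_empty [IsEmpty α] (σ : Equiv.Perm α) : chP σ = 1 := ch_empty σ
lemma chT_eq_zero [Nonempty α] (Q : Qv α) (σ : Equiv.Perm α) (h : 0 ≤ Q.wt Finset.univ) :
    Q.chT σ = 0 := by
  have : Q.idT Finset.univ = ⊤ := by
    rw [Ideal.eq_top_iff_one]
    refine Ideal.subset_span ⟨Finset.univ, le_rfl, Finset.univ_nonempty, h, ?_⟩
    simp [Qv.Num]
  unfold Qv.chT
  rw [this, Submodule.restrictScalars_top, ch_self]
lemma chF_eq_zero (Q : Qv α) (σ : Equiv.Perm α) (h : Q.wt Finset.univ < 0) : Q.chF σ = 0 := by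
  have : Q.idF Finset.univ = ⊤ := by
    rw [Ideal.eq_top_iff_one]
    refine Ideal.subset_span ⟨Finset.univ, le_rfl, h, ?_⟩
    simp [Qv.Num]
  unfold Qv.chF
  rw [this, Submodule.restrictScalars_top, ch_self]

/-- Atiyah–Bott: `Num S Sᶜ` is a non-zero-divisor modulo `idT S ⊔ idF Sᶜ`
(translate the variables of `Sᶜ`; the ideal is translation invariant, `Num` is monic). -/
lemma mem_of_Num_mul_mem (Q : Qv α) (S : Finset α) (y : P α)
    (h : Q.Num S Sᶜ * y ∈ Q.idT S ⊔ Q.idF Sᶜ) : y ∈ Q.idT S ⊔ Q.idF Sᶜ := by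
  set J : Ideal (P α) := Q.idT S ⊔ Q.idF Sᶜ with hJ
  let t : α → Polynomial (P α ⧸ J) := fun x => if x ∈ S then 0 else Polynomial.X
  let φ : P α →ₐ[ℂ] Polynomial (P α ⧸ J) :=
    aeval fun x => Polynomial.C (Ideal.Quotient.mk J (X x)) + t x
  have hφ : ∀ x y : α, φ (X y - X x) =
      Polynomial.C (Ideal.Quotient.mk J (X y - X x)) + (t y - t x) := by
    intro x y
    simp only [φ, map_sub, aeval_X]
    ring
  have hN : ∀ A B : Finset α, (∀ x ∈ A, ∀ y ∈ B, t y = t x) →
      φ (Q.Num A B) = Polynomial.C (Ideal.Quotient.mk J (Q.Num A B)) := by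
    intro A B hAB
    unfold Qv.Num
    simp only [map_prod, map_pow]
    refine Finset.prod_congr rfl fun x hx => Finset.prod_congr rfl fun y hy => ?_
    rw [hφ, hAB x hx y hy, sub_self, add_zero]
  have hker : J ≤ RingHom.ker φ := by
    refine sup_le ?_ ?_
    · unfold Qv.idT
      rw [Ideal.span_le]
      rintro z ⟨T, hT, hne, hw, rfl⟩
      have hz : Q.Num (S \ T) T ∈ J :=
        Ideal.mem_sup_left (Ideal.subset_span ⟨T, hT, hne, hw, rfl⟩)
      change φ _ = 0
      rw [hN, Ideal.Quotient.eq_zero_iff_mem.2 hz, map_zero]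
      intro x hx y hy
      simp only [t, if_pos (Finset.mem_sdiff.1 hx).1, if_pos (hT hy)]
    · unfold Qv.idF
      rw [Ideal.span_le]
      rintro z ⟨T, hT, hw, rfl⟩
      have hz : Q.Num T (Sᶜ \ T) ∈ J :=
        Ideal.mem_sup_right (Ideal.subset_span ⟨T, hT, hw, rfl⟩)
      change φ _ = 0
      rw [hN, Ideal.Quotient.eq_zero_iff_mem.2 hz, map_zero]
      intro x hx y hy
      simp only [t, if_neg (Finset.mem_compl.1 (hT hx)),
        if_neg (Finset.mem_compl.1 (Finset.mem_sdiff.1 hy).1)]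
  have hmon : (φ (Q.Num S Sᶜ)).Monic := by
    unfold Qv.Num
    simp only [map_prod, map_pow]
    refine Polynomial.monic_prod_of_monic _ _ fun x hx =>
      Polynomial.monic_prod_of_monic _ _ fun y hy => Polynomial.Monic.pow ?_ _
    rw [hφ]
    simp only [t, if_pos hx, if_neg (Finset.mem_compl.1 hy), sub_zero]
    rw [add_comm]
    exact Polynomial.monic_X_add_C _
  have h0 : φ (Q.Num S Sᶜ) * φ y = 0 := by
    rw [← map_mul]
    exact hker h
  have h1 : φ y = 0 := hmon.mul_right_eq_zero_iff.1 h0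
  have hev : ∀ z : P α, Polynomial.eval 0 (φ z) = Ideal.Quotient.mk J z := by
    intro z
    induction z using MvPolynomial.induction_on with
    | C a =>
      rw [← algebraMap_eq, AlgHom.commutes, Polynomial.algebraMap_apply, Polynomial.eval_C]
      rfl
    | add p q hp hq => rw [map_add, Polynomial.eval_add, hp, hq, map_add]
    | mul_X p x hp =>
      rw [map_mul, Polynomial.eval_mul, hp, map_mul]
      congr 1
      simp only [φ, aeval_X, t]
      split_ifs <;> simp
  have h2 := hev y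
  rw [h1, Polynomial.eval_zero] at h2
  exact Ideal.Quotient.eq_zero_iff_mem.1 h2.symm

/-- Rank of a stratum. -/
def Qv.key (Q : Qv α) (S : Finset α) : ℤ ×ₗ ℕ := toLex (Q.wt S, S.card)

lemma Qv.key_lt {Q : Qv α} {S T : Finset α} :
    Q.key S < Q.key T ↔ Q.wt S < Q.wt T ∨ (Q.wt S = Q.wt T ∧ S.card < T.card) := by
  unfold Qv.key
  exact Prod.Lex.toLex_lt_toLex

lemma Num_Ult_eq (Q : Qv α) (κ : ℤ ×ₗ ℕ) :
    Ult Q.key (⊥ : Submodule ℂ (P α)) (fun _ => ⊤)
        (fun T : Finset α => LinearMap.mulLeft ℂ (Q.Num T Tᶜ)) κ =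
      (Ideal.span {z | ∃ T : Finset α, Q.key T < κ ∧ z = Q.Num T Tᶜ}).restrictScalars ℂ := by
  unfold Ult
  rw [bot_sup_eq]
  apply le_antisymm
  · refine iSup_le fun T => iSup_le fun hT => ?_
    rintro _ ⟨y, _, rfl⟩
    exact Ideal.mul_mem_right _ _ (Ideal.subset_span ⟨T, hT, rfl⟩)
  · intro z hz
    rw [Submodule.restrictScalars_mem] at hz
    have : ∀ r : P α, r * z ∈ ⨆ T : Finset α, ⨆ _ : Q.key T < κ,
        (⊤ : Submodule ℂ (P α)).map (LinearMap.mulLeft ℂ (Q.Num T Tᶜ)) := by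
      induction hz using Submodule.span_induction with
      | mem x hx =>
        obtain ⟨T, hT, rfl⟩ := hx
        intro r
        refine Submodule.mem_iSup_of_mem T (Submodule.mem_iSup_of_mem hT ⟨r, trivial, ?_⟩)
        simp [mul_comm]
      | zero => intro r; simp
      | add x y _ _ hx hy => intro r; rw [mul_add]; exact add_mem (hx r) (hy r)
      | smul a x _ hx => intro r; rw [smul_eq_mul, ← mul_assoc]; exact hx _
    simpa using this 1

lemma Num_h1 (Q : Qv α) (S : Finset α) (y : P α) (hy : y ∈ Q.idT S ⊔ Q.idF Sᶜ) :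
    Q.Num S Sᶜ * y ∈
      Ideal.span {z | ∃ T : Finset α, Q.key T < Q.key S ∧ z = Q.Num T Tᶜ} := by
  set I := Ideal.span {z | ∃ T : Finset α, Q.key T < Q.key S ∧ z = Q.Num T Tᶜ} with hI
  have hle : Q.idT S ⊔ Q.idF Sᶜ ≤ Submodule.comap (LinearMap.lsmul (P α) (P α) (Q.Num S Sᶜ)) I := by
    refine sup_le ?_ ?_
    · unfold Qv.idT
      rw [Ideal.span_le]
      rintro z ⟨T, hT, hne, hw, rfl⟩
      change Q.Num S Sᶜ * Q.Num (S \ T) T ∈ I
      have hd : Disjoint Sᶜ T := by
        rw [Finset.disjoint_left]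
        exact fun x hx hx' => Finset.mem_compl.1 hx (hT hx')
      have e : (S \ T)ᶜ = Sᶜ ∪ T := by
        ext x; simp only [Finset.mem_compl, Finset.mem_sdiff, Finset.mem_union]; tauto
      have hk : Q.key (S \ T) < Q.key S := by
        have h1 := Q.wt_union (Finset.sdiff_disjoint (s := T) (t := S))
        rw [Finset.sdiff_union_of_subset hT] at h1
        have h2 : (S \ T).card < S.card :=
          Finset.card_lt_card (Finset.sdiff_ssubset hT hne)
        rw [Qv.key_lt]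
        omega
      refine Ideal.mem_of_dvd I ?_ (Ideal.subset_span ⟨S \ T, hk, rfl⟩)
      rw [e, Q.Num_union_right _ hd]
      exact mul_dvd_mul_right (Q.Num_dvd Finset.sdiff_subset le_rfl) _
    · unfold Qv.idF
      rw [Ideal.span_le]
      rintro z ⟨T, hT, hw, rfl⟩
      change Q.Num S Sᶜ * Q.Num T (Sᶜ \ T) ∈ I
      have hd : Disjoint S T := by
        rw [Finset.disjoint_left]
        exact fun x hx hx' => Finset.mem_compl.1 (hT hx') hx
      have e : (S ∪ T)ᶜ = Sᶜ \ T := by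
        ext x; simp only [Finset.mem_compl, Finset.mem_sdiff, Finset.mem_union]; tauto
      have hk : Q.key (S ∪ T) < Q.key S := by
        have h1 := Q.wt_union hd
        rw [Qv.key_lt]
        omega
      refine Ideal.mem_of_dvd I ?_ (Ideal.subset_span ⟨S ∪ T, hk, rfl⟩)
      rw [e, Q.Num_union_left hd]
      exact mul_dvd_mul_right (Q.Num_dvd le_rfl Finset.sdiff_subset) _
  exact hle hy

lemma Num_h2 (Q : Qv α) (S T : Finset α) (hne : T ≠ S) (hk : ¬ Q.key S < Q.key T) :
    Q.Num T Tᶜ ∈ Q.idT S ⊔ Q.idF Sᶜ := by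
  by_cases h1 : (S \ T).Nonempty ∧ 0 ≤ Q.wt (S \ T)
  · refine Ideal.mem_sup_left (Ideal.mem_of_dvd _ ?_
      (Ideal.subset_span ⟨S \ T, Finset.sdiff_subset, h1.1, h1.2, rfl⟩))
    refine Q.Num_dvd ?_ ?_
    · intro x; simp only [Finset.mem_sdiff]; tauto
    · intro x; simp only [Finset.mem_sdiff, Finset.mem_compl]; tauto
  by_cases h2 : Q.wt (T \ S) < 0
  · refine Ideal.mem_sup_right (Ideal.mem_of_dvd _ ?_
      (Ideal.subset_span ⟨T \ S, ?_, h2, rfl⟩))
    · refine Q.Num_dvd Finset.sdiff_subset ?_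
      intro x; simp only [Finset.mem_sdiff, Finset.mem_compl]; tauto
    · intro x; simp only [Finset.mem_sdiff, Finset.mem_compl]; tauto
  exfalso
  apply hk
  have e1 := Q.wt_union (Finset.disjoint_sdiff_inter S T)
  have e2 := Q.wt_union (Finset.disjoint_sdiff_inter T S)
  rw [Finset.sdiff_union_inter] at e1 e2
  rw [Finset.inter_comm] at e2
  rw [Qv.key_lt]
  by_cases h3 : (S \ T).Nonempty
  · have : Q.wt (S \ T) < 0 := not_le.1 fun h => h1 ⟨h3, h⟩
    omega
  · rw [Finset.not_nonempty_iff_eq_empty] at h3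
    have h4 : S ⊆ T := Finset.sdiff_eq_empty_iff_subset.1 h3
    have h5 : S.card < T.card := Finset.card_lt_card (Finset.ssubset_iff_subset_ne.2 ⟨h4, hne.symm⟩)
    have h6 : Q.wt (S \ T) = 0 := by rw [h3]; simp [Qv.wt]
    omega

lemma Num_map_compl (σ : Equiv.Perm α) (S : Finset α) :
    Sᶜ.map σ.toEmbedding = (S.map σ.toEmbedding)ᶜ := by
  ext x; simp [Finset.mem_map_equiv]

lemma Num_stabS_iff (σ : Equiv.Perm α) (S : Finset α) : S.map σ.toEmbedding = S ↔ StabS σ S := by
  constructor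
  · intro h x
    conv_lhs => rw [← h]
    simp [Finset.mem_map_equiv]
  · intro h
    ext x
    rw [Finset.mem_map_equiv, ← h, Equiv.apply_symm_apply]

/-- Perfection of the torsion-pair stratification. -/
theorem perfection_aux (Q : Qv α) (σ : Equiv.Perm α) (hσ : Q.Aut σ) :
    chP σ = ∑ S ∈ Finset.univ.filter (StabS σ), PowerSeries.X ^ Q.aa S Sᶜ *
      ch ⊤ ((Q.idT S ⊔ Q.idF Sᶜ).restrictScalars ℂ) σ := by
  have hc : Q.comap σ.toEmbedding = Q := hσ.comap
  have hwt : ∀ S, Q.wt (S.map σ.toEmbedding) = Q.wt S := fun S => by rw [← Q.wt_comap, hc]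
  have haa : ∀ S S', Q.aa (S.map σ.toEmbedding) (S'.map σ.toEmbedding) = Q.aa S S' :=
    fun S S' => by rw [← Q.aa_comap, hc]
  have hNum : ∀ S S', rename σ (Q.Num S S') =
      Q.Num (S.map σ.toEmbedding) (S'.map σ.toEmbedding) :=
    fun S S' => by rw [← Q.rename_Num, hc]; rfl
  have hT : ∀ S, (Q.idT S).map (rename σ : P α →ₐ[ℂ] P α) = Q.idT (S.map σ.toEmbedding) :=
    fun S => by rw [← Q.map_idT, hc]; rfl
  have hF : ∀ S, (Q.idF S).map (rename σ : P α →ₐ[ℂ] P α) = Q.idF (S.map σ.toEmbedding) :=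
    fun S => by rw [← Q.map_idF, hc]; rfl
  have key := ch_strat σ (ι := Finset α) (Equiv.finsetCongr σ) Q.key
    (fun S => by simp only [Equiv.finsetCongr_apply, Qv.key, hwt, Finset.card_map])
    ⊥ (fun _ => ⊤) (fun S => (Q.idT S ⊔ Q.idF Sᶜ).restrictScalars ℂ) (fun S => Q.Num S Sᶜ)
    (fun S => Q.aa S Sᶜ) (fun _ => 1) (fun S => Q.Num_isHomogeneous _ _)
    (fun S => by simp only [Equiv.finsetCongr_apply, ← Num_map_compl, haa])
    (fun f hf D => by rw [Submodule.mem_bot] at hf ⊢; rw [hf, map_zero])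
    (fun _ _ _ _ => trivial)
    (fun S f hf D => by
      obtain ⟨a, ha, b, hb, rfl⟩ := Submodule.mem_sup.1 (show f ∈ Q.idT S ⊔ Q.idF Sᶜ from hf)
      rw [map_add]
      exact add_mem (Ideal.mem_sup_left (Q.isGr_idT S a ha D))
        (Ideal.mem_sup_right (Q.isGr_idF Sᶜ b hb D)))
    (fun _ => le_top)
    (fun f hf => by rw [Submodule.mem_bot] at hf ⊢; rw [hf, map_zero])
    (fun _ _ _ => trivial)
    (fun S x hx => by
      have := Ideal.mem_map_of_mem (rename σ : P α →ₐ[ℂ] P α) (show x ∈ Q.idT S ⊔ Q.idF Sᶜ from hx)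
      rw [Ideal.map_sup, hT, hF, Num_map_compl] at this
      exact this)
    (fun S y hy => by
      rw [Num_Ult_eq]
      exact Num_h1 Q S y hy)
    (fun κ y _ hsum S hS => by
      rw [Num_Ult_eq, Submodule.restrictScalars_mem] at hsum
      apply mem_of_Num_mul_mem
      have hle : Ideal.span {z | ∃ T : Finset α, Q.key T < κ ∧ z = Q.Num T Tᶜ} ≤
          Q.idT S ⊔ Q.idF Sᶜ := by
        rw [Ideal.span_le]
        rintro z ⟨T, hT, rfl⟩
        rw [← hS] at hT
        exact Num_h2 Q S T (fun h => by rw [h] at hT; exact lt_irrefl _ hT) (not_lt.2 hT.le)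
      have h1 := hle hsum
      rw [← Finset.add_sum_erase _ _ (show S ∈ Finset.univ.filter (fun i => Q.key i = κ) by
        simp [hS])] at h1
      refine (Submodule.add_mem_iff_left _ ?_).1 h1
      refine Submodule.sum_mem _ fun T hT => Ideal.mul_mem_right _ _ ?_
      obtain ⟨h2, h3⟩ := Finset.mem_erase.1 hT
      exact Num_h2 Q S T h2 (by rw [(Finset.mem_filter.1 h3).2, hS]; exact lt_irrefl _))
    (fun S y _ => by
      simp only [Equiv.finsetCongr_apply, map_mul, hNum, Num_map_compl, one_smul, sub_self]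
      exact zero_mem _)
  have htop : (⊥ : Submodule ℂ (P α)) ⊔ ⨆ S : Finset α,
      (⊤ : Submodule ℂ (P α)).map (LinearMap.mulLeft ℂ (Q.Num S Sᶜ)) = ⊤ := by
    rw [eq_top_iff]
    intro z _
    refine Submodule.mem_sup_right (Submodule.mem_iSup_of_mem ∅ ⟨z, trivial, ?_⟩)
    simp [Qv.Num]
  rw [htop] at key
  unfold chP
  rw [key]
  refine Finset.sum_congr ?_ fun S _ => by rw [map_one, one_mul]
  ext S
  simp only [Finset.mem_filter, Finset.mem_univ, true_and, Equiv.finsetCongr_apply, Num_stabS_iff]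

lemma Num_prodSub_top : prodSub (⊤ : Submodule ℂ (P α)) (⊤ : Submodule ℂ (P β)) = ⊤ := by
  rw [eq_top_iff]
  rintro z -
  induction z using MvPolynomial.induction_on with
  | C a => exact Submodule.subset_span ⟨C a, trivial, 1, trivial, by simp⟩
  | add p q hp hq => exact add_mem hp hq
  | mul_X p x hp =>
    induction hp using Submodule.span_induction with
    | mem z hz =>
      obtain ⟨a, -, b, -, rfl⟩ := hz
      cases x with
      | inl x => exact Submodule.subset_span ⟨a * X x, trivial, b, trivial, by simp; ring⟩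
      | inr x => exact Submodule.subset_span ⟨a, trivial, b * X x, trivial, by simp; ring⟩
    | zero => simp
    | add u v _ _ hu hv => rw [add_mul]; exact add_mem hu hv
    | smul c u _ hu => rw [smul_mul_assoc]; exact Submodule.smul_mem _ _ hu

lemma Num_mul_mem_prodSub (I : Ideal (P α)) (J : Ideal (P β)) (r z : P (α ⊕ β))
    (hz : z ∈ prodSub (I.restrictScalars ℂ) (J.restrictScalars ℂ)) :
    r * z ∈ prodSub (I.restrictScalars ℂ) (J.restrictScalars ℂ) := by
  have hr : r ∈ prodSub (⊤ : Submodule ℂ (P α)) (⊤ : Submodule ℂ (P β)) := by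
    rw [Num_prodSub_top]; trivial
  induction hr using Submodule.span_induction with
  | mem r hr =>
    obtain ⟨a', -, b', -, rfl⟩ := hr
    induction hz using Submodule.span_induction with
    | mem z hz =>
      obtain ⟨a, ha, b, hb, rfl⟩ := hz
      exact Submodule.subset_span ⟨a' * a, I.mul_mem_left _ ha, b' * b, J.mul_mem_left _ hb, by
        simp only [map_mul]; ring⟩
    | zero => simp
    | add u v _ _ hu hv => rw [mul_add]; exact add_mem hu hv
    | smul c u _ hu => rw [mul_smul_comm]; exact Submodule.smul_mem _ _ hu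
  | zero => simp
  | add u v _ _ hu hv => rw [add_mul]; exact add_mem hu hv
  | smul c u _ hu => rw [smul_mul_assoc]; exact Submodule.smul_mem _ _ hu

lemma Num_prodSub_left (I : Ideal (P α)) :
    prodSub (I.restrictScalars ℂ) (⊤ : Submodule ℂ (P β)) =
      (I.map (rename Sum.inl : P α →ₐ[ℂ] P (α ⊕ β))).restrictScalars ℂ := by
  apply le_antisymm
  · unfold prodSub
    rw [Submodule.span_le]
    rintro _ ⟨a, ha, b, -, rfl⟩
    exact Ideal.mul_mem_right _ _ (Ideal.mem_map_of_mem _ ha)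
  · intro z hz
    rw [Submodule.restrictScalars_mem] at hz
    induction hz using Submodule.span_induction with
    | mem z hz =>
      obtain ⟨a, ha, rfl⟩ := hz
      exact Submodule.subset_span ⟨a, ha, 1, trivial, by simp⟩
    | zero => simp
    | add u v _ _ hu hv => exact add_mem hu hv
    | smul c u _ hu => exact Num_mul_mem_prodSub I ⊤ c u hu

lemma Num_prodSub_right (J : Ideal (P β)) :
    prodSub (⊤ : Submodule ℂ (P α)) (J.restrictScalars ℂ) =
      (J.map (rename Sum.inr : P β →ₐ[ℂ] P (α ⊕ β))).restrictScalars ℂ := by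
  apply le_antisymm
  · unfold prodSub
    rw [Submodule.span_le]
    rintro _ ⟨a, -, b, hb, rfl⟩
    exact Ideal.mul_mem_left _ _ (Ideal.mem_map_of_mem _ hb)
  · intro z hz
    rw [Submodule.restrictScalars_mem] at hz
    induction hz using Submodule.span_induction with
    | mem z hz =>
      obtain ⟨a, ha, rfl⟩ := hz
      exact Submodule.subset_span ⟨1, trivial, a, ha, by simp⟩
    | zero => simp
    | add u v _ _ hu hv => exact add_mem hu hv
    | smul c u _ hu => exact Num_mul_mem_prodSub ⊤ J c u hu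

lemma Num_stab_idT {Q : Qv α} {σ : Equiv.Perm α} (hσ : Q.Aut σ) :
    Stab σ ((Q.idT Finset.univ).restrictScalars ℂ) := by
  intro f hf
  have hc : Q.comap σ.toEmbedding = Q := hσ.comap
  have := Q.map_idT σ.toEmbedding Finset.univ
  rw [hc, Finset.map_univ_equiv] at this
  rw [Submodule.restrictScalars_mem, ← this]
  exact Ideal.mem_map_of_mem _ hf

lemma Num_stab_idF {Q : Qv α} {σ : Equiv.Perm α} (hσ : Q.Aut σ) :
    Stab σ ((Q.idF Finset.univ).restrictScalars ℂ) := by
  intro f hf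
  have hc : Q.comap σ.toEmbedding = Q := hσ.comap
  have := Q.map_idF σ.toEmbedding Finset.univ
  rw [hc, Finset.map_univ_equiv] at this
  rw [Submodule.restrictScalars_mem, ← this]
  exact Ideal.mem_map_of_mem _ hf

lemma Num_res_val {σ : Equiv.Perm α} {S : Finset α} (hS : StabS σ S) (x : {x // x ∈ S}) :
    (res σ S x).1 = σ x.1 := by
  unfold res
  rw [dif_pos hS]
  rfl

lemma Num_aut_res {Q : Qv α} {σ : Equiv.Perm α} (hσ : Q.Aut σ) {S : Finset α} (hS : StabS σ S) :
    (Q.comap (Subtype.val : {x // x ∈ S} → α)).Aut (res σ S) :=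
  ⟨fun x y => by simp only [Qv.comap, Num_res_val hS, hσ.1],
    fun x => by simp only [Qv.comap, Num_res_val hS, hσ.2]⟩

theorem ch_idT_sup_idF (Q : Qv α) (σ : Equiv.Perm α) (hσ : Q.Aut σ) (S : Finset α)
    (hS : StabS σ S) :
    ch ⊤ ((Q.idT S ⊔ Q.idF Sᶜ).restrictScalars ℂ) σ =
      (Q.comap Subtype.val).chT (res σ S) * (Q.comap Subtype.val).chF (res σ Sᶜ) := by
  have hSc : StabS σ Sᶜ := fun x => by rw [Finset.mem_compl, Finset.mem_compl, hS x]
  let e : {x // x ∈ S} ⊕ {x // x ∈ Sᶜ} ≃ α :=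
    (Equiv.sumCongr (Equiv.refl _) (Equiv.subtypeEquivRight fun x => Finset.mem_compl)).trans
      (Equiv.sumCompl (· ∈ S))
  have el : ∀ x, e (Sum.inl x) = x.1 := fun x => rfl
  have er : ∀ x, e (Sum.inr x) = x.1 := fun x => rfl
  have hperm : e.permCongr (Equiv.sumCongr (res σ S) (res σ Sᶜ)) = σ := by
    ext x
    obtain ⟨y, rfl⟩ := e.surjective x
    rw [Equiv.permCongr_apply, Equiv.symm_apply_apply]
    cases y with
    | inl y => rw [Equiv.sumCongr_apply, Sum.map_inl, el, el, Num_res_val hS]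
    | inr y => rw [Equiv.sumCongr_apply, Sum.map_inr, er, er, Num_res_val hSc]
  unfold Qv.chT Qv.chF
  rw [← ch_prod ⊤ _ ⊤ _ _ _ le_top le_top (fun _ _ _ => trivial) (Qv.isGr_idT _ _)
    (fun _ _ _ => trivial) (Qv.isGr_idF _ _) (fun _ _ => trivial)
    (Num_stab_idT (Num_aut_res hσ hS)) (fun _ _ => trivial) (Num_stab_idF (Num_aut_res hσ hSc)),
    ← ch_equiv e, hperm, Num_prodSub_top, top_sup_eq, Num_map_top, Num_prodSub_left,
    Num_prodSub_right, Submodule.map_sup, Num_map_ideal, Num_map_ideal, Ideal.map_mapₐ,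
    Ideal.map_mapₐ, rename_comp_rename, rename_comp_rename]
  have h1 := Q.map_idT (Function.Embedding.subtype (· ∈ S)) Finset.univ
  have h2 := Q.map_idF (Function.Embedding.subtype (· ∈ Sᶜ)) Finset.univ
  have e1 : ∀ T : Finset α, (Finset.univ : Finset {x // x ∈ T}).map
      (Function.Embedding.subtype (· ∈ T)) = T := by
    intro T; ext x; simp
  rw [e1] at h1 h2
  rw [Submodule.restrictScalars_sup, ← h1, ← h2]
  rfl

theorem perfection (Q : Qv α) (σ : Equiv.Perm α) (hσ : Q.Aut σ) :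
    chP σ = ∑ S ∈ Finset.univ.filter (StabS σ), PowerSeries.X ^ Q.aa S Sᶜ *
      ((Q.comap Subtype.val).chT (res σ S) * (Q.comap Subtype.val).chF (res σ Sᶜ)) := by
  rw [perfection_aux Q σ hσ]
  refine Finset.sum_congr rfl fun S hS => ?_
  rw [ch_idT_sup_idF Q σ hσ S (Finset.mem_filter.1 hS).2]

end Crest.Agent.R059
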