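import Crest.Agent.R059.PhiAux

/-! Row 59: quantum dilogarithms `Φ(k, z^F) = ∏_j (1 + v^{k+2j} z^F)` (`k` odd),
`∏_j (1 - v^{k+2j} z^F)⁻¹` (`k` even). -/

set_option autoImplicit false
set_option linter.unusedSectionVars false
set_option linter.unusedVariables false

noncomputable section
open Classical

namespace Crest.Agent.R059

variable {L : Type} [AddCommGroup L] [Module.Free ℤ L] [Module.Finite ℤ L]
variable {Ω : Form L} {deg : L →+ ℤ}

/-- `(q;q)_d` with `q = v²`. -/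
def qfac (d : ℕ) : K := ∏ i ∈ Finset.range d, (1 - vp (2 * ((i : ℤ) + 1)))
def phiC (k : ℤ) (d : ℕ) : K :=
  vp (k * d + if Odd k then (d : ℤ) * ((d : ℤ) - 1) else 0) / qfac d
def lgC (k : ℤ) (e : ℕ) : K :=
  (if Odd k then (-1) ^ (e - 1) else 1) * vp (k * e) / ((e : K) * (1 - vp (2 * (e : ℤ))))
def PhiF (F : L) (k : ℤ) (n : L) : K := ∑ᶠ d : ℕ, if n = d • F then phiC k d else 0
def lgP (F : L) (k : ℤ) (n : L) : K := ∑ᶠ e : ℕ, if 0 < e ∧ n = e • F then lgC k e else 0

lemma adm_PhiF {F : L} (hF : 0 < deg F) (k : ℤ) : Adm deg (PhiF F k) := by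
  exact phiSerF_adm hF _


def Phi (Ω : Form L) (deg : L →+ ℤ) (F : L) (k : ℤ) : QT Ω deg :=
  if hF : 0 < deg F then ⟨PhiF F k, adm_PhiF hF k⟩ else 1
def PhiL (Ω : Form L) (deg : L →+ ℤ) (l : List (L × ℤ)) : QT Ω deg :=
  (l.map fun t => Phi Ω deg t.1 t.2).prod
def lgL (l : List (L × ℤ)) (n : L) : K := (l.map fun t => lgP t.1 t.2 n).sum

lemma qfac_ne_zero (d : ℕ) : qfac d ≠ 0 := by
  exact Finset.prod_ne_zero_iff.2 fun i _ => one_sub_vp_ne_zero (by omega)

lemma PhiF_smul {F : L} (hF : F ≠ 0) (k : ℤ) (d : ℕ) : PhiF F k (d • F) = phiC k d := by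
  exact phiSerF_smul hF _ d

lemma lgP_smul {F : L} (hF : F ≠ 0) (k : ℤ) {e : ℕ} (he : 0 < e) :
    lgP F k (e • F) = lgC k e := by
  rw [lgP, finsum_eq_single _ e, if_pos ⟨he, rfl⟩]
  intro d hd
  rw [if_neg fun h => hd (phi_smul_inj hF h.2).symm]

lemma lgP_ne_zero {F : L} {k : ℤ} {n : L} (h : lgP F k n ≠ 0) : ∃ e : ℕ, 0 < e ∧ n = e • F := by
  by_contra h'
  refine h ?_
  rw [lgP, finsum_eq_zero_of_forall_eq_zero]
  intro e
  rw [if_neg fun h2 => h' ⟨e, h2⟩]

lemma Phi_c {F : L} (hF : 0 < deg F) (k : ℤ) : (Phi Ω deg F k).c = PhiF F k := by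
  rw [Phi, dif_pos hF]

lemma phi_charZero : CharZero K := charZero_of_injective_algebraMap (algebraMap ℂ K).injective

lemma phiC_zero (k : ℤ) : phiC k 0 = 1 := by
  simp [phiC, qfac, vp_zero]

lemma phi_suppIn_one (M : AddSubmonoid L) : SuppIn M (1 : QT Ω deg) := by
  intro n hn
  have : n = 0 := by
    by_contra h
    exact hn (by rw [QT.one_c, Pi.single_eq_of_ne h])
  rw [this]
  exact M.zero_mem

/-- the dilogarithm as a power series -/
def phiPS (k : ℤ) : PowerSeries K := PowerSeries.mk (phiC k)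

lemma phi_eq_ser {F : L} (hF : 0 < deg F) (k : ℤ) : Phi Ω deg F k = phiSer Ω hF (phiPS k) := by
  ext1
  rw [Phi_c hF]
  have : (fun d => PowerSeries.coeff d (phiPS k)) = phiC k := by
    funext d; rw [phiPS, PowerSeries.coeff_mk]
  change _ = phiSerF F fun d => PowerSeries.coeff d (phiPS k)
  rw [this]
  rfl

lemma phi_odd_add (k e : ℤ) : Odd (k + 2 * e) ↔ Odd k := by
  rw [Int.odd_add]
  simp

lemma phiPS_rescale (k e : ℤ) :
    PowerSeries.rescale (vp (2 * e)) (phiPS k) = phiPS (k + 2 * e) := by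
  ext1 d
  simp only [phiPS, PowerSeries.coeff_rescale, PowerSeries.coeff_mk, phiC, phi_odd_add,
    phi_vp_pow]
  rw [← mul_div_assoc, ← vp_add]
  congr 2
  ring

lemma phi_qfac_succ (d : ℕ) : qfac (d + 1) = qfac d * (1 - vp (2 * ((d : ℤ) + 1))) :=
  Finset.prod_range_succ _ _

lemma phi_coeff_succ (x : K) (a : PowerSeries K) (d : ℕ) :
    PowerSeries.coeff (d + 1) (PowerSeries.C x * PowerSeries.X * a) =
      x * PowerSeries.coeff d a := by
  rw [mul_assoc, PowerSeries.coeff_C_mul, PowerSeries.coeff_succ_X_mul]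

lemma phi_coeff_zero (x : K) (a : PowerSeries K) :
    PowerSeries.coeff 0 (PowerSeries.C x * PowerSeries.X * a) = 0 := by
  rw [mul_assoc, PowerSeries.coeff_C_mul, PowerSeries.coeff_zero_X_mul, mul_zero]

lemma phiPS_odd {k : ℤ} (hk : Odd k) :
    phiPS k = (1 + PowerSeries.C (vp k) * PowerSeries.X) * phiPS (k + 2) := by
  have hk2 : Odd (k + 2) := by simpa using (phi_odd_add k 1).2 hk
  ext1 d
  rw [add_mul, one_mul, map_add]
  rcases d with _ | d
  · rw [phi_coeff_zero]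
    simp only [phiPS, PowerSeries.coeff_mk, phiC_zero, add_zero]
  · rw [phi_coeff_succ]
    simp only [phiPS, PowerSeries.coeff_mk, phiC, if_pos hk, if_pos hk2, phi_qfac_succ]
    have h1 := qfac_ne_zero d
    have h2 : 1 - vp (2 * ((d : ℤ) + 1)) ≠ 0 := one_sub_vp_ne_zero (by omega)
    have e1 : vp ((k + 2) * ((d + 1 : ℕ) : ℤ) + ((d + 1 : ℕ) : ℤ) * (((d + 1 : ℕ) : ℤ) - 1)) =
        vp (k * ((d + 1 : ℕ) : ℤ) + ((d + 1 : ℕ) : ℤ) * (((d + 1 : ℕ) : ℤ) - 1)) *
          vp (2 * ((d : ℤ) + 1)) := by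
      rw [← vp_add]; congr 1; push_cast; ring
    have e2 : vp k * vp ((k + 2) * (d : ℤ) + (d : ℤ) * ((d : ℤ) - 1)) =
        vp (k * ((d + 1 : ℕ) : ℤ) + ((d + 1 : ℕ) : ℤ) * (((d + 1 : ℕ) : ℤ) - 1)) := by
      rw [← vp_add]; congr 1; push_cast; ring
    rw [e1, ← mul_div_assoc, e2]
    field_simp
    ring

lemma phiPS_even {k : ℤ} (hk : ¬ Odd k) :
    (1 - PowerSeries.C (vp k) * PowerSeries.X) * phiPS k = phiPS (k + 2) := by
  have hk2 : ¬ Odd (k + 2) := by simpa using mt (phi_odd_add k 1).1 hk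
  ext1 d
  rw [sub_mul, one_mul, map_sub]
  rcases d with _ | d
  · rw [phi_coeff_zero]
    simp only [phiPS, PowerSeries.coeff_mk, phiC_zero, sub_zero]
  · rw [phi_coeff_succ]
    simp only [phiPS, PowerSeries.coeff_mk, phiC, if_neg hk, if_neg hk2, phi_qfac_succ, add_zero]
    have h1 := qfac_ne_zero d
    have h2 : 1 - vp (2 * ((d : ℤ) + 1)) ≠ 0 := one_sub_vp_ne_zero (by omega)
    have e1 : vp ((k + 2) * ((d + 1 : ℕ) : ℤ)) =
        vp (k * ((d + 1 : ℕ) : ℤ)) * vp (2 * ((d : ℤ) + 1)) := by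
      rw [← vp_add]; congr 1; push_cast; ring
    have e2 : vp k * vp (k * (d : ℤ)) = vp (k * ((d + 1 : ℕ) : ℤ)) := by
      rw [← vp_add]; congr 1; push_cast; ring
    rw [e1, ← mul_div_assoc, e2]
    field_simp
    ring

lemma phiPS_nat (k : ℤ) (e : ℕ) : ∃ R, phiNat R ∧ phiPS k = R * phiPS (k + 2 * e) := by
  induction e with
  | zero => exact ⟨1, phiNat_one, by simp⟩
  | succ e ih =>
    obtain ⟨R, hR, h⟩ := ih
    have e1 : k + 2 * ((e + 1 : ℕ) : ℤ) = k + 2 * e + 2 := by push_cast; ring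
    rw [e1]
    generalize k + 2 * (e : ℤ) = k' at h
    by_cases hk : Odd k'
    · refine ⟨R * (1 + PowerSeries.C (vp k') * PowerSeries.X), hR.mul ⟨by simp, fun d => ?_⟩, ?_⟩
      · rw [map_add]
        refine (phiNat_one.2 d).add ?_
        rw [PowerSeries.coeff_C_mul, PowerSeries.coeff_X]
        refine (IsNat.vp _).mul ?_
        split_ifs
        · exact IsNat.one
        · exact IsNat.zero
      · rw [mul_assoc, ← phiPS_odd hk, h]
    · refine ⟨R * PowerSeries.mk fun d => vp k' ^ d, hR.mul ⟨by simp, fun d => ?_⟩, ?_⟩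
      · rw [PowerSeries.coeff_mk, phi_vp_pow]
        exact IsNat.vp _
      · have h1 : (1 - PowerSeries.C (vp k') * PowerSeries.X) *
            (PowerSeries.mk fun d => vp k' ^ d) = 1 := by
          ext1 d
          rw [sub_mul, one_mul, map_sub]
          rcases d with _ | d
          · rw [phi_coeff_zero]; simp
          · rw [phi_coeff_succ]; simp [pow_succ']
        rw [← phiPS_even hk, h]
        linear_combination (-R * phiPS k') * h1

/-- `X d/dX` -/
def phiTh (a : PowerSeries K) : PowerSeries K := PowerSeries.X * PowerSeries.derivative K a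

lemma phiTh_coeff (a : PowerSeries K) (d : ℕ) :
    PowerSeries.coeff d (phiTh a) = d * PowerSeries.coeff d a := by
  rcases d with _ | d
  · simp [phiTh]
  · rw [phiTh, PowerSeries.coeff_succ_X_mul, PowerSeries.coeff_derivative]
    push_cast
    ring

lemma phiTh_lin (x : K) (a : PowerSeries K) :
    phiTh ((1 + PowerSeries.C x * PowerSeries.X) * a) =
      PowerSeries.C x * PowerSeries.X * a + (1 + PowerSeries.C x * PowerSeries.X) * phiTh a := by
  ext1 d
  simp only [add_mul, one_mul, map_add, phiTh_coeff]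
  rcases d with _ | d
  · simp only [phi_coeff_zero]; simp
  · simp only [phi_coeff_succ, phiTh_coeff]
    push_cast
    ring

/-- the logarithmic derivative of the dilogarithm -/
def phiJ (k : ℤ) : PowerSeries K := PowerSeries.mk fun e => (e : K) * lgC k e

lemma phiJ_rescale (k : ℤ) : PowerSeries.rescale (vp 2) (phiJ k) = phiJ (k + 2) := by
  have hk2 : Odd (k + 2) ↔ Odd k := by simp
  ext1 d
  simp only [phiJ, PowerSeries.coeff_rescale, PowerSeries.coeff_mk, lgC, hk2, phi_vp_pow]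
  have : vp ((k + 2) * d) = vp (k * d) * vp (2 * d) := by rw [← vp_add]; congr 1; ring
  rw [this]
  ring

lemma phiJ_sub (k : ℤ) (e : ℕ) : PowerSeries.coeff (e + 1) (phiJ k - phiJ (k + 2)) =
    (if Odd k then -1 else 1) ^ e * vp k ^ (e + 1) := by
  have hk2 : Odd (k + 2) ↔ Odd k := by simp
  have := phi_charZero
  simp only [phiJ, map_sub, PowerSeries.coeff_mk, lgC, hk2, phi_vp_pow, Nat.add_sub_cancel]
  have h1 : vp ((k + 2) * ((e + 1 : ℕ) : ℤ)) =
      vp (k * ((e + 1 : ℕ) : ℤ)) * vp (2 * ((e + 1 : ℕ) : ℤ)) := by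
    rw [← vp_add]; congr 1; ring
  have h2 : 1 - vp (2 * ((e + 1 : ℕ) : ℤ)) ≠ 0 := one_sub_vp_ne_zero (by omega)
  have h3 : ((e + 1 : ℕ) : K) ≠ 0 := Nat.cast_ne_zero.2 (by omega)
  rw [h1]
  split_ifs
  · field_simp
  · field_simp
    rw [one_pow, mul_one]

lemma phiJ_rec (k : ℤ) :
    (1 + PowerSeries.C (-(if Odd k then -1 else 1) * vp k) * PowerSeries.X) *
      (phiJ k - phiJ (k + 2)) = PowerSeries.C (vp k) * PowerSeries.X := by
  ext1 d
  rw [add_mul, one_mul, map_add, PowerSeries.coeff_C_mul, PowerSeries.coeff_X]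
  rcases d with _ | _ | d
  · rw [phi_coeff_zero]; simp [phiJ]
  · rw [phi_coeff_succ, phiJ_sub]; simp [phiJ]
  · rw [phi_coeff_succ, phiJ_sub, phiJ_sub, if_neg (by omega : ¬ d + 1 + 1 = 1)]
    ring

lemma phiTh_phiPS (k : ℤ) : phiTh (phiPS k) = phiPS k * phiJ k := by
  set Δ := phiTh (phiPS k) - phiPS k * phiJ k with hΔ
  have hr : PowerSeries.rescale (vp 2) (phiPS k) = phiPS (k + 2) := by
    simpa using phiPS_rescale k 1
  have h1 : PowerSeries.rescale (vp 2) Δ = phiTh (phiPS (k + 2)) - phiPS (k + 2) * phiJ (k + 2) := by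
    rw [hΔ, map_sub, map_mul, hr, phiJ_rescale, ← hr]
    congr 1
    ext1 d
    simp only [PowerSeries.coeff_rescale, phiTh_coeff]
    ring
  have h0 : PowerSeries.coeff 0 Δ = 0 := by
    rw [hΔ, map_sub, phiTh_coeff, PowerSeries.coeff_mul]
    simp [phiJ]
  have h2 := phiJ_rec k
  have key : ∀ d, PowerSeries.coeff d Δ = 0 := by
    intro d
    induction d with
    | zero => exact h0
    | succ d ih =>
      have h3 : 1 - vp 2 ^ (d + 1) ≠ 0 := by
        rw [phi_vp_pow]; exact one_sub_vp_ne_zero (by omega)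
      refine (mul_eq_zero.1 ?_).resolve_left h3
      by_cases hk : Odd k
      · rw [if_pos hk, neg_neg, one_mul] at h2
        have h4 : Δ = (1 + PowerSeries.C (vp k) * PowerSeries.X) *
            PowerSeries.rescale (vp 2) Δ := by
          rw [h1, hΔ]
          have h5 := phiPS_odd hk
          have h6 := congrArg phiTh h5
          rw [phiTh_lin] at h6
          linear_combination h6 - phiJ k * h5 - phiPS (k + 2) * h2
        have h7 := congrArg (PowerSeries.coeff (d + 1)) h4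
        rw [add_mul, one_mul, map_add, phi_coeff_succ, PowerSeries.coeff_rescale,
          PowerSeries.coeff_rescale, ih] at h7
        linear_combination h7
      · rw [if_neg hk] at h2
        have h8 : PowerSeries.C (-1 * vp k) = -PowerSeries.C (vp k) := by
          rw [← map_neg]; congr 1; ring
        have h4 : PowerSeries.rescale (vp 2) Δ =
            (1 + PowerSeries.C (-1 * vp k) * PowerSeries.X) * Δ := by
          rw [h1, hΔ]
          have h5 : phiPS (k + 2) =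
              (1 + PowerSeries.C (-1 * vp k) * PowerSeries.X) * phiPS k := by
            rw [← phiPS_even hk, h8]; ring
          have h6 := congrArg phiTh h5
          rw [phiTh_lin] at h6
          linear_combination h6 - phiJ (k + 2) * h5 + phiPS k * h2 +
            PowerSeries.X * phiPS k * h8
        have h7 := congrArg (PowerSeries.coeff (d + 1)) h4
        rw [add_mul, one_mul, map_add, phi_coeff_succ, PowerSeries.coeff_rescale, ih] at h7
        linear_combination -h7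
  exact sub_eq_zero.1 (PowerSeries.ext fun d => by rw [key d, map_zero])

lemma isG_Phi (F : L) (k : ℤ) : IsG (Phi Ω deg F k) := by
  by_cases hF : 0 < deg F
  · refine ⟨?_, fun n hn h => ?_⟩
    · have := PhiF_smul (phi_ne_zero hF) k 0
      rw [zero_smul, phiC_zero] at this
      rw [Phi_c hF, this]
    · rw [Phi_c hF] at h
      obtain ⟨d, rfl⟩ := phiSerF_ne_zero h
      have hd : d ≠ 0 := by
        rintro rfl
        exact hn (zero_smul _ _)
      rw [map_nsmul, nsmul_eq_mul]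
      positivity
  · rw [Phi, dif_neg hF]
    exact IsG.one

lemma suppIn_Phi {M : AddSubmonoid L} {F : L} (hF : F ∈ M) (k : ℤ) :
    SuppIn M (Phi Ω deg F k) := by
  by_cases h : 0 < deg F
  · intro n hn
    rw [Phi_c h] at hn
    obtain ⟨d, rfl⟩ := phiSerF_ne_zero hn
    exact M.nsmul_mem hF d
  · rw [Phi, dif_neg h]
    exact phi_suppIn_one M

lemma phiL_cons (t : L × ℤ) (l : List (L × ℤ)) :
    PhiL Ω deg (t :: l) = Phi Ω deg t.1 t.2 * PhiL Ω deg l := by
  rw [PhiL, List.map_cons, List.prod_cons, PhiL]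

lemma isG_PhiL (l : List (L × ℤ)) : IsG (PhiL Ω deg l) := by
  induction l with
  | nil => exact IsG.one
  | cons t l ih => rw [phiL_cons]; exact (isG_Phi _ _).mul ih

lemma suppIn_PhiL {M : AddSubmonoid L} {l : List (L × ℤ)} (h : ∀ t ∈ l, t.1 ∈ M) :
    SuppIn M (PhiL Ω deg l) := by
  induction l with
  | nil => exact phi_suppIn_one M
  | cons t l ih =>
    rw [phiL_cons]
    exact (suppIn_Phi (h t List.mem_cons_self) _).mul
      (ih fun t' ht' => h t' (List.mem_cons_of_mem _ ht'))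

/-- `Φ(k) (1 - v^k Y) = Φ(k+2)` for even `k`, `Φ(k) = (1 + v^k Y) Φ(k+2)` for odd `k`. -/
lemma Phi_odd {F : L} (hF : 0 < deg F) {k : ℤ} (hk : Odd k) :
    Phi Ω deg F k = (1 + QT.mono F (vp k)) * Phi Ω deg F (k + 2) := by
  rw [phi_eq_ser hF, phi_eq_ser hF, phiPS_odd hk, map_mul, map_add, map_one, phiSer_CX]

lemma Phi_even {F : L} (hF : 0 < deg F) {k : ℤ} (hk : ¬ Odd k) :
    (1 - QT.mono F (vp k)) * Phi Ω deg F k = Phi Ω deg F (k + 2) := by
  rw [phi_eq_ser hF, phi_eq_ser hF, ← phiPS_even hk, map_mul, map_sub, map_one, phiSer_CX]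

lemma phi_mul_comm {F : L} (hF : 0 < deg F) (k : ℤ) {f : QT Ω deg} {e : ℤ}
    (hf : ∀ x, f.c x ≠ 0 → Ω.w F x = e) :
    Phi Ω deg F k * f = f * Phi Ω deg F (k + 2 * e) := by
  rw [phi_eq_ser hF, phi_eq_ser hF, phiSer_mul_comm hF _ hf, phiPS_rescale]

lemma Phi_mul_mono {F : L} (hF : 0 < deg F) (k : ℤ) (p : L) :
    Phi Ω deg F k * QT.mono p 1 = QT.mono p 1 * Phi Ω deg F (k + 2 * Ω.w F p) := by
  refine phi_mul_comm hF k fun x hx => ?_
  by_contra h
  refine hx ?_
  rw [QT.mono_c, Pi.single_eq_of_ne]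
  rintro rfl
  exact h rfl

lemma lg_Phi {F : L} (hF : 0 < deg F) (k : ℤ) (n : L) : lg (Phi Ω deg F k) n = lgP F k n := by
  have := phi_charZero
  have hF0 := phi_ne_zero hF
  have hd : ((deg F : ℤ) : K) ≠ 0 := Int.cast_ne_zero.2 hF.ne'
  have h1 : Der deg (Phi Ω deg F k) =
      Phi Ω deg F k * phiSer Ω hF (PowerSeries.C ((deg F : ℤ) : K) * phiJ k) := by
    rw [phi_eq_ser hF, ← map_mul, mul_left_comm, ← phiTh_phiPS]
    refine phi_ext (F := F) (fun n hn => phiSer_supp hF _ (right_ne_zero_of_mul hn))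
      (fun n => phiSer_supp hF _) fun d => ?_
    rw [phiSer_smul, PowerSeries.coeff_C_mul, phiTh_coeff]
    change ((deg (d • F) : ℤ) : K) * _ = _
    rw [phiSer_smul, map_nsmul, nsmul_eq_mul]
    push_cast
    ring
  rw [lg_eq_of_der (isG_Phi F k) h1]
  by_cases hn : ∃ e : ℕ, 0 < e ∧ n = e • F
  · obtain ⟨e, he, rfl⟩ := hn
    have he' : (e : K) ≠ 0 := Nat.cast_ne_zero.2 he.ne'
    rw [lgP_smul hF0 k he, phiSer_smul, PowerSeries.coeff_C_mul, phiJ, PowerSeries.coeff_mk,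
      map_nsmul, nsmul_eq_mul]
    push_cast
    field_simp
  · rw [not_not.1 (mt lgP_ne_zero hn), div_eq_zero_iff]
    by_contra h
    push Not at h
    obtain ⟨e, rfl⟩ := phiSer_supp hF _ h.1
    rcases e with _ | e
    · exact h.2 (by simp)
    · exact hn ⟨e + 1, Nat.succ_pos e, rfl⟩

lemma lg_PhiL {l : List (L × ℤ)} (hl : ∀ t ∈ l, 0 < deg t.1) (n : L)
    (h : ∀ t ∈ l, Ω.w t.1 n = 0) : lg (PhiL Ω deg l) n = lgL l n := by
  induction l with
  | nil => exact lg_one n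
  | cons t l ih =>
    have h1 : SuppIn (AddMonoidHom.mker (Ω.th n)) (Phi Ω deg t.1 t.2) :=
      suppIn_Phi (h t List.mem_cons_self) _
    have h2 : SuppIn (AddMonoidHom.mker (Ω.th n)) (PhiL Ω deg l) :=
      suppIn_PhiL fun t' ht' => h t' (List.mem_cons_of_mem _ ht')
    rw [phiL_cons, lg_mul (isG_Phi _ _) (isG_PhiL _) n h1 h2,
      lg_Phi (hl t List.mem_cons_self), ih (fun t' ht' => hl t' (List.mem_cons_of_mem _ ht'))
      (fun t' ht' => h t' (List.mem_cons_of_mem _ ht'))]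
    simp [lgL]

/-- The polynomial `∏_{j<e} (1 + v^{s(2j+1)} z^F)`. -/
def binP (Ω : Form L) (deg : L →+ ℤ) (F : L) (s : ℤ) (e : ℕ) : QT Ω deg :=
  ((List.range e).map fun j => (1 + QT.mono F (vp (s * (2 * (j : ℤ) + 1))) : QT Ω deg)).prod
lemma binP_succ (F : L) (s : ℤ) (e : ℕ) : binP Ω deg F s (e + 1) =
    binP Ω deg F s e * (1 + QT.mono F (vp (s * (2 * (e : ℤ) + 1)))) := by
  simp [binP, List.range_succ]

lemma binP_eq {F : L} (hF : 0 < deg F) (s : ℤ) (e : ℕ) : binP Ω deg F s e = phiSer Ω hF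
    (∏ j ∈ Finset.range e, (1 + PowerSeries.C (vp (s * (2 * (j : ℤ) + 1))) * PowerSeries.X)) := by
  induction e with
  | zero => simp [binP]
  | succ e ih => rw [binP_succ, Finset.prod_range_succ, map_mul, ih, map_add, map_one, phiSer_CX]

lemma conj_mono_nonneg {F : L} (hF : 0 < deg F) (p : L) (hp : 0 ≤ Ω.w F p) :
    inv (Phi Ω deg F 1) * QT.mono p 1 * Phi Ω deg F 1 =
      QT.mono p 1 * binP Ω deg F 1 (Ω.w F p).toNat := by
  obtain ⟨e, he⟩ := Int.eq_ofNat_of_zero_le hp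
  have hu := (isG_Phi (Ω := Ω) (deg := deg) F 1).isUnit
  have h1 : ∀ e : ℕ, Phi Ω deg F 1 = Phi Ω deg F (1 + 2 * e) * binP Ω deg F 1 e := by
    intro e
    induction e with
    | zero => simp [binP]
    | succ e ih =>
      have h2 : 1 + 2 * ((e + 1 : ℕ) : ℤ) = 1 + 2 * e + 2 := by push_cast; ring
      have h3 : 1 * (2 * (e : ℤ) + 1) = 1 + 2 * e := by ring
      rw [ih, Phi_odd hF (k := 1 + 2 * e) ((phi_odd_add 1 e).2 odd_one), h2, binP_succ, h3,
        binP_eq hF, phi_eq_ser hF, ← phiSer_CX hF, ← map_one (phiSer Ω hF), ← map_add]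
      simp only [← map_mul]
      congr 1
      ring
  rw [he, Int.toNat_natCast, mul_assoc, Ring.inverse_mul_eq_iff_eq_mul _ _ _ hu, ← mul_assoc,
    Phi_mul_mono hF, he, mul_assoc, ← h1]

lemma conj_mono_nonpos {F : L} (hF : 0 < deg F) (p : L) (hp : Ω.w F p ≤ 0) :
    Phi Ω deg F 1 * QT.mono p 1 * inv (Phi Ω deg F 1) =
      QT.mono p 1 * binP Ω deg F (-1) (-Ω.w F p).toNat := by
  obtain ⟨e, he⟩ := Int.eq_ofNat_of_zero_le (neg_nonneg.2 hp)
  have hu := (isG_Phi (Ω := Ω) (deg := deg) F 1).isUnit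
  have h1 : ∀ e : ℕ, Phi Ω deg F (1 + 2 * -e) = binP Ω deg F (-1) e * Phi Ω deg F 1 := by
    intro e
    induction e with
    | zero => simp [binP]
    | succ e ih =>
      have h2 : 1 + 2 * -((e + 1 : ℕ) : ℤ) + 2 = 1 + 2 * -e := by push_cast; ring
      have h3 : -1 * (2 * (e : ℤ) + 1) = 1 + 2 * -((e + 1 : ℕ) : ℤ) := by push_cast; ring
      rw [Phi_odd hF ((phi_odd_add 1 _).2 odd_one), h2, ih, binP_succ, h3,
        binP_eq hF, phi_eq_ser hF, ← phiSer_CX hF, ← map_one (phiSer Ω hF), ← map_add]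
      simp only [← map_mul]
      congr 1
      ring
  have he' : Ω.w F p = -e := by omega
  rw [he, Int.toNat_natCast, Phi_mul_mono hF, he', h1, ← mul_assoc,
    Ring.mul_inverse_cancel_right _ _ hu]

lemma conj_mono_one {F : L} (hF : 0 < deg F) (p : L) (hp : Ω.w F p = 1) :
    inv (Phi Ω deg F 1) * QT.mono p 1 * Phi Ω deg F 1 = QT.mono p 1 + QT.mono (p + F) 1 := by
  rw [conj_mono_nonneg hF p (by omega), hp]
  have h1 : Ω.w p F = -1 := by rw [Ω.skew, hp]
  have h2 : vp 1 * vp (-1) = 1 := by rw [← vp_add]; exact vp_zero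
  simp [binP, mul_add, QT.mono_mul_mono, h1, h2]

lemma conj_mono_zero {F : L} (hF : 0 < deg F) (p : L) (hp : Ω.w F p = 0) :
    inv (Phi Ω deg F 1) * QT.mono p 1 * Phi Ω deg F 1 = QT.mono p 1 := by
  rw [conj_mono_nonneg hF p (by omega), hp]
  simp [binP]

lemma conj_mono_neg_one {F : L} (hF : 0 < deg F) (p : L) (hp : Ω.w F p = -1) :
    inv (Phi Ω deg F 1) * (QT.mono p 1 + QT.mono (p + F) 1) * Phi Ω deg F 1 = QT.mono p 1 := by
  have hu := (isG_Phi (Ω := Ω) (deg := deg) F 1).isUnit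
  have h0 := conj_mono_nonpos hF p (by omega : Ω.w F p ≤ 0)
  have h1 : Ω.w p F = 1 := by rw [Ω.skew, hp, neg_neg]
  have h2 : vp (-1) * vp 1 = 1 := by rw [← vp_add]; exact vp_zero
  have h3 : (QT.mono p 1 : QT Ω deg) * binP Ω deg F (-1) (-Ω.w F p).toNat =
      QT.mono p 1 + QT.mono (p + F) 1 := by
    rw [hp]
    simp [binP, mul_add, QT.mono_mul_mono, h1, h2]
  rw [← h3, ← h0, mul_assoc (Phi Ω deg F 1), Ring.inverse_mul_cancel_left _ _ hu,
    Ring.inverse_mul_cancel_right _ _ hu]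


lemma phi_inv_supp {F : L} (k : ℤ) (n : L) (h : (inv (Phi Ω deg F k)).c n ≠ 0) :
    ∃ d : ℕ, n = d • F := by
  have := (isG_Phi (Ω := Ω) (deg := deg) F k).suppIn_inv
    (suppIn_Phi (M := AddSubmonoid.multiples F) (AddSubmonoid.mem_multiples F) k) n h
  obtain ⟨d, hd⟩ := this
  exact ⟨d, hd.symm⟩

lemma phi_supp {F : L} (k : ℤ) (n : L) (h : (Phi Ω deg F k).c n ≠ 0) : ∃ d : ℕ, n = d • F := by
  obtain ⟨d, hd⟩ :=
    suppIn_Phi (M := AddSubmonoid.multiples F) (AddSubmonoid.mem_multiples F) k n h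
  exact ⟨d, hd.symm⟩

lemma phi_restrict_nat {F : L} (hF : 0 < deg F) {R : PowerSeries K} (hR : phiNat R)
    {f : QT Ω deg} {m : L} (hpos : ∀ d : ℕ, 0 < d → IsNat (f.c (m - d • F))) :
    IsNat ((restrict {x | Ω.w F x = Ω.w F m} f * phiSer Ω hF R).c m - f.c m) := by
  have h1 : ∀ d : ℕ, (restrict {x | Ω.w F x = Ω.w F m} f).c (m - d • F) = f.c (m - d • F) := by
    intro d
    have : m - d • F ∈ {x | Ω.w F x = Ω.w F m} := by simp [Ω.alt]
    simp only [restrict, if_pos this]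
  have h2 := h1 0
  rw [zero_smul, sub_zero] at h2
  rw [← h2]
  exact phi_mul_nat hF hR _ m fun d hd => (h1 d).symm ▸ hpos d hd

lemma phi_restrict_w {F m : L} {f : QT Ω deg} (x : L)
    (h : (restrict {x | Ω.w F x = Ω.w F m} f).c x ≠ 0) : Ω.w F x = Ω.w F m := by
  by_contra h'
  have : x ∉ {x | Ω.w F x = Ω.w F m} := h'
  exact h (by simp only [restrict, if_neg this])

lemma phi_conj_neg {F : L} (hF : 0 < deg F) (k : ℤ) {m : L} (hm : Ω.w F m < 0) {f : QT Ω deg}
    (hpos : ∀ d : ℕ, 0 < d → IsNat (f.c (m - d • F))) :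
    IsNat ((Phi Ω deg F k * f * inv (Phi Ω deg F k)).c m - f.c m) := by
  have hu := (isG_Phi (Ω := Ω) (deg := deg) F k).isUnit
  obtain ⟨e, he⟩ := Int.eq_ofNat_of_zero_le (neg_nonneg.2 hm.le)
  obtain ⟨R, hR, h⟩ := phiPS_nat (k + 2 * Ω.w F m) e
  have e1 : k + 2 * Ω.w F m + 2 * e = k := by omega
  rw [e1] at h
  rw [phi_restrict (phi_supp k) (phi_inv_supp k), phi_mul_comm hF k phi_restrict_w,
    phi_eq_ser hF (k + _), h, map_mul, ← phi_eq_ser hF, ← mul_assoc,
    Ring.mul_inverse_cancel_right _ _ hu]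
  exact phi_restrict_nat hF hR hpos

lemma phi_conj_pos {F : L} (hF : 0 < deg F) (k : ℤ) {m : L} (hm : 0 < Ω.w F m) {f : QT Ω deg}
    (hpos : ∀ d : ℕ, 0 < d → IsNat (f.c (m - d • F))) :
    IsNat ((inv (Phi Ω deg F k) * f * Phi Ω deg F k).c m - f.c m) := by
  have hu := (isG_Phi (Ω := Ω) (deg := deg) F k).isUnit
  obtain ⟨e, he⟩ := Int.eq_ofNat_of_zero_le hm.le
  obtain ⟨R, hR, h⟩ := phiPS_nat k e
  rw [← he, mul_comm] at h
  have h1 : Phi Ω deg F k = Phi Ω deg F (k + 2 * Ω.w F m) * phiSer Ω hF R := by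
    rw [phi_eq_ser hF, phi_eq_ser hF, ← map_mul, ← h]
  rw [phi_restrict (phi_inv_supp k) (phi_supp k), mul_assoc]
  conv => enter [1, 1, 1, 2, 2]; rw [h1]
  rw [← mul_assoc (restrict _ _), ← phi_mul_comm hF k phi_restrict_w, mul_assoc,
    Ring.inverse_mul_cancel_left _ _ hu]
  exact phi_restrict_nat hF hR hpos

lemma phi_closure_mono {t : L × ℤ} {l : List (L × ℤ)} {x : L}
    (hx : x ∈ AddSubmonoid.closure {y | ∃ t ∈ l, t.1 = y}) :
    x ∈ AddSubmonoid.closure {y | ∃ t' ∈ t :: l, t'.1 = y} :=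
  by
  refine AddSubmonoid.closure_mono ?_ hx
  rintro _ ⟨t', h1, h2⟩
  exact ⟨t', List.mem_cons_of_mem _ h1, h2⟩

lemma phi_closure {M : AddSubmonoid L} (hM : GoodCone deg M) {t : L × ℤ} {l : List (L × ℤ)}
    (hl : ∀ t' ∈ t :: l, t'.1 ∈ M ∧ t'.1 ≠ 0) {d : ℕ} (hd : 0 < d) {x : L}
    (hx : x ∈ AddSubmonoid.closure {y | ∃ t ∈ l, t.1 = y}) :
    d • t.1 + x ∈ AddSubmonoid.closure {y | ∃ t' ∈ t :: l, t'.1 = y} ∧ d • t.1 + x ≠ 0 := by
  have h0 : t.1 ∈ {y | ∃ t' ∈ t :: l, t'.1 = y} := ⟨t, List.mem_cons_self, rfl⟩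
  refine ⟨add_mem (AddSubmonoid.nsmul_mem _ (AddSubmonoid.subset_closure h0) d)
    (phi_closure_mono hx), ?_⟩
  have ht := hl t List.mem_cons_self
  have hF := hM.1 _ ht.1 ht.2
  have hxM : x ∈ M := by
    refine AddSubmonoid.closure_le.2 ?_ hx
    rintro _ ⟨t', h1, rfl⟩
    exact (hl t' (List.mem_cons_of_mem _ h1)).1
  have hx0 : 0 ≤ deg x := by
    by_cases h : x = 0
    · simp [h]
    · exact (hM.1 x hxM h).le
  intro h
  have h1 := congrArg deg h
  rw [map_add, map_nsmul, nsmul_eq_mul, map_zero] at h1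
  have : 0 < (d : ℤ) * deg t.1 := by positivity
  omega

lemma phi_w_closure {F : L} {l : List (L × ℤ)} (h : ∀ t ∈ l, Ω.w F t.1 = 0) {x : L}
    (hx : x ∈ AddSubmonoid.closure {y | ∃ t ∈ l, t.1 = y}) : Ω.w F x = 0 := by
  have : AddSubmonoid.closure {y | ∃ t ∈ l, t.1 = y} ≤ AddMonoidHom.mker (Ω.w F) := by
    refine AddSubmonoid.closure_le.2 ?_
    rintro _ ⟨t', h1, rfl⟩
    exact h t' h1
  exact this hx

/-- Positivity of wall crossing in the good direction (negative pairing). -/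
lemma conj_PhiL_pos_neg {M : AddSubmonoid L} (hM : GoodCone deg M) {l : List (L × ℤ)}
    (hl : ∀ t ∈ l, t.1 ∈ M ∧ t.1 ≠ 0) (hc : ∀ t ∈ l, ∀ t' ∈ l, Ω.w t.1 t'.1 = 0) {p m : L}
    (hm : ∀ t ∈ l, Ω.w t.1 m < 0) {f : QT Ω deg} (hf : SuppIn (shift p M) f)
    (hpos : ∀ x ∈ AddSubmonoid.closure {y | ∃ t ∈ l, t.1 = y}, x ≠ 0 → IsNat (f.c (m - x))) :
    IsNat ((PhiL Ω deg l * f * inv (PhiL Ω deg l)).c m - f.c m) := by
  clear hf
  induction l generalizing m with
  | nil => simpa [PhiL] using IsNat.zero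
  | cons t l ih =>
    have ht := hl t List.mem_cons_self
    have hF := hM.1 _ ht.1 ht.2
    have hl' := fun t' ht' => hl t' (List.mem_cons_of_mem _ ht')
    have hc' := fun t' ht' t'' ht'' =>
      hc t' (List.mem_cons_of_mem _ ht') t'' (List.mem_cons_of_mem _ ht'')
    have hm' := fun t' ht' => hm t' (List.mem_cons_of_mem _ ht')
    rw [phiL_cons, inv, Ring.inverse_mul (Or.inl (isG_Phi _ _).isUnit)]
    set g := PhiL Ω deg l * f * inv (PhiL Ω deg l) with hg
    have e : (Phi Ω deg t.1 t.2 * PhiL Ω deg l * f *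
        (Ring.inverse (PhiL Ω deg l) * Ring.inverse (Phi Ω deg t.1 t.2))).c m - f.c m =
        ((Phi Ω deg t.1 t.2 * g * inv (Phi Ω deg t.1 t.2)).c m - g.c m) + (g.c m - f.c m) := by
      rw [sub_add_sub_cancel, hg]
      simp only [mul_assoc]
    rw [e]
    refine (phi_conj_neg hF _ (hm t List.mem_cons_self) fun d hd => ?_).add
      (ih hl' hc' hm' fun x hx hx0 => ?_)
    · have h1 := ih hl' hc' (m := m - d • t.1) (fun t' ht' => by
        rw [map_sub, map_nsmul, hc t' (List.mem_cons_of_mem _ ht') t List.mem_cons_self,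
          smul_zero, sub_zero]
        exact hm' t' ht') fun x hx _ => by
          obtain ⟨h2, h3⟩ := phi_closure hM hl hd hx
          rw [sub_sub]
          exact hpos _ h2 h3
      obtain ⟨h2, h3⟩ := phi_closure hM hl hd (zero_mem _)
      have h4 := h1.add (hpos _ h2 h3)
      rwa [add_zero, sub_add_cancel] at h4
    · exact hpos x (phi_closure_mono hx) hx0

/-- Positivity of wall crossing in the good direction (positive pairing). -/
lemma conj_PhiL_pos_pos {M : AddSubmonoid L} (hM : GoodCone deg M) {l : List (L × ℤ)}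
    (hl : ∀ t ∈ l, t.1 ∈ M ∧ t.1 ≠ 0) (hc : ∀ t ∈ l, ∀ t' ∈ l, Ω.w t.1 t'.1 = 0) {p m : L}
    (hm : ∀ t ∈ l, 0 < Ω.w t.1 m) {f : QT Ω deg} (hf : SuppIn (shift p M) f)
    (hpos : ∀ x ∈ AddSubmonoid.closure {y | ∃ t ∈ l, t.1 = y}, x ≠ 0 → IsNat (f.c (m - x))) :
    IsNat ((inv (PhiL Ω deg l) * f * PhiL Ω deg l).c m - f.c m) := by
  clear hf
  induction l generalizing f with
  | nil => simpa [PhiL] using IsNat.zero
  | cons t l ih =>
    have ht := hl t List.mem_cons_self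
    have hF := hM.1 _ ht.1 ht.2
    have hl' := fun t' ht' => hl t' (List.mem_cons_of_mem _ ht')
    have hc' := fun t' ht' t'' ht'' =>
      hc t' (List.mem_cons_of_mem _ ht') t'' (List.mem_cons_of_mem _ ht'')
    have hm' := fun t' ht' => hm t' (List.mem_cons_of_mem _ ht')
    rw [phiL_cons, inv, Ring.inverse_mul (Or.inl (isG_Phi _ _).isUnit)]
    set g := inv (Phi Ω deg t.1 t.2) * f * Phi Ω deg t.1 t.2 with hg
    have e : (Ring.inverse (PhiL Ω deg l) * Ring.inverse (Phi Ω deg t.1 t.2) * f *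
        (Phi Ω deg t.1 t.2 * PhiL Ω deg l)).c m - f.c m =
        ((inv (PhiL Ω deg l) * g * PhiL Ω deg l).c m - g.c m) + (g.c m - f.c m) := by
      rw [sub_add_sub_cancel, hg]
      simp only [mul_assoc]
    rw [e]
    refine (ih hl' hc' hm' fun x hx hx0 => ?_).add
      (phi_conj_pos hF _ (hm t List.mem_cons_self) fun d hd => ?_)
    · have h1 := phi_conj_pos hF t.2 (m := m - x) (f := f) (by
        rw [map_sub, phi_w_closure
          (fun t' ht' => hc t List.mem_cons_self t' (List.mem_cons_of_mem _ ht')) hx, sub_zero]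
        exact hm t List.mem_cons_self) fun d hd => by
          obtain ⟨h2, h3⟩ := phi_closure hM hl hd hx
          rw [sub_sub, add_comm]
          exact hpos _ h2 h3
      have h4 := h1.add (hpos x (phi_closure_mono hx) hx0)
      rwa [sub_add_cancel] at h4
    · obtain ⟨h2, h3⟩ := phi_closure hM hl hd (zero_mem _)
      have := hpos _ h2 h3
      rwa [add_zero] at this


end Crest.Agent.R059
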