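import Crest.Agent.R059.Lg

/-! Row 59: power series in a single monomial `z^F` inside the quantum torus. -/

set_option autoImplicit false
set_option linter.unusedSectionVars false
set_option linter.unusedVariables false

noncomputable section
open Classical

namespace Crest.Agent.R059

variable {L : Type} [AddCommGroup L] [Module.Free ℤ L] [Module.Finite ℤ L]
variable {Ω : Form L} {deg : L →+ ℤ}

lemma phi_smul_inj {F : L} (hF : F ≠ 0) {d e : ℕ} (h : d • F = e • F) : d = e := by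
  have h1 : (d : ℤ) • F = (e : ℤ) • F := by simpa using h
  exact_mod_cast smul_left_injective ℤ hF h1

lemma phi_ne_zero {F : L} (hF : 0 < deg F) : F ≠ 0 := by
  rintro rfl
  simp at hF

lemma phi_vp_pow (i : ℤ) (d : ℕ) : vp i ^ d = vp (i * d) := by
  induction d with
  | zero => simp [vp_zero]
  | succ d ih => rw [pow_succ, ih, ← vp_add]; congr 1; push_cast; ring

/-- the function on `L` attached to a sequence -/
def phiSerF (F : L) (a : ℕ → K) (n : L) : K := ∑ᶠ d : ℕ, if n = d • F then a d else 0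

lemma phiSerF_smul {F : L} (hF : F ≠ 0) (a : ℕ → K) (d : ℕ) : phiSerF F a (d • F) = a d := by
  rw [phiSerF, finsum_eq_single _ d, if_pos rfl]
  intro e he
  rw [if_neg fun h => he (phi_smul_inj hF h).symm]

lemma phiSerF_ne_zero {F : L} {a : ℕ → K} {n : L} (h : phiSerF F a n ≠ 0) :
    ∃ d : ℕ, n = d • F := by
  by_contra h'
  push Not at h'
  exact h (by simp [phiSerF, h'])

lemma phiSerF_adm {F : L} (hF : 0 < deg F) (a : ℕ → K) : Adm deg (phiSerF F a) := by
  intro D
  refine ((Set.finite_le_nat D.toNat).image fun d : ℕ => d • F).subset ?_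
  rintro n ⟨h1, h2⟩
  obtain ⟨d, rfl⟩ := phiSerF_ne_zero h1
  refine ⟨d, ?_, rfl⟩
  rw [map_nsmul, nsmul_eq_mul] at h2
  have : (d : ℤ) ≤ D := by nlinarith
  show d ≤ D.toNat
  omega

/-- a power series evaluated at `z^F` -/
def phiSer0 (Ω : Form L) {F : L} (hF : 0 < deg F) (a : PowerSeries K) : QT Ω deg :=
  ⟨phiSerF F fun d => PowerSeries.coeff d a, phiSerF_adm hF _⟩

lemma phiSer0_smul {F : L} (hF : 0 < deg F) (a : PowerSeries K) (d : ℕ) :
    (phiSer0 Ω hF a).c (d • F) = PowerSeries.coeff d a := phiSerF_smul (phi_ne_zero hF) _ d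

lemma phiSer0_supp {F : L} (hF : 0 < deg F) (a : PowerSeries K) {n : L}
    (h : (phiSer0 Ω hF a).c n ≠ 0) : ∃ d : ℕ, n = d • F := phiSerF_ne_zero h

lemma phi_ext {F : L} {a b : QT Ω deg} (ha : ∀ n, a.c n ≠ 0 → ∃ d : ℕ, n = d • F)
    (hb : ∀ n, b.c n ≠ 0 → ∃ d : ℕ, n = d • F) (h : ∀ d : ℕ, a.c (d • F) = b.c (d • F)) :
    a = b := by
  ext1
  funext n
  by_cases hn : ∃ d : ℕ, n = d • F
  · obtain ⟨d, rfl⟩ := hn
    exact h d
  · rw [not_not.1 (mt (ha n) hn), not_not.1 (mt (hb n) hn)]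

lemma phi_w_smul (F : L) (d e : ℕ) : Ω.w (d • F) (e • F) = 0 := by
  simp [Ω.alt]

lemma phiSer0_mul {F : L} (hF : 0 < deg F) (a b : PowerSeries K) :
    phiSer0 Ω hF (a * b) = phiSer0 Ω hF a * phiSer0 Ω hF b := by
  have hF0 := phi_ne_zero hF
  refine phi_ext (F := F) (fun n => phiSer0_supp hF _) (fun n hn => ?_) fun d => ?_
  · obtain ⟨p, h1, h2⟩ := QT.exists_of_mul_c_ne_zero _ _ _ hn
    obtain ⟨d, rfl⟩ := phiSer0_supp hF _ h1
    obtain ⟨e, he⟩ := phiSer0_supp hF _ h2
    exact ⟨d + e, by rw [add_smul, ← he]; abel⟩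
  · rw [phiSer0_smul, QT.mul_c_eq_sum _ _ _ ((Finset.range (d + 1)).image fun i : ℕ => i • F),
      Finset.sum_image fun i _ j _ h => phi_smul_inj hF0 h, PowerSeries.coeff_mul,
      Finset.Nat.sum_antidiagonal_eq_sum_range_succ_mk]
    · refine Finset.sum_congr rfl fun i hi => ?_
      rw [Finset.mem_range] at hi
      have : d • F - i • F = (d - i) • F := by
        rw [sub_eq_iff_eq_add, ← add_smul]; congr 1; omega
      rw [this, phiSer0_smul, phiSer0_smul, phi_w_smul, vp_zero, mul_one]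
    · intro p h1 h2
      obtain ⟨i, rfl⟩ := phiSer0_supp hF _ h1
      obtain ⟨e, he⟩ := phiSer0_supp hF _ h2
      have : d = e + i := phi_smul_inj hF0 (by rw [add_smul, ← he]; abel)
      exact Finset.mem_image.2 ⟨i, Finset.mem_range.2 (by omega), rfl⟩

lemma phi_mono_supp (F : L) (e : ℕ) (x : K) {n : L}
    (h : (QT.mono (e • F) x : QT Ω deg).c n ≠ 0) : ∃ d : ℕ, n = d • F := by
  refine ⟨e, ?_⟩
  by_contra hn
  exact h (by rw [QT.mono_c, Pi.single_eq_of_ne hn])

lemma phiSer0_monomial {F : L} (hF : 0 < deg F) (e : ℕ) (x : K) :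
    phiSer0 Ω hF (PowerSeries.monomial e x) = QT.mono (e • F) x := by
  refine phi_ext (F := F) (fun n => phiSer0_supp hF _) (fun n => phi_mono_supp F e x) fun d => ?_
  rw [phiSer0_smul, PowerSeries.coeff_monomial, QT.mono_c, Pi.single_apply]
  by_cases h : d = e
  · simp [h]
  · rw [if_neg h, if_neg fun h' => h (phi_smul_inj (phi_ne_zero hF) h')]

/-- evaluation at `z^F` as a ring homomorphism -/
def phiSer (Ω : Form L) {F : L} (hF : 0 < deg F) : PowerSeries K →+* QT Ω deg where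
  toFun := phiSer0 Ω hF
  map_one' := by
    have := phiSer0_monomial (Ω := Ω) hF 0 1
    rw [zero_smul, PowerSeries.monomial_zero_eq_C_apply, map_one] at this
    exact this
  map_mul' := phiSer0_mul hF
  map_zero' := phi_ext (F := F) (fun n => phiSer0_supp hF _) (fun n h => absurd rfl h) fun d => by
    rw [phiSer0_smul]; rfl
  map_add' a b := by
    refine phi_ext (F := F) (fun n => phiSer0_supp hF _) (fun n h => ?_) fun d => ?_
    · by_contra hn
      refine h ?_
      rw [QT.add_c, Pi.add_apply, not_not.1 (mt (phiSer0_supp hF a) hn),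
        not_not.1 (mt (phiSer0_supp hF b) hn), add_zero]
    · rw [QT.add_c, Pi.add_apply, phiSer0_smul, phiSer0_smul, phiSer0_smul, map_add]

lemma phiSer_smul {F : L} (hF : 0 < deg F) (a : PowerSeries K) (d : ℕ) :
    (phiSer Ω hF a).c (d • F) = PowerSeries.coeff d a := phiSer0_smul hF a d

lemma phiSer_supp {F : L} (hF : 0 < deg F) (a : PowerSeries K) {n : L}
    (h : (phiSer Ω hF a).c n ≠ 0) : ∃ d : ℕ, n = d • F := phiSer0_supp hF a h

lemma phiSer_CX {F : L} (hF : 0 < deg F) (x : K) :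
    phiSer Ω hF (PowerSeries.C x * PowerSeries.X) = QT.mono F x := by
  have := phiSer0_monomial (Ω := Ω) hF 1 x
  rw [one_smul] at this
  rw [← this]
  refine congrArg (phiSer0 Ω hF) ?_
  ext d
  rw [PowerSeries.coeff_C_mul, PowerSeries.coeff_X, PowerSeries.coeff_monomial]
  split_ifs <;> simp

/-- commuting a series past an element on whose support `ω(F, ·)` is constant -/
lemma phiSer_mul_comm {F : L} (hF : 0 < deg F) (a : PowerSeries K) {f : QT Ω deg} {e : ℤ}
    (hf : ∀ x, f.c x ≠ 0 → Ω.w F x = e) :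
    phiSer Ω hF a * f = f * phiSer Ω hF (PowerSeries.rescale (vp (2 * e)) a) := by
  ext1
  funext n
  rw [QT.mul_c, QT.mul_c, mulF, mulF, ← finsum_comp_equiv (Equiv.subLeft n)]
  refine finsum_congr fun q => ?_
  simp only [Equiv.subLeft_apply, sub_sub_cancel]
  by_cases hq : f.c q = 0
  · simp [hq]
  by_cases hn : ∃ d : ℕ, n - q = d • F
  · obtain ⟨d, hd⟩ := hn
    have h1 : n = q + d • F := by rw [← hd]; abel
    have h2 : Ω.w (d • F) n = d * e := by
      rw [h1, map_add, Ω.alt, add_zero, map_nsmul, AddMonoidHom.nsmul_apply, hf q hq, nsmul_eq_mul]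
    have h3 : Ω.w q n = -(d * e) := by
      rw [h1, map_add, Ω.alt, zero_add, map_nsmul, Ω.skew, hf q hq, nsmul_eq_mul, mul_neg]
    rw [hd, phiSer_smul, phiSer_smul, PowerSeries.coeff_rescale, phi_vp_pow, h2, h3]
    have h4 : vp (d * e) = vp (2 * e * d) * vp (-(d * e)) := by
      rw [← vp_add]; congr 1; ring
    rw [h4]
    ring
  · rw [not_not.1 (mt (phiSer_supp hF _) hn), not_not.1 (mt (phiSer_supp hF _) hn)]
    simp

/-- series with constant term one and natural coefficients -/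
def phiNat (R : PowerSeries K) : Prop :=
  PowerSeries.coeff 0 R = 1 ∧ ∀ d, IsNat (PowerSeries.coeff d R)

lemma phiNat.mul {R S : PowerSeries K} (hR : phiNat R) (hS : phiNat S) : phiNat (R * S) := by
  refine ⟨?_, fun d => ?_⟩
  · rw [PowerSeries.coeff_mul]
    simp only [Finset.Nat.antidiagonal_zero, Finset.sum_singleton]
    rw [hR.1, hS.1, mul_one]
  · rw [PowerSeries.coeff_mul]
    exact IsNat.sum _ _ fun p _ => (hR.2 _).mul (hS.2 _)

lemma phiNat_one : phiNat 1 := by
  refine ⟨by simp, fun d => ?_⟩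
  rw [PowerSeries.coeff_one]
  split_ifs
  · exact IsNat.one
  · exact IsNat.zero

lemma phi_mul_nat {F : L} (hF : 0 < deg F) {R : PowerSeries K} (hR : phiNat R) (f : QT Ω deg)
    (m : L) (hpos : ∀ d : ℕ, 0 < d → IsNat (f.c (m - d • F))) :
    IsNat ((f * phiSer Ω hF R).c m - f.c m) := by
  have hfin := f.adm.finite_pairs (phiSer Ω hF R).adm m
  rw [QT.mul_c_eq_sum _ _ _ (insert m hfin.toFinset)
    (fun p h1 h2 => Finset.mem_insert_of_mem (hfin.mem_toFinset.2 ⟨h1, h2⟩)),
    ← Finset.add_sum_erase _ _ (Finset.mem_insert_self m _), sub_self, Ω.alt, vp_zero, mul_one]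
  have h0 := phiSer_smul (Ω := Ω) hF R 0
  rw [zero_smul] at h0
  rw [h0, hR.1, mul_one, add_sub_cancel_left]
  refine IsNat.sum _ _ fun p hp => ?_
  by_cases hn : ∃ d : ℕ, m - p = d • F
  · obtain ⟨d, hd⟩ := hn
    have hd0 : 0 < d := by
      refine Nat.pos_of_ne_zero ?_
      rintro rfl
      rw [zero_smul, sub_eq_zero] at hd
      exact (Finset.ne_of_mem_erase hp) hd.symm
    have hp' : p = m - d • F := by rw [← hd]; abel
    rw [hd, phiSer_smul]
    refine ((?_ : IsNat _).mul (hR.2 d)).mul (IsNat.vp _)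
    rw [hp']
    exact hpos d hd0
  · rw [not_not.1 (mt (phiSer_supp hF _) hn), mul_zero, zero_mul]
    exact IsNat.zero

/-- only the part of `f` with `ω(F, ·) = ω(F, m)` matters for the coefficient at `m` -/
lemma phi_restrict {F : L} {A B : QT Ω deg} (hA : ∀ n, A.c n ≠ 0 → ∃ d : ℕ, n = d • F)
    (hB : ∀ n, B.c n ≠ 0 → ∃ d : ℕ, n = d • F) (f : QT Ω deg) (m : L) :
    (A * f * B).c m = (A * restrict {x | Ω.w F x = Ω.w F m} f * B).c m := by
  set g := restrict {x | Ω.w F x = Ω.w F m} f with hg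
  have h1 : A * f * B = A * g * B + A * (f - g) * B := by noncomm_ring
  rw [h1, QT.add_c, Pi.add_apply, add_eq_left]
  by_contra h
  obtain ⟨p, h2, h3⟩ := QT.exists_of_mul_c_ne_zero _ _ _ h
  obtain ⟨q, h4, h5⟩ := QT.exists_of_mul_c_ne_zero _ _ _ h2
  obtain ⟨d, hd⟩ := hB _ h3
  obtain ⟨e, rfl⟩ := hA _ h4
  refine h5 ?_
  have h6 : p = m - d • F := by rw [← hd]; abel
  have h7 : p - e • F ∈ {x | Ω.w F x = Ω.w F m} := by
    simp [h6, Ω.alt]
  rw [QT.sub_c, Pi.sub_apply, hg]
  simp only [restrict, if_pos h7, sub_self]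

end Crest.Agent.R059
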