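import Mathlib

/-! Row 59: completed quantum torus.  Definitions and ring structure. -/

set_option autoImplicit false
set_option linter.unusedSectionVars false
set_option linter.unusedVariables false

noncomputable section
open Classical

namespace Crest.Agent.R059

/-- Coefficient field: Laurent series in `v`. -/
abbrev K : Type := LaurentSeries ℂ

/-- `v ^ k`. -/
def vp (k : ℤ) : K := HahnSeries.single k 1

/-- All coefficients are natural numbers. -/
def IsNat (x : K) : Prop := ∀ j : ℤ, ∃ m : ℕ, x.coeff j = (m : ℂ)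

/-- An alternating biadditive form. -/
structure Form (L : Type) [AddCommGroup L] where
  w : L →+ L →+ ℤ
  alt : ∀ x, w x x = 0

variable {L : Type} [AddCommGroup L]

/-- Admissible for the degree `deg`: finitely many support points of bounded degree. -/
def Adm (deg : L →+ ℤ) (a : L → K) : Prop := ∀ D : ℤ, {n | a n ≠ 0 ∧ deg n ≤ D}.Finite

/-- Function-level twisted convolution `z^p z^q = v^{ω(p,q)} z^{p+q}`. -/
def mulF (Ω : Form L) (a b : L → K) (n : L) : K := ∑ᶠ p, a p * b (n - p) * vp (Ω.w p n)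

/-- The completed quantum torus. -/
@[ext] structure QT (Ω : Form L) (deg : L →+ ℤ) where
  c : L → K
  adm : Adm deg c

lemma vp_add (i j : ℤ) : vp (i + j) = vp i * vp j := by
  simp [vp, HahnSeries.single_mul_single]

lemma vp_zero : vp 0 = 1 := by
  rfl

lemma vp_ne_zero (i : ℤ) : vp i ≠ 0 := by
  exact HahnSeries.single_ne_zero one_ne_zero

lemma one_sub_vp_ne_zero {i : ℤ} (hi : i ≠ 0) : 1 - vp i ≠ 0 := by
  intro h
  have := congrArg (fun x : K => x.coeff 0) h
  simp [vp, HahnSeries.coeff_single_of_ne hi.symm] at this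

lemma IsNat.zero : IsNat 0 := by
  exact fun j => ⟨0, by simp⟩

lemma IsNat.one : IsNat 1 := by
  intro j
  rw [HahnSeries.coeff_one]
  split_ifs
  exacts [⟨1, by simp⟩, ⟨0, by simp⟩]

lemma IsNat.vp (i : ℤ) : IsNat (vp i) := by
  intro j
  rw [R059.vp, HahnSeries.coeff_single]
  split_ifs
  exacts [⟨1, by simp⟩, ⟨0, by simp⟩]

lemma IsNat.natCast (m : ℕ) : IsNat (m : K) := by
  intro j
  rw [← HahnSeries.single_zero_natCast, HahnSeries.coeff_single]
  split_ifs
  exacts [⟨m, rfl⟩, ⟨0, by simp⟩]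

lemma IsNat.add {x y : K} (hx : IsNat x) (hy : IsNat y) : IsNat (x + y) := by
  intro j
  obtain ⟨a, ha⟩ := hx j
  obtain ⟨b, hb⟩ := hy j
  exact ⟨a + b, by simp [ha, hb]⟩

lemma IsNat.mul {x y : K} (hx : IsNat x) (hy : IsNat y) : IsNat (x * y) := by
  intro j
  choose a ha using hx
  choose b hb using hy
  rw [HahnSeries.coeff_mul]
  simp only [ha, hb]
  exact ⟨∑ ij ∈ Finset.antidiagonal x.isPWO_support y.isPWO_support j, a ij.1 * b ij.2,
    by push_cast; rfl⟩

lemma IsNat.sum {ι : Type*} (s : Finset ι) (f : ι → K) (h : ∀ i ∈ s, IsNat (f i)) :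
    IsNat (∑ i ∈ s, f i) := by
  exact Finset.sum_induction f IsNat (fun _ _ => IsNat.add) IsNat.zero h

lemma IsNat.eq_zero_of_add {x y : K} (hx : IsNat x) (hy : IsNat y) (h : x + y = 0) : x = 0 := by
  ext j
  obtain ⟨a, ha⟩ := hx j
  obtain ⟨b, hb⟩ := hy j
  have h1 := congrArg (fun z : K => z.coeff j) h
  simp only [HahnSeries.coeff_add, HahnSeries.coeff_zero, ha, hb] at h1
  have h2 : a + b = 0 := by exact_mod_cast h1
  have h3 : a = 0 := by omega
  simp [ha, h3]

lemma Form.skew (Ω : Form L) (x y : L) : Ω.w x y = - Ω.w y x := by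
  have h := Ω.alt (x + y)
  simp only [map_add, AddMonoidHom.add_apply, Ω.alt] at h
  omega

lemma Adm.add {deg : L →+ ℤ} {a b : L → K} (ha : Adm deg a) (hb : Adm deg b) :
    Adm deg (a + b) := by
  intro D
  refine ((ha D).union (hb D)).subset fun n hn => ?_
  by_cases h : a n = 0
  · exact Or.inr ⟨fun h' => hn.1 (by simp [h, h']), hn.2⟩
  · exact Or.inl ⟨h, hn.2⟩

lemma Adm.mono {deg : L →+ ℤ} {a b : L → K} (ha : Adm deg a) (h : ∀ n, b n ≠ 0 → a n ≠ 0) :
    Adm deg b := by
  exact fun D => (ha D).subset fun n hn => ⟨h n hn.1, hn.2⟩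

lemma Adm.of_finite {deg : L →+ ℤ} {a : L → K} (h : (Function.support a).Finite) :
    Adm deg a := by
  exact fun D => h.subset fun n hn => hn.1

lemma Adm.exists_lb {deg : L →+ ℤ} {a : L → K} (ha : Adm deg a) :
    ∃ B : ℤ, ∀ p, a p ≠ 0 → B ≤ deg p := by
  obtain ⟨B, hB⟩ := ((ha 0).image deg).bddBelow
  refine ⟨min B 0, fun p hp => ?_⟩
  by_cases h : deg p ≤ 0
  · exact (min_le_left _ _).trans (hB ⟨p, ⟨hp, h⟩, rfl⟩)
  · exact (min_le_right _ _).trans (not_le.1 h).le

lemma exists_of_mulF_ne_zero {Ω : Form L} {a b : L → K} {n : L} (h : mulF Ω a b n ≠ 0) :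
    ∃ p, a p ≠ 0 ∧ b (n - p) ≠ 0 := by
  by_contra hc
  refine h (finsum_eq_zero_of_forall_eq_zero fun p => ?_)
  by_contra h'
  have h0 : a p * b (n - p) ≠ 0 := left_ne_zero_of_mul h'
  exact hc ⟨p, left_ne_zero_of_mul h0, right_ne_zero_of_mul h0⟩

lemma Adm.finite_pairs {deg : L →+ ℤ} {a b : L → K} (ha : Adm deg a) (hb : Adm deg b) (n : L) :
    {p | a p ≠ 0 ∧ b (n - p) ≠ 0}.Finite := by
  obtain ⟨B, hB⟩ := hb.exists_lb
  refine (ha (deg n - B)).subset fun p hp => ⟨hp.1, ?_⟩
  have := hB _ hp.2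
  rw [map_sub] at this
  omega

lemma fin_supp (Ω : Form L) {deg : L →+ ℤ} {a b : L → K} (ha : Adm deg a) (hb : Adm deg b) (n : L) :
    Function.HasFiniteSupport fun p => a p * b (n - p) * vp (Ω.w p n) :=
  (ha.finite_pairs hb n).subset fun p hp =>
    have h0 : a p * b (n - p) ≠ 0 := left_ne_zero_of_mul hp
    ⟨left_ne_zero_of_mul h0, right_ne_zero_of_mul h0⟩

lemma Adm.mulF (Ω : Form L) {deg : L →+ ℤ} {a b : L → K} (ha : Adm deg a) (hb : Adm deg b) :
    Adm deg (mulF Ω a b) := by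
  obtain ⟨A, hA⟩ := ha.exists_lb
  obtain ⟨B, hB⟩ := hb.exists_lb
  intro D
  refine (((ha (D - B)).prod (hb (D - A))).image fun z => z.1 + z.2).subset fun n hn => ?_
  obtain ⟨p, h1, h2⟩ := exists_of_mulF_ne_zero hn.1
  have h3 := hA _ h1
  have h4 := hB _ h2
  have h5 := hn.2
  have h6 : deg (n - p) = deg n - deg p := map_sub _ _ _
  exact ⟨(p, n - p), ⟨⟨h1, by dsimp only; omega⟩, h2, by dsimp only; omega⟩, by simp⟩

lemma mulF_assoc (Ω : Form L) {deg : L →+ ℤ} {a b c : L → K} (ha : Adm deg a) (hb : Adm deg b)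
    (hc : Adm deg c) : mulF Ω (mulF Ω a b) c = mulF Ω a (mulF Ω b c) := by
  funext n
  obtain ⟨B, hB⟩ := hb.exists_lb
  obtain ⟨A, hA⟩ := ha.exists_lb
  obtain ⟨C, hC⟩ := hc.exists_lb
  let T : L × L → K := fun z => a z.1 * b (z.2 - z.1) * c (n - z.2) * vp (Ω.w z.1 z.2 + Ω.w z.2 n)
  have hT : Function.HasFiniteSupport T := by
    refine (((ha (deg n - B - C)).prod (hc (deg n - A - B))).image
      fun z => (z.1, n - z.2)).subset fun z hz => ?_
    have h0 : a z.1 * b (z.2 - z.1) * c (n - z.2) ≠ 0 := left_ne_zero_of_mul hz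
    have h1 := left_ne_zero_of_mul (left_ne_zero_of_mul h0)
    have h2 := right_ne_zero_of_mul (left_ne_zero_of_mul h0)
    have h3 := right_ne_zero_of_mul h0
    have h4 := hA _ h1
    have h5 := hB _ h2
    have h6 := hC _ h3
    have h7 : deg (n - z.2) = deg n - deg z.2 := map_sub _ _ _
    have h8 : deg (z.2 - z.1) = deg z.2 - deg z.1 := map_sub _ _ _
    exact ⟨(z.1, n - z.2), ⟨⟨h1, by dsimp only; omega⟩, h3, by dsimp only; omega⟩, by simp⟩
  have hT' : Function.HasFiniteSupport fun z : L × L => T z.swap :=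
    hT.preimage Prod.swap_injective.injOn
  have e1 : mulF Ω (mulF Ω a b) c n = ∑ᶠ q, ∑ᶠ p, T (p, q) := by
    refine finsum_congr fun q => ?_
    rw [mulF, finsum_mul, finsum_mul]
    refine finsum_congr fun p => ?_
    simp only [T, vp_add]
    ring
  have e2 : mulF Ω a (mulF Ω b c) n = ∑ᶠ p, ∑ᶠ q, T (p, q) := by
    refine finsum_congr fun p => ?_
    rw [mulF, mul_finsum, finsum_mul,
      ← finsum_comp_equiv (Equiv.addLeft p) (f := fun q => T (p, q))]
    refine finsum_congr fun r => ?_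
    have e : Ω.w p (p + r) + Ω.w (p + r) n = Ω.w r (n - p) + Ω.w p n := by
      have := Ω.skew p r
      simp only [map_add, map_sub, AddMonoidHom.add_apply, Ω.alt]
      omega
    simp only [T, Equiv.coe_addLeft, add_sub_cancel_left, sub_sub]
    rw [e, vp_add]
    ring
  rw [e1, e2, ← finsum_curry T hT, ← finsum_comp_equiv (Equiv.prodComm L L)]
  exact (finsum_curry _ hT').symm

lemma mulF_add (Ω : Form L) {deg : L →+ ℤ} {a b c : L → K} (ha : Adm deg a) (hb : Adm deg b)
    (hc : Adm deg c) : mulF Ω a (b + c) = mulF Ω a b + mulF Ω a c := by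
  funext n
  rw [Pi.add_apply, mulF, mulF, mulF, ← finsum_add_distrib (fin_supp Ω ha hb n) (fin_supp Ω ha hc n)]
  refine finsum_congr fun p => ?_
  rw [Pi.add_apply]
  ring

lemma add_mulF (Ω : Form L) {deg : L →+ ℤ} {a b c : L → K} (ha : Adm deg a) (hb : Adm deg b)
    (hc : Adm deg c) : mulF Ω (a + b) c = mulF Ω a c + mulF Ω b c := by
  funext n
  rw [Pi.add_apply, mulF, mulF, mulF, ← finsum_add_distrib (fin_supp Ω ha hc n) (fin_supp Ω hb hc n)]
  refine finsum_congr fun p => ?_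
  rw [Pi.add_apply]
  ring

lemma mulF_single_left (Ω : Form L) (p : L) (x : K) (b : L → K) (n : L) :
    mulF Ω (Pi.single p x) b n = x * b (n - p) * vp (Ω.w p n) := by
  rw [mulF, finsum_eq_single _ p fun q hq => by simp [Pi.single_eq_of_ne hq], Pi.single_eq_same]

lemma mulF_single_right (Ω : Form L) (p : L) (x : K) (a : L → K) (n : L) :
    mulF Ω a (Pi.single p x) n = a (n - p) * x * vp (Ω.w n p) := by
  rw [mulF, finsum_eq_single _ (n - p) fun q hq => by
    rw [Pi.single_eq_of_ne fun h => hq (by rw [← h, sub_sub_cancel]), mul_zero, zero_mul],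
    sub_sub_cancel, Pi.single_eq_same]
  have e : Ω.w (n - p) n = Ω.w n p := by
    have := Ω.skew p n
    simp only [map_sub, AddMonoidHom.sub_apply, Ω.alt]
    omega
  rw [e]

namespace QT
variable {Ω : Form L} {deg : L →+ ℤ}

instance : Zero (QT Ω deg) := ⟨⟨0, Adm.of_finite (by simp)⟩⟩
instance : Add (QT Ω deg) := ⟨fun a b => ⟨a.c + b.c, a.adm.add b.adm⟩⟩
instance : Neg (QT Ω deg) := ⟨fun a => ⟨-a.c, a.adm.mono (fun n h => by simpa using h)⟩⟩
instance : Sub (QT Ω deg) := ⟨fun a b => ⟨a.c - b.c, by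
  rw [sub_eq_add_neg]; exact a.adm.add (b.adm.mono (fun n h => by simpa using h))⟩⟩
instance : SMul K (QT Ω deg) := ⟨fun x a => ⟨x • a.c, a.adm.mono (fun n h => by
  intro h0; apply h; simp [h0])⟩⟩
instance : SMul ℕ (QT Ω deg) := ⟨fun x a => ⟨x • a.c, a.adm.mono (fun n h => by
  intro h0; apply h; simp [h0])⟩⟩
instance : SMul ℤ (QT Ω deg) := ⟨fun x a => ⟨x • a.c, a.adm.mono (fun n h => by
  intro h0; apply h; simp [h0])⟩⟩
instance : AddCommGroup (QT Ω deg) :=
  Function.Injective.addCommGroup QT.c (fun _ _ h => QT.ext h) rfl (fun _ _ => rfl)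
    (fun _ => rfl) (fun _ _ => rfl) (fun _ _ => rfl) (fun _ _ => rfl)

/-- The monomial `x z^p`. -/
def mono (p : L) (x : K) : QT Ω deg :=
  ⟨Pi.single p x, Adm.of_finite ((Set.finite_singleton p).subset Pi.support_single_subset)⟩

instance : One (QT Ω deg) := ⟨mono 0 1⟩
instance : Mul (QT Ω deg) := ⟨fun a b => ⟨mulF Ω a.c b.c, a.adm.mulF Ω b.adm⟩⟩

@[simp] lemma zero_c : (0 : QT Ω deg).c = 0 := rfl
@[simp] lemma add_c (a b : QT Ω deg) : (a + b).c = a.c + b.c := rfl
@[simp] lemma neg_c (a : QT Ω deg) : (-a).c = -a.c := rfl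
@[simp] lemma sub_c (a b : QT Ω deg) : (a - b).c = a.c - b.c := rfl
@[simp] lemma smul_c (x : K) (a : QT Ω deg) : (x • a).c = x • a.c := rfl
lemma mono_c (p : L) (x : K) : (mono p x : QT Ω deg).c = Pi.single p x := rfl
lemma one_c : (1 : QT Ω deg).c = Pi.single 0 1 := rfl
lemma mul_c (a b : QT Ω deg) : (a * b).c = mulF Ω a.c b.c := rfl

instance : Ring (QT Ω deg) :=
  { (inferInstance : AddCommGroup (QT Ω deg)), (inferInstance : One (QT Ω deg)),
    (inferInstance : Mul (QT Ω deg)) with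
    mul_assoc := fun a b c => QT.ext (mulF_assoc Ω a.adm b.adm c.adm)
    left_distrib := fun a b c => QT.ext (mulF_add Ω a.adm b.adm c.adm)
    right_distrib := fun a b c => QT.ext (add_mulF Ω a.adm b.adm c.adm)
    zero_mul := fun a => QT.ext (by funext n; simp [mul_c, mulF])
    mul_zero := fun a => QT.ext (by funext n; simp [mul_c, mulF])
    one_mul := fun a => QT.ext (by funext n; simp [mul_c, one_c, mulF_single_left, vp_zero])
    mul_one := fun a => QT.ext (by funext n; simp [mul_c, one_c, mulF_single_right, vp_zero]) }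

instance : Module K (QT Ω deg) :=
  Function.Injective.module K ⟨⟨QT.c, rfl⟩, fun _ _ => rfl⟩ (fun _ _ h => QT.ext h)
    (fun _ _ => rfl)

lemma smul_mul' (x : K) (a b : QT Ω deg) : (x • a) * b = x • (a * b) := by
  ext1
  funext n
  simp only [mul_c, smul_c, Pi.smul_apply, smul_eq_mul, mulF, mul_finsum, mul_assoc]

lemma mul_smul' (x : K) (a b : QT Ω deg) : a * (x • b) = x • (a * b) := by
  ext1
  funext n
  simp only [mul_c, smul_c, Pi.smul_apply, smul_eq_mul, mulF, mul_finsum]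
  exact finsum_congr fun p => by ring

instance : Algebra K (QT Ω deg) := Algebra.ofModule smul_mul' mul_smul'

lemma sum_c {ι : Type*} (s : Finset ι) (f : ι → QT Ω deg) (n : L) :
    (∑ i ∈ s, f i).c n = ∑ i ∈ s, (f i).c n := by
  induction s using Finset.induction_on with
  | empty => simp
  | insert i s hi ih => rw [Finset.sum_insert hi, Finset.sum_insert hi, add_c, Pi.add_apply, ih]

lemma mono_mul_mono (p q : L) (x y : K) :
    (mono p x * mono q y : QT Ω deg) = mono (p + q) (x * y * vp (Ω.w p q)) := by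
  ext1
  funext n
  rw [mul_c, mono_c, mono_c, mono_c, mulF_single_left]
  by_cases h : n = p + q
  · subst h
    simp [Ω.alt]
  · rw [Pi.single_eq_of_ne h, Pi.single_eq_of_ne fun h' => h (by rw [← h', add_sub_cancel]),
      mul_zero, zero_mul]

/-- Coefficient of a product as a finite sum over any finset containing the relevant pairs. -/
lemma mul_c_eq_sum (a b : QT Ω deg) (n : L) (s : Finset L)
    (hs : ∀ p, a.c p ≠ 0 → b.c (n - p) ≠ 0 → p ∈ s) :
    (a * b).c n = ∑ p ∈ s, a.c p * b.c (n - p) * vp (Ω.w p n) := by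
  refine finsum_eq_sum_of_support_subset _ fun p hp => ?_
  have h0 : a.c p * b.c (n - p) ≠ 0 := left_ne_zero_of_mul hp
  exact hs p (left_ne_zero_of_mul h0) (right_ne_zero_of_mul h0)

lemma exists_of_mul_c_ne_zero (a b : QT Ω deg) (n : L) (h : (a * b).c n ≠ 0) :
    ∃ p, a.c p ≠ 0 ∧ b.c (n - p) ≠ 0 := by
  exact exists_of_mulF_ne_zero h

end QT
end Crest.Agent.R059
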