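import Crest.Agent.R059.Avg
import Crest.Agent.R059.DecS
import Crest.Agent.R059.Dec
import Crest.Agent.R059.DecFin
import Crest.Agent.R059.Phi

/-! Row 59: positivity of rank two scattering (Donaldson–Thomas invariants of acyclic quivers
with loops). -/

set_option autoImplicit false
set_option linter.unusedSectionVars false
set_option linter.unusedVariables false

noncomputable section
open Classical

namespace Crest.Agent.R059

variable {L : Type} [AddCommGroup L] [Module.Free ℤ L] [Module.Finite ℤ L]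
variable {I : Type} [Fintype I]

/-- `q ↦ v²`. -/
def toK : PowerSeries ℂ →+* K :=
  (HahnSeries.ofPowerSeries ℤ ℂ).comp (PowerSeries.expand 2 (by norm_num)).toRingHom

lemma toK_X : toK PowerSeries.X = vp 2 := by
  change HahnSeries.ofPowerSeries ℤ ℂ (PowerSeries.expand 2 _ PowerSeries.X) = _
  rw [PowerSeries.expand_X, HahnSeries.ofPowerSeries_X_pow]
  rfl
lemma toK_C (x : ℂ) : toK (PowerSeries.C x) = HahnSeries.C x := by
  change HahnSeries.ofPowerSeries ℤ ℂ (PowerSeries.expand 2 _ (PowerSeries.C x)) = _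
  rw [PowerSeries.expand_C, HahnSeries.ofPowerSeries_C]

lemma r2_vp_pow (k : ℤ) (m : ℕ) : vp k ^ m = vp (k * m) := by
  induction m with
  | zero => simp [vp_zero]
  | succ m ih => rw [pow_succ, ih, ← vp_add]; congr 1; push_cast; ring

lemma r2_sum_typ {M : Type} [AddCommMonoid M] {α : Type} [Fintype α] (c : α → I) (f : I → M) :
    ∑ x, f (c x) = ∑ i, typ c i • f i := by
  rw [← Finset.sum_fiberwise Finset.univ c]
  refine Finset.sum_congr rfl fun i _ => ?_
  rw [Finset.sum_congr rfl fun x hx => by rw [(Finset.mem_filter.1 hx).2], Finset.sum_const]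
  rfl

lemma r2_sum_sub {M : Type} [AddCommMonoid M] {α : Type} (S : Finset α) [Fintype {x // x ∈ S}]
    (c : α → I) (f : I → M) :
    ∑ x ∈ S, f (c x) = ∑ i, typ (c ∘ (Subtype.val : {x // x ∈ S} → α)) i • f i := by
  rw [← r2_sum_typ, ← Finset.sum_coe_sort]
  exact Finset.sum_congr (by congr; exact Subsingleton.elim _ _) fun _ _ => rfl

lemma r2_dfac_ne_zero (d : I → ℕ) : dfac d ≠ 0 := by
  have := phi_charZero
  exact Finset.prod_ne_zero_iff.2 fun i _ => Nat.cast_ne_zero.2 (Nat.factorial_ne_zero _)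

lemma r2_card_CP {α : Type} [Fintype α] (c : α → I) :
    Nat.card (CP c) = ∏ i, (typ c i).factorial := by
  have := phi_charZero
  have h1 := card_CP c
  rw [Fintype.card_eq_nat_card, dfac, ← Nat.cast_prod] at h1
  exact Nat.cast_injective h1

lemma r2_sum_univ {G M : Type} [AddCommMonoid M] (i1 i2 : Fintype G) (f : G → M) :
    @Finset.sum _ _ _ (@Finset.univ G i1) f = @Finset.sum _ _ _ (@Finset.univ G i2) f := by
  rw [Subsingleton.elim i1 i2]

instance r2_isEmpty_Xd : IsEmpty (Xd (0 : I → ℕ)) := ⟨fun x => x.2.elim0⟩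

lemma r2_nonempty_Xd {d : I → ℕ} (h : d ≠ 0) : Nonempty (Xd d) := by
  obtain ⟨i, hi⟩ := Function.ne_iff.1 h
  exact ⟨⟨i, ⟨0, Nat.pos_of_ne_zero hi⟩⟩⟩

lemma r2_avg_zero (odd : I → Prop) {Y : Sp I}
    (h : ∀ σ, Y (Xd (0 : I → ℕ)) Sigma.fst σ = 1) : avg odd Y 0 = 1 := by
  unfold avg
  rw [div_eq_one_iff_eq (r2_dfac_ne_zero _)]
  have h1 : ∀ σ : CP (Sigma.fst : Xd (0 : I → ℕ) → I),
      ((eps odd Sigma.fst σ.1 : ℤ) : K) * Y (Xd (0 : I → ℕ)) Sigma.fst σ.1 = 1 := by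
    intro σ
    rw [h, Subsingleton.elim σ.1 1, eps_one]
    simp
  rw [Finset.sum_congr rfl fun σ _ => h1 σ, Finset.sum_const, Finset.card_univ, nsmul_eq_mul,
    mul_one, Fintype.card_eq_nat_card, r2_card_CP, typ_Xd, dfac, Nat.cast_prod]

lemma r2_avg_eq_zero (odd : I → Prop) {Y : Sp I} {d : I → ℕ}
    (h : ∀ σ, Y (Xd d) Sigma.fst σ = 0) : avg odd Y d = 0 := by
  unfold avg
  simp [h]

/-- Vertices with classes `n i` of positive degree and exponents `k i`. -/
structure QD (Ω : Form L) (deg : L →+ ℤ) (I : Type) where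
  n : I → L
  k : I → ℤ
  pos : ∀ i, 0 < deg (n i)

namespace QD
variable {Ω : Form L} {deg : L →+ ℤ} (q : QD Ω deg I)

def nd (d : I → ℕ) : L := ∑ i, d i • q.n i
def arr (i j : I) : ℕ := (Ω.w (q.n i) (q.n j)).toNat
def QI (η : L →+ ℤ) : Qv I := ⟨q.arr, fun i => η (q.n i)⟩
def norm (d : I → ℕ) : ℤ := ∑ i, q.k i * d i - ∑ i, ∑ j, (q.arr i j : ℤ) * d i * d j
def odd (i : I) : Prop := Odd (q.k i)
def cone : AddSubmonoid L := AddSubmonoid.closure (Set.range q.n)
def Iso (η : L →+ ℤ) : Prop :=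
  ∀ d d', η (q.nd d) = 0 → η (q.nd d') = 0 → Ω.w (q.nd d) (q.nd d') = 0

lemma r2_nd_zero : q.nd 0 = 0 := by simp [nd]
lemma r2_nd_add (d d' : I → ℕ) : q.nd (d + d') = q.nd d + q.nd d' := by
  simp [nd, add_smul, Finset.sum_add_distrib]
lemma r2_le_deg (d : I → ℕ) (i : I) : (d i : ℤ) ≤ deg (q.nd d) := by
  unfold nd
  rw [map_sum]
  refine le_trans ?_ (Finset.single_le_sum (f := fun j => deg (d j • q.n j))
    (fun j _ => ?_) (Finset.mem_univ i))
  · rw [map_nsmul, nsmul_eq_mul]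
    have := q.pos i
    have h0 : (0 : ℤ) ≤ d i := Nat.cast_nonneg _
    nlinarith
  · rw [map_nsmul, nsmul_eq_mul]
    exact mul_nonneg (Nat.cast_nonneg _) (q.pos j).le
lemma r2_deg_nonneg (d : I → ℕ) : 0 ≤ deg (q.nd d) := by
  unfold nd
  rw [map_sum]
  refine Finset.sum_nonneg fun j _ => ?_
  rw [map_nsmul, nsmul_eq_mul]
  exact mul_nonneg (Nat.cast_nonneg _) (q.pos j).le
lemma r2_deg_pos {d : I → ℕ} (h : d ≠ 0) : 0 < deg (q.nd d) := by
  obtain ⟨i, hi⟩ := Function.ne_iff.1 h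
  have h1 := q.r2_le_deg d i
  have h2 : 0 < d i := Nat.pos_of_ne_zero hi
  omega

lemma finite_fiber (D : ℤ) : {d : I → ℕ | deg (q.nd d) ≤ D}.Finite := by
  refine (Set.finite_Iic (fun _ : I => D.toNat)).subset fun d hd i => ?_
  have h1 := q.r2_le_deg d i
  have h2 : deg (q.nd d) ≤ D := hd
  change d i ≤ D.toNat
  omega
lemma r2_exists_of_ne {y : (I → ℕ) → K} {x : L} (h : (∑ᶠ d, if q.nd d = x then y d else 0) ≠ 0) :
    ∃ d, q.nd d = x ∧ y d ≠ 0 := by
  by_contra hc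
  refine h (finsum_eq_zero_of_forall_eq_zero fun d => ?_)
  split_ifs with h1
  · by_contra h2
    exact hc ⟨d, h1, h2⟩
  · rfl
lemma adm_gen (y : (I → ℕ) → K) : Adm deg (fun x => ∑ᶠ d, if q.nd d = x then y d else 0) := by
  intro D
  refine ((q.finite_fiber D).image q.nd).subset fun x hx => ?_
  obtain ⟨d, hd, -⟩ := q.r2_exists_of_ne hx.1
  exact ⟨d, by rw [Set.mem_setOf_eq, hd]; exact hx.2, hd⟩
def gen (y : (I → ℕ) → K) : QT Ω deg := ⟨fun x => ∑ᶠ d, if q.nd d = x then y d else 0, q.adm_gen y⟩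
lemma r2_gen_c (y : (I → ℕ) → K) {x : L} {D : ℤ} (h : deg x ≤ D) :
    (q.gen y).c x = ∑ d ∈ (q.finite_fiber D).toFinset, if q.nd d = x then y d else 0 := by
  refine finsum_eq_sum_of_support_subset _ fun d hd => ?_
  have h1 : q.nd d = x := by
    by_contra h2
    exact hd (if_neg h2)
  simpa [h1] using h
lemma gen_mul (y y' : (I → ℕ) → K) :
    q.gen y * q.gen y' = q.gen fun d => ∑ d' ∈ Finset.Iic d,
      vp (Ω.w (q.nd d') (q.nd (d - d'))) * (y d' * y' (d - d')) := by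
  refine QT.ext (funext fun n => ?_)
  have hmem : ∀ d, d ∈ (q.finite_fiber (deg n)).toFinset ↔ deg (q.nd d) ≤ deg n := fun d => by simp
  rw [QT.mul_c_eq_sum _ _ n ((q.finite_fiber (deg n)).toFinset.image q.nd) (fun p h1 h2 => ?_),
    q.r2_gen_c _ (le_refl (deg n))]
  swap
  · obtain ⟨d, hd, -⟩ := q.r2_exists_of_ne h1
    obtain ⟨d', hd', -⟩ := q.r2_exists_of_ne h2
    refine Finset.mem_image.2 ⟨d, (hmem d).2 ?_, hd⟩
    have := q.r2_deg_nonneg d'
    rw [hd', map_sub] at this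
    rw [hd]
    omega
  generalize (q.finite_fiber (deg n)).toFinset = s at hmem
  have hs : s = (q.finite_fiber (deg n)).toFinset := by
    ext d
    simp [hmem]
  have h1 : ∀ p ∈ s.image q.nd, (q.gen y).c p * (q.gen y').c (n - p) * vp (Ω.w p n) =
      ∑ d ∈ s, if q.nd d = p then
        (∑ d' ∈ s, if q.nd d + q.nd d' = n then vp (Ω.w (q.nd d) (q.nd d')) * (y d * y' d') else 0)
        else 0 := by
    intro p hp
    obtain ⟨d0, hd0, rfl⟩ := Finset.mem_image.1 hp
    have h2 := (hmem d0).1 hd0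
    have h3 : deg (n - q.nd d0) ≤ deg n := by
      have := q.r2_deg_nonneg d0
      rw [map_sub]
      omega
    rw [q.r2_gen_c y h2, q.r2_gen_c y' h3, ← hs, Finset.sum_mul, Finset.sum_mul]
    refine Finset.sum_congr rfl fun d _ => ?_
    split_ifs with h4
    · rw [Finset.mul_sum, Finset.sum_mul]
      refine Finset.sum_congr rfl fun d' _ => ?_
      by_cases h5 : q.nd d' = n - q.nd d0
      · rw [if_pos h5, if_pos (by rw [h4, h5]; abel), h4, h5, map_sub, Ω.alt, sub_zero]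
        ring
      · rw [if_neg h5, if_neg (fun h6 => h5 (by rw [← h6, h4]; abel))]
        simp
    · simp
  rw [Finset.sum_congr rfl h1, Finset.sum_comm]
  have h2 : ∀ d ∈ s, (∑ p ∈ s.image q.nd, if q.nd d = p then
      (∑ d' ∈ s, if q.nd d + q.nd d' = n then vp (Ω.w (q.nd d) (q.nd d')) * (y d * y' d') else 0)
        else 0) =
      ∑ d' ∈ s, if q.nd d + q.nd d' = n then vp (Ω.w (q.nd d) (q.nd d')) * (y d * y' d') else 0 := by
    intro d hd
    rw [Finset.sum_ite_eq, if_pos (Finset.mem_image_of_mem _ hd)]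
  rw [Finset.sum_congr rfl h2, ← Finset.sum_product', ← Finset.sum_filter, ← Finset.sum_filter,
    Finset.sum_sigma']
  refine Finset.sum_nbij' (fun x => ⟨x.1 + x.2, x.1⟩) (fun x => (x.2, x.1 - x.2)) ?_ ?_ ?_ ?_ ?_
  · intro x hx
    simp only [Finset.mem_filter, Finset.mem_product, Finset.mem_sigma, Finset.mem_Iic, hmem,
      q.r2_nd_add] at hx ⊢
    exact ⟨⟨by rw [hx.2], hx.2⟩, fun i => Nat.le_add_right _ _⟩
  · intro x hx
    simp only [Finset.mem_filter, Finset.mem_product, Finset.mem_sigma, Finset.mem_Iic,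
      hmem] at hx ⊢
    have h3 : q.nd x.2 + q.nd (x.1 - x.2) = n := by
      rw [← q.r2_nd_add, add_tsub_cancel_of_le hx.2, hx.1.2]
    have h4 := congrArg deg h3
    have h5 := q.r2_deg_nonneg x.2
    have h6 := q.r2_deg_nonneg (x.1 - x.2)
    rw [map_add] at h4
    exact ⟨⟨by omega, by omega⟩, h3⟩
  · intro x _
    simp only [add_tsub_cancel_left]
  · intro x hx
    simp only [Finset.mem_sigma, Finset.mem_Iic] at hx
    simp only [add_tsub_cancel_of_le hx.2]
  · intro x _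
    simp only [add_tsub_cancel_left]
lemma isG_gen {y : (I → ℕ) → K} (h : y 0 = 1) : IsG (q.gen y) := by
  constructor
  · change (∑ᶠ d, if q.nd d = 0 then y d else 0) = 1
    rw [finsum_eq_single _ 0, if_pos q.r2_nd_zero, h]
    intro d hd
    refine if_neg fun h1 => ?_
    have := q.r2_deg_pos hd
    rw [h1, map_zero] at this
    exact lt_irrefl _ this
  · intro n hn h1
    obtain ⟨d, rfl, -⟩ := q.r2_exists_of_ne h1
    exact q.r2_deg_pos fun h2 => hn (by rw [h2, q.r2_nd_zero])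
lemma suppIn_gen {S : Set L} {y : (I → ℕ) → K} (h : ∀ d, y d ≠ 0 → q.nd d ∈ S) :
    SuppIn S (q.gen y) := by
  intro n hn
  obtain ⟨d, rfl, h1⟩ := q.r2_exists_of_ne hn
  exact h d h1

def spP : Sp I := fun α _ c σ => toK (chP σ)
def spT (η : L →+ ℤ) : Sp I := fun α _ c σ => toK (((q.QI η).comap c).chT σ)
def spF (η : L →+ ℤ) : Sp I := fun α _ c σ => toK (((q.QI η).comap c).chF σ)
def tot : QT Ω deg := q.gen fun d => vp (q.norm d) * avg q.odd spP d
/-- Multiplicity of the sign character in the degree `D` part of `W`. -/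
def mult (η : L →+ ℤ) (d : I → ℕ) (D : ℕ) : ℂ :=
  if d ≠ 0 ∧ η (q.nd d) = 0 then
    (∑ σ : CP (Sigma.fst : Xd d → I), ((eps q.odd Sigma.fst σ.1 : ℤ) : ℂ) *
      PowerSeries.coeff D (((q.QI η).comap (Sigma.fst : Xd d → I)).chW σ.1)) /
      ∏ i, ((d i).factorial : ℂ)
  else 0

/-- The number of arrows between two dimension vectors. -/
def r2_aZ (d d' : I → ℕ) : ℤ := ∑ i, ∑ j, (q.arr i j : ℤ) * d i * d' j

lemma r2_w_nd (d d' : I → ℕ) : Ω.w (q.nd d) (q.nd d') = q.r2_aZ d d' - q.r2_aZ d' d := by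
  unfold r2_aZ nd
  rw [Finset.sum_comm (f := fun i j => (q.arr i j : ℤ) * d' i * d j), ← Finset.sum_sub_distrib,
    map_sum Ω.w, AddMonoidHom.finsetSum_apply]
  refine Finset.sum_congr rfl fun i _ => ?_
  rw [← Finset.sum_sub_distrib, map_sum]
  refine Finset.sum_congr rfl fun j _ => ?_
  have h1 : (q.arr i j : ℤ) - q.arr j i = Ω.w (q.n i) (q.n j) := by
    unfold arr
    have := Ω.skew (q.n i) (q.n j)
    omega
  rw [map_nsmul, map_nsmul, AddMonoidHom.nsmul_apply, ← h1, nsmul_eq_mul, nsmul_eq_mul]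
  ring

lemma r2_norm_add (d d' : I → ℕ) :
    q.norm (d + d') = q.norm d + q.norm d' - q.r2_aZ d d' - q.r2_aZ d' d := by
  unfold norm r2_aZ
  simp only [Pi.add_apply, Nat.cast_add, mul_add, add_mul, Finset.sum_add_distrib]
  ring

lemma r2_wt (η : L →+ ℤ) {α : Type} (S : Finset α) [Fintype {x // x ∈ S}] (c : α → I) :
    ((q.QI η).comap c).wt S = η (q.nd (typ (c ∘ (Subtype.val : {x // x ∈ S} → α)))) := by
  unfold nd
  rw [← r2_sum_sub S c q.n, map_sum]
  rfl

lemma r2_wt_univ (η : L →+ ℤ) (d : I → ℕ) :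
    ((q.QI η).comap (Sigma.fst : Xd d → I)).wt Finset.univ = η (q.nd d) := by
  conv_rhs => rw [← typ_Xd d]
  unfold nd
  rw [← r2_sum_typ (Sigma.fst : Xd d → I) q.n, map_sum]
  rfl

lemma r2_aa (η : L →+ ℤ) {α : Type} (S S' : Finset α) [Fintype {x // x ∈ S}]
    [Fintype {x // x ∈ S'}] (c : α → I) :
    (((q.QI η).comap c).aa S S' : ℤ) = q.r2_aZ (typ (c ∘ (Subtype.val : {x // x ∈ S} → α)))
      (typ (c ∘ (Subtype.val : {x // x ∈ S'} → α))) := by
  have h1 : (((q.QI η).comap c).aa S S' : ℤ) = ∑ x ∈ S, ∑ y ∈ S', (q.arr (c x) (c y) : ℤ) := by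
    unfold Qv.aa
    push_cast
    rfl
  rw [h1, r2_sum_sub S c fun i => ∑ y ∈ S', (q.arr i (c y) : ℤ)]
  refine Finset.sum_congr rfl fun i _ => ?_
  rw [r2_sum_sub S' c fun j => (q.arr i j : ℤ), Finset.smul_sum]
  refine Finset.sum_congr rfl fun j _ => ?_
  rw [nsmul_eq_mul, nsmul_eq_mul]
  ring

lemma r2_aut (η : L →+ ℤ) {α : Type} [Fintype α] {c : α → I} {σ : Equiv.Perm α} (h : σ ∈ CP c) :
    ((q.QI η).comap c).Aut σ := by
  have h1 : ∀ x, c (σ x) = c x := h
  exact ⟨fun x y => by simp only [Qv.comap, h1], fun x => by simp only [Qv.comap, h1]⟩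

lemma sym_comap {η : L →+ ℤ} (h : q.Iso η) {α : Type} [Fintype α] (c : α → I) :
    ((q.QI η).comap c).Sym := by
  intro S S' h1 h2
  rw [q.r2_wt] at h1 h2
  have h3 := h _ _ h1 h2
  rw [q.r2_w_nd, ← q.r2_aa η, ← q.r2_aa η] at h3
  omega
lemma r2_norm_zero : q.norm 0 = 0 := by simp [norm]
lemma isG_tot : IsG q.tot := by
  refine q.isG_gen ?_
  rw [q.r2_norm_zero, vp_zero, one_mul]
  exact r2_avg_zero _ fun σ => by rw [spP, chP_empty, map_one]
lemma suppIn_tot : SuppIn q.cone q.tot :=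
  q.suppIn_gen fun d _ => q.cone.sum_mem fun i _ =>
    q.cone.nsmul_mem (AddSubmonoid.subset_closure ⟨i, rfl⟩) _

lemma r2_inv_spT (η : L →+ ℤ) : (q.spT η).Inv := fun α β _ _ e c σ _ =>
  congrArg toK (chT_equiv e ((q.QI η).comap c) σ)
lemma r2_inv_spF (η : L →+ ℤ) : (q.spF η).Inv := fun α β _ _ e c σ _ =>
  congrArg toK (chF_equiv e ((q.QI η).comap c) σ)

lemma r2_avg_spP (η : L →+ ℤ) (d : I → ℕ) :
    avg q.odd spP d = ∑ d' ∈ Finset.Iic d, vp (2 * q.r2_aZ d' (d - d')) *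
      (avg q.odd (q.spT η) d' * avg q.odd (q.spF η) (d - d')) := by
  rw [← avg_mul q.odd (q.spT η) (q.spF η) (q.r2_inv_spT η) (q.r2_inv_spF η)
    (fun d' d'' => vp (2 * q.r2_aZ d' d'')) d]
  refine avg_congr _ d fun σ hσ => ?_
  change toK (chP σ) = _
  rw [perfection _ σ (q.r2_aut η hσ), map_sum]
  refine Finset.sum_congr rfl fun S _ => ?_
  rw [map_mul, map_mul, map_pow, toK_X, r2_vp_pow, q.r2_aa η]
  rfl

lemma r2_tot_eq (η : L →+ ℤ) : q.tot = q.gen (fun d => vp (q.norm d) * avg q.odd (q.spT η) d) *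
    q.gen (fun d => vp (q.norm d) * avg q.odd (q.spF η) d) := by
  rw [gen_mul, tot]
  congr 1
  funext d
  rw [q.r2_avg_spP η, Finset.mul_sum]
  refine Finset.sum_congr rfl fun d' hd' => ?_
  have h1 : d' + (d - d') = d := add_tsub_cancel_of_le (Finset.mem_Iic.1 hd')
  have h2 := q.r2_norm_add d' (d - d')
  rw [h1] at h2
  have h3 : vp (q.norm d) * vp (2 * q.r2_aZ d' (d - d')) =
      vp (Ω.w (q.nd d') (q.nd (d - d'))) * vp (q.norm d') * vp (q.norm (d - d')) := by
    rw [← vp_add, ← vp_add, ← vp_add, q.r2_w_nd, h2]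
    congr 1
    ring
  linear_combination (avg q.odd (q.spT η) d' * avg q.odd (q.spF η) (d - d')) * h3
/-- Perfection, averaged. -/
lemma fzer_tot (η : L →+ ℤ) : fzer q.tot η =
    q.gen fun d => if η (q.nd d) = 0 then vp (q.norm d) * avg q.odd (q.spF η) d else 0 := by
  have gT : IsG (q.gen fun d => vp (q.norm d) * avg q.odd (q.spT η) d) := by
    refine q.isG_gen ?_
    rw [q.r2_norm_zero, vp_zero, one_mul]
    exact r2_avg_zero _ fun σ => by rw [spT, chT_empty, map_one]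
  have gF : IsG (q.gen fun d => vp (q.norm d) * avg q.odd (q.spF η) d) := by
    refine q.isG_gen ?_
    rw [q.r2_norm_zero, vp_zero, one_mul]
    exact r2_avg_zero _ fun σ => by rw [spF, chF_empty, map_one]
  have sT : SuppIn (negM η) (q.gen fun d => vp (q.norm d) * avg q.odd (q.spT η) d) := by
    refine q.suppIn_gen fun d hd => mem_negM.2 ?_
    by_contra hc
    rw [not_or, not_lt] at hc
    have := r2_nonempty_Xd (d := d) fun h0 => hc.1 (by rw [h0, q.r2_nd_zero])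
    refine hd ?_
    rw [r2_avg_eq_zero _ fun σ => ?_, mul_zero]
    rw [spT, chT_eq_zero _ _ (by rw [q.r2_wt_univ]; exact hc.2), map_zero]
  have sF : SuppIn (nnM η) (q.gen fun d => vp (q.norm d) * avg q.odd (q.spF η) d) := by
    refine q.suppIn_gen fun d hd => mem_nnM.2 ?_
    by_contra hc
    rw [not_le] at hc
    refine hd ?_
    rw [r2_avg_eq_zero _ fun σ => ?_, mul_zero]
    rw [spF, chF_eq_zero _ _ (by rw [q.r2_wt_univ]; exact hc), map_zero]
  rw [q.r2_tot_eq η, (fact_neg_nn η gT gF sT sF).2]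
  refine QT.ext (funext fun x => ?_)
  change (if x ∈ (zerM η : Set L) then
      (∑ᶠ d, if q.nd d = x then vp (q.norm d) * avg q.odd (q.spF η) d else 0) else 0) =
    ∑ᶠ d, if q.nd d = x then
      (if η (q.nd d) = 0 then vp (q.norm d) * avg q.odd (q.spF η) d else 0) else 0
  by_cases hx : η x = 0
  · rw [if_pos (mem_zerM.2 hx)]
    refine finsum_congr fun d => ?_
    by_cases h1 : q.nd d = x
    · rw [if_pos h1, if_pos h1, if_pos (by rw [h1, hx])]
    · rw [if_neg h1, if_neg h1]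
  · rw [if_neg (fun h => hx (mem_zerM.1 h))]
    refine (finsum_eq_zero_of_forall_eq_zero fun d => ?_).symm
    by_cases h1 : q.nd d = x
    · rw [if_pos h1, if_neg (by rw [h1]; exact hx)]
    · rw [if_neg h1]

lemma r2_idF_le_W {α : Type} [Fintype α] [Nonempty α] (Q : Qv α) :
    (Q.idF Finset.univ).restrictScalars ℂ ≤ Q.W ⊤ := by
  rw [← Q.J_top]
  exact Q.Jc_le_W ⊤

lemma r2_stab_W {α : Type} [Fintype α] {Q : Qv α} (hQ : Q.Sym) (h0 : Q.wt Finset.univ = 0)
    {σ : Equiv.Perm α} (hσ : Q.Aut σ) : Stab σ (Q.W ⊤) := by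
  have h1 := W_mapR Q σ ⊤ hQ (by
    rw [hσ.comap]
    intro x
    rw [blk_top, h0])
  rw [hσ.comap, (mapR_eq_iff σ ⊤).2 (fun x y => Iff.rfl)] at h1
  intro f hf
  rw [h1]
  exact ⟨f, hf, rfl⟩

lemma mult_nat {η : L →+ ℤ} (h : q.Iso η) (d : I → ℕ) (D : ℕ) : ∃ m : ℕ, q.mult η d D = m := by
  unfold mult
  split_ifs with hd
  · have := r2_nonempty_Xd hd.1
    have h0 : ((q.QI η).comap (Sigma.fst : Xd d → I)).wt Finset.univ = 0 := by
      rw [q.r2_wt_univ, hd.2]
    obtain ⟨m, hm⟩ := avg_ch_nat (CP (Sigma.fst : Xd d → I))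
      (MonoidHom.mk' (fun σ => eps q.odd Sigma.fst σ.1) fun σ σ' => eps_mul _ _ σ.2 σ'.2)
      (((q.QI η).comap (Sigma.fst : Xd d → I)).W ⊤)
      ((((q.QI η).comap (Sigma.fst : Xd d → I)).idF Finset.univ).restrictScalars ℂ)
      (r2_idF_le_W _) (fun g hg => r2_stab_W (q.sym_comap h _) h0 (q.r2_aut η hg))
      (fun g hg => Num_stab_idF (q.r2_aut η hg)) D
    refine ⟨m, ?_⟩
    rw [Fintype.card_eq_nat_card, r2_card_CP, typ_Xd] at hm
    have hne : ∏ i, ((d i).factorial : ℂ) ≠ 0 :=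
      Finset.prod_ne_zero_iff.2 fun i _ => Nat.cast_ne_zero.2 (Nat.factorial_ne_zero _)
    rw [div_eq_iff hne, mul_comm (m : ℂ), ← Nat.cast_prod, ← hm]
    exact r2_sum_univ _ _ _
  · exact ⟨0, by simp⟩
lemma mult_finite {η : L →+ ℤ} (h : q.Iso η) (d : I → ℕ) : {D | q.mult η d D ≠ 0}.Finite := by
  by_cases hd : d ≠ 0 ∧ η (q.nd d) = 0
  · have := r2_nonempty_Xd hd.1
    have h0 : ((q.QI η).comap (Sigma.fst : Xd d → I)).wt Finset.univ = 0 := by
      rw [q.r2_wt_univ, hd.2]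
    obtain ⟨D0, hD0⟩ := Qv.W_top_finite _ h0
    refine (Set.finite_Iic D0).subset fun D hD => ?_
    by_contra hc
    rw [Set.mem_Iic, not_le] at hc
    refine hD ?_
    have h1 : ((q.QI η).comap (Sigma.fst : Xd d → I)).W ⊤ ⊓
        MvPolynomial.homogeneousSubmodule (Xd d) ℂ D =
        (((q.QI η).comap (Sigma.fst : Xd d → I)).idF Finset.univ).restrictScalars ℂ ⊓
          MvPolynomial.homogeneousSubmodule (Xd d) ℂ D :=
      le_antisymm (fun w hw => ⟨hD0 D hc w hw.1 hw.2, hw.2⟩) (inf_le_inf_right _ (r2_idF_le_W _))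
    have h2 : ∀ σ, PowerSeries.coeff D (((q.QI η).comap (Sigma.fst : Xd d → I)).chW σ) = 0 := by
      intro σ
      rw [Qv.chW, ch, PowerSeries.coeff_mk, h1, sub_self]
    unfold mult
    rw [if_pos hd]
    simp [h2]
  · refine Set.finite_empty.subset fun D hD => hD ?_
    unfold mult
    rw [if_neg hd]
end QD
end Crest.Agent.R059
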