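import Crest.Agent.R059.R2

/-! Row 59: the exponential formula. -/

set_option autoImplicit false
set_option linter.unusedSectionVars false
set_option linter.unusedVariables false

noncomputable section
open Classical

namespace Crest.Agent.R059

variable {L : Type} [AddCommGroup L] [Module.Free ℤ L] [Module.Finite ℤ L]
variable {I : Type} [Fintype I]

section r2eGen
variable {α β : Type} [Fintype α] [Fintype β]

lemma r2e_sum_typ {M : Type} [AddCommMonoid M] (c : α → I) (f : I → M) :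
    ∑ x, f (c x) = ∑ i, typ c i • f i := by
  rw [← Finset.sum_fiberwise_of_maps_to (s := Finset.univ) (t := Finset.univ) (g := c)
    (fun _ _ => Finset.mem_univ _)]
  refine Finset.sum_congr rfl fun i _ => ?_
  rw [Finset.sum_congr rfl (g := fun _ => f i) fun x hx => by rw [(Finset.mem_filter.1 hx).2],
    Finset.sum_const]
  rfl

lemma r2e_wt_univ (Q : Qv α) {r : Setoid α} (hr : Q.Zero r) : Q.wt Finset.univ = 0 := by
  unfold Qv.wt
  rw [← Finset.sum_fiberwise_of_maps_to (s := Finset.univ) (t := parts r) (g := blk r)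
    (fun x _ => Finset.mem_image_of_mem _ (Finset.mem_univ x))]
  refine Finset.sum_eq_zero fun B hB => ?_
  obtain ⟨y, -, rfl⟩ := Finset.mem_image.1 hB
  have : Finset.univ.filter (fun x => blk r x = blk r y) = blk r y := by
    ext x
    rw [Finset.mem_filter, blk_eq_iff, mem_blk]
    exact ⟨fun h => r.symm h.2, fun h => ⟨Finset.mem_univ _, r.symm h⟩⟩
  rw [this]
  exact hr y

/-- Transport of partitions as an equivalence. -/
def r2eMapE (e : α ≃ β) : Setoid α ≃ Setoid β where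
  toFun := mapR e
  invFun := mapR e.symm
  left_inv r := Setoid.ext fun x y => by
    show r (e.symm (e x)) (e.symm (e y)) ↔ r x y
    rw [e.symm_apply_apply, e.symm_apply_apply]
  right_inv r := Setoid.ext fun x y => by
    show r (e (e.symm x)) (e (e.symm y)) ↔ r x y
    rw [e.apply_symm_apply, e.apply_symm_apply]

lemma r2e_mapR_rel (e : α ≃ β) (r : Setoid α) (x y : β) :
    mapR e r x y ↔ r (e.symm x) (e.symm y) := Iff.rfl

lemma r2e_stabR_mapR (e : α ≃ β) (σ : Equiv.Perm α) (r : Setoid α) :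
    StabR (e.permCongr σ) (mapR e r) ↔ StabR σ r := by
  constructor
  · intro h x y
    have := h (e x) (e y)
    simpa only [r2e_mapR_rel, Equiv.permCongr_apply, Equiv.symm_apply_apply] using this
  · intro h x y
    simp only [r2e_mapR_rel, Equiv.permCongr_apply, Equiv.symm_apply_apply]
    exact h _ _

lemma r2e_permCongr_pow (e : α ≃ β) (σ : Equiv.Perm α) (k : ℕ) :
    (e.permCongr σ) ^ k = e.permCongr (σ ^ k) :=
  (map_pow e.permCongrHom σ k).symm

lemma r2e_trans_mapR (e : α ≃ β) (σ : Equiv.Perm α) (r : Setoid α) :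
    Trans (e.permCongr σ) (mapR e r) ↔ Trans σ r := by
  unfold Trans
  rw [r2e_stabR_mapR, e.nonempty_congr]
  refine and_congr Iff.rfl (and_congr Iff.rfl ?_)
  constructor
  · intro h x y
    obtain ⟨k, hk⟩ := h (e x) (e y)
    refine ⟨k, ?_⟩
    simpa only [r2e_mapR_rel, r2e_permCongr_pow, Equiv.permCongr_apply,
      Equiv.symm_apply_apply] using hk
  · intro h x y
    obtain ⟨k, hk⟩ := h (e.symm x) (e.symm y)
    refine ⟨k, ?_⟩
    simpa only [r2e_mapR_rel, r2e_permCongr_pow, Equiv.permCongr_apply,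
      Equiv.symm_apply_apply] using hk

lemma r2e_sum_aa_mapR (Q : Qv β) (hQ : Q.Sym) (e : α ≃ β) {r : Setoid α}
    (hr : (Q.comap e).Zero r) :
    ∑ B ∈ parts (mapR e r), Q.aa B B = ∑ B ∈ parts r, (Q.comap e).aa B B := by
  have h1 := Q.two_mul_M hQ ((zero_mapR Q e r).2 hr) ord ord_injective
  have h2 := (Q.comap e).two_mul_M (hQ.comap e.toEmbedding) hr ord ord_injective
  have h3 := M_mapR Q e r hQ hr
  have h4 := Q.aa_comap e.toEmbedding Finset.univ Finset.univ
  rw [Finset.map_univ_equiv] at h4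
  change 2 * Q.M (mapR e r) + _ = _ at h1
  change 2 * (Q.comap e).M r + _ = _ at h2
  change (Q.comap e).aa _ _ = _ at h4
  omega

lemma r2e_inv_sum (w : SpR I) (hw : w.Inv)
    (p : ∀ (α : Type) [Fintype α], Equiv.Perm α → Setoid α → Prop)
    (hp : ∀ (α β : Type) [Fintype α] [Fintype β] (e : α ≃ β) (σ : Equiv.Perm α) (r : Setoid α),
      p β (e.permCongr σ) (mapR e r) ↔ p α σ r)
    (hs : ∀ (α : Type) [Fintype α] (σ : Equiv.Perm α) (r : Setoid α), p α σ r → StabR σ r) :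
    Sp.Inv (I := I) fun α _ c σ => ∑ r ∈ Finset.univ.filter (p α σ), w α c σ r := by
  intro α β _ _ e c σ hσ
  symm
  refine Finset.sum_equiv (r2eMapE e) (fun r => ?_) (fun r hr => ?_)
  · simp only [Finset.mem_filter, Finset.mem_univ, true_and]
    exact (hp α β e σ r).symm
  · exact (hw α β e c σ r hσ (hs _ _ _ (Finset.mem_filter.1 hr).2)).symm

lemma r2e_avg_smul (odd : I → Prop) (a : K) (Y : Sp I) (d : I → ℕ) :
    avg odd (fun α _ c σ => a * Y α c σ) d = a * avg odd Y d := by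
  unfold avg
  rw [← mul_div_assoc, Finset.mul_sum]
  congr 1
  exact Finset.sum_congr rfl fun σ _ => by ring

lemma r2e_odd_pow {n : ℕ} (h : Odd n) : (-1 : K) ^ n = -1 := by
  obtain ⟨m, rfl⟩ := h
  rw [pow_succ, pow_mul, show (-1 : K) ^ 2 = 1 by ring, one_pow, one_mul]

lemma r2e_even_pow {n : ℕ} (h : ¬ Odd n) : (-1 : K) ^ n = 1 := by
  obtain ⟨m, rfl⟩ := Nat.not_odd_iff_even.1 h
  rw [← two_mul, pow_mul, show (-1 : K) ^ 2 = 1 by ring, one_pow]

lemma r2e_avg_zero (odd : I → Prop) (d : I → ℕ) :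
    avg odd (fun α _ c σ => 0) d = 0 := by
  simp [avg]

lemma r2e_blk_ker (e : ℕ) (p : Fin (e + 1) × α) :
    blk (Setoid.ker (Prod.fst : Fin (e + 1) × α → Fin (e + 1))) p =
      Finset.univ.map ⟨Prod.mk p.1, Prod.mk_right_injective p.1⟩ := by
  ext y
  rw [mem_blk, Setoid.ker_def, Finset.mem_map]
  constructor
  · intro h
    exact ⟨y.2, Finset.mem_univ _, Prod.ext h rfl⟩
  · rintro ⟨z, -, rfl⟩
    rfl

lemma r2e_zero_ker (Q : Qv α) (e : ℕ) (h0 : Q.wt Finset.univ = 0) :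
    (Q.comap (Prod.snd : Fin (e + 1) × α → α)).Zero (Setoid.ker Prod.fst) := by
  intro p
  rw [r2e_blk_ker, ← Qv.wt_comap]
  exact h0

lemma r2e_wt_of_zero_ker [Nonempty α] (Q : Qv α) (e : ℕ)
    (h : (Q.comap (Prod.snd : Fin (e + 1) × α → α)).Zero (Setoid.ker Prod.fst)) :
    Q.wt Finset.univ = 0 := by
  have := h (0, Classical.arbitrary α)
  rw [r2e_blk_ker, ← Qv.wt_comap] at this
  exact this

lemma r2e_sum_aa_ker [Nonempty α] (Q : Qv α) (e : ℕ) :
    ∑ B ∈ parts (Setoid.ker (Prod.fst : Fin (e + 1) × α → Fin (e + 1))),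
      (Q.comap (Prod.snd : Fin (e + 1) × α → α)).aa B B =
        (e + 1) * Q.aa Finset.univ Finset.univ := by
  have hp : parts (Setoid.ker (Prod.fst : Fin (e + 1) × α → Fin (e + 1))) =
      Finset.univ.image fun i : Fin (e + 1) =>
        (Finset.univ : Finset α).map ⟨Prod.mk i, Prod.mk_right_injective i⟩ := by
    ext B
    simp only [parts, Finset.mem_image, Finset.mem_univ, true_and, r2e_blk_ker]
    constructor
    · rintro ⟨p, rfl⟩
      exact ⟨p.1, rfl⟩
    · rintro ⟨i, rfl⟩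
      exact ⟨(i, Classical.arbitrary α), rfl⟩
  rw [hp, Finset.sum_image]
  · rw [Finset.sum_congr rfl (g := fun _ => Q.aa Finset.univ Finset.univ) fun i _ => by
      rw [← Qv.aa_comap]; rfl]
    simp
  · intro i _ j _ hij
    have : (i, Classical.arbitrary α) ∈ (Finset.univ : Finset α).map
        ⟨Prod.mk j, Prod.mk_right_injective j⟩ := by
      have h2 : (Finset.univ : Finset α).map ⟨Prod.mk i, Prod.mk_right_injective i⟩ =
        (Finset.univ : Finset α).map ⟨Prod.mk j, Prod.mk_right_injective j⟩ := hij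
      rw [← h2]
      exact Finset.mem_map.2 ⟨_, Finset.mem_univ _, rfl⟩
    obtain ⟨z, -, hz⟩ := Finset.mem_map.1 this
    exact (congrArg Prod.fst hz).symm

lemma r2e_chW_poly [Nonempty α] (Q : Qv α) (h0 : Q.wt Finset.univ = 0) :
    ∃ D0 : ℕ, ∀ σ : Equiv.Perm α, ∀ D, D0 < D → PowerSeries.coeff D (Q.chW σ) = 0 := by
  obtain ⟨D0, hD0⟩ := Q.W_top_finite h0
  refine ⟨D0, fun σ D hD => ?_⟩
  have hle : (Q.idF Finset.univ).restrictScalars ℂ ≤ Q.W ⊤ := by
    have := Q.Jc_le_W ⊤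
    rwa [Qv.Jc, Q.J_top] at this
  have : Q.W ⊤ ⊓ MvPolynomial.homogeneousSubmodule α ℂ D =
      (Q.idF Finset.univ).restrictScalars ℂ ⊓ MvPolynomial.homogeneousSubmodule α ℂ D :=
    le_antisymm (fun w hw => ⟨hD0 D hD w hw.1 hw.2, hw.2⟩) (inf_le_inf_right _ hle)
  rw [Qv.chW, ch, PowerSeries.coeff_mk, this, sub_self]

lemma r2e_toK_expand (e : ℕ) (f : PowerSeries ℂ) (N : ℕ)
    (hf : ∀ D, N < D → PowerSeries.coeff D f = 0) :
    toK (PowerSeries.expand (e + 1) (Nat.succ_ne_zero e) f) =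
      ∑ D ∈ Finset.range (N + 1), HahnSeries.C (PowerSeries.coeff D f) *
        vp (2 * ((e + 1 : ℕ) : ℤ) * D) := by
  have : f = ∑ D ∈ Finset.range (N + 1), PowerSeries.C (PowerSeries.coeff D f) *
      PowerSeries.X ^ D := by
    ext n
    rw [map_sum]
    simp only [PowerSeries.coeff_C_mul, PowerSeries.coeff_X_pow]
    rw [Finset.sum_eq_single n]
    · simp
    · intro b _ hb
      rw [if_neg hb.symm, mul_zero]
    · intro hn
      rw [hf n (by simpa using hn), zero_mul]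
  conv_lhs => rw [this]
  rw [map_sum, map_sum]
  refine Finset.sum_congr rfl fun D _ => ?_
  rw [map_mul, map_mul, map_pow, map_pow, PowerSeries.expand_C, PowerSeries.expand_X, toK_C,
    map_pow, toK_X, phi_vp_pow, phi_vp_pow]

lemma r2e_toK_div (e : ℕ) (f g : PowerSeries ℂ) (h : f * (1 - PowerSeries.X) = g) :
    toK (PowerSeries.expand (e + 1) (Nat.succ_ne_zero e) f) =
      toK (PowerSeries.expand (e + 1) (Nat.succ_ne_zero e) g) /
        (1 - vp (2 * ((e + 1 : ℕ) : ℤ))) := by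
  rw [eq_div_iff (one_sub_vp_ne_zero (by omega)), ← h, map_mul, map_mul, map_sub, map_sub,
    map_one, map_one, PowerSeries.expand_X, map_pow, toK_X, phi_vp_pow]

end r2eGen


namespace QD
variable {Ω : Form L} {deg : L →+ ℤ} (q : QD Ω deg I)

lemma r2e_nd_typ {α : Type} [Fintype α] (c : α → I) : q.nd (typ c) = ∑ x, q.n (c x) :=
  (r2e_sum_typ c q.n).symm

lemma r2e_wt {α : Type} [Fintype α] (η : L →+ ℤ) (c : α → I) :
    ((q.QI η).comap c).wt Finset.univ = η (q.nd (typ c)) := by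
  rw [r2e_nd_typ, map_sum]
  rfl

lemma r2e_aa {α : Type} [Fintype α] (η : L →+ ℤ) (c : α → I) :
    (((q.QI η).comap c).aa Finset.univ Finset.univ : ℤ) =
      ∑ i, ∑ j, (q.arr i j : ℤ) * typ c i * typ c j := by
  have : ((q.QI η).comap c).aa Finset.univ Finset.univ = ∑ x, ∑ y, q.arr (c x) (c y) := rfl
  rw [this]
  push_cast
  rw [r2e_sum_typ c fun i => ∑ y, (q.arr i (c y) : ℤ)]
  refine Finset.sum_congr rfl fun i _ => ?_
  rw [r2e_sum_typ c fun j => (q.arr i j : ℤ), Finset.smul_sum]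
  refine Finset.sum_congr rfl fun j _ => ?_
  simp only [nsmul_eq_mul]
  ring

lemma r2e_norm {α : Type} [Fintype α] (η : L →+ ℤ) (c : α → I) :
    q.norm (typ c) = ∑ x, q.k (c x) - ((q.QI η).comap c).aa Finset.univ Finset.univ := by
  rw [r2e_aa, r2e_sum_typ c q.k, norm]
  congr 1
  refine Finset.sum_congr rfl fun i _ => ?_
  rw [nsmul_eq_mul, mul_comm]

lemma r2e_aut {α : Type} [Fintype α] (η : L →+ ℤ) {c : α → I} {σ : Equiv.Perm α}
    (h : σ ∈ CP c) : ((q.QI η).comap c).Aut σ :=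
  ⟨fun x y => by
    show q.arr (c (σ x)) (c (σ y)) = q.arr (c x) (c y)
    rw [h x, h y], fun x => by
    show η (q.n (c (σ x))) = η (q.n (c x))
    rw [h x]⟩

lemma r2e_nd_smul (m : ℕ) (d : I → ℕ) : q.nd (m • d) = m • q.nd d := by
  simp only [nd, Finset.smul_sum, Pi.smul_apply, smul_eq_mul, mul_smul]

lemma r2e_le_deg (d : I → ℕ) : ((∑ i, d i : ℕ) : ℤ) ≤ deg (q.nd d) := by
  rw [nd, map_sum]
  push_cast
  refine Finset.sum_le_sum fun i _ => ?_
  rw [map_nsmul, nsmul_eq_mul]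
  have := q.pos i
  nlinarith [Int.natCast_nonneg (d i)]

lemma r2e_deg_pos {d : I → ℕ} (hd : d ≠ 0) : 0 < deg (q.nd d) := by
  have h1 := q.r2e_le_deg d
  obtain ⟨i, hi⟩ := Function.ne_iff.1 hd
  have h2 : d i ≤ ∑ i, d i := Finset.single_le_sum (fun _ _ => Nat.zero_le _) (Finset.mem_univ i)
  have h3 : d i ≠ 0 := hi
  omega

/-- The weight of a partition. -/
def r2eW (η : L →+ ℤ) : SpR I := fun α _ c σ r =>
  if ((q.QI η).comap c).Zero r then
    ((((q.QI η).comap c).sg r σ : ℤ) : K) *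
      vp (∑ x, q.k (c x) - ((∑ B ∈ parts r, ((q.QI η).comap c).aa B B : ℕ) : ℤ)) *
      toK (((q.QI η).comap c).chV r σ)
  else 0
def r2eZ (η : L →+ ℤ) : Sp I := fun α _ c σ =>
  ∑ r ∈ Finset.univ.filter (StabR σ), q.r2eW η α c σ r
def r2eT (η : L →+ ℤ) : Sp I := fun α _ c σ =>
  ∑ r ∈ Finset.univ.filter (Trans σ), q.r2eW η α c σ r

lemma r2eW_inv {η : L →+ ℤ} (h : q.Iso η) : (q.r2eW η).Inv := by
  intro α β _ _ e c σ r hσ hs
  have hQ := q.sym_comap h c
  unfold r2eW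
  by_cases hr : (((q.QI η).comap c).comap e).Zero r
  · rw [if_pos ((zero_mapR _ e r).2 hr), if_pos (show ((q.QI η).comap (c ∘ e)).Zero r from hr),
      sg_mapR _ hQ e hr (q.r2e_aut η hσ) hs, chV_mapR _ e r hQ hr, r2e_sum_aa_mapR _ hQ e hr,
      ← Equiv.sum_comp e fun x => q.k (c x)]
    rfl
  · rw [if_neg (fun h' => hr ((zero_mapR _ e r).1 h')),
      if_neg (show ¬ ((q.QI η).comap (c ∘ e)).Zero r from hr)]

lemma r2eZ_inv {η : L →+ ℤ} (h : q.Iso η) : (q.r2eZ η).Inv :=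
  r2e_inv_sum _ (q.r2eW_inv h) (fun α _ σ r => StabR σ r)
    (fun α β _ _ e σ r => r2e_stabR_mapR e σ r) fun α _ σ r h => h

lemma r2eT_inv {η : L →+ ℤ} (h : q.Iso η) : (q.r2eT η).Inv :=
  r2e_inv_sum _ (q.r2eW_inv h) (fun α _ σ r => Trans σ r)
    (fun α β _ _ e σ r => r2e_trans_mapR e σ r) fun α _ σ r h => h.1

lemma r2eW_split {η : L →+ ℤ} (h : q.Iso η) {α : Type} [Fintype α] {c : α → I}
    {σ : Equiv.Perm α} (hσ : σ ∈ CP c) (r : Setoid α) (S : Finset α) (hs : StabR σ r)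
    (hS : UB r S) (hσS : StabS σ S) :
    q.r2eW η α c σ r = q.r2eW η {x // x ∈ S} (c ∘ Subtype.val) (res σ S) (resR r S) *
      q.r2eW η {x // x ∈ Sᶜ} (c ∘ Subtype.val) (res σ Sᶜ) (resR r Sᶜ) := by
  have hQ := q.sym_comap h c
  have hA := q.r2e_aut η hσ
  have hz := zero_split ((q.QI η).comap c) hS
  unfold r2eW
  by_cases hr : ((q.QI η).comap c).Zero r
  · have h1 : ((q.QI η).comap (c ∘ (Subtype.val : {x // x ∈ S} → α))).Zero (resR r S) :=
      (hz.1 hr).1
    have h2 : ((q.QI η).comap (c ∘ (Subtype.val : {x // x ∈ Sᶜ} → α))).Zero (resR r Sᶜ) :=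
      (hz.1 hr).2
    have h3 : ∑ x, q.k (c x) = ∑ x : {x // x ∈ S}, q.k ((c ∘ Subtype.val) x) +
        ∑ x : {x // x ∈ Sᶜ}, q.k ((c ∘ Subtype.val) x) := by
      rw [← Finset.sum_add_sum_compl S fun x => q.k (c x)]
      congr 1
      · exact (Finset.sum_coe_sort S fun x => q.k (c x)).symm
      · exact (Finset.sum_coe_sort Sᶜ fun x => q.k (c x)).symm
    rw [if_pos hr, if_pos h1, if_pos h2, sg_split _ hQ hA hr hs hS hσS,
      chV_split _ hQ hA hr hs hS hσS, sum_aa_parts_split _ hS, h3, map_mul, Int.cast_mul,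
      Nat.cast_add, add_sub_add_comm, vp_add]
    change _ = ((((q.QI η).comap c).comap Subtype.val).sg (resR r S) (res σ S) : K) *
      vp (_ - ((∑ B ∈ parts (resR r S), (((q.QI η).comap c).comap Subtype.val).aa B B : ℕ) : ℤ)) *
      toK ((((q.QI η).comap c).comap Subtype.val).chV (resR r S) (res σ S)) *
      (((((q.QI η).comap c).comap Subtype.val).sg (resR r Sᶜ) (res σ Sᶜ) : K) *
      vp (_ - ((∑ B ∈ parts (resR r Sᶜ), (((q.QI η).comap c).comap Subtype.val).aa B B : ℕ) : ℤ)) *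
      toK ((((q.QI η).comap c).comap Subtype.val).chV (resR r Sᶜ) (res σ Sᶜ)))
    ring
  · rw [if_neg hr]
    by_cases h1 : ((q.QI η).comap (c ∘ (Subtype.val : {x // x ∈ S} → α))).Zero (resR r S)
    · rw [if_neg (show ¬ ((q.QI η).comap (c ∘ (Subtype.val : {x // x ∈ Sᶜ} → α))).Zero
        (resR r Sᶜ) from fun h2 => hr (hz.2 ⟨h1, h2⟩)), mul_zero]
    · rw [if_neg h1, zero_mul]

lemma r2eW_eq_zero (η : L →+ ℤ) {α : Type} [Fintype α] {c : α → I}
    (h0 : η (q.nd (typ c)) ≠ 0) (σ : Equiv.Perm α) (r : Setoid α) : q.r2eW η α c σ r = 0 := by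
  unfold r2eW
  rw [if_neg fun hr => h0 (by rw [← q.r2e_wt]; exact r2e_wt_univ _ hr)]

lemma r2eZ_eq {η : L →+ ℤ} (h : q.Iso η) {α : Type} [Fintype α] {c : α → I}
    {σ : Equiv.Perm α} (hσ : σ ∈ CP c) (h0 : η (q.nd (typ c)) = 0) :
    q.r2eZ η α c σ = vp (q.norm (typ c)) * q.spF η α c σ := by
  have hQ := q.sym_comap h c
  have hA := q.r2e_aut η hσ
  unfold r2eZ spF
  rw [((q.QI η).comap c).decomposition hQ (by rw [q.r2e_wt, h0]) hA, map_sum, Finset.mul_sum,
    Finset.sum_filter, Finset.sum_filter]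
  refine Finset.sum_congr rfl fun r _ => ?_
  unfold r2eW
  by_cases hs : StabR σ r
  · by_cases hr : ((q.QI η).comap c).Zero r
    · rw [if_pos hs, if_pos hr, if_pos ⟨hr, hs⟩, map_mul, map_mul, map_pow, toK_X, toK_C,
        map_intCast, phi_vp_pow, q.r2e_norm η c]
      have h1 := ((q.QI η).comap c).two_mul_M hQ hr ord ord_injective
      change 2 * ((q.QI η).comap c).M r + _ = _ at h1
      have h2 : ∑ x, q.k (c x) - ((∑ B ∈ parts r, ((q.QI η).comap c).aa B B : ℕ) : ℤ) =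
          (∑ x, q.k (c x) - ((q.QI η).comap c).aa Finset.univ Finset.univ) +
            2 * (((q.QI η).comap c).M r : ℤ) := by omega
      rw [h2, vp_add]
      ring
    · rw [if_pos hs, if_neg hr, if_neg fun h' => hr h'.1]
  · rw [if_neg hs, if_neg fun h' => hs h'.2]

lemma r2e_avgZ {η : L →+ ℤ} (h : q.Iso η) (d : I → ℕ) :
    avg q.odd (q.r2eZ η) d =
      if η (q.nd d) = 0 then vp (q.norm d) * avg q.odd (q.spF η) d else 0 := by
  split_ifs with h0
  · rw [← r2e_avg_smul]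
    refine avg_congr _ _ fun σ hσ => ?_
    rw [q.r2eZ_eq h hσ (by rw [typ_Xd, h0]), typ_Xd]
  · rw [← r2e_avg_zero q.odd d]
    refine avg_congr _ _ fun σ hσ => ?_
    exact Finset.sum_eq_zero fun r _ => q.r2eW_eq_zero η (by rwa [typ_Xd]) _ _

lemma r2e_avgT_zero (η : L →+ ℤ) {d : I → ℕ} (h0 : η (q.nd d) ≠ 0) :
    avg q.odd (q.r2eT η) d = 0 := by
  rw [← r2e_avg_zero q.odd d]
  refine avg_congr _ _ fun σ hσ => ?_
  exact Finset.sum_eq_zero fun r _ => q.r2eW_eq_zero η (by rwa [typ_Xd]) _ _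

lemma r2e_point {η : L →+ ℤ} (h : q.Iso η) {α : Type} [Fintype α] {c : α → I}
    {σ : Equiv.Perm α} (hσ : σ ∈ CP c) :
    (deg (q.nd (typ c)) : K) * q.r2eZ η α c σ = ∑ S ∈ Finset.univ.filter (StabS σ),
      (deg (q.nd (typ (c ∘ (Subtype.val : {x // x ∈ Sᶜ} → α)))) : K) *
        (q.r2eZ η {x // x ∈ S} (c ∘ Subtype.val) (res σ S) *
          q.r2eT η {x // x ∈ Sᶜ} (c ∘ Subtype.val) (res σ Sᶜ)) := by
  have hp := pointing (q.r2eW η) c σ
    (fun x => (deg (q.n (c x)) : K)) (fun r S => q.r2eW_split h hσ r S)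
  rw [q.r2e_nd_typ, map_sum, Int.cast_sum]
  refine hp.trans (Finset.sum_congr rfl fun S _ => ?_)
  rw [q.r2e_nd_typ, map_sum, Int.cast_sum]
  congr 1
  exact (Finset.sum_coe_sort Sᶜ fun x => (deg (q.n (c x)) : K)).symm

lemma r2e_rec {η : L →+ ℤ} (h : q.Iso η) (d : I → ℕ) :
    (deg (q.nd d) : K) * avg q.odd (q.r2eZ η) d = ∑ d' ∈ Finset.Iic d,
      (deg (q.nd (d - d')) : K) * (avg q.odd (q.r2eZ η) d' * avg q.odd (q.r2eT η) (d - d')) := by
  rw [← avg_mul q.odd _ _ (q.r2eZ_inv h) (q.r2eT_inv h) (fun _ d'' => (deg (q.nd d'') : K)) d,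
    ← r2e_avg_smul]
  refine avg_congr _ _ fun σ hσ => ?_
  have := q.r2e_point h hσ
  rw [typ_Xd] at this
  exact this

lemma r2e_der (y : (I → ℕ) → K) :
    Der deg (q.gen y) = q.gen fun d => (deg (q.nd d) : K) * y d := by
  refine QT.ext (funext fun x => ?_)
  change (deg x : K) * (∑ᶠ d, if q.nd d = x then y d else 0) =
    ∑ᶠ d, if q.nd d = x then (deg (q.nd d) : K) * y d else 0
  rw [mul_finsum]
  refine finsum_congr fun d => ?_
  split_ifs with h1
  · rw [h1]
  · rw [mul_zero]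

lemma r2e_lg {η : L →+ ℤ} (h : q.Iso η) (x : L) :
    lg (fzer q.tot η) x =
      (∑ᶠ d, if q.nd d = x then (deg (q.nd d) : K) * avg q.odd (q.r2eT η) d else 0) /
        (deg x : K) := by
  have hG : fzer q.tot η = q.gen (avg q.odd (q.r2eZ η)) := by
    rw [q.fzer_tot η]
    congr 1
    funext d
    rw [q.r2e_avgZ h]
  have hI : IsG (fzer q.tot η) := (isFact_fact η q.isG_tot).2.1
  have hD : Der deg (fzer q.tot η) = fzer q.tot η *
      q.gen fun d => (deg (q.nd d) : K) * avg q.odd (q.r2eT η) d := by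
    rw [hG, r2e_der, gen_mul]
    congr 1
    funext d
    rw [q.r2e_rec h]
    refine Finset.sum_congr rfl fun d' _ => ?_
    by_cases h1 : η (q.nd d') = 0
    · by_cases h2 : η (q.nd (d - d')) = 0
      · rw [h _ _ h1 h2, vp_zero]
        ring
      · rw [q.r2e_avgT_zero η h2]
        ring
    · rw [q.r2e_avgZ h d', if_neg h1]
      ring
  rw [lg_eq_of_der hI hD]
  rfl


/-- The contribution of `d` repeated `e + 1` times. -/
def r2eB (η : L →+ ℤ) (d : I → ℕ) (e : ℕ) : K :=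
  ∑ᶠ D : ℕ, HahnSeries.C (q.mult η d D) * lgC (q.norm d + 2 * D) (e + 1)

lemma r2eB_zero (η : L →+ ℤ) {d : I → ℕ} (h : ¬ (d ≠ 0 ∧ η (q.nd d) = 0)) (e : ℕ) :
    q.r2eB η d e = 0 := by
  unfold r2eB
  refine finsum_eq_zero_of_forall_eq_zero fun D => ?_
  rw [mult, if_neg h, map_zero, zero_mul]

lemma r2e_parity (η : L →+ ℤ) (d : I → ℕ) (D : ℕ) :
    Odd (q.norm d + 2 * D) ↔ Odd (∑ i ∈ Finset.univ.filter q.odd, d i +
      ((q.QI η).comap (Sigma.fst : Xd d → I)).aa Finset.univ Finset.univ) := by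
  have h1 := q.r2e_norm η (Sigma.fst : Xd d → I)
  rw [r2e_sum_typ (Sigma.fst : Xd d → I) q.k, typ_Xd] at h1
  have h2 : (2 : ℤ) ∣ ∑ i, d i • q.k i - ((∑ i ∈ Finset.univ.filter q.odd, d i : ℕ) : ℤ) := by
    rw [Finset.sum_filter]
    push_cast
    rw [← Finset.sum_sub_distrib]
    refine Finset.dvd_sum fun i _ => ?_
    split_ifs with ho
    · obtain ⟨m, hm⟩ := (show Odd (q.k i) from ho)
      exact ⟨d i * m, by rw [hm, nsmul_eq_mul]; ring⟩
    · obtain ⟨m, hm⟩ := Int.not_odd_iff_even.1 (show ¬ Odd (q.k i) from ho)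
      exact ⟨d i * m, by rw [hm, nsmul_eq_mul]; ring⟩
  rw [h1, Int.odd_iff, Nat.odd_iff]
  omega

lemma r2e_model {η : L →+ ℤ} (h : q.Iso η) {d : I → ℕ} (hd : d ≠ 0) (e : ℕ) :
    (∑ g : CP (Sigma.fst : Xd d → I),
      ((eps q.odd (Sigma.fst ∘ (Prod.snd : Fin (e + 1) × Xd d → Xd d)) (cyc e g.1) : ℤ) : K) *
        q.r2eW η (Fin (e + 1) × Xd d) (Sigma.fst ∘ Prod.snd) (cyc e g.1) (Setoid.ker Prod.fst)) /
      (((e + 1 : ℕ) : K) * dfac d) = q.r2eB η d e := by
  have : Nonempty (Xd d) := by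
    obtain ⟨i, hi⟩ := Function.ne_iff.1 hd
    exact ⟨⟨i, ⟨0, Nat.pos_of_ne_zero hi⟩⟩⟩
  set Q : Qv (Xd d) := (q.QI η).comap Sigma.fst with hQdef
  have hwt : Q.wt Finset.univ = η (q.nd d) := by
    rw [hQdef, q.r2e_wt, typ_Xd]
  by_cases h0 : η (q.nd d) = 0
  swap
  · rw [q.r2eB_zero η (fun h' => h0 h'.2), Finset.sum_eq_zero, zero_div]
    intro g _
    unfold r2eW
    rw [if_neg, mul_zero]
    intro hz
    exact h0 (hwt ▸ r2e_wt_of_zero_ker Q e hz)
  have hw0 : Q.wt Finset.univ = 0 := hwt.trans h0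
  obtain ⟨D0, hD0⟩ := r2e_chW_poly Q hw0
  have hQ : Q.Sym := q.sym_comap h _
  have hQ' : (Q.comap (Prod.snd : Fin (e + 1) × Xd d → Xd d)).Sym :=
    q.sym_comap h (Sigma.fst ∘ Prod.snd)
  have hW : ∀ g : CP (Sigma.fst : Xd d → I),
      q.r2eW η (Fin (e + 1) × Xd d) (Sigma.fst ∘ Prod.snd) (cyc e g.1) (Setoid.ker Prod.fst) =
        (-1) ^ (e * Q.aa Finset.univ Finset.univ) * vp (q.norm d * ((e + 1 : ℕ) : ℤ)) *
          ((∑ D ∈ Finset.range (D0 + 1), HahnSeries.C (PowerSeries.coeff D (Q.chW g.1)) *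
            vp (2 * ((e + 1 : ℕ) : ℤ) * D)) / (1 - vp (2 * ((e + 1 : ℕ) : ℤ)))) := by
    intro g
    have hA : Q.Aut g.1 := q.r2e_aut η g.2
    have h1 : q.norm d = ∑ x : Xd d, q.k x.1 - Q.aa Finset.univ Finset.univ := by
      have := q.r2e_norm η (Sigma.fst : Xd d → I)
      rwa [typ_Xd] at this
    have h2 : ∑ x : Fin (e + 1) × Xd d, q.k x.2.1 = ((e + 1 : ℕ) : ℤ) * ∑ x : Xd d, q.k x.1 := by
      rw [Fintype.sum_prod_type]
      simp
    change (if (Q.comap Prod.snd).Zero (Setoid.ker Prod.fst) then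
      (((Q.comap Prod.snd).sg (Setoid.ker Prod.fst) (cyc e g.1) : ℤ) : K) *
        vp (∑ x : Fin (e + 1) × Xd d, q.k x.2.1 -
          ((∑ B ∈ parts (Setoid.ker Prod.fst), (Q.comap Prod.snd).aa B B : ℕ) : ℤ)) *
        toK ((Q.comap Prod.snd).chV (Setoid.ker Prod.fst) (cyc e g.1)) else 0) = _
    rw [if_pos (r2e_zero_ker Q e hw0), sg_model, chV_model Q e hQ' hw0 hA,
      r2e_toK_div e _ _ (Q.chV_top hQ hw0 hA), r2e_toK_expand e _ D0 (hD0 g.1), r2e_sum_aa_ker,
      h2, h1]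
    congr 2
    · push_cast
      rfl
    · congr 1
      push_cast
      ring
  have hm : ∀ D, q.mult η d D = (∑ σ : CP (Sigma.fst : Xd d → I),
      ((eps q.odd Sigma.fst σ.1 : ℤ) : ℂ) * PowerSeries.coeff D (Q.chW σ.1)) /
      ∏ i, ((d i).factorial : ℂ) := fun D => by rw [mult, if_pos ⟨hd, h0⟩]
  have hB : q.r2eB η d e = ∑ D ∈ Finset.range (D0 + 1),
      HahnSeries.C (q.mult η d D) * lgC (q.norm d + 2 * D) (e + 1) := by
    refine finsum_eq_sum_of_support_subset _ fun D hD => ?_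
    by_contra hn
    refine hD ?_
    have : D0 < D := by simpa using hn
    show HahnSeries.C (q.mult η d D) * _ = 0
    rw [hm, Finset.sum_eq_zero fun σ _ => by rw [hD0 σ.1 D this, mul_zero], zero_div, map_zero,
      zero_mul]
  have hs : ∀ D : ℕ, lgC (q.norm d + 2 * D) (e + 1) =
      (-1) ^ (e * ∑ i ∈ Finset.univ.filter q.odd, d i) * (-1) ^ (e * Q.aa Finset.univ Finset.univ) *
        (vp (q.norm d * ((e + 1 : ℕ) : ℤ)) * vp (2 * ((e + 1 : ℕ) : ℤ) * D)) /
        (((e + 1 : ℕ) : K) * (1 - vp (2 * ((e + 1 : ℕ) : ℤ)))) := by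
    intro D
    rw [lgC, ← vp_add, ← pow_add, ← mul_add]
    congr 2
    · have hp := q.r2e_parity η d D
      rw [← hQdef] at hp
      rw [mul_comm e, pow_mul]
      split_ifs with ho
      · rw [r2e_odd_pow (hp.1 ho), Nat.add_sub_cancel]
      · rw [r2e_even_pow fun h' => ho (hp.2 h'), one_pow]
    · congr 1
      ring
  have hdf : dfac d = HahnSeries.C (∏ i, ((d i).factorial : ℂ)) := by
    rw [dfac, map_prod]
    exact Finset.prod_congr rfl fun i _ => (map_natCast _ _).symm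
  have he : ∀ g : CP (Sigma.fst : Xd d → I),
      ((eps q.odd (Sigma.fst ∘ (Prod.snd : Fin (e + 1) × Xd d → Xd d)) (cyc e g.1) : ℤ) : K) =
        (-1) ^ (e * ∑ i ∈ Finset.univ.filter q.odd, d i) * ((eps q.odd Sigma.fst g.1 : ℤ) : K) := by
    intro g
    rw [eps_cyc q.odd _ e g.2, typ_Xd]
    push_cast
    rfl
  rw [hB]
  simp only [hW, hs, hm, he]
  generalize (-1 : K) ^ (e * ∑ i ∈ Finset.univ.filter q.odd, d i) = s1
  simp only [map_div₀, map_sum, map_mul, map_intCast, ← hdf, Finset.sum_div,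
    Finset.sum_mul, Finset.mul_sum]
  rw [Finset.sum_comm]
  refine Finset.sum_congr rfl fun D _ => Finset.sum_congr rfl fun g _ => ?_
  simp only [div_eq_mul_inv, mul_inv]
  ring

lemma r2e_avgT {η : L →+ ℤ} (h : q.Iso η) (d : I → ℕ) :
    avg q.odd (q.r2eT η) d =
      ∑ᶠ p : ℕ × (I → ℕ), if (p.1 + 1) • p.2 = d then q.r2eB η p.2 p.1 else 0 := by
  have h1 := avg_trans q.odd _ (q.r2eW_inv h) d
  refine h1.trans ?_
  rw [finsum_eq_sum_of_support_subset (s := Finset.range (∑ i, d i) ×ˢ Finset.Iic d),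
    Finset.sum_product]
  · refine Finset.sum_congr rfl fun e he => ?_
    rw [Finset.sum_filter]
    refine Finset.sum_congr rfl fun d' _ => ?_
    split_ifs with h2
    · refine q.r2e_model h ?_ e
      rintro rfl
      rw [smul_zero] at h2
      subst h2
      simp at he
    · rfl
  · rintro ⟨e, d'⟩ hp
    have h2 : (e + 1) • d' = d := by
      by_contra h2
      exact hp (if_neg h2)
    have h3 : d' ≠ 0 := by
      intro h3
      refine hp ?_
      show (if (e + 1) • d' = d then q.r2eB η d' e else 0) = 0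
      rw [if_pos h2, q.r2eB_zero η (fun h' => h'.1 h3)]
    subst h2
    rw [Finset.coe_product, Set.mem_prod, Finset.mem_coe, Finset.mem_coe, Finset.mem_range,
      Finset.mem_Iic]
    constructor
    · obtain ⟨i, hi⟩ := Function.ne_iff.1 h3
      have h4 : ((e + 1) • d') i ≤ ∑ i, ((e + 1) • d') i :=
        Finset.single_le_sum (fun _ _ => Nat.zero_le _) (Finset.mem_univ i)
      have h5 : d' i ≠ 0 := hi
      have h6 : ((e + 1) • d') i = (e + 1) * d' i := rfl
      have h7 : e + 1 ≤ (e + 1) * d' i := Nat.le_mul_of_pos_right _ (Nat.pos_of_ne_zero h5)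
      show e < _
      omega
    · intro i
      show d' i ≤ (e + 1) * d' i
      exact Nat.le_mul_of_pos_left _ (Nat.succ_pos e)

lemma r2e_rhs (η : L →+ ℤ) (x : L) (d : I → ℕ) :
    ∑ᶠ D : ℕ, HahnSeries.C (q.mult η d D) * lgP (q.nd d) (q.norm d + 2 * D) x =
      ∑ e ∈ Finset.range (deg x).toNat, if q.nd ((e + 1) • d) = x then q.r2eB η d e else 0 := by
  by_cases hd : d = 0
  · rw [finsum_eq_zero_of_forall_eq_zero, Finset.sum_eq_zero]
    · intro e _
      rw [q.r2eB_zero η (fun h' => h'.1 hd), ite_self]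
    · intro D
      rw [mult, if_neg (fun h' => h'.1 hd), map_zero, zero_mul]
  have hF := q.r2e_deg_pos hd
  have hF0 := phi_ne_zero hF
  by_cases hx : ∃ e : ℕ, q.nd ((e + 1) • d) = x
  · obtain ⟨e, rfl⟩ := hx
    rw [Finset.sum_eq_single e, if_pos rfl]
    · refine finsum_congr fun D => ?_
      rw [q.r2e_nd_smul, lgP_smul hF0 _ (Nat.succ_pos e)]
    · intro b _ hb
      rw [if_neg]
      rw [q.r2e_nd_smul, q.r2e_nd_smul]
      intro h'
      exact hb (Nat.succ_injective (phi_smul_inj hF0 h'))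
    · intro hn
      exfalso
      refine hn ?_
      rw [Finset.mem_range, q.r2e_nd_smul, map_nsmul, nsmul_eq_mul]
      have : ((e + 1 : ℕ) : ℤ) ≤ ((e + 1 : ℕ) : ℤ) * deg (q.nd d) :=
        le_mul_of_one_le_right (Int.natCast_nonneg _) hF
      omega
  · rw [finsum_eq_zero_of_forall_eq_zero, Finset.sum_eq_zero]
    · intro e _
      rw [if_neg fun h' => hx ⟨e, h'⟩]
    · intro D
      by_contra hn
      obtain ⟨e, he, h'⟩ := lgP_ne_zero (right_ne_zero_of_mul hn)
      refine hx ⟨e - 1, ?_⟩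
      rw [Nat.sub_add_cancel he, q.r2e_nd_smul, h']

lemma r2e_deg_le {e : ℕ} {d : I → ℕ} : deg (q.nd d) ≤ deg (q.nd ((e + 1) • d)) := by
  rw [q.r2e_nd_smul, map_nsmul, nsmul_eq_mul]
  have h1 := q.r2e_le_deg d
  exact le_mul_of_one_le_left (le_trans (Int.natCast_nonneg _) h1) (by omega)

/-- The exponential formula. -/
theorem lg_fzer_tot {η : L →+ ℤ} (h : q.Iso η) (x : L) :
    lg (fzer q.tot η) x = ∑ᶠ d : I → ℕ, ∑ᶠ D : ℕ,
      HahnSeries.C (q.mult η d D) * lgP (q.nd d) (q.norm d + 2 * D) x := by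
  rw [q.r2e_lg h, finsum_congr (q.r2e_rhs η x)]
  by_cases hx : deg x = 0
  · simp [hx]
  set S := (q.finite_fiber (deg x)).toFinset with hS
  have hmem : ∀ d, d ∈ S ↔ deg (q.nd d) ≤ deg x := fun d => by
    rw [hS, Set.Finite.mem_toFinset]
    rfl
  have hT : ∀ d, q.nd d = x → avg q.odd (q.r2eT η) d =
      ∑ p ∈ Finset.range (deg x).toNat ×ˢ S,
        if (p.1 + 1) • p.2 = d then q.r2eB η p.2 p.1 else 0 := by
    intro d hd
    rw [q.r2e_avgT h]
    refine finsum_eq_sum_of_support_subset _ ?_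
    rintro ⟨e, d'⟩ hp
    have h2 : (e + 1) • d' = d := by
      by_contra h2
      exact hp (if_neg h2)
    have h3 : d' ≠ 0 := by
      intro h3
      refine hp ?_
      show (if (e + 1) • d' = d then q.r2eB η d' e else 0) = 0
      rw [if_pos h2, q.r2eB_zero η (fun h' => h'.1 h3)]
    subst h2
    subst hd
    rw [Finset.coe_product, Set.mem_prod, Finset.mem_coe, Finset.mem_coe, Finset.mem_range, hmem]
    refine ⟨?_, q.r2e_deg_le⟩
    rw [q.r2e_nd_smul, map_nsmul, nsmul_eq_mul]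
    have : ((e + 1 : ℕ) : ℤ) ≤ ((e + 1 : ℕ) : ℤ) * deg (q.nd d') :=
      le_mul_of_one_le_right (Int.natCast_nonneg _) (q.r2e_deg_pos h3)
    show e < _
    omega
  rw [finsum_eq_sum_of_support_subset (s := S), finsum_eq_sum_of_support_subset (s := S)]
  · rw [div_eq_iff (intCast_ne_zero_lg hx),
      Finset.sum_congr rfl (g := fun d => (∑ p ∈ Finset.range (deg x).toNat ×ˢ S,
        if (p.1 + 1) • p.2 = d then (if q.nd d = x then q.r2eB η p.2 p.1 else 0) else 0) *
        (deg x : K)), ← Finset.sum_mul]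
    · congr 1
      rw [Finset.sum_comm, Finset.sum_product, Finset.sum_comm]
      refine Finset.sum_congr rfl fun d' _ => Finset.sum_congr rfl fun e _ => ?_
      rw [Finset.sum_ite_eq]
      split_ifs with h1 h2 h2
      · rfl
      · rfl
      · exact absurd ((hmem _).2 (by rw [h2])) h1
      · rfl
    · intro d _
      by_cases hd : q.nd d = x
      · simp only [if_pos hd]
        rw [hT d hd, hd, mul_comm]
      · simp [hd]
  · intro d hd
    obtain ⟨e, -, he⟩ := Finset.exists_ne_zero_of_sum_ne_zero hd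
    have h2 : q.nd ((e + 1) • d) = x := by
      by_contra h2
      exact he (if_neg h2)
    rw [Finset.mem_coe, hmem, ← h2]
    exact q.r2e_deg_le
  · intro d hd
    have h2 : q.nd d = x := by
      by_contra h2
      exact hd (if_neg h2)
    rw [Finset.mem_coe, hmem, h2]

end QD
end Crest.Agent.R059
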