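import Crest.Agent.R059.Conf

/-! Row 59: moving one interval from the start to the end of its slot mutates the seed. -/

set_option autoImplicit false
set_option linter.unusedSectionVars false
set_option linter.unusedVariables false

noncomputable section
open Classical

namespace Crest.Agent.R059

variable {L : Type} [AddCommGroup L] [Module.Free ℤ L] [Module.Finite ℤ L]
variable {Ω : Form L} {W : Type} [Fintype W]

lemma Conf.mem_seed_iff (C : Conf Ω W) {F : L} :
    F ∈ C.seed ↔ ∃ y y', C.Consec y y' ∧ C.x y' - C.x y = F := by
  simp [Conf.seed]

lemma Conf.P_ne (C : Conf Ω W) {y y' : W} (h : y ≠ y') : C.P y ≠ C.P y' := fun h' => h (C.inj h')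

lemma Conf.seed_rot (C C' : Conf Ω W) (u b b' : W)
    (hx : ∀ y, y ≠ u → C'.x y = C.x y) (hxu : C'.x u = C.x u + C.x b' - C.x b)
    (hord : ∀ y y', y ≠ u → y' ≠ u → (C'.P y < C'.P y' ↔ C.P y < C.P y'))
    (h1 : C.P u = C.P b + 1) (h2 : C'.P b' = C'.P u + 1) (h3 : C.P u < C.P b')
    (h4 : C'.P b < C'.P u)
    (hg : ∀ z, Ω.w (C.x u - C.x b) (C.x z) = if z = b ∨ z = u then -1 else if z = b' then 1 else 0)
    (κ : L →+ ℤ) (hκ : ∀ z, κ (C.x z) = if z = u then 1 else 0) :
    C'.seed = mutate Ω C.seed (C.x u - C.x b) := by
  have hbu : b ≠ u := fun h => by rw [h] at h1; omega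
  have hb'u : b' ≠ u := fun h => by rw [h] at h3; omega
  have hbb' : b ≠ b' := fun h => by rw [← h] at h3; omega
  have key : ∀ y y', C.Consec y y' → y' ≠ u → C.x y' - C.x y ≠ C.x u - C.x b ∧
      C.x y' - C.x y + (Ω.w (C.x u - C.x b) (C.x y' - C.x y)).toNat • (C.x u - C.x b) =
        C'.x (if y' = b' then u else y') - C'.x (if y = u then b else y) := by
    intro y y' h hy'
    have hyb : y ≠ b := fun e => by
      have := h.2 u
      have := h.1
      have := C.P_ne hy'
      rw [e] at *
      omega
    refine ⟨fun e => ?_, ?_⟩
    · have := congrArg κ e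
      simp only [map_sub, hκ, hy', hbu, if_true, if_false] at this
      split_ifs at this <;> omega
    rw [map_sub (Ω.w _), hg, hg]
    by_cases e : y = u
    · have hy'b : y' ≠ b := fun e' => by
        have := h.1
        rw [e, e'] at this
        omega
      by_cases e' : y' = b'
      · simp only [e, e', hbb'.symm, hb'u, or_self, or_true, if_true, if_false, hxu, hx b hbu]
        show _ + 2 • _ = _
        abel
      · simp only [e, e', hy'b, hy', or_self, or_true, if_true, if_false, hx b hbu, hx y' hy']
        show _ + 1 • _ = _
        abel
    · by_cases e' : y' = b'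
      · have hyb' : y ≠ b' := fun e'' => by
          have := h.1
          rw [e', e''] at this
          omega
        simp only [e, e', hyb, hyb', hbb'.symm, hb'u, or_self, if_true, if_false, hxu, hx y e]
        show _ + 1 • _ = _
        abel
      · simp only [e, e', hyb, hy', or_false, if_false, hx y e, hx y' hy']
        rw [Int.toNat_eq_zero.2 (by split_ifs <;> omega), zero_smul, add_zero]
  ext F
  simp only [mutate, Finset.mem_insert, Finset.mem_image, Finset.mem_erase, Conf.mem_seed_iff]
  constructor
  · rintro ⟨y, y', h, rfl⟩
    by_cases hyu : y = u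
    · have e : y' = b' := C'.inj (by
        have := h.2 b'
        have := h.1
        rw [hyu] at *
        omega)
      left
      rw [hyu, e, hxu, hx b' hb'u]
      abel
    have hy'b' : y' ≠ b' := fun e => by
      have := h.2 u
      have := h.1
      have := C'.P_ne hyu
      rw [e] at *
      omega
    have hc : C.Consec (if y = b then u else y) (if y' = u then b' else y') := by
      have h5 := h.1
      have h6 := h.2 b
      by_cases e : y = b <;> by_cases e' : y' = u <;> simp only [e, e', if_true, if_false]
      · refine ⟨h3, fun z hz => ?_⟩
        have hzu : z ≠ u := fun e'' => by rw [e''] at hz; omega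
        have := h.2 z
        have := hord b z hbu hzu
        have := hord z b' hzu hb'u
        have := C'.P_ne hzu
        rw [e, e'] at *
        omega
      · have := hord b y' hbu e'
        have := C.P_ne e'
        rw [e] at h5
        refine ⟨by omega, fun z hz => ?_⟩
        have hzu : z ≠ u := fun e'' => by rw [e''] at hz; omega
        have := h.2 z
        have := hord b z hbu hzu
        have := hord z y' hzu e'
        rw [e] at *
        omega
      · have := hord y b' hyu hb'u
        rw [e'] at h5 h6
        refine ⟨by omega, fun z hz => ?_⟩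
        by_cases hzu : z = u
        · have := hord y b hyu hbu
          have := C.P_ne e
          rw [hzu] at hz
          omega
        · have := h.2 z
          have := hord y z hyu hzu
          have := hord z b' hzu hb'u
          have := C'.P_ne hzu
          rw [e'] at *
          omega
      · have := hord y y' hyu e'
        refine ⟨by omega, fun z hz => ?_⟩
        by_cases hzu : z = u
        · have := hord y b hyu hbu
          have := hord b y' hbu e'
          have := C.P_ne e
          rw [hzu] at hz
          omega
        · have := h.2 z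
          have := hord y z hyu hzu
          have := hord z y' hzu e'
          omega
    have hne : (if y' = u then b' else y') ≠ u := by
      split_ifs with e
      exacts [hb'u, e]
    obtain ⟨k1, k2⟩ := key _ _ hc hne
    refine Or.inr ⟨_, ⟨k1, _, _, hc, rfl⟩, k2.trans ?_⟩
    congr 2
    · by_cases e : y' = u <;> simp [e, hy'b']
    · by_cases e : y = b <;> simp [e, hyu]
  · rintro (rfl | ⟨F, ⟨hF, y, y', h, rfl⟩, rfl⟩)
    · refine ⟨u, b', ⟨by omega, fun z => by omega⟩, ?_⟩
      rw [hxu, hx b' hb'u]
      abel
    have hy' : y' ≠ u := fun e => by
      have e' : y = b := C.inj (by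
        have := h.2 b
        have := h.1
        rw [e] at *
        omega)
      exact hF (by rw [e, e'])
    refine ⟨_, _, ?_, (key y y' h hy').2.symm⟩
    have h5 := h.1
    have h6 := h.2 b'
    have h7 := h.2 u
    by_cases e : y = u <;> by_cases e' : y' = b' <;> simp only [e, e', if_true, if_false]
    · refine ⟨h4, fun z hz => ?_⟩
      have hzu : z ≠ u := fun e'' => by rw [e''] at hz; omega
      have := h.2 z
      have := hord b z hbu hzu
      have := hord z b' hzu hb'u
      have := C.P_ne hzu
      rw [e, e'] at *
      omega
    · have := hord b y' hbu hy'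
      rw [e] at h5 h6
      refine ⟨by omega, fun z hz => ?_⟩
      by_cases hzu : z = u
      · have := hord b' y' hb'u hy'
        have := C'.P_ne e'
        rw [hzu] at hz
        omega
      · have := h.2 z
        have := hord b z hbu hzu
        have := hord z y' hzu hy'
        have := C.P_ne hzu
        rw [e] at *
        omega
    · have := hord y b' e hb'u
      have := C'.P_ne e
      rw [e'] at h5
      refine ⟨by omega, fun z hz => ?_⟩
      have hzu : z ≠ u := fun e'' => by rw [e''] at hz; omega
      have := h.2 z
      have := hord y z e hzu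
      have := hord z b' hzu hb'u
      rw [e'] at *
      omega
    · have := hord y y' e hy'
      refine ⟨by omega, fun z hz => ?_⟩
      by_cases hzu : z = u
      · have := hord y b' e hb'u
        have := hord b' y' hb'u hy'
        have := C'.P_ne e'
        rw [hzu] at hz
        omega
      · have := h.2 z
        have := hord y z e hzu
        have := hord z y' hzu hy'
        omega

/-- The functional dual to a face. -/
lemma Conf.face_dual (C : Conf Ω W) (φ : L →+ ℤ) (p : ℤ)
    (hφ : ∀ y, φ (C.x y) = if C.P y ≤ p then -1 else 0) {y y' : W} (h : C.Consec y y') :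
    φ (C.x y' - C.x y) = if C.P y ≤ p ∧ p < C.P y' then 1 else 0 := by
  have := h.1
  rw [map_sub, hφ, hφ]
  split_ifs <;> omega

lemma le_of_mem_cone {s : Finset L} {φ ψ : L →+ ℤ} (h : ∀ F ∈ s, φ F ≤ ψ F) {x : L}
    (hx : x ∈ cone s) : φ x ≤ ψ x := by
  obtain ⟨a, rfl⟩ := mem_cone_iff.1 hx
  rw [map_sum, map_sum]
  exact Finset.sum_le_sum fun F hF => by
    rw [map_nsmul, map_nsmul]
    exact nsmul_le_nsmul_right (h F hF) _

end Crest.Agent.R059
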