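import Crest.Agent.R059.RotDefs
import Crest.Agent.R059.RotAux

/-! Row 59: rotation of the periodic word is a sequence of mutations. -/

set_option autoImplicit false
set_option linter.unusedSectionVars false
set_option linter.unusedVariables false

noncomputable section
open Classical

namespace Crest.Agent.R059

variable {n s : ℕ} (slot : Fin n → Fin s)

/-- The wall crossed at time `t`. -/
def cW (hn : 0 < n) (t : ℕ) : LW n s :=
  xW slot t (Sum.inl ⟨t % n, Nat.mod_lt _ hn⟩) - ev (Sum.inr (slot ⟨t % n, Nat.mod_lt _ hn⟩).castSucc)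

lemma confW_P (t : ℕ) : (confW slot t).P = posW slot t := rfl
lemma confW_x (t : ℕ) : (confW slot t).x = xW slot t := rfl
lemma xW_zero (y : Vx n s) : xW slot 0 y = ev y := by
  rcases y with i | j
  · simp [xW, kk_zero i.2]
  · rfl
lemma crd_ev (z : Vx n s ⊕ Bool) (y : Vx n s) : crd z (ev y) = if z = Sum.inl y then 1 else 0 := by
  simp [crd, ev, Pi.single_apply]
lemma kk_mod (hn : 0 < n) (t : ℕ) : kk n t (t % n) = t / n := by
  have h := Nat.div_add_mod t n
  have h2 : t + n - 1 - t % n = (n - 1) + n * (t / n) := by omega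
  rw [kk, h2, Nat.add_mul_div_left _ _ hn, Nat.div_eq_of_lt (show n - 1 < n by omega), zero_add]
lemma offW_mod (hn : 0 < n) (t : ℕ) : offW n t (t % n) = 1 := by
  have h : ((n * (t / n) + t % n : ℕ) : ℤ) = t := by rw [Nat.div_add_mod]
  rw [offW, kk_mod hn]
  rw [Nat.cast_add, Nat.cast_mul] at h
  linarith [mul_comm (n : ℤ) ((t / n : ℕ) : ℤ)]
lemma kk_succ_mod (hn : 0 < n) (t : ℕ) : kk n (t + 1) (t % n) = t / n + 1 := by
  have h := Nat.div_add_mod t n
  have h2 : t + 1 + n - 1 - t % n = n * (t / n + 1) := by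
    rw [mul_add]
    omega
  rw [kk, h2, Nat.mul_div_cancel_left _ hn]
lemma offW_succ_mod (hn : 0 < n) (t : ℕ) : offW n (t + 1) (t % n) = n := by
  have h := offW_mod hn t
  rw [offW, kk_mod hn] at h
  rw [offW, kk_succ_mod hn]
  push_cast at h ⊢
  linarith
lemma kk_mono (i : ℕ) {t t' : ℕ} (h : t ≤ t') : kk n t i ≤ kk n t' i :=
  Nat.div_le_div_right (by omega)
lemma kk_succ_ne (hn : 0 < n) (t : ℕ) {i : Fin n} (hi : i ≠ ⟨t % n, Nat.mod_lt _ hn⟩) :
    kk n (t + 1) i = kk n t i := by
  refine le_antisymm ?_ (kk_mono _ (Nat.le_succ t))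
  by_contra h
  have h1 : ((kk n t i : ℤ) + 1) * n ≤ kk n (t + 1) i * n :=
    mul_le_mul_of_nonneg_right (by omega) (Int.natCast_nonneg n)
  have h2 := offW_bd t i.2
  have h3 := offW_bd (t + 1) i.2
  refine hi (offW_inj t ?_)
  rw [offW_mod hn]
  unfold offW at *
  push_cast at h3
  linarith
lemma offW_succ_ne (hn : 0 < n) (t : ℕ) {i : Fin n} (hi : i ≠ ⟨t % n, Nat.mod_lt _ hn⟩) :
    offW n (t + 1) i = offW n t i - 1 := by
  rw [offW, offW, kk_succ_ne hn t hi]
  push_cast
  ring
lemma posW_inl (t : ℕ) (i : Fin n) :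
    posW slot t (Sum.inl i) = (slot i : ℤ) * (n + 1) + offW n t i := rfl
lemma posW_cast (t : ℕ) (j : Fin s) : posW slot t (Sum.inr j.castSucc) = (j : ℤ) * (n + 1) := rfl
lemma posW_succ (t : ℕ) (j : Fin s) :
    posW slot t (Sum.inr j.succ) = (j : ℤ) * (n + 1) + (n + 1) := by
  simp only [posW, Fin.val_succ]
  push_cast
  ring
lemma dl_mem_cone (t : ℕ) (j : Fin s) : dl j ∈ cone (confW slot t).seed :=
  (confW slot t).sub_mem_cone (y := Sum.inr j.castSucc) (y' := Sum.inr j.succ) (by
    rw [confW_P, posW_cast, posW_succ]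
    omega)
/-- Minus the sum of the coordinates of the vertices placed at most at `p` at time zero. -/
def phiW (p : ℤ) : LW n s →+ ℤ :=
  - ∑ z ∈ Finset.univ.filter (fun z => posW slot 0 z ≤ p), crd (Sum.inl z)
lemma phiW_ev (p : ℤ) (y : Vx n s) :
    phiW slot p (ev y) = if posW slot 0 y ≤ p then -1 else 0 := by
  simp only [phiW, AddMonoidHom.neg_apply, AddMonoidHom.finsetSum_apply, crd_ev, Sum.inl.injEq,
    Finset.sum_ite_eq', Finset.mem_filter, Finset.mem_univ, true_and]
  split_ifs <;> rfl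
lemma phiW_xi (p : ℤ) : phiW slot p eξ = 0 := by
  simp [phiW, crd, eξ]
lemma phiW_face (p : ℤ) {y y' : Vx n s} (h : (confW slot 0).Consec y y') :
    phiW slot p ((confW slot 0).x y' - (confW slot 0).x y) =
      if posW slot 0 y ≤ p ∧ p < posW slot 0 y' then 1 else 0 :=
  (confW slot 0).face_dual _ p (fun z => by rw [confW_x, xW_zero, phiW_ev, confW_P]) h
lemma crd_xi_face (y y' : Vx n s) :
    crd (Sum.inr false) ((confW slot 0).x y' - (confW slot 0).x y) = 0 := by
  simp [confW_x, xW_zero, crd_ev]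

lemma connW (hs : Function.Surjective slot) (t : ℕ) : (confW slot t).Conn := by
  intro y y' h
  by_contra h1
  have h1' : posW slot t y + (n + 1) ≤ posW slot t y' := not_lt.1 h1
  rcases y with i | j
  · have h2 := h.2 (Sum.inr (slot i).succ)
    have h3 := offW_bd t i.2
    rw [confW_P, posW_succ] at h2
    rw [posW_inl] at h1' h2
    omega
  · have h2 : (j : ℕ) < s := by
      have h3 := (posW_lt slot t (Sum.inr j) y').1 h.1
      have h4 := ofW_bd t y'
      have h5 : blkW slot y' ≤ s ∧ (blkW slot y' = s → ofW t y' = 0) := by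
        rcases y' with i' | j'
        · have := (slot i').2
          simp only [blkW]
          omega
        · have := j'.2
          exact ⟨by simp only [blkW]; omega, fun _ => rfl⟩
      have h6 : blkW slot (Sum.inr j) = j := rfl
      have h7 : ofW (n := n) t (Sum.inr j) = 0 := rfl
      omega
    obtain ⟨i, hi⟩ := hs ⟨j, h2⟩
    have h3 := h.2 (Sum.inl i)
    have h4 := offW_bd t i.2
    rw [confW_P, posW_inl, hi] at h3
    simp only [posW] at h1' h3
    omega
lemma posW_zero_le (t : ℕ) (y : Vx n s) : posW slot t (Sum.inr 0) ≤ posW slot t y := by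
  rw [posW_eq slot t y]
  have h1 := (ofW_bd t y).1
  have h2 : 0 ≤ blkW slot y := by cases y <;> exact Int.natCast_nonneg _
  have h3 : 0 ≤ blkW slot y * (n + 1) := by positivity
  simp only [posW, Fin.val_zero, Nat.cast_zero, zero_mul]
  omega
lemma isSeed_seedX : IsSeed (seedX slot) := by
  intro F hF
  rcases Finset.mem_insert.1 hF with rfl | hF
  · refine ⟨crd (Sum.inr false), by simp [crd, eξ, ev], fun F' hF' hne => ?_⟩
    obtain ⟨z, z', -, rfl⟩ := (Conf.mem_seed_iff _).1 ((Finset.mem_insert.1 hF').resolve_left hne)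
    exact crd_xi_face slot z z'
  · obtain ⟨y, y', h, rfl⟩ := (Conf.mem_seed_iff _).1 hF
    refine ⟨phiW slot (posW slot 0 y) + crd (Sum.inr false), ?_, fun F' hF' hne => ?_⟩
    · rw [AddMonoidHom.add_apply, phiW_face slot _ h, crd_xi_face, if_pos ⟨le_rfl, h.1⟩, add_zero]
    rcases Finset.mem_insert.1 hF' with rfl | hF'
    · rw [AddMonoidHom.add_apply, map_add, phiW_xi, phiW_ev, if_pos (posW_zero_le slot 0 y)]
      simp [crd, eξ, ev]
    · obtain ⟨z, z', h', rfl⟩ := (Conf.mem_seed_iff _).1 hF'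
      rw [AddMonoidHom.add_apply, phiW_face slot _ h', crd_xi_face, add_zero, if_neg]
      intro h1
      have h2 := h'.2 y
      rw [confW_P] at h2
      have e : z = y := posW_injective slot 0 (by omega)
      subst e
      have h3 := h'.2 y'
      have h4 := h.2 z'
      have h5 := h.1
      rw [confW_P] at h3 h4 h5
      have e' : z' = y' := posW_injective slot 0 (by omega)
      exact hne (by rw [e'])
lemma cW_mem (hn : 0 < n) (t : ℕ) : cW slot hn t ∈ (confW slot t).seed := by
  refine (Conf.mem_seed_iff _).2 ⟨Sum.inr (slot ⟨t % n, Nat.mod_lt _ hn⟩).castSucc,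
    Sum.inl ⟨t % n, Nat.mod_lt _ hn⟩, ?_, rfl⟩
  unfold Conf.Consec
  rw [confW_P, posW_cast, posW_inl, offW_mod hn]
  exact ⟨by omega, fun z => by omega⟩
lemma seed_succ (hn : 0 < n) (hs : Function.Surjective slot) (t : ℕ) :
    (confW slot (t + 1)).seed = mutate (ΩW slot) (confW slot t).seed (cW slot hn t) := by
  set i0 : Fin n := ⟨t % n, Nat.mod_lt _ hn⟩ with hi0
  have o1 : offW n t i0 = 1 := offW_mod hn t
  have o2 : offW n (t + 1) i0 = n := offW_succ_mod hn t
  have hof : ∀ y : Vx n s, y ≠ Sum.inl i0 → (ofW t y = 0 ∧ ofW (t + 1) y = 0) ∨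
      (2 ≤ ofW t y ∧ ofW (t + 1) y = ofW t y - 1) := by
    rintro (i | j) hy
    · have hi : i ≠ i0 := fun e => hy (by rw [e])
      have h1 := offW_bd t i.2
      have h2 : offW n t i ≠ offW n t i0 := fun e => hi (offW_inj t e)
      exact Or.inr ⟨by simp only [ofW]; omega, offW_succ_ne hn t hi⟩
    · exact Or.inl ⟨rfl, rfl⟩
  refine Conf.seed_rot (confW slot t) (confW slot (t + 1)) (Sum.inl i0)
    (Sum.inr (slot i0).castSucc) (Sum.inr (slot i0).succ) ?_ ?_ ?_ ?_ ?_ ?_ ?_ ?_
    (crd (Sum.inl (Sum.inl i0))) ?_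
  · rintro (i | j) hy
    · have hi : i ≠ i0 := fun e => hy (by rw [e])
      simp only [confW_x, xW, kk_succ_ne hn t hi]
    · rfl
  · have k1 : kk n (t + 1) i0 = kk n t i0 + 1 := (kk_succ_mod hn t).trans (by rw [← kk_mod hn t])
    simp only [confW_x, xW, k1, succ_nsmul, dl]
    abel
  · intro y y' hy hy'
    have h1 := hof y hy
    have h2 := hof y' hy'
    rw [confW_P, confW_P, posW_lt, posW_lt]
    omega
  · rw [confW_P, posW_inl, posW_cast, o1]
  · rw [confW_P, posW_inl, posW_succ, o2, add_assoc]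
  · rw [confW_P, posW_inl, posW_succ, o1]
    omega
  · rw [confW_P, posW_inl, posW_cast, o2]
    omega
  · intro z
    rw [map_sub, AddMonoidHom.sub_apply, confW_x, compatW, compatW, adjS_posW, adjS_posW]
    rcases z with i | j
    · have h1 := offW_bd t i.2
      by_cases hi : i = i0
      · simp [hi, blkW, ofW, o1]
      · have h2 : offW n t i ≠ offW n t i0 := fun e => hi (offW_inj t e)
        simp only [blkW, ofW, Sum.inl.injEq, hi, reduceCtorEq, or_self, if_false, Fin.val_castSucc]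
        split_ifs <;> omega
    · simp only [blkW, ofW, Sum.inr.injEq, reduceCtorEq, or_false, Fin.ext_iff, Fin.val_castSucc,
        Fin.val_succ, o1]
      split_ifs <;> omega
  · rintro (i | j)
    · simp [confW_x, xW, dl, crd_ev, eq_comm, -nsmul_eq_mul]
    · simp [confW_x, xW, crd_ev]
lemma cW_mem_cone (hn : 0 < n) (t : ℕ) : cW slot hn t ∈ cone (confW slot 0).seed := by
  set i0 : Fin n := ⟨t % n, Nat.mod_lt _ hn⟩ with hi0
  have h1 := (confW slot 0).sub_mem_cone (y := Sum.inr (slot i0).castSucc) (y' := Sum.inl i0) (by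
    have := offW_bd 0 i0.2
    rw [confW_P, posW_cast, posW_inl]
    omega)
  rw [confW_x, xW_zero, xW_zero] at h1
  have e : cW slot hn t = (ev (Sum.inl i0) - ev (Sum.inr (slot i0).castSucc)) +
      kk n t i0 • dl (slot i0) := by
    simp only [cW, xW, ← hi0]
    abel
  rw [e]
  exact add_mem h1 (nsmul_mem (dl_mem_cone slot 0 _) _)
lemma neg_cW_mem_cone (hn : 0 < n) {i j : ℕ} (h : i < j) :
    -cW slot hn i ∈ cone (confW slot j).seed := by
  set i0 : Fin n := ⟨i % n, Nat.mod_lt _ hn⟩ with hi0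
  have h1 := (confW slot j).sub_mem_cone (y := Sum.inl i0) (y' := Sum.inr (slot i0).succ) (by
    have := offW_bd j i0.2
    rw [confW_P, posW_succ, posW_inl]
    omega)
  have k1 : kk n (i + 1) i0 = kk n i i0 + 1 := (kk_succ_mod hn i).trans (by rw [← kk_mod hn i])
  obtain ⟨d, hd⟩ := Nat.exists_eq_add_of_le (kk_mono (n := n) i0 (show i + 1 ≤ j from h))
  have e : -cW slot hn i = ((confW slot j).x (Sum.inr (slot i0).succ) -
      (confW slot j).x (Sum.inl i0)) + d • dl (slot i0) := by
    simp only [cW, confW_x, xW, ← hi0, hd, k1, add_nsmul, one_nsmul]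
    rw [show dl (slot i0) = ev (Sum.inr (slot i0).succ) - ev (Sum.inr (slot i0).castSucc) from rfl]
    abel
  rw [e]
  exact add_mem h1 (nsmul_mem (dl_mem_cone slot j _) _)
lemma w_b_bExp (j : Fin (s + 1)) (lam : Fin (s + 1) → ℕ) :
    (ΩW slot).w (ev (Sum.inr j)) (bExp lam) = 0 := by
  simp only [bExp, map_sum, map_nsmul, w_ev_bb, smul_zero, Finset.sum_const_zero]
lemma w_u_bExp (i : Fin n) (lam : Fin (s + 1) → ℕ) :
    (ΩW slot).w (ev (Sum.inl i)) (bExp lam) =
      (lam (slot i).succ : ℤ) - lam (slot i).castSucc := by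
  have h : ∀ j : Fin (s + 1), lam j • (ΩW slot).w (ev (Sum.inl i)) (ev (Sum.inr j)) =
      (if j = (slot i).succ then (lam j : ℤ) else 0) -
        if j = (slot i).castSucc then (lam j : ℤ) else 0 := fun j => by
    simp only [w_ev_ub, Fin.ext_iff, Fin.val_succ, Fin.val_castSucc, nsmul_eq_mul]
    split_ifs <;> omega
  simp only [bExp, map_sum, map_nsmul, h, Finset.sum_sub_distrib, Finset.sum_ite_eq',
    Finset.mem_univ, if_true]
lemma w_bExp (x : LW n s) (lam : Fin (s + 1) → ℕ) : (ΩW slot).w x (bExp lam) =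
    ∑ i, x (Sum.inl (Sum.inl i)) * ((lam (slot i).succ : ℤ) - lam (slot i).castSucc) := by
  have hb : ∀ b : Bool, (ΩW slot).w (Pi.single (Sum.inr b) 1) (bExp lam) = 0 := fun b => by
    show wW slot _ _ = _
    simp [wW, bExp, ev]
  have e : x = ∑ z, x z • (Pi.single z 1 : LW n s) := by
    ext z
    simp [Pi.single_apply]
  conv_lhs => rw [e]
  rw [map_sum, AddMonoidHom.finsetSum_apply, Fintype.sum_sum_type, Fintype.sum_sum_type]
  simp only [map_zsmul, AddMonoidHom.zsmul_apply, hb]
  change ∑ i, _ • (ΩW slot).w (ev (Sum.inl i)) _ + ∑ j, _ • (ΩW slot).w (ev (Sum.inr j)) _ + _ = _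
  simp only [w_u_bExp, w_b_bExp, mul_zero, Finset.sum_const_zero, add_zero, smul_eq_mul]
/-- The sum of the letter coordinates in slot `j`. -/
def nuW (j : Fin s) : LW n s →+ ℤ :=
  ∑ i ∈ Finset.univ.filter (fun i => slot i = j), crd (Sum.inl (Sum.inl i))
lemma kk_mul (N : ℕ) {i : ℕ} (hi : i < n) : kk n (N * n) i = N := by
  have h2 : N * n + n - 1 - i = (n - 1 - i) + N * n := by omega
  rw [kk, h2, Nat.add_mul_div_right _ _ (by omega),
    Nat.div_eq_of_lt (show n - 1 - i < n by omega), zero_add]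
lemma posW_mul (N : ℕ) (y : Vx n s) : posW slot (N * n) y = posW slot 0 y := by
  rcases y with i | j
  · simp only [posW, kk_mul N i.2, kk_zero i.2]
    push_cast
    ring
  · rfl
lemma psi_x (N : ℕ) (j : Fin s) (y : Vx n s) :
    (phiW slot (posW slot 0 (Sum.inr j.castSucc)) - N • nuW slot j) (xW slot (N * n) y) =
      if posW slot (N * n) y ≤ posW slot 0 (Sum.inr j.castSucc) then -1 else 0 := by
  rw [posW_mul, AddMonoidHom.sub_apply, AddMonoidHom.nsmul_apply]
  rcases y with i | j'
  · have h1 : nuW slot j (xW slot (N * n) (Sum.inl i)) = if slot i = j then 1 else 0 := by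
      simp [nuW, xW, dl, crd_ev, -nsmul_eq_mul]
    have h2 : phiW slot (posW slot 0 (Sum.inr j.castSucc)) (dl (slot i)) =
        if slot i = j then 1 else 0 := by
      simp only [dl, map_sub, phiW_ev, ← not_lt, posW_lt, blkW, ofW, Fin.ext_iff, Fin.val_succ,
        Fin.val_castSucc]
      split_ifs <;> omega
    rw [h1, xW, map_add, map_nsmul, h2, kk_mul N i.2, phiW_ev, add_sub_cancel_right]
  · have h1 : nuW slot j (xW slot (N * n) (Sum.inr j')) = 0 := by
      simp [nuW, xW, crd_ev]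
    rw [h1, xW, phiW_ev, smul_zero, sub_zero]

lemma w_cW_bExp (hn : 0 < n) (t : ℕ) {lam : Fin (s + 1) → ℕ} (h : Antitone lam) :
    (ΩW slot).w (cW slot hn t) (bExp lam) ≤ 0 := by
  simp only [cW, xW, dl, map_add, map_sub, map_nsmul, AddMonoidHom.add_apply,
    AddMonoidHom.sub_apply, AddMonoidHom.nsmul_apply, w_b_bExp, w_u_bExp, sub_zero, smul_zero,
    add_zero, sub_nonpos, Nat.cast_le]
  exact h (Fin.castSucc_le_succ _)
lemma w_bExp_nonneg (hn : 0 < n) (hs : Function.Surjective slot) {deg : LW n s →+ ℤ}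
    (hd : DegOK deg (confW slot 0).seed) (N : ℕ) {x : LW n s}
    (h0 : x ∈ cone (confW slot 0).seed) (h1 : x ∈ cone (confW slot (N * n)).seed)
    (hx : deg x < N) {lam : Fin (s + 1) → ℕ} (h : Antitone lam) :
    0 ≤ (ΩW slot).w x (bExp lam) := by
  have hν : ∀ j, nuW slot j x ≤ 0 := fun j => by
    have h2 : phiW slot (posW slot 0 (Sum.inr j.castSucc)) x ≤ deg x := by
      refine le_of_mem_cone (fun F hF => ?_) h0
      have h3 := hd F hF
      obtain ⟨y, y', h4, rfl⟩ := (Conf.mem_seed_iff _).1 hF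
      rw [phiW_face slot _ h4]
      split_ifs <;> omega
    have h3 : (0 : LW n s →+ ℤ) x ≤
        (phiW slot (posW slot 0 (Sum.inr j.castSucc)) - N • nuW slot j) x := by
      refine le_of_mem_cone (fun F hF => ?_) h1
      obtain ⟨y, y', h4, rfl⟩ := (Conf.mem_seed_iff _).1 hF
      rw [(confW slot (N * n)).face_dual _ _ (psi_x slot N j) h4, AddMonoidHom.zero_apply]
      split_ifs <;> omega
    rw [AddMonoidHom.zero_apply, AddMonoidHom.sub_apply, AddMonoidHom.nsmul_apply,
      nsmul_eq_mul] at h3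
    by_contra h4
    have h5 : (N : ℤ) * 1 ≤ N * nuW slot j x :=
      mul_le_mul_of_nonneg_left (by omega) (Int.natCast_nonneg N)
    omega
  rw [w_bExp, ← Finset.sum_fiberwise Finset.univ slot]
  refine Finset.sum_nonneg fun j _ => ?_
  rw [Finset.sum_congr rfl (g := fun i => x (Sum.inl (Sum.inl i)) *
    ((lam j.succ : ℤ) - lam j.castSucc)) (fun i hi => by rw [(Finset.mem_filter.1 hi).2]),
    ← Finset.sum_mul]
  refine mul_nonneg_of_nonpos_of_nonpos ?_ ?_
  · simpa [nuW, crd] using hν j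
  · exact sub_nonpos.2 (Nat.cast_le.2 (h (Fin.castSucc_le_succ _)))

end Crest.Agent.R059
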