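import Crest.Agent.R059.Conf

/-! Row 59: the periodic word configuration. -/

set_option autoImplicit false
set_option linter.unusedSectionVars false
set_option linter.unusedVariables false

noncomputable section
open Classical

namespace Crest.Agent.R059

/-- Letters `Fin n`, base vertices `Fin (s+1)`. -/
abbrev Vx (n s : ℕ) : Type := Fin n ⊕ Fin (s + 1)
abbrev LW (n s : ℕ) : Type := (Vx n s ⊕ Bool) → ℤ

variable {n s : ℕ} (slot : Fin n → Fin s)

def ev (y : Vx n s) : LW n s := Pi.single (Sum.inl y) 1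
def eξ : LW n s := Pi.single (Sum.inr false) 1
def eη : LW n s := Pi.single (Sum.inr true) 1
def crd (y : Vx n s ⊕ Bool) : LW n s →+ ℤ := Pi.evalAddMonoidHom (fun _ => ℤ) y
/-- Number of times letter `i` has been rotated at time `t`. -/
def kk (n t i : ℕ) : ℕ := (t + n - 1 - i) / n
def posW (t : ℕ) : Vx n s → ℤ
  | Sum.inl i => (slot i : ℤ) * (n + 1) + ((kk n t i : ℤ) * n + i - t + 1)
  | Sum.inr j => (j : ℤ) * (n + 1)
def dl (j : Fin s) : LW n s := ev (Sum.inr j.succ) - ev (Sum.inr j.castSucc)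
def xW (t : ℕ) : Vx n s → LW n s
  | Sum.inl i => ev (Sum.inl i) + kk n t i • dl (slot i)
  | Sum.inr j => ev (Sum.inr j)
def wW (a b : LW n s) : ℤ :=
  ∑ y, ∑ y', a (Sum.inl y) * b (Sum.inl y') * adjS (n + 1) (posW slot 0 y) (posW slot 0 y') +
    a (Sum.inr false) * b (Sum.inr true) - a (Sum.inr true) * b (Sum.inr false)
lemma wW_add_left (a a' b : LW n s) : wW slot (a + a') b = wW slot a b + wW slot a' b := by
  simp only [wW, Pi.add_apply, add_mul, Finset.sum_add_distrib]; ring
lemma wW_add_right (a b b' : LW n s) : wW slot a (b + b') = wW slot a b + wW slot a b' := by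
  simp only [wW, Pi.add_apply, add_mul, mul_add, Finset.sum_add_distrib]; ring
lemma adjS_skew (ℓ p p' : ℤ) : adjS ℓ p p' = - adjS ℓ p' p := by
  unfold adjS; split_ifs <;> omega
lemma wW_self (a : LW n s) : wW slot a a = 0 := by
  have h : ∑ y, ∑ y', a (Sum.inl y) * a (Sum.inl y') *
      adjS (n + 1) (posW slot 0 y) (posW slot 0 y') = - ∑ y, ∑ y', a (Sum.inl y) * a (Sum.inl y') *
      adjS (n + 1) (posW slot 0 y) (posW slot 0 y') := by
    conv_lhs => rw [Finset.sum_comm]
    rw [← Finset.sum_neg_distrib]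
    refine Finset.sum_congr rfl fun y _ => ?_
    rw [← Finset.sum_neg_distrib]
    refine Finset.sum_congr rfl fun y' _ => ?_
    rw [adjS_skew]; ring
  unfold wW
  linarith [mul_comm (a (Sum.inr false)) (a (Sum.inr true))]
def ΩW : Form (LW n s) where
  w := AddMonoidHom.mk' (fun a => AddMonoidHom.mk' (wW slot a) (wW_add_right slot a))
    (fun a a' => AddMonoidHom.ext fun b => wW_add_left slot a a' b)
  alt := wW_self slot

lemma blk_lt {N a o a' o' : ℤ} (h0 : 0 ≤ o) (h1 : o < N) (h0' : 0 ≤ o') (h1' : o' < N) :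
    a * N + o < a' * N + o' ↔ a < a' ∨ (a = a' ∧ o < o') := by
  rcases lt_trichotomy a a' with h | h | h
  · have : (a + 1) * N ≤ a' * N := mul_le_mul_of_nonneg_right (by omega) (by omega)
    exact ⟨fun _ => Or.inl h, fun _ => by linarith⟩
  · subst h
    simp
  · have : (a' + 1) * N ≤ a * N := mul_le_mul_of_nonneg_right (by omega) (by omega)
    exact ⟨fun _ => by linarith, fun _ => by omega⟩
lemma adjS_blk {N a o a' o' : ℤ} (h0 : 0 ≤ o) (h1 : o < N) (h0' : 0 ≤ o') (h1' : o' < N) :
    adjS N (a * N + o) (a' * N + o') =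
      if a = a' then (if o < o' then 1 else if o' < o then -1 else 0)
      else if a' = a + 1 then (if o' < o then 1 else 0)
      else if a = a' + 1 then (if o < o' then -1 else 0) else 0 := by
  have e1 : a * N + o + N = (a + 1) * N + o := by ring
  have e2 : a' * N + o' + N = (a' + 1) * N + o' := by ring
  unfold adjS
  simp only [e1, e2, blk_lt h0 h1 h0' h1', blk_lt h0' h1' h0 h1]
  split_ifs <;> omega
/-- Offset of letter `i` inside its slot at time `t`. -/
def offW (n t i : ℕ) : ℤ := (kk n t i : ℤ) * n + i - t + 1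
lemma offW_bd (t : ℕ) {i : ℕ} (hi : i < n) : 1 ≤ offW n t i ∧ offW n t i ≤ n := by
  have h1 := Nat.div_add_mod (t + n - 1 - i) n
  have h2 := Nat.mod_lt (t + n - 1 - i) (show 0 < n by omega)
  unfold offW kk
  generalize (t + n - 1 - i) / n = q at *
  generalize (t + n - 1 - i) % n = r at *
  have h3 : n * q + r + i + 1 = t + n := by omega
  have h4 : (n : ℤ) * q + r + i + 1 = t + n := by exact_mod_cast h3
  have h5 : (r : ℤ) < n := by exact_mod_cast h2
  have h6 : (0 : ℤ) ≤ r := Int.natCast_nonneg r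
  constructor <;> linarith [mul_comm (n : ℤ) q]
lemma kk_zero {i : ℕ} (hi : i < n) : kk n 0 i = 0 := Nat.div_eq_of_lt (by omega)
lemma offW_zero {i : ℕ} (hi : i < n) : offW n 0 i = i + 1 := by simp [offW, kk_zero hi]
lemma offW_cases (t : ℕ) {i i' : ℕ} (hi : i < n) (hi' : i' < n) :
    ((kk n t i : ℤ) = kk n t i' ∧ offW n t i - offW n t i' = i - i') ∨
    ((kk n t i : ℤ) = kk n t i' + 1 ∧ offW n t i - offW n t i' = n + i - i') ∨
    ((kk n t i' : ℤ) = kk n t i + 1 ∧ offW n t i - offW n t i' = i - i' - n) := by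
  have h1 := offW_bd t hi
  have h2 := offW_bd t hi'
  unfold offW at *
  generalize (kk n t i : ℤ) = k at *
  generalize (kk n t i' : ℤ) = k' at *
  have hn : (0 : ℤ) ≤ n := Int.natCast_nonneg n
  have h3 : k < k' + 2 := by
    by_contra h
    have : (k' + 2) * n ≤ k * n := mul_le_mul_of_nonneg_right (by omega) hn
    have : (i' : ℤ) < n := by exact_mod_cast hi'
    have : (0 : ℤ) ≤ i := Int.natCast_nonneg i
    linarith
  have h4 : k' < k + 2 := by
    by_contra h
    have : (k + 2) * n ≤ k' * n := mul_le_mul_of_nonneg_right (by omega) hn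
    have : (i : ℤ) < n := by exact_mod_cast hi
    have : (0 : ℤ) ≤ i' := Int.natCast_nonneg i'
    linarith
  rcases (by omega : k = k' ∨ k = k' + 1 ∨ k' = k + 1) with h | h | h
  · exact Or.inl ⟨h, by rw [h]; ring⟩
  · exact Or.inr (Or.inl ⟨h, by rw [h]; ring⟩)
  · exact Or.inr (Or.inr ⟨h, by rw [h]; ring⟩)
lemma offW_inj (t : ℕ) {i i' : Fin n} (h : offW n t i = offW n t i') : i = i' := by
  have h1 := offW_cases t i.2 i'.2
  have h2 := i.2
  have h3 := i'.2
  exact Fin.ext (by omega)
/-- The block of a vertex. -/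
def blkW : Vx n s → ℤ
  | Sum.inl i => (slot i : ℤ)
  | Sum.inr j => (j : ℤ)
/-- The offset of a vertex inside its block. -/
def ofW (t : ℕ) : Vx n s → ℤ
  | Sum.inl i => offW n t i
  | Sum.inr _ => 0
lemma posW_eq (t : ℕ) (y : Vx n s) : posW slot t y = blkW slot y * (n + 1) + ofW t y := by
  cases y <;> simp [posW, blkW, ofW, offW]
lemma ofW_bd (t : ℕ) (y : Vx n s) : 0 ≤ ofW t y ∧ ofW t y < n + 1 := by
  rcases y with i | j
  · have := offW_bd t i.2
    simp only [ofW]
    omega
  · simp only [ofW]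
    omega
lemma posW_lt (t : ℕ) (y y' : Vx n s) : posW slot t y < posW slot t y' ↔
    blkW slot y < blkW slot y' ∨ (blkW slot y = blkW slot y' ∧ ofW t y < ofW t y') := by
  rw [posW_eq, posW_eq, blk_lt (ofW_bd t y).1 (ofW_bd t y).2 (ofW_bd t y').1 (ofW_bd t y').2]
lemma adjS_posW (t : ℕ) (y y' : Vx n s) : adjS (n + 1) (posW slot t y) (posW slot t y') =
    if blkW slot y = blkW slot y' then
      (if ofW t y < ofW t y' then 1 else if ofW t y' < ofW t y then -1 else 0)
    else if blkW slot y' = blkW slot y + 1 then (if ofW t y' < ofW t y then 1 else 0)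
    else if blkW slot y = blkW slot y' + 1 then (if ofW t y < ofW t y' then -1 else 0) else 0 := by
  rw [posW_eq, posW_eq, adjS_blk (ofW_bd t y).1 (ofW_bd t y).2 (ofW_bd t y').1 (ofW_bd t y').2]
lemma w_ev (y y' : Vx n s) :
    (ΩW slot).w (ev y) (ev y') = adjS (n + 1) (posW slot 0 y) (posW slot 0 y') := by
  show wW slot _ _ = _
  simp [wW, ev, Pi.single_apply, Finset.sum_ite_eq']
lemma w_ev_bb (j j' : Fin (s + 1)) : (ΩW slot).w (ev (Sum.inr j)) (ev (Sum.inr j')) = 0 := by
  rw [w_ev, adjS_posW]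
  simp [ofW]
lemma w_ev_ub (i : Fin n) (j : Fin (s + 1)) : (ΩW slot).w (ev (Sum.inl i)) (ev (Sum.inr j)) =
    if (slot i : ℤ) = j then -1 else if (j : ℤ) = slot i + 1 then 1 else 0 := by
  rw [w_ev, adjS_posW]
  have := offW_bd 0 i.2
  simp only [blkW, ofW]
  split_ifs <;> omega
lemma w_ev_bu (i : Fin n) (j : Fin (s + 1)) : (ΩW slot).w (ev (Sum.inr j)) (ev (Sum.inl i)) =
    if (slot i : ℤ) = j then 1 else if (j : ℤ) = slot i + 1 then -1 else 0 := by
  rw [Form.skew, w_ev_ub]
  split_ifs <;> rfl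

lemma posW_injective (t : ℕ) : Function.Injective (posW slot t) := by
  intro y y' h
  have h1 := posW_lt slot t y y'
  have h2 := posW_lt slot t y' y
  rw [h] at h1 h2
  have h3 : blkW slot y = blkW slot y' ∧ ofW t y = ofW t y' := by omega
  rcases y with i | j <;> rcases y' with i' | j' <;> simp only [blkW, ofW] at h3
  · rw [offW_inj t h3.2]
  · have := offW_bd t i.2
    omega
  · have := offW_bd t i'.2
    omega
  · rw [Fin.ext (by omega : (j : ℕ) = j')]
lemma compatW (t : ℕ) (y y' : Vx n s) :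
    (ΩW slot).w (xW slot t y) (xW slot t y') = adjS (n + 1) (posW slot t y) (posW slot t y') := by
  rw [adjS_posW]
  rcases y with i | j <;> rcases y' with i' | j' <;>
    simp only [xW, dl, blkW, ofW, map_add, map_sub, map_nsmul, AddMonoidHom.add_apply,
      AddMonoidHom.sub_apply, AddMonoidHom.nsmul_apply, w_ev_bb, w_ev_ub, w_ev_bu, Fin.val_succ,
      Fin.val_castSucc, Nat.cast_add, Nat.cast_one] <;> try simp only [nsmul_eq_mul]
  · rw [w_ev, adjS_posW]
    simp only [blkW, ofW, offW_zero i.2, offW_zero i'.2]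
    have h1 := offW_cases t i.2 i'.2
    have h2 := offW_bd t i.2
    have h3 := offW_bd t i'.2
    have h4 := i.2
    have h5 := i'.2
    split_ifs <;> omega
  · have h2 := offW_bd t i.2
    split_ifs <;> omega
  · have h2 := offW_bd t i'.2
    split_ifs <;> omega
  · simp
def confW (t : ℕ) : Conf (ΩW slot) (Vx n s) :=
  ⟨xW slot t, posW slot t, n + 1, posW_injective slot t, compatW slot t⟩
/-- The exponent `b^λ`. -/
def bExp (lam : Fin (s + 1) → ℕ) : LW n s := ∑ j, lam j • ev (Sum.inr j)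
/-- The exponent `u_1 ⋯ u_n`. -/
def uAll : LW n s := ∑ i, ev (Sum.inl i)
def seedX : Finset (LW n s) := insert (eξ + ev (Sum.inr 0)) (confW slot 0).seed

end Crest.Agent.R059
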