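import Crest.Agent.R059.Rot

/-! Row 59: rotation preserves the Hamiltonians. -/

set_option autoImplicit false
set_option linter.unusedSectionVars false
set_option linter.unusedVariables false

noncomputable section
open Classical

namespace Crest.Agent.R059

variable {n s : ℕ} (slot : Fin n → Fin s)

/-- The offset of a letter inside its slot. -/
def rotE_off (n t i : ℕ) : ℤ := (kk n t i : ℤ) * n + i - t + 1

lemma rotE_off_eq {n i : ℕ} (hi : i < n) (t : ℕ) :
    rotE_off n t i = n - ((t + n - 1 - i) % n : ℕ) := by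
  have h := Nat.div_add_mod (t + n - 1 - i) n
  have h2 : ((t + n - 1 - i : ℕ) : ℤ) = t + n - 1 - i := by omega
  have h3 : (n : ℤ) * (((t + n - 1 - i) / n : ℕ) : ℤ) + (((t + n - 1 - i) % n : ℕ) : ℤ) =
      t + n - 1 - i := by rw [← h2]; exact_mod_cast h
  unfold rotE_off kk
  rw [mul_comm]
  omega

lemma rotE_off_bounds {n i : ℕ} (hi : i < n) (t : ℕ) :
    1 ≤ rotE_off n t i ∧ rotE_off n t i ≤ n := by
  rw [rotE_off_eq hi]
  have := Nat.mod_lt (t + n - 1 - i) (by omega : 0 < n)
  omega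

lemma rotE_small {a N b : ℤ} (h : a * N = b) (h1 : -N < b) (h2 : b < N) : a = 0 := by
  rcases lt_trichotomy a 0 with h3 | h3 | h3
  · nlinarith
  · exact h3
  · nlinarith

lemma rotE_kk_self {n : ℕ} (hn : 0 < n) (t : ℕ) : kk n t (t % n) = t / n := by
  have h := Nat.div_add_mod t n
  have h2 := Nat.mod_lt t hn
  unfold kk
  have h3 : t + n - 1 - t % n = (n - 1) + n * (t / n) := by omega
  rw [h3, Nat.add_mul_div_left _ _ hn, Nat.div_eq_of_lt (by omega), zero_add]

lemma rotE_off_self {n : ℕ} (hn : 0 < n) (t : ℕ) : rotE_off n t (t % n) = 1 := by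
  have h := Nat.div_add_mod t n
  have h3 : (n : ℤ) * ((t / n : ℕ) : ℤ) + ((t % n : ℕ) : ℤ) = t := by exact_mod_cast h
  unfold rotE_off
  rw [rotE_kk_self hn, mul_comm]
  omega

lemma rotE_off_one {n i : ℕ} (hi : i < n) (t : ℕ) (h : rotE_off n t i = 1) : i = t % n := by
  have hn : 0 < n := by omega
  have h1 := rotE_off_self hn t
  have h2 := Nat.mod_lt t hn
  unfold rotE_off at h h1
  have h3 : ((kk n t i : ℤ) - kk n t (t % n)) * n = ((t % n : ℕ) : ℤ) - i := by
    rw [sub_mul]; omega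
  have h4 := rotE_small h3 (by omega) (by omega)
  rw [h4] at h3
  omega

lemma rotE_kk_succ_self {n : ℕ} (hn : 0 < n) (t : ℕ) :
    kk n (t + 1) (t % n) = kk n t (t % n) + 1 := by
  rw [rotE_kk_self hn]
  have h := Nat.div_add_mod t n
  have h2 := Nat.mod_lt t hn
  unfold kk
  have h3 : t + 1 + n - 1 - t % n = 0 + n * (t / n + 1) := by rw [mul_add]; omega
  rw [h3, Nat.add_mul_div_left _ _ hn]; simp

lemma rotE_kk_succ {n i : ℕ} (hi : i < n) (t : ℕ) (h : i ≠ t % n) :
    kk n (t + 1) i = kk n t i := by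
  have h1 := rotE_off_bounds hi t
  have h2 := rotE_off_bounds hi (t + 1)
  have h3 : rotE_off n t i ≠ 1 := fun h' => h (rotE_off_one hi t h')
  unfold rotE_off at h1 h2 h3
  have h4 : ((kk n (t + 1) i : ℤ) - kk n t i) * n =
      ((kk n (t + 1) i : ℤ) * n + i - (t + 1 : ℕ) + 1) - ((kk n t i : ℤ) * n + i - t + 1) + 1 := by
    push_cast; ring
  have h5 := rotE_small h4 (by omega) (by omega)
  omega

lemma rotE_off_succ_self {n : ℕ} (hn : 0 < n) (t : ℕ) : rotE_off n (t + 1) (t % n) = n := by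
  have h := rotE_off_self hn t
  unfold rotE_off at h ⊢
  rw [rotE_kk_succ_self hn]
  push_cast at h ⊢
  linarith

lemma rotE_off_succ {n i : ℕ} (hi : i < n) (t : ℕ) (h : i ≠ t % n) :
    rotE_off n (t + 1) i = rotE_off n t i - 1 := by
  unfold rotE_off
  rw [rotE_kk_succ hi t h]
  push_cast
  ring

lemma rotE_pos_inl (t : ℕ) (i : Fin n) :
    posW slot t (Sum.inl i) = (slot i : ℤ) * (n + 1) + rotE_off n t i := rfl

lemma rotE_pos_inr (t : ℕ) (j : Fin (s + 1)) :
    posW slot t (Sum.inr j) = (j : ℤ) * (n + 1) := rfl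

/-- The letter rotated at time `t`. -/
def rotE_u (hn : 0 < n) (t : ℕ) : Fin n := ⟨t % n, Nat.mod_lt _ hn⟩

lemma rotE_x_succ (hn : 0 < n) (t : ℕ) (z : Vx n s) (hz : z ≠ Sum.inl (rotE_u hn t)) :
    xW slot (t + 1) z = xW slot t z := by
  rcases z with i | j
  · have hi : (i : ℕ) ≠ t % n := fun h => hz (congrArg Sum.inl (Fin.ext h))
    simp only [xW, rotE_kk_succ i.2 t hi]
  · rfl

lemma rotE_x_succ_u (hn : 0 < n) (t : ℕ) :
    xW slot (t + 1) (Sum.inl (rotE_u hn t)) =
      xW slot t (Sum.inl (rotE_u hn t)) + dl (slot (rotE_u hn t)) := by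
  have h : kk n (t + 1) (rotE_u hn t) = kk n t (rotE_u hn t) + 1 := rotE_kk_succ_self hn t
  simp only [xW, h, succ_nsmul, add_assoc]

lemma rotE_pos_u (hn : 0 < n) (t : ℕ) :
    posW slot t (Sum.inl (rotE_u hn t)) = (slot (rotE_u hn t) : ℤ) * (n + 1) + 1 := by
  rw [rotE_pos_inl]
  congr 1
  exact rotE_off_self hn t

lemma rotE_pos_succ_u (hn : 0 < n) (t : ℕ) :
    posW slot (t + 1) (Sum.inl (rotE_u hn t)) = (slot (rotE_u hn t) : ℤ) * (n + 1) + n := by
  rw [rotE_pos_inl]
  congr 1
  exact rotE_off_succ_self hn t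

lemma rotE_eq_u_of_one (hn : 0 < n) (t : ℕ) (z : Vx n s) (a : ℤ)
    (h : posW slot t z = a * (n + 1) + 1) : z = Sum.inl (rotE_u hn t) := by
  rcases z with i | j
  · rw [rotE_pos_inl] at h
    have h1 := rotE_off_bounds i.2 t
    have h2 : ((slot i : ℤ) - a) * (n + 1) = 1 - rotE_off n t i := by linarith
    have h3 := rotE_small h2 (by omega) (by omega)
    rw [h3] at h2
    exact congrArg Sum.inl (Fin.ext (rotE_off_one i.2 t (by omega)))
  · rw [rotE_pos_inr] at h
    have h2 : ((j : ℤ) - a) * (n + 1) = 1 := by linarith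
    have h3 := rotE_small h2 (by omega) (by omega)
    rw [h3] at h2
    omega

lemma rotE_eq_u_of_last (hn : 0 < n) (t : ℕ) (z : Vx n s) (a : ℤ)
    (h : posW slot (t + 1) z = a * (n + 1) + n) : z = Sum.inl (rotE_u hn t) := by
  rcases z with i | j
  · by_contra hc
    have hi : (i : ℕ) ≠ t % n := fun h => hc (congrArg Sum.inl (Fin.ext h))
    rw [rotE_pos_inl, rotE_off_succ i.2 t hi] at h
    have h1 := rotE_off_bounds i.2 t
    have h1' := rotE_off_bounds i.2 (t + 1)
    rw [rotE_off_succ i.2 t hi] at h1'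
    have h2 : ((slot i : ℤ) - a) * (n + 1) = n + 1 - rotE_off n t i := by linarith
    have h3 := rotE_small h2 (by omega) (by omega)
    rw [h3] at h2
    omega
  · rw [rotE_pos_inr] at h
    have h2 : ((j : ℤ) - a) * (n + 1) = n := by linarith
    have h3 := rotE_small h2 (by omega) (by omega)
    rw [h3] at h2
    omega

lemma rotE_adjS_zero {ℓ p p' : ℤ} (h : p ≠ p') : adjS ℓ p p' = 0 ↔ ℓ ≤ |p - p'| := by
  unfold adjS
  rcases abs_cases (p - p') with h1 | h1 <;> rw [h1.1] <;> split_ifs <;> simp <;> omega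

lemma rotE_far_succ (hn : 0 < n) (t : ℕ) {z z' : Vx n s} (hz : z ≠ Sum.inl (rotE_u hn t))
    (hz' : z' ≠ Sum.inl (rotE_u hn t)) (h : z ≠ z') :
    ((n : ℤ) + 1 ≤ |posW slot (t + 1) z - posW slot (t + 1) z'|) ↔
      ((n : ℤ) + 1 ≤ |posW slot t z - posW slot t z'|) := by
  rw [← rotE_adjS_zero fun h' => h (posW_injective slot (t + 1) h'),
    ← rotE_adjS_zero fun h' => h (posW_injective slot t h'), ← compatW, ← compatW,
    rotE_x_succ slot hn t z hz, rotE_x_succ slot hn t z' hz']

lemma rotE_indep_succ (hn : 0 < n) (t : ℕ) {S : Finset (Vx n s)}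
    (hS : Sum.inl (rotE_u hn t) ∉ S) :
    (confW slot (t + 1)).Indep S ↔ (confW slot t).Indep S := by
  refine forall₂_congr fun z hz => forall₂_congr fun z' hz' => forall_congr' fun h => ?_
  exact rotE_far_succ slot hn t (fun e => hS (e ▸ hz)) (fun e => hS (e ▸ hz')) h

lemma rotE_xS_succ (hn : 0 < n) (t : ℕ) {S : Finset (Vx n s)}
    (hS : Sum.inl (rotE_u hn t) ∉ S) :
    (confW slot (t + 1)).xS S = (confW slot t).xS S :=
  Finset.sum_congr rfl fun z hz => rotE_x_succ slot hn t z fun e => hS (e ▸ hz)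

lemma rotE_indep_insert {L : Type} [AddCommGroup L] [Module.Free ℤ L] [Module.Finite ℤ L]
    {Ω : Form L} {W : Type} [Fintype W] {_ : DecidableEq W} (C : Conf Ω W) {S : Finset W}
    (hS : C.Indep S) (y y' : W)
    (h : ∀ z ∈ S, z ≠ y' → z ≠ y → C.ℓ ≤ |C.P z - C.P y|) : C.Indep (insert y (S.erase y')) := by
  intro a ha b hb hab
  rw [Finset.mem_insert, Finset.mem_erase] at ha hb
  rcases ha with rfl | ha
  · rcases hb with rfl | hb
    · exact absurd rfl hab
    · rw [abs_sub_comm]; exact h b hb.2 hb.1 (Ne.symm hab)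
  · rcases hb with rfl | hb
    · exact h a ha.2 ha.1 hab
    · exact hS a ha.2 b hb.2 hab

lemma conj_E_succ (hn : 0 < n) {deg : LW n s →+ ℤ} (t : ℕ) (hd : 0 < deg (cW slot hn t))
    (k : ℕ) :
    inv (Phi (ΩW slot) deg (cW slot hn t) 1) * (confW slot t).E deg k *
      Phi (ΩW slot) deg (cW slot hn t) 1 = (confW slot (t + 1)).E deg k := by
  set u : Vx n s := Sum.inl (rotE_u hn t) with hu
  set j : Fin s := slot (rotE_u hn t) with hj
  set b : Vx n s := Sum.inr j.castSucc with hb
  set b' : Vx n s := Sum.inr j.succ with hb'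
  set C := confW slot t with hC
  set C' := confW slot (t + 1) with hC'
  have hF : cW slot hn t = C.x u - C.x b := rfl
  rw [hF] at hd
  have hPu : C.P u = (j : ℤ) * (n + 1) + 1 := rotE_pos_u slot hn t
  have hPu' : C'.P u = (j : ℤ) * (n + 1) + n := rotE_pos_succ_u slot hn t
  have hPb : C.P b = (j : ℤ) * (n + 1) := rfl
  have hPb1 : C'.P b = (j : ℤ) * (n + 1) := rfl
  have hPb' : C.P b' = (j : ℤ) * (n + 1) + (n + 1) := by
    change (((j : ℕ) + 1 : ℕ) : ℤ) * (n + 1) = _
    push_cast; ring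
  have hPb1' : C'.P b' = (j : ℤ) * (n + 1) + (n + 1) := hPb'
  have hl : C.ℓ = n + 1 := rfl
  have hl' : C'.ℓ = n + 1 := rfl
  have hub : u ≠ b := Sum.inl_ne_inr
  have hub' : u ≠ b' := Sum.inl_ne_inr
  have hbb' : b ≠ b' := fun h => by
    have := congrArg C.P h
    rw [hPb, hPb'] at this
    omega
  have hcons : C.Consec b u := ⟨by omega, fun z hz => by omega⟩
  have ha : C.P u < C.P b + C.ℓ := by omega
  -- the exceptional vertex
  have hiff : ∀ z, z ≠ b' → z ≠ u → z ≠ b → (|C.P z - C.P b| < C.ℓ ↔ |C.P z - C.P u| < C.ℓ) := by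
    intro z h1 h2 h3
    have e1 : C.P z ≠ C.P b' := fun h => h1 (C.inj h)
    have e2 : C.P z ≠ ((j : ℤ) - 1) * (n + 1) + 1 := fun h =>
      h2 (rotE_eq_u_of_one slot hn t z _ h)
    have e3 : ((j : ℤ) - 1) * (n + 1) + 1 = (j : ℤ) * (n + 1) - n := by ring
    rw [abs_lt, abs_lt]
    omega
  have hw : ∀ z, z ≠ u → (ΩW slot).w (C.x u - C.x b) (C.x z) =
      (if z = b' then 1 else 0) - (if z = b then 1 else 0) := by
    intro z hz
    rw [C.w_face hcons ha z]
    by_cases h1 : z = b
    · subst h1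
      simp [hbb']
    · by_cases h2 : z = b'
      · subst h2
        have : ¬ (|C.P b' - C.P b| < C.ℓ ↔ |C.P b' - C.P u| < C.ℓ) := by
          rw [abs_lt, abs_lt]; omega
        rw [if_neg (by simp [h1, hz]), if_neg this]
        simp [h1]
      · rw [if_neg (by simp [h1, hz]), if_pos (hiff z h2 hz h1)]
        simp [h1, h2]
  have hwS : ∀ S : Finset (Vx n s), u ∉ S → (ΩW slot).w (C.x u - C.x b) (C.xS S) =
      (if b' ∈ S then 1 else 0) - (if b ∈ S then 1 else 0) := by
    intro S hS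
    rw [Conf.xS, map_sum, Finset.sum_congr rfl fun z hz => hw z fun e => hS (e ▸ hz),
      Finset.sum_sub_distrib, Finset.sum_ite_eq', Finset.sum_ite_eq']
  have hfilt : Finset.univ.filter (fun S : Finset (Vx n s) =>
      S.card = k ∧ C.Indep S ∧ ¬ C.Swap b u S) =
      Finset.univ.filter (fun S : Finset (Vx n s) => S.card = k ∧ C.Indep S ∧ u ∉ S) := by
    refine Finset.filter_congr fun S _ => and_congr_right fun _ => and_congr_right fun hS => ?_
    refine not_congr ⟨fun h => h.1, fun h => ⟨h, fun h1 => ?_, ?_⟩⟩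
    · have := hS u h b h1 hub
      rw [le_abs] at this
      omega
    · refine rotE_indep_insert C hS b u fun z hz h1 h2 => ?_
      have h3 := hS z hz u h h1
      have h4 : z ≠ b' := by
        rintro rfl
        rw [le_abs] at h3
        omega
      have h5 := hiff z h4 h1 h2
      by_contra h6
      exact absurd (h5.1 (not_le.1 h6)) (not_lt.2 h3)
  rw [hF, C.conj_E hcons ha hd k, hfilt]
  have hterm : ∀ S ∈ Finset.univ.filter (fun S : Finset (Vx n s) => S.card = k ∧ C.Indep S ∧ u ∉ S),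
      (QT.mono (C.xS S) 1 * binP (ΩW slot) deg (C.x u - C.x b) 1
        ((ΩW slot).w (C.x u - C.x b) (C.xS S)).toNat : QT (ΩW slot) deg) =
      QT.mono (C.xS S) 1 + if b' ∈ S ∧ b ∉ S then QT.mono (C.xS S + (C.x u - C.x b)) 1 else 0 := by
    intro S hS
    have h0 := (Finset.mem_filter.1 hS).2.2.2
    by_cases h1 : b' ∈ S ∧ b ∉ S
    · have h2 : (ΩW slot).w (C.x u - C.x b) (C.xS S) = 1 := by
        rw [hwS S h0, if_pos h1.1, if_neg h1.2]; rfl
      rw [if_pos h1, ← conj_mono_nonneg hd _ (by rw [h2]; exact zero_le_one), conj_mono_one hd _ h2]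
    · have h2 : ((ΩW slot).w (C.x u - C.x b) (C.xS S)).toNat = 0 := by
        rw [hwS S h0]
        split_ifs <;> simp_all
      rw [if_neg h1, h2]
      simp [binP]
  rw [Finset.sum_congr rfl hterm, Finset.sum_add_distrib, ← Finset.sum_filter, Conf.E]
  conv_rhs => rw [← Finset.sum_filter_add_sum_filter_not _ (fun S => u ∉ S)]
  congr 1
  · refine Finset.sum_congr ?_ fun S hS => ?_
    · ext S
      simp only [Finset.mem_filter, Finset.mem_univ, true_and]
      constructor
      · rintro ⟨h1, h2, h3⟩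
        exact ⟨⟨h1, (rotE_indep_succ slot hn t h3).2 h2⟩, h3⟩
      · rintro ⟨⟨h1, h2⟩, h3⟩
        exact ⟨h1, (rotE_indep_succ slot hn t h3).1 h2, h3⟩
    · rw [rotE_xS_succ slot hn t (Finset.mem_filter.1 hS).2]
  · refine Finset.sum_bij' (fun S _ => insert u (S.erase b')) (fun S _ => insert b' (S.erase u))
      ?_ ?_ ?_ ?_ ?_
    · intro S hS
      simp only [Finset.mem_filter, Finset.mem_univ, true_and] at hS ⊢
      obtain ⟨⟨h1, h2, h3⟩, h4, h5⟩ := hS
      have h6 := (rotE_indep_succ slot hn t h3).2 h2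
      refine ⟨⟨?_, rotE_indep_insert C' h6 u b' fun z hz e1 e2 => ?_⟩, by simp⟩
      · rw [Finset.card_insert_of_notMem (fun h => h3 (Finset.mem_of_mem_erase h)),
          Finset.card_erase_add_one h4, h1]
      · have h7 := h6 z hz b' h4 e1
        have h8 : C'.P z ≠ C'.P b := fun h => h5 (C'.inj h ▸ hz)
        change C'.ℓ ≤ |C'.P z - C'.P b'| at h7
        rw [le_abs] at h7 ⊢
        omega
    · intro S hS
      simp only [Finset.mem_filter, Finset.mem_univ, true_and, not_not] at hS ⊢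
      obtain ⟨⟨h1, h2⟩, h3⟩ := hS
      have h4 : b' ∉ S := fun h => by
        have := h2 u h3 b' h hub'
        rw [le_abs] at this
        omega
      have h5 : b ∉ S := fun h => by
        have := h2 u h3 b h hub
        rw [le_abs] at this
        omega
      have h6 : u ∉ insert b' (S.erase u) := by simp [hub']
      refine ⟨⟨?_, (rotE_indep_succ slot hn t h6).1
        (rotE_indep_insert C' h2 b' u fun z hz e1 e2 => ?_), h6⟩, by simp, by simp [hbb', h5]⟩
      · rw [Finset.card_insert_of_notMem (fun h => h4 (Finset.mem_of_mem_erase h)),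
          Finset.card_erase_add_one h3, h1]
      · have h7 := h2 z hz u h3 e1
        have h8 : C'.P z ≠ ((j : ℤ) + 1) * (n + 1) + n := fun h =>
          e1 (rotE_eq_u_of_last slot hn t z _ h)
        have h9 : ((j : ℤ) + 1) * (n + 1) + n = (j : ℤ) * (n + 1) + (n + 1) + n := by ring
        rw [le_abs] at h7 ⊢
        omega
    · intro S hS
      simp only [Finset.mem_filter, Finset.mem_univ, true_and] at hS
      obtain ⟨⟨h1, h2, h3⟩, h4, h5⟩ := hS
      rw [Finset.erase_insert (fun h => h3 (Finset.mem_of_mem_erase h)), Finset.insert_erase h4]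
    · intro S hS
      simp only [Finset.mem_filter, Finset.mem_univ, true_and, not_not] at hS
      obtain ⟨⟨h1, h2⟩, h3⟩ := hS
      have h4 : b' ∉ S := fun h => by
        have := h2 u h3 b' h hub'
        rw [le_abs] at this
        omega
      rw [Finset.erase_insert (fun h => h4 (Finset.mem_of_mem_erase h)), Finset.insert_erase h3]
    · intro S hS
      simp only [Finset.mem_filter, Finset.mem_univ, true_and] at hS
      obtain ⟨⟨h1, h2, h3⟩, h4, h5⟩ := hS
      congr 1
      have h6 : u ∉ S.erase b' := fun h => h3 (Finset.mem_of_mem_erase h)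
      have h7 : C'.xS (insert u (S.erase b')) = C'.x u + C'.xS (S.erase b') :=
        Finset.sum_insert h6
      have h8 : C.xS S = C.x b' + C.xS (S.erase b') := (Finset.add_sum_erase _ _ h4).symm
      have h9 : C'.x u = C.x u + (C.x b' - C.x b) := rotE_x_succ_u slot hn t
      rw [h7, h8, h9, rotE_xS_succ slot hn t h6]
      abel

/-- The total letter degree. -/
def rotE_lc : LW n s →+ ℤ := ∑ i : Fin n, crd (Sum.inl (Sum.inl i))

lemma rotE_lc_apply (m : LW n s) : rotE_lc m = ∑ i : Fin n, m (Sum.inl (Sum.inl i)) := by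
  simp [rotE_lc, crd]

lemma rotE_lc_inr (j : Fin (s + 1)) : rotE_lc (ev (Sum.inr j) : LW n s) = 0 := by
  simp [rotE_lc_apply, ev]

lemma rotE_lc_inl (i : Fin n) : rotE_lc (ev (Sum.inl i) : LW n s) = 1 := by
  simp [rotE_lc_apply, ev, Pi.single_apply]

lemma rotE_lc_x (t : ℕ) (y : Vx n s) :
    rotE_lc (xW slot t y) = Sum.elim (fun _ => 1) (fun _ => 0) y := by
  rcases y with i | j
  · simp [xW, dl, rotE_lc_inl, rotE_lc_inr, -nsmul_eq_mul, map_nsmul]
  · simp [xW, rotE_lc_inr]

lemma rotE_lc_comb (t : ℕ) (a : Vx n s → ℕ) :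
    rotE_lc (∑ y, a y • xW slot t y) = ((∑ i, a (Sum.inl i) : ℕ) : ℤ) := by
  rw [map_sum]
  simp only [map_nsmul, rotE_lc_x]
  simp [Fintype.sum_sum_type]

lemma rotE_lc_bExp (lam : Fin (s + 1) → ℕ) : rotE_lc (bExp lam : LW n s) = 0 := by
  simp only [bExp, map_sum, map_nsmul, rotE_lc_inr]
  simp

lemma rotE_comb_pure (t : ℕ) (a : Vx n s → ℕ) (h : ∑ i, a (Sum.inl i) = 0) :
    ∑ y, a y • xW slot t y = bExp fun j => a (Sum.inr j) := by
  rw [Fintype.sum_sum_type, Finset.sum_eq_zero, zero_add]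
  · rfl
  · intro i _
    rw [Finset.sum_eq_zero_iff.1 h i (Finset.mem_univ _), zero_smul]

lemma rotE_bExp_apply (lam : Fin (s + 1) → ℕ) (j : Fin (s + 1)) :
    (bExp lam : LW n s) (Sum.inl (Sum.inr j)) = lam j := by
  simp [bExp, ev, Finset.sum_apply, Pi.single_apply]

lemma rotE_bExp_add (lam lam' : Fin (s + 1) → ℕ) :
    (bExp (lam + lam') : LW n s) = bExp lam + bExp lam' := by
  simp [bExp, add_smul, Finset.sum_add_distrib]

lemma rotE_bExp_inj {lam lam' : Fin (s + 1) → ℕ} (h : (bExp lam : LW n s) = bExp lam') :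
    lam = lam' := by
  funext j
  have := congrFun h (Sum.inl (Sum.inr j))
  rw [rotE_bExp_apply, rotE_bExp_apply] at this
  exact_mod_cast this

lemma rotE_far_inr (t : ℕ) {j j' : Fin (s + 1)} (h : j ≠ j') :
    (n : ℤ) + 1 ≤ |posW slot t (Sum.inr j) - posW slot t (Sum.inr j')| := by
  rw [rotE_pos_inr, rotE_pos_inr, ← sub_mul, abs_mul, abs_of_pos (by omega : (0 : ℤ) < n + 1)]
  have h1 : ((j : ℕ) : ℤ) - (j' : ℕ) ≠ 0 := fun e => h (Fin.ext (by omega))
  have h2 := Int.one_le_abs h1
  nlinarith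

lemma rotE_w_inr (j j' : Fin (s + 1)) : (ΩW slot).w (ev (Sum.inr j)) (ev (Sum.inr j')) = 0 := by
  by_cases h : j = j'
  · rw [h]; exact (ΩW slot).alt _
  · have h1 := compatW slot 0 (Sum.inr j) (Sum.inr j')
    refine h1.trans ((rotE_adjS_zero fun e => h ?_).2 (rotE_far_inr slot 0 h))
    exact Sum.inr_injective (posW_injective slot 0 e)

lemma rotE_w_bExp (lam lam' : Fin (s + 1) → ℕ) : (ΩW slot).w (bExp lam) (bExp lam') = 0 := by
  simp only [bExp, map_sum, map_nsmul, AddMonoidHom.finsetSum_apply, AddMonoidHom.nsmul_apply,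
    rotE_w_inr]
  simp

lemma rotE_xS_map (t : ℕ) (T : Finset (Fin (s + 1))) :
    (confW slot t).xS (T.map Function.Embedding.inr) =
      bExp fun j => if j ∈ T then 1 else 0 := by
  rw [Conf.xS, Finset.sum_map, bExp]
  simp only [ite_smul, one_smul, zero_smul]
  rw [Finset.sum_ite_mem, Finset.univ_inter]
  rfl

lemma rotE_lc_xS (t : ℕ) {S : Finset (Vx n s)} {i : Fin n} (hi : Sum.inl i ∈ S) :
    0 < rotE_lc ((confW slot t).xS S) := by
  rw [Conf.xS, map_sum]
  refine Finset.sum_pos' (fun y _ => ?_) ⟨_, hi, ?_⟩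
  · change 0 ≤ rotE_lc (xW slot t y)
    rw [rotE_lc_x]
    rcases y with i | j <;> simp
  · change 0 < rotE_lc (xW slot t (Sum.inl i))
    rw [rotE_lc_x]
    simp

/-- The coefficient of a pure base monomial does not depend on the time. -/
lemma EL_c_bExp {deg : LW n s →+ ℤ} (t : ℕ) (μ : List ℕ) (lam : Fin (s + 1) → ℕ) :
    ((confW slot t).EL deg μ).c (bExp lam) =
      ((MvPolynomial.coeff (Finsupp.equivFunOnFinite.symm lam)
        (μ.map fun k => MvPolynomial.esymm (Fin (s + 1)) ℤ k).prod : ℤ) : K) := by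
  induction μ generalizing lam with
  | nil =>
    simp only [Conf.EL, List.map_nil, List.prod_nil, QT.one_c, MvPolynomial.coeff_one]
    by_cases h : lam = 0
    · subst h
      have h1 : (bExp (0 : Fin (s + 1) → ℕ) : LW n s) = 0 := by simp [bExp]
      have h2 : (0 : Fin (s + 1) →₀ ℕ) = Finsupp.equivFunOnFinite.symm 0 := by ext; simp
      rw [h1, if_pos h2]
      simp
    · have h1 : (bExp lam : LW n s) ≠ 0 := fun e =>
        h (rotE_bExp_inj (n := n) (e.trans (by simp [bExp])))
      have h2 : ¬ (0 : Fin (s + 1) →₀ ℕ) = Finsupp.equivFunOnFinite.symm lam := fun e => h (by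
        funext j
        have := DFunLike.congr_fun e j
        simpa using this.symm)
      rw [if_neg h2]
      simp [h1]
  | cons k μ ih =>
    have e1 : (confW slot t).EL deg (k :: μ) =
        (confW slot t).E deg k * (confW slot t).EL deg μ := by simp [Conf.EL]
    rw [e1, List.map_cons, List.prod_cons, MvPolynomial.esymm_eq_sum_monomial, Finset.sum_mul,
      MvPolynomial.coeff_sum, Int.cast_sum, Conf.E, Finset.sum_mul, QT.sum_c]
    symm
    refine Finset.sum_of_injOn (fun T => T.map Function.Embedding.inr)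
      (Finset.map_injective _).injOn ?_ ?_ ?_
    · intro T hT
      rw [Finset.mem_coe, Finset.mem_powersetCard_univ] at hT
      simp only [Finset.mem_coe, Finset.mem_filter, Finset.mem_univ, true_and, Finset.card_map]
      refine ⟨hT, fun y hy y' hy' hne => ?_⟩
      obtain ⟨j, -, rfl⟩ := Finset.mem_map.1 hy
      obtain ⟨j', -, rfl⟩ := Finset.mem_map.1 hy'
      exact rotE_far_inr slot t fun e => hne (by rw [e])
    · intro S hS hS'
      have h1 : ∃ i, Sum.inl i ∈ S := by
        by_contra hc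
        push Not at hc
        have h2 : S = S.toRight.map Function.Embedding.inr := by
          ext (i | j) <;> simp [hc]
        refine hS' ⟨S.toRight, ?_, h2.symm⟩
        rw [Finset.mem_coe, Finset.mem_powersetCard_univ, ← (Finset.mem_filter.1 hS).2.1]
        conv_rhs => rw [h2, Finset.card_map]
      obtain ⟨i, hi⟩ := h1
      rw [QT.mul_c, QT.mono_c, mulF_single_left]
      by_contra hc
      obtain ⟨a, -, ha⟩ := (confW slot t).EL_supp μ _
        (right_ne_zero_of_mul (left_ne_zero_of_mul hc))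
      have h3 := congrArg rotE_lc ha
      have h4 := rotE_lc_comb slot t a
      have h5 := rotE_lc_xS slot t hi
      rw [map_sub, rotE_lc_bExp] at h3
      change _ = rotE_lc (∑ y, a y • xW slot t y) at h3
      omega
    · intro T hT
      rw [QT.mul_c, QT.mono_c, mulF_single_left, rotE_xS_map, rotE_w_bExp, vp_zero, one_mul,
        mul_one, MvPolynomial.coeff_monomial_mul', one_mul]
      have hT1 : ∀ j, (∑ i ∈ T, Finsupp.single i 1 : Fin (s + 1) →₀ ℕ) j =
          if j ∈ T then 1 else 0 := by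
        intro j
        simp [Finsupp.finsetSum_apply, Finsupp.single_apply]
      split_ifs with hle
      · have h1 : (fun j => if j ∈ T then 1 else 0 : Fin (s + 1) → ℕ) ≤ lam := fun j => by
          have := hle j
          rwa [hT1] at this
        have h2 : (bExp lam : LW n s) - bExp (fun j => if j ∈ T then 1 else 0) =
            bExp (lam - fun j => if j ∈ T then 1 else 0) := by
          rw [sub_eq_iff_eq_add, ← rotE_bExp_add, tsub_add_cancel_of_le h1]
        rw [h2, ih]
        congr 2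
        ext j
        rw [Finsupp.tsub_apply, hT1]
        rfl
      · rw [Int.cast_zero]
        symm
        by_contra hc
        obtain ⟨a, -, ha⟩ := (confW slot t).EL_supp μ _ hc
        have h3 := congrArg rotE_lc ha
        have h4 := rotE_lc_comb slot t a
        rw [map_sub, rotE_lc_bExp, rotE_lc_bExp] at h3
        change _ = rotE_lc (∑ y, a y • xW slot t y) at h3
        have h5 := rotE_comb_pure slot t a (by omega)
        change _ = ∑ y, a y • xW slot t y at ha
        rw [h5, sub_eq_iff_eq_add, ← rotE_bExp_add] at ha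
        have h6 := rotE_bExp_inj ha
        refine hle fun j => ?_
        rw [hT1, h6]
        simp

/-- The weighted base degree. -/
def rotE_bd : LW n s →+ ℤ := ∑ j : Fin (s + 1), (j : ℕ) • crd (Sum.inl (Sum.inr j))

lemma rotE_bd_apply (m : LW n s) :
    rotE_bd m = ∑ j : Fin (s + 1), (j : ℕ) * m (Sum.inl (Sum.inr j)) := by
  simp [rotE_bd, crd]

lemma rotE_bd_inr (j : Fin (s + 1)) : rotE_bd (ev (Sum.inr j) : LW n s) = (j : ℕ) := by
  simp [rotE_bd_apply, ev, Pi.single_apply]

lemma rotE_bd_inl (i : Fin n) : rotE_bd (ev (Sum.inl i) : LW n s) = 0 := by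
  simp [rotE_bd_apply, ev]

lemma rotE_kk_mul {n i : ℕ} (hi : i < n) (N : ℕ) : kk n (N * n) i = N := by
  unfold kk
  have h3 : N * n + n - 1 - i = (n - 1 - i) + n * N := by rw [mul_comm]; omega
  rw [h3, Nat.add_mul_div_left _ _ (by omega), Nat.div_eq_of_lt (by omega), zero_add]

/-- An exponent present at all times is a pure base exponent. -/
lemma pure_of_forall (hn : 0 < n) {deg : LW n s →+ ℤ} (μ : List ℕ) (m : LW n s)
    (h : ∀ N : ℕ, ((confW slot (N * n)).EL deg μ).c m ≠ 0) : ∃ lam, m = bExp lam := by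
  set N := (rotE_bd m).toNat + 1 with hN
  obtain ⟨a, -, ha⟩ := (confW slot (N * n)).EL_supp μ m (h N)
  change _ = ∑ y, a y • xW slot (N * n) y at ha
  have h1 : rotE_bd m = ((∑ i, a (Sum.inl i) : ℕ) : ℤ) * N +
      ((∑ j : Fin (s + 1), a (Sum.inr j) * j : ℕ) : ℤ) := by
    conv_lhs => rw [ha]
    simp only [map_sum, Fintype.sum_sum_type, xW, dl, map_nsmul, map_add, map_sub, rotE_bd_inl,
      rotE_bd_inr, rotE_kk_mul (Fin.is_lt _)]
    simp [Finset.sum_mul]
  have h2 : ∑ i, a (Sum.inl i) = 0 := by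
    by_contra hc
    have h3 : (1 : ℤ) ≤ ((∑ i, a (Sum.inl i) : ℕ) : ℤ) := by omega
    have h4 : (N : ℤ) ≤ ((∑ i, a (Sum.inl i) : ℕ) : ℤ) * N := by nlinarith
    omega
  exact ⟨_, ha.trans (rotE_comb_pure slot _ a h2)⟩

end Crest.Agent.R059
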