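import Crest.Agent.R059.Phi

/-! Row 59: seeds, cluster elements, genericity. -/

set_option autoImplicit false
set_option linter.unusedSectionVars false
set_option linter.unusedVariables false

noncomputable section
open Classical

namespace Crest.Agent.R059

variable {L : Type} [AddCommGroup L] [Module.Free ℤ L] [Module.Finite ℤ L]
variable {Ω : Form L} {deg : L →+ ℤ}

def IsSeed (s : Finset L) : Prop :=
  ∀ F ∈ s, ∃ κ : L →+ ℤ, κ F = 1 ∧ ∀ F' ∈ s, F' ≠ F → κ F' = 0
def DegOK (deg : L →+ ℤ) (s : Finset L) : Prop := ∀ F ∈ s, 0 < deg F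
def cone (s : Finset L) : AddSubmonoid L := AddSubmonoid.closure (s : Set L)
/-- The element of the cluster scattering diagram: trivial attractor invariants. -/
def IsCl (s : Finset L) (g : QT Ω deg) : Prop :=
  IsG g ∧ SuppIn (cone s) g ∧ ∀ n, att g n = ∑ F ∈ s, lgP F 1 n
def mutate (Ω : Form L) (s : Finset L) (c : L) : Finset L :=
  insert (-c) ((s.erase c).image fun F => F + (Ω.w c F).toNat • c)
def Sat (M : AddSubmonoid L) : Prop := ∀ (j : ℕ) (y : L), 0 < j → j • y ∈ M → y ∈ M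
/-- Positivity of the wall functions at points where only the ray of `n` is visible. -/
def WallPos (M : AddSubmonoid L) (g : QT Ω deg) : Prop :=
  ∀ n ∈ M, ∀ θ : L →+ ℝ, θ n = 0 → (∀ x ∈ below M n, θ x = 0 → deg n • x = deg x • n) →
    ∃ l : List (L × ℤ), (∀ t ∈ l, t.1 ∈ below M n ∧ t.1 ≠ 0 ∧ θ t.1 = 0) ∧
      ∀ x ∈ below M n, lg (fzer g θ) x = lgL l x
/-- An integer valued function as a real valued one. -/
def toR (θ : L →+ ℤ) : L →+ ℝ := (Int.castAddHom ℝ).comp θ

lemma IsSeed.subset {s s' : Finset L} (h : IsSeed s') (hs : s ⊆ s') : IsSeed s := by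
  intro F hF
  obtain ⟨κ, h1, h2⟩ := h F (hs hF)
  exact ⟨κ, h1, fun F' hF' => h2 F' (hs hF')⟩
lemma IsSeed.exists_deg {s : Finset L} (h : IsSeed s) : ∃ d : L →+ ℤ, ∀ F ∈ s, d F = 1 := by
  choose! κ h1 h2 using h
  refine ⟨∑ F ∈ s, κ F, fun F hF => ?_⟩
  rw [AddMonoidHom.finsetSum_apply, Finset.sum_eq_single F (fun G hG hne => h2 G hG F hF hne.symm)
    (fun h => absurd hF h), h1 F hF]
lemma IsSeed.sat {s : Finset L} (h : IsSeed s) : Sat (cone s) := by
  choose! κ h1 h2 using h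
  intro j y hj hy
  obtain ⟨a, -, ha⟩ := AddSubmonoid.mem_closure_finset.1 hy
  have key : ∀ F ∈ s, (j : ℤ) * κ F y = a F := fun F hF => by
    have := congrArg (κ F) ha
    rw [map_sum, Finset.sum_eq_single F (fun G hG hne => by rw [map_nsmul, h2 F hF G hG hne]; simp)
      (fun h => absurd hF h), map_nsmul, map_nsmul, h1 F hF] at this
    simpa using this.symm
  have hj' : (0 : ℤ) < j := by exact_mod_cast hj
  have e : y = ∑ F ∈ s, (κ F y).toNat • F := by
    refine smul_right_injective L hj'.ne' ?_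
    simp only [Finset.smul_sum]
    rw [natCast_zsmul, ← ha]
    refine Finset.sum_congr rfl fun F hF => ?_
    have h3 := key F hF
    have h4 : 0 ≤ κ F y := by
      by_contra h5
      have := mul_neg_of_pos_of_neg hj' (not_le.1 h5)
      omega
    rw [← natCast_zsmul, ← natCast_zsmul, smul_smul, Int.toNat_of_nonneg h4, h3]
  rw [e]
  exact AddSubmonoid.sum_mem _ fun F hF =>
    AddSubmonoid.nsmul_mem _ (AddSubmonoid.subset_closure hF) _
lemma IsSeed.mutate {s : Finset L} (h : IsSeed s) {c : L} (hc : c ∈ s) :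
    IsSeed (mutate Ω s c) := by
  choose! κ h1 h2 using h
  intro x hx
  rcases Finset.mem_insert.1 hx with rfl | hx
  · refine ⟨∑ F ∈ s.erase c, (Ω.w c F).toNat • κ F - κ c, ?_, fun y hy hne => ?_⟩
    · rw [map_neg, AddMonoidHom.sub_apply, AddMonoidHom.finsetSum_apply, h1 c hc,
        Finset.sum_eq_zero fun F hF => by
          rw [AddMonoidHom.nsmul_apply,
            h2 F (Finset.mem_of_mem_erase hF) c hc (Finset.ne_of_mem_erase hF).symm, smul_zero]]
      simp
    · obtain ⟨F, hF, rfl⟩ := Finset.mem_image.1 ((Finset.mem_insert.1 hy).resolve_left hne)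
      have hF1 := Finset.mem_of_mem_erase hF
      have hF2 := Finset.ne_of_mem_erase hF
      rw [AddMonoidHom.sub_apply, AddMonoidHom.finsetSum_apply,
        Finset.sum_eq_single F (fun G hG hne => by
          rw [AddMonoidHom.nsmul_apply, map_add, map_nsmul,
            h2 G (Finset.mem_of_mem_erase hG) F hF1 hne.symm,
            h2 G (Finset.mem_of_mem_erase hG) c hc (Finset.ne_of_mem_erase hG).symm]
          simp) (fun h => absurd hF h)]
      simp [h1 F hF1, h1 c hc, h2 F hF1 c hc hF2.symm, h2 c hc F hF1 hF2]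
  · obtain ⟨F, hF, rfl⟩ := Finset.mem_image.1 hx
    have hF1 := Finset.mem_of_mem_erase hF
    have hF2 := Finset.ne_of_mem_erase hF
    refine ⟨κ F, by simp [h1 F hF1, h2 F hF1 c hc hF2.symm], fun y hy hne => ?_⟩
    rcases Finset.mem_insert.1 hy with rfl | hy
    · simp [h2 F hF1 c hc hF2.symm]
    · obtain ⟨G, hG, rfl⟩ := Finset.mem_image.1 hy
      have hGF : G ≠ F := fun h => hne (by rw [h])
      simp [h2 F hF1 c hc hF2.symm, h2 F hF1 G (Finset.mem_of_mem_erase hG) hGF]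
lemma mem_cone_iff {s : Finset L} {x : L} :
    x ∈ cone s ↔ ∃ a : L → ℕ, x = ∑ F ∈ s, a F • F := by
  constructor
  · intro h
    obtain ⟨a, -, ha⟩ := AddSubmonoid.mem_closure_finset.1 h
    exact ⟨a, ha.symm⟩
  · rintro ⟨a, rfl⟩
    exact AddSubmonoid.sum_mem _ fun F hF =>
      AddSubmonoid.nsmul_mem _ (AddSubmonoid.subset_closure hF) _
lemma DegOK.goodCone {s : Finset L} (h : DegOK deg s) : GoodCone deg (cone s) := by
  exact goodCone_closure s h
lemma exists_isCl {s : Finset L} (h : DegOK deg s) : ∃ g : QT Ω deg, IsCl s g := by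
  refine exists_att h.goodCone _ fun n hn => ?_
  obtain ⟨F, hF, h1⟩ := Finset.exists_ne_zero_of_sum_ne_zero hn
  obtain ⟨e, he, rfl⟩ := lgP_ne_zero h1
  refine ⟨AddSubmonoid.nsmul_mem _ (AddSubmonoid.subset_closure hF) _, fun h2 => ?_⟩
  have h3 := congrArg deg h2
  rw [map_nsmul, map_zero, nsmul_eq_mul] at h3
  have h4 : 0 < (e : ℤ) * deg F := mul_pos (by exact_mod_cast he) (h F hF)
  omega
lemma IsCl.unique {s : Finset L} {g g' : QT Ω deg} (h : IsCl s g) (h' : IsCl s g') : g = g' := by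
  refine QT.ext (funext fun n => ?_)
  exact agree_of_att (S := Set.univ) (fun _ _ _ _ _ => trivial) h.1 h'.1 h.2.1 h'.2.1
    (fun n _ => (h.2.2 n).trans (h'.2.2 n).symm) n trivial
/-- Restriction to a sub-seed. -/
lemma IsCl.restrict {s s' : Finset L} (hs : s ⊆ s') (hd : DegOK deg s') (κ : L →+ ℤ)
    (h0 : ∀ F ∈ s, κ F = 0) (h1 : ∀ F ∈ s', F ∉ s → 0 < κ F) {g : QT Ω deg} (h : IsCl s' g) :
    IsCl s (restrict {x | κ x = 0} g) := by
  have hnn : ∀ F ∈ s', 0 ≤ κ F := fun F hF => by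
    by_cases h2 : F ∈ s
    exacts [(h0 F h2).ge, (h1 F hF h2).le]
  have hc : ∀ x ∈ cone s', 0 ≤ κ x := fun x hx => by
    obtain ⟨a, rfl⟩ := mem_cone_iff.1 hx
    rw [map_sum]
    exact Finset.sum_nonneg fun F hF => by rw [map_nsmul]; exact nsmul_nonneg (hnn F hF) _
  have hz : ∀ x ∈ cone s, κ x = 0 := fun x hx => by
    obtain ⟨a, rfl⟩ := mem_cone_iff.1 hx
    rw [map_sum]
    exact Finset.sum_eq_zero fun F hF => by rw [map_nsmul, h0 F hF, smul_zero]
  have hne : ∀ n, (R059.restrict {x | κ x = 0} g).c n ≠ 0 → κ n = 0 ∧ g.c n ≠ 0 := fun n hn => by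
    by_cases h2 : n ∈ {x | κ x = 0}
    · exact ⟨h2, by simpa only [R059.restrict, if_pos h2] using hn⟩
    · exact absurd (by simp only [R059.restrict, if_neg h2]) hn
  have hag : Agree {x | κ x = 0} (R059.restrict {x | κ x = 0} g) g := fun n hn => by
    simp only [R059.restrict, if_pos hn]
  have hG : IsG (R059.restrict {x | κ x = 0} g) :=
    ⟨(hag 0 (map_zero κ)).trans h.1.1, fun n hn h2 => h.1.2 n hn (hne n h2).2⟩
  have hS : SuppIn (cone s) (R059.restrict {x | κ x = 0} g) := fun n hn => by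
    obtain ⟨h2, h3⟩ := hne n hn
    obtain ⟨a, rfl⟩ := mem_cone_iff.1 (h.2.1 n h3)
    rw [map_sum, Finset.sum_eq_zero_iff_of_nonneg
      fun F hF => by rw [map_nsmul]; exact nsmul_nonneg (hnn F hF) _] at h2
    refine AddSubmonoid.sum_mem _ fun F hF => ?_
    by_cases h4 : F ∈ s
    · exact AddSubmonoid.nsmul_mem _ (AddSubmonoid.subset_closure h4) _
    · have h5 := h2 F hF
      rw [map_nsmul, nsmul_eq_mul, mul_eq_zero] at h5
      have h6 : a F = 0 := by exact_mod_cast h5.resolve_right (h1 F hF h4).ne'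
      rw [h6, zero_smul]
      exact AddSubmonoid.zero_mem _
  refine ⟨hG, hS, fun n => ?_⟩
  by_cases hn : κ n = 0
  · rw [att_agree (M := cone s') (S := {x | κ x = 0}) (fun x hx y hy hxy => by
        have h2 := hc x hx
        have h3 := hc y hy
        have h4 : κ x + κ y = 0 := (map_add κ x y).symm.trans hxy
        show κ x = 0
        omega) hG h.1 (fun n h2 => h.2.1 n (hne n h2).2) h.2.1 hag hn, h.2.2]
    refine (Finset.sum_subset hs fun F hF hF' => ?_).symm
    by_contra h2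
    obtain ⟨e, he, rfl⟩ := lgP_ne_zero h2
    rw [map_nsmul, nsmul_eq_mul] at hn
    have h4 : 0 < (e : ℤ) * κ F := mul_pos (by exact_mod_cast he) (h1 F hF hF')
    omega
  · have h2 := isFact_fact (Ω.th n) hG
    rw [att, lg_eq_zero h2.2.1 (h2.suppIn hS).2.1 fun h3 => hn (hz n h3)]
    refine (Finset.sum_eq_zero fun F hF => ?_).symm
    by_contra h3
    obtain ⟨e, he, rfl⟩ := lgP_ne_zero h3
    exact hn (by rw [map_nsmul, h0 F hF, smul_zero])

lemma sameSign_toR (S : Set L) (θ : L →+ ℤ) : SameSign S θ (toR θ) := by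
  intro n _
  simp [toR]
lemma exists_sep {y : L} (hy : y ≠ 0) : ∃ ξ : L →+ ℤ, ξ y ≠ 0 := by
  by_contra h
  push Not at h
  refine hy ((Module.Free.chooseBasis ℤ L).ext_elem fun i => ?_)
  simpa using h ((Module.Free.chooseBasis ℤ L).coord i).toAddMonoidHom
lemma exists_sep_ray {n y : L} (hn : 0 < deg n) (hy : deg n • y ≠ deg y • n) :
    ∃ ξ : L →+ ℝ, ξ n = 0 ∧ ξ y ≠ 0 := by
  obtain ⟨ξ, hξ⟩ := exists_sep (sub_ne_zero.2 hy)
  refine ⟨toR (deg n • ξ - ξ n • deg), by simp [toR, mul_comm], fun h => hξ ?_⟩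
  have h1 := ((sameSign_toR Set.univ _ y trivial).2).2 h
  simpa [mul_comm] using h1
lemma exists_sameSign_lex {T : Set L} (hT : T.Finite) (θ θ' : L →+ ℝ) :
    ∃ ε : ℝ, 0 < ε ∧ SameSign T (lexθ θ θ') (θ + ε • θ') := by
  have h1 : ∀ᶠ ε in nhdsWithin (0 : ℝ) (Set.Ioi 0), ∀ x ∈ T, θ x ≠ 0 → ε * |θ' x| < |θ x| := by
    refine (Filter.eventually_all_finite hT).2 fun x _ => ?_
    by_cases h : θ x = 0
    · exact Filter.Eventually.of_forall fun _ h' => absurd h h'
    · have h2 : Filter.Tendsto (fun ε : ℝ => ε * |θ' x|) (nhds 0) (nhds (0 * |θ' x|)) :=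
        (continuous_id.mul continuous_const).tendsto 0
      rw [zero_mul] at h2
      exact ((h2.eventually (gt_mem_nhds (abs_pos.2 h))).filter_mono nhdsWithin_le_nhds).mono
        fun _ h3 _ => h3
  obtain ⟨ε, h2, h3⟩ := (h1.and self_mem_nhdsWithin).exists
  have hε : 0 < ε := h3
  refine ⟨ε, hε, fun x hx => ?_⟩
  rw [lexθ_lt_zero, lexθ_eq_zero, AddMonoidHom.add_apply, AddMonoidHom.smul_apply, smul_eq_mul]
  by_cases h : θ x = 0
  · simp [h, hε.ne', mul_neg_iff, hε, hε.not_gt]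
  · have h4 := h2 x hx h
    have h5 := mul_le_mul_of_nonneg_left (le_abs_self (θ' x)) hε.le
    have h6 := mul_le_mul_of_nonneg_left (neg_abs_le (θ' x)) hε.le
    simp only [h, false_and, or_false, false_iff]
    rcases abs_cases (θ x) with ⟨h7, h8⟩ | ⟨h7, h8⟩
    · exact ⟨⟨fun _ => by linarith, fun _ => by linarith⟩, by linarith⟩
    · exact ⟨⟨fun _ => by linarith, fun _ => by linarith⟩, by linarith⟩
/-- Generic perturbation inside the hyperplane `θ n = const`. -/
lemma exists_perturb {T Y : Set L} (hT : T.Finite) (hY : Y.Finite) (n : L) (θ : L →+ ℝ)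
    (h : ∀ y ∈ Y, ∃ ξ : L →+ ℝ, ξ n = 0 ∧ ξ y ≠ 0) :
    ∃ θ' : L →+ ℝ, θ' n = θ n ∧ (∀ x ∈ T, (θ x < 0 → θ' x < 0) ∧ (0 < θ x → 0 < θ' x)) ∧
      ∀ y ∈ Y, θ' y ≠ 0 := by
  induction Y, hY using Set.Finite.induction_on with
  | empty => exact ⟨θ, rfl, fun x _ => ⟨id, id⟩, fun y hy => hy.elim⟩
  | @insert y Y _ hY ih =>
    obtain ⟨θ₁, h1, h2, h3⟩ := ih fun z hz => h z (Set.mem_insert_of_mem _ hz)
    obtain ⟨ξ, h4, h5⟩ := h y (Set.mem_insert _ _)
    obtain ⟨ε, -, h6⟩ := exists_sameSign_lex (hT.union (hY.insert y)) θ₁ ξ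
    refine ⟨θ₁ + ε • ξ, by simp [h1, h4], fun x hx => ?_, fun z hz h7 => ?_⟩
    · obtain ⟨h7, h8⟩ := h6 x (Or.inl hx)
      rw [lexθ_lt_zero] at h7
      rw [lexθ_eq_zero] at h8
      refine ⟨fun h9 => h7.1 (Or.inl ((h2 x hx).1 h9)), fun h9 => ?_⟩
      have h10 := (h2 x hx).2 h9
      rcases lt_trichotomy ((θ₁ + ε • ξ) x) 0 with h11 | h11 | h11
      · rcases h7.2 h11 with h12 | h12
        · exact absurd h12 h10.not_gt
        · exact absurd h12.1 h10.ne'
      · exact absurd (h8.2 h11).1 h10.ne'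
      · exact h11
    · have h8 := (lexθ_eq_zero _ _ _).1 ((h6 z (Or.inr hz)).2.2 h7)
      rcases hz with rfl | hz
      · exact h5 h8.2
      · exact h3 z hz h8.1
/-- Induction along the ray `θ + s ξ`, from `s = ∞` down to `s = 0`. -/
theorem flow_ind {T : Set L} (hT : T.Finite) (θ ξ : L →+ ℝ) (Pr : (L →+ ℝ) → Prop)
    (hc : ∀ a b, SameSign T a b → Pr a → Pr b) (h0 : ∀ x ∈ T, θ x = 0 → ξ x = 0)
    (hinf : ∀ a, SameSign T a (lexθ ξ θ) → Pr a)
    (hstep : ∀ s : ℝ, 0 < s → ∀ a b, SameSign T a (lexθ (θ + s • ξ) (-ξ)) →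
      SameSign T b (lexθ (θ + s • ξ) ξ) → Pr b → Pr a) : Pr θ := by
  set r : L → ℝ := fun x => -θ x / ξ x with hr
  have hroot : ∀ x, ξ x ≠ 0 → ∀ s : ℝ, (θ + s • ξ) x = (s - r x) * ξ x := fun x hx s => by
    rw [AddMonoidHom.add_apply, AddMonoidHom.smul_apply, smul_eq_mul, hr]
    field_simp
    ring
  have hzero : ∀ x, ξ x = 0 → ∀ s : ℝ, (θ + s • ξ) x = θ x := fun x hx s => by simp [hx]
  set R : Finset ℝ := (hT.toFinset.filter fun x => ξ x ≠ 0).image r with hR
  have hmem : ∀ x ∈ T, ξ x ≠ 0 → r x ∈ R := fun x hx h =>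
    Finset.mem_image_of_mem _ (Finset.mem_filter.2 ⟨hT.mem_toFinset.2 hx, h⟩)
  have hpos : ∀ {t z : ℝ}, 0 ≤ t → z ≠ 0 →
      ((t * z < 0 ∨ t * z = 0 ∧ z < 0) ↔ z < 0) ∧ ¬ (t * z = 0 ∧ z = 0) := by
    intro t z ht hz
    refine ⟨⟨fun h => ?_, fun h => ?_⟩, fun h => hz h.2⟩
    · rcases h with h | h
      · by_contra h'
        exact (mul_nonneg ht (not_lt.1 h')).not_gt h
      · exact h.2
    · rcases (mul_nonpos_of_nonneg_of_nonpos ht h.le).eq_or_lt with h' | h'
      exacts [Or.inr ⟨h', h⟩, Or.inl h']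
  have key : ∀ (k : ℕ) (s : ℝ), 0 ≤ s → (R.filter fun t => s < t).card ≤ k →
      ∀ b, SameSign T b (lexθ (θ + s • ξ) ξ) → Pr b := by
    intro k
    induction k using Nat.strong_induction_on with
    | _ k ih =>
    intro s hs hk b hb
    rcases (R.filter fun t => s < t).eq_empty_or_nonempty with he | hne
    · refine hinf b fun x hx => ?_
      obtain ⟨h1, h2⟩ := hb x hx
      rw [h1, h2, lexθ_lt_zero, lexθ_lt_zero, lexθ_eq_zero, lexθ_eq_zero]
      by_cases h : ξ x = 0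
      · simp [h]
      · have h3 : r x ≤ s := not_lt.1 (Finset.filter_eq_empty_iff.1 he (hmem x hx h))
        obtain ⟨h4, h5⟩ := hpos (sub_nonneg.2 h3) h
        rw [hroot x h, h4]
        simp [h]
    · set s' := (R.filter fun t => s < t).min' hne with hs'
      have h1 : s' ∈ R.filter fun t => s < t := Finset.min'_mem _ _
      have h2 : s < s' := (Finset.mem_filter.1 h1).2
      obtain ⟨ε, -, h3⟩ := exists_sameSign_lex hT (θ + s' • ξ) ξ
      have h4 : SameSign T (θ + s' • ξ + ε • ξ) (lexθ (θ + s' • ξ) ξ) :=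
        fun x hx => ⟨(h3 x hx).1.symm, (h3 x hx).2.symm⟩
      have h5 : (R.filter fun t => s' < t).card < (R.filter fun t => s < t).card := by
        refine Finset.card_lt_card ⟨fun t ht => ?_, fun h => ?_⟩
        · exact Finset.mem_filter.2 ⟨(Finset.mem_filter.1 ht).1, h2.trans (Finset.mem_filter.1 ht).2⟩
        · exact lt_irrefl _ (Finset.mem_filter.1 (h h1)).2
      refine hstep s' (hs.trans_lt h2) b _ (fun x hx => ?_) h4
        (ih _ (h5.trans_le hk) s' (hs.trans h2.le) le_rfl _ h4)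
      obtain ⟨h6, h7⟩ := hb x hx
      rw [h6, h7, lexθ_lt_zero, lexθ_lt_zero, lexθ_eq_zero, lexθ_eq_zero, AddMonoidHom.neg_apply]
      by_cases h : ξ x = 0
      · simp [h]
      rw [hroot x h, hroot x h]
      refine ⟨?_, by simp [h]⟩
      by_cases h8 : r x ≤ s
      · rw [(hpos (sub_nonneg.2 h8) h).1]
        have h9 : 0 < s' - r x := by linarith
        simp [h9.ne', h, mul_neg_iff, h9, h9.not_gt]
      · have h9 : s' ≤ r x :=
          Finset.min'_le _ _ (Finset.mem_filter.2 ⟨hmem x hx h, not_le.1 h8⟩)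
        have h10 := (hpos (sub_nonneg.2 h9) (neg_ne_zero.2 h)).1
        rw [show (r x - s') * -ξ x = (s' - r x) * ξ x by ring] at h10
        rw [h10]
        have h11 : s - r x < 0 := by linarith
        simp [h11.ne, h, mul_neg_iff, h11, h11.not_gt]
  refine key _ 0 le_rfl le_rfl θ fun x hx => ?_
  rw [lexθ_lt_zero, lexθ_eq_zero, zero_smul, add_zero]
  by_cases h : θ x = 0
  · simp [h, h0 x hx h]
  · simp [h]

end Crest.Agent.R059
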