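import Crest.Agent.R059.RotE
import Crest.Agent.R059.Baxter

/-! Row 59: the asymptotic coefficients of products of Hamiltonians. -/

set_option autoImplicit false
set_option linter.unusedSectionVars false
set_option linter.unusedVariables false

noncomputable section
open Classical

namespace Crest.Agent.R059

variable {n s : ℕ} (slot : Fin n → Fin s)

section General
variable {L : Type} [AddCommGroup L] [Module.Free ℤ L] [Module.Finite ℤ L]
variable {Ω : Form L} {deg : L →+ ℤ}

lemma supp_conj_prod {a : QT Ω deg} (ha : IsG a) (l : List (QT Ω deg)) :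
    inv a * l.prod * a = (l.map fun f => inv a * f * a).prod := by
  induction l with
  | nil => simp [Ring.inverse_mul_cancel _ ha.isUnit]
  | cons f l ih =>
    rw [List.prod_cons, List.map_cons, List.prod_cons, ← ih]
    have := Ring.mul_inverse_cancel _ ha.isUnit
    calc inv a * (f * l.prod) * a = inv a * f * (a * inv a) * l.prod * a := by
          rw [this]; simp [mul_assoc]
      _ = _ := by simp [mul_assoc]

lemma supp_face_mem {W : Type} [Fintype W] (C : Conf Ω W) {y y' : W} (h : C.Consec y y') :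
    C.x y' - C.x y ∈ C.seed :=
  Finset.mem_image.2 ⟨(y, y'), by simpa using h, rfl⟩

lemma supp_neg_mem (t : Finset L) (c : L) : -c ∈ cone (mutate Ω t c) :=
  AddSubmonoid.subset_closure (Finset.mem_insert_self _ _)

lemma supp_asym_nat {W : Type} [Fintype W] (C : Conf Ω W) (hC : C.Conn) (ξ η : L)
    (hξ : ∀ y, Ω.w ξ (C.x y) = 0)
    (hη : ∀ y, Ω.w (C.x y) η = 0) (hξη : Ω.w ξ η = 1) (κ : L →+ ℤ) (hκ : κ ξ = 1)
    (hκη : κ η = 0) (hκx : ∀ y, κ (C.x y) = 0) (y0 : W) (h0 : ∀ y, C.P y0 ≤ C.P y)
    (t : Finset L) (ht : ∀ z, z ∈ t ↔ z = ξ + C.x y0 ∨ z ∈ C.seed)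
    (hs : IsSeed t) (hd : DegOK deg t)
    {g : QT Ω deg} (hg : IsCl C.seed g) (μ : List ℕ) (m : L) :
    IsNat (asym g (C.EL deg μ) m) := by
  have : t = insert (ξ + C.x y0) C.seed := by ext z; rw [ht, Finset.mem_insert]
  subst this
  exact C.asym_EL_isNat hC ξ η hξ hη hξη κ hκ hκη hκx y0 h0 hs hd hg μ m

lemma supp_asym_sum {ι : Type} (g : QT Ω deg) (t : Finset ι) (f : ι → QT Ω deg) (m : L) :
    asym g (∑ i ∈ t, f i) m = ∑ i ∈ t, asym g (f i) m := by
  induction t using Finset.induction_on with
  | empty => simp [asym, chart]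
  | insert a t ha ih => rw [Finset.sum_insert ha, Finset.sum_insert ha, asym_add, ih]

lemma supp_shift_zero (S : Set L) : shift 0 S = S := by ext; simp [shift]

lemma supp_chart_ne_zero {M : AddSubmonoid L} (hM : GoodCone deg M) (hS : Sat M)
    {g f : QT Ω deg} (hg : IsG g) (hgM : SuppIn M g) (hW : WallPos M g) {p : L}
    (hf : SuppIn (shift p M) f) (h : ∀ m, IsNat (asym g f m)) (θ : L →+ ℤ) (m : L)
    (hm : asym g f m ≠ 0) : (chart g θ f).c m ≠ 0 := by
  intro h0
  have h1 := flow_int hM hS hg hgM hW hf h θ m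
  apply hm
  refine IsNat.eq_zero_of_add (h m) h1 ?_
  rw [h0]; ring
end General

lemma supp_kk_zero (i : Fin n) : kk n 0 i = 0 := by
  unfold kk
  apply Nat.div_eq_of_lt
  have := i.2
  omega

lemma supp_crd_xW (t : ℕ) (i : Fin n) (z : Vx n s) :
    crd (Sum.inl (Sum.inl i)) (xW slot t z) = if z = Sum.inl i then 1 else 0 := by
  rcases z with i' | j
  · by_cases h : i' = i
    · subst h; simp [crd, xW, dl, ev]
    · simp [crd, xW, dl, ev, h, Pi.single_apply, Ne.symm h]
  · simp [crd, xW, ev]

lemma supp_crd_bExp (i : Fin n) (lam : Fin (s + 1) → ℕ) :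
    crd (Sum.inl (Sum.inl i)) (bExp lam : LW n s) = 0 := by
  simp [crd, bExp, ev]

lemma supp_cW_ne_zero (hn : 0 < n) (t : ℕ) : cW slot hn t ≠ 0 := by
  intro h
  have := congrArg (crd (Sum.inl (Sum.inl ⟨t % n, Nat.mod_lt _ hn⟩))) h
  rw [cW, map_sub, supp_crd_xW] at this
  simp [crd, ev] at this

/-- The product of the first `t` walls. -/
def RW (hn : 0 < n) (deg : LW n s →+ ℤ) (t : ℕ) : QT (ΩW slot) deg :=
  PhiL (ΩW slot) deg ((List.range t).map fun j => (cW slot hn j, 1))

lemma supp_conj_RW (hn : 0 < n) {deg : LW n s →+ ℤ} (hd : DegOK deg (confW slot 0).seed)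
    (t : ℕ) (μ : List ℕ) :
    inv (RW slot hn deg t) * (confW slot 0).EL deg μ * RW slot hn deg t =
      (confW slot t).EL deg μ := by
  induction t with
  | zero => simp [RW, PhiL]
  | succ t ih =>
    have hpos : 0 < deg (cW slot hn t) :=
      hd.goodCone.1 _ (cW_mem_cone slot hn t) (supp_cW_ne_zero slot hn t)
    have hR : RW slot hn deg (t + 1) = RW slot hn deg t * Phi (ΩW slot) deg (cW slot hn t) 1 := by
      simp [RW, PhiL, List.range_succ]
    have hinv : inv (RW slot hn deg (t + 1)) =
        inv (Phi (ΩW slot) deg (cW slot hn t) 1) * inv (RW slot hn deg t) := by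
      rw [hR]; exact Ring.inverse_mul (Or.inr (isG_Phi _ _).isUnit)
    rw [hinv, hR]
    calc _ = inv (Phi (ΩW slot) deg (cW slot hn t) 1) *
          (inv (RW slot hn deg t) * (confW slot 0).EL deg μ * RW slot hn deg t) *
            Phi (ΩW slot) deg (cW slot hn t) 1 := by simp only [mul_assoc]
      _ = _ := by
        rw [ih, Conf.EL, supp_conj_prod (isG_Phi _ _), List.map_map, Conf.EL]
        congr 1
        refine List.map_congr_left fun k _ => ?_
        exact conj_E_succ slot hn t hpos k

lemma supp_adj_int (a b c N : ℤ) (h0 : 0 ≤ c) (h1 : c < N) :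
    adjS (N + 1) ((a + 1) * (N + 1)) (b * (N + 1)) -
      adjS (N + 1) (a * (N + 1) + (c + 1)) (b * (N + 1)) =
      (if b = a then 1 else 0) - (if b = a + 1 then 1 else 0) := by
  have e1 : (a + 1) * (N + 1) = a * (N + 1) + (N + 1) := by ring
  rw [e1]
  unfold adjS
  rcases lt_trichotomy b a with h | h | h
  · have : b * (N + 1) + (N + 1) ≤ a * (N + 1) := by nlinarith
    generalize a * (N + 1) = A at *
    generalize b * (N + 1) = B at *
    split_ifs <;> omega
  · subst h
    generalize b * (N + 1) = B at *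
    split_ifs <;> omega
  · rcases eq_or_lt_of_le (Int.add_one_le_of_lt h) with h' | h'
    · subst h'
      rw [e1]
      generalize a * (N + 1) = A at *
      split_ifs <;> omega
    · have : a * (N + 1) + 2 * (N + 1) ≤ b * (N + 1) := by nlinarith
      generalize a * (N + 1) = A at *
      generalize b * (N + 1) = B at *
      split_ifs <;> omega

lemma supp_w_last (i : Fin n) (lam : Fin (s + 1) → ℕ) :
    (ΩW slot).w (xW slot 0 (Sum.inr (slot i).succ) - xW slot 0 (Sum.inl i)) (bExp lam) =
      (lam (slot i).castSucc : ℤ) - lam (slot i).succ := by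
  have key : ∀ j : Fin (s + 1),
      (ΩW slot).w (xW slot 0 (Sum.inr (slot i).succ) - xW slot 0 (Sum.inl i)) (ev (Sum.inr j)) =
        (if j = (slot i).castSucc then 1 else 0) - (if j = (slot i).succ then 1 else 0) := by
    intro j
    have h1 := compatW slot 0 (Sum.inr (slot i).succ) (Sum.inr j)
    have h2 := compatW slot 0 (Sum.inl i) (Sum.inr j)
    rw [map_sub, AddMonoidHom.sub_apply]
    change (ΩW slot).w _ (xW slot 0 (Sum.inr j)) - (ΩW slot).w _ (xW slot 0 (Sum.inr j)) = _
    rw [h1, h2]
    have h3 := supp_adj_int (slot i : ℕ) (j : ℕ) (i : ℕ) n (by omega) (by have := i.2; omega)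
    have e1 : posW slot 0 (Sum.inr (slot i).succ) = (((slot i : ℕ) : ℤ) + 1) * (n + 1) := by
      simp [posW]
    have e2 : posW slot 0 (Sum.inl i) = ((slot i : ℕ) : ℤ) * (n + 1) + ((i : ℕ) + 1) := by
      simp [posW, supp_kk_zero]
    have e3 : posW slot 0 (Sum.inr j) = ((j : ℕ) : ℤ) * (n + 1) := rfl
    rw [e1, e2, e3, h3]
    congr 1
    · refine if_congr ?_ rfl rfl
      rw [Fin.ext_iff, Fin.val_castSucc]; omega
    · refine if_congr ?_ rfl rfl
      rw [Fin.ext_iff, Fin.val_succ]; omega
  rw [bExp, map_sum]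
  simp only [map_nsmul, key]
  simp only [nsmul_eq_mul, mul_sub, Finset.sum_sub_distrib, mul_ite, mul_one,
    mul_zero, Finset.sum_ite_eq', Finset.mem_univ, if_true]

lemma supp_exists_last (hs : Function.Surjective slot) (j : Fin s) :
    ∃ i : Fin n, slot i = j ∧ (confW slot 0).Consec (Sum.inl i) (Sum.inr j.succ) := by
  obtain ⟨i, hi, hmax⟩ := Finset.exists_max_image (Finset.univ.filter fun i => slot i = j)
    (fun i => i) (by obtain ⟨i, hi⟩ := hs j; exact ⟨i, by simp [hi]⟩)
  have hi' : slot i = j := by simpa using hi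
  refine ⟨i, hi', ?_, ?_⟩
  · show posW slot 0 (Sum.inl i) < posW slot 0 (Sum.inr j.succ)
    simp only [posW, supp_kk_zero, hi', Fin.val_succ]
    have := i.2
    push_cast; nlinarith
  · rintro (i' | j') ⟨h1, h2⟩
    · change posW slot 0 (Sum.inl i) < posW slot 0 (Sum.inl i') at h1
      change posW slot 0 (Sum.inl i') < posW slot 0 (Sum.inr j.succ) at h2
      simp only [posW, supp_kk_zero, hi', Fin.val_succ] at h1 h2
      push_cast at h1 h2
      have a1 := i.2
      have a2 := i'.2
      have hle : (slot i' : ℤ) ≤ j := by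
        by_contra hc
        push Not at hc
        nlinarith
      have hge : (j : ℤ) ≤ slot i' := by
        by_contra hc
        push Not at hc
        nlinarith
      have heq : slot i' = j := Fin.ext (by omega)
      have := hmax i' (by simp [heq])
      rw [heq] at h1
      have : (i' : ℕ) ≤ i := this
      omega
    · change posW slot 0 (Sum.inl i) < posW slot 0 (Sum.inr j') at h1
      change posW slot 0 (Sum.inr j') < posW slot 0 (Sum.inr j.succ) at h2
      simp only [posW, supp_kk_zero, hi', Fin.val_succ] at h1 h2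
      push_cast at h1 h2
      have hlt : (j' : ℤ) < j + 1 := by
        by_contra hc
        push Not at hc
        nlinarith
      have : (j' : ℤ) * (n + 1) ≤ j * (n + 1) := by nlinarith
      omega

lemma supp_xW_bool (t : ℕ) (y : Vx n s) (b : Bool) : xW slot t y (Sum.inr b) = 0 := by
  rcases y with i | j <;> simp [xW, dl, ev]
lemma supp_w_xi (y : Vx n s) : (ΩW slot).w eξ ((confW slot 0).x y) = 0 := by
  show wW slot eξ (xW slot 0 y) = 0
  simp [wW, eξ, supp_xW_bool]
lemma supp_w_eta (y : Vx n s) : (ΩW slot).w ((confW slot 0).x y) eη = 0 := by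
  show wW slot (xW slot 0 y) eη = 0
  simp [wW, eη, supp_xW_bool]
lemma supp_w_xi_eta : (ΩW slot).w eξ eη = 1 := by
  show wW slot eξ eη = 1
  simp [wW, eξ, eη]
lemma supp_crd_xi (y : Vx n s) : crd (Sum.inr false) ((confW slot 0).x y) = 0 :=
  supp_xW_bool slot 0 y false

theorem asym_EL (hn : 0 < n) (hs : Function.Surjective slot) {deg : LW n s →+ ℤ}
    (hd : DegOK deg (seedX slot)) {g : QT (ΩW slot) deg} (hg : IsCl (confW slot 0).seed g)
    (μ : List ℕ) (m : LW n s) :
    asym g ((confW slot 0).EL deg μ) m =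
      if ∃ lam : Fin (s + 1) → ℕ, Antitone lam ∧ m = bExp lam then ((confW slot 0).EL deg μ).c m
      else 0 := by
  have hs0 : IsSeed (confW slot 0).seed := (isSeed_seedX slot).subset (Finset.subset_insert _ _)
  have hd0 : DegOK deg (confW slot 0).seed := fun F hF => hd F (Finset.mem_insert_of_mem hF)
  have hM := hd0.goodCone
  have hW := wallPos hs0 hd0 hg
  have hf := (confW slot 0).EL_suppIn_shift (deg := deg) (Sum.inr 0) (posW_zero_le slot 0) μ
  have hnat : ∀ m, IsNat (asym g ((confW slot 0).EL deg μ) m) := fun m =>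
    supp_asym_nat (confW slot 0) (connW slot hs 0) eξ eη (supp_w_xi slot) (supp_w_eta slot)
      (supp_w_xi_eta slot) (crd (Sum.inr false)) (by simp [crd, eξ]) (by simp [crd, eη])
      (supp_crd_xi slot) (Sum.inr 0) (posW_zero_le slot 0) (seedX slot)
      (fun z => Finset.mem_insert) (isSeed_seedX slot) hd hg μ m
  have hgreen := fun k => green (Ω := ΩW slot) (deg := deg) (fun t => (confW slot t).seed)
    (cW slot hn) k hs0 hd0 (fun j _ => cW_mem slot hn j) (fun j _ => seed_succ slot hn hs j)
    (fun j _ => cW_mem_cone slot hn j) (fun i j h _ => neg_cW_mem_cone slot hn h) hg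
  have hchart := fun k => green_chart (Ω := ΩW slot) (deg := deg) (fun t => (confW slot t).seed)
    (cW slot hn) k hs0 hd0 (fun j _ => cW_mem slot hn j) (fun j _ => seed_succ slot hn hs j)
    (fun j _ => cW_mem_cone slot hn j) (fun i j h _ => neg_cW_mem_cone slot hn h) hg
  split_ifs with hm
  · obtain ⟨lam, hlam, rfl⟩ := hm
    set p := μ.sum • (confW slot 0).x (Sum.inr 0) with hp
    by_cases hmem : bExp lam - p ∈ cone (confW slot 0).seed
    swap
    · rw [asym_eq_zero hg.1 hg.2.1 hf hmem]
      by_contra hne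
      exact hmem (hf _ (Ne.symm hne))
    set N := (deg (bExp lam - p)).toNat + 1 with hN
    obtain ⟨-, r, hr, hrs, hgr⟩ := hgreen (N * n)
    set r' := restrict (nnM ((ΩW slot).th (bExp lam)) : Set (LW n s)) r with hr'
    have hr'c : ∀ x, r'.c x ≠ 0 → r.c x ≠ 0 ∧ x ∈ nnM ((ΩW slot).th (bExp lam)) := by
      intro x hx
      simp only [hr', restrict] at hx
      split_ifs at hx with h
      · exact ⟨hx, h⟩
      · exact absurd rfl hx
    have hr'G : IsG r' := by
      refine ⟨?_, fun x hx h => hr.2 x hx (hr'c x h).1⟩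
      simp only [hr', restrict]
      exact (if_pos (nnM ((ΩW slot).th (bExp lam))).zero_mem).trans hr.1
    have hrM : SuppIn (cone (confW slot 0).seed) r := fun x hx => (hrs x hx).1
    have hr'M : SuppIn (cone (confW slot 0).seed) r' := fun x hx => hrM x (hr'c x hx).1
    have hRM : SuppIn (cone (confW slot 0).seed) (RW slot hn deg (N * n)) :=
      suppIn_PhiL (fun t ht => by
        obtain ⟨j, -, rfl⟩ := List.mem_map.1 ht
        exact cW_mem_cone slot hn j)
    have hS := lowerIn_below (cone (confW slot 0).seed) (bExp lam - p)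
    have hrr : Agree (below (cone (confW slot 0).seed) (bExp lam - p)) r r' := by
      intro x hx
      simp only [hr', restrict]
      split_ifs with h
      · rfl
      · by_contra hne
        apply h
        have h1 : 0 ≤ deg (bExp lam - p - x) := hM.nonneg hx.2
        rw [map_sub] at h1
        exact w_bExp_nonneg slot hn hs hd0 N (hrs x hne).1 (hrs x hne).2 (by omega) hlam
    have hgg : Agree (below (cone (confW slot 0).seed) (bExp lam - p)) g
        (RW slot hn deg (N * n) * r') := by
      have := Agree.mul (p := 0) (q := 0) hS (a := RW slot hn deg (N * n))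
        (a' := RW slot hn deg (N * n)) (b := r) (b' := r') (by rwa [supp_shift_zero])
        (by rwa [supp_shift_zero]) (by rwa [supp_shift_zero]) (by rwa [supp_shift_zero])
        (fun _ _ => rfl) (by rwa [supp_shift_zero])
      rw [add_zero, supp_shift_zero] at this
      rw [hgr]; exact this
    have h1 := chart_agree hS (θ := (ΩW slot).th (bExp lam)) (θ' := (ΩW slot).th (bExp lam))
      hg.1 ((isG_PhiL _).mul hr'G) hg.2.1 (hRM.mul hr'M) hgg (fun _ _ => ⟨Iff.rfl, Iff.rfl⟩)
      hf hf (fun _ _ => rfl) (bExp lam) ⟨hmem, by simp⟩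
    have h2 := asym_eq_of_weak ((confW slot 0).EL deg μ) (bExp lam) (isG_PhiL _) hr'G
      (A := RW slot hn deg (N * n)) (suppIn_PhiL (fun t ht => by
        obtain ⟨j, -, rfl⟩ := List.mem_map.1 ht
        show 0 ≤ -(ΩW slot).w (cW slot hn j) (bExp lam)
        have := w_cW_bExp slot hn j hlam
        omega)) (fun x hx => (hr'c x hx).2)
    rw [supp_conj_RW slot hn hd0, EL_c_bExp, ← EL_c_bExp slot (deg := deg) 0] at h2
    exact h1.trans h2
  · by_contra hne
    apply hm
    have hch := fun θ : LW n s →+ ℤ =>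
      supp_chart_ne_zero hM hs0.sat hg.1 hg.2.1 hW hf hnat θ m hne
    obtain ⟨lam, rfl⟩ : ∃ lam, m = bExp lam := by
      refine pure_of_forall slot hn (deg := deg) μ m fun N => ?_
      obtain ⟨θ, hθ⟩ := hchart (N * n)
      have := hch θ
      rw [chart, hθ] at this
      rw [← supp_conj_RW slot hn hd0]; exact this
    refine ⟨lam, Fin.antitone_iff_succ_le.2 fun j => ?_, rfl⟩
    obtain ⟨i, rfl, hi⟩ := supp_exists_last slot hs j
    set F := (confW slot 0).x (Sum.inr (slot i).succ) - (confW slot 0).x (Sum.inl i) with hF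
    have hFm : F ∈ (confW slot 0).seed := supp_face_mem _ hi
    obtain ⟨θ, hθ⟩ := green_chart (Ω := ΩW slot) (deg := deg)
      (fun t => if t = 0 then (confW slot 0).seed else mutate (ΩW slot) (confW slot 0).seed F)
      (fun _ => F) 1 hs0 hd0 (fun j hj => by
        obtain rfl : j = 0 := by omega
        exact hFm) (fun j hj => by
        obtain rfl : j = 0 := by omega
        simp) (fun _ _ => AddSubmonoid.subset_closure hFm) (fun i j h1 h2 => by
        obtain rfl : j = 1 := by omega
        exact supp_neg_mem _ _) hg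
    have h1 := hch θ
    rw [chart, hθ] at h1
    have h2 : PhiL (ΩW slot) deg ((List.range 1).map fun _ => (F, (1 : ℤ))) =
        Phi (ΩW slot) deg F 1 := by simp [PhiL]
    rw [h2] at h1
    have h3 := (confW slot 0).conj_EL_supp hi (connW slot hs 0 _ _ hi) (hd0 F hFm)
      (crd (Sum.inl (Sum.inl i))) ((supp_crd_xW slot 0 i (Sum.inl i)).trans (if_pos rfl))
      (fun z hz => (supp_crd_xW slot 0 i z).trans (if_neg hz)) μ _ h1
    have h4 : 0 ≤ (ΩW slot).w F (bExp lam) + crd (Sum.inl (Sum.inl i)) (bExp lam : LW n s) := h3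
    have h5 : (ΩW slot).w F (bExp lam) = _ := supp_w_last slot i lam
    rw [supp_crd_bExp, h5] at h4
    omega

lemma supp_bExp_apply (lam : Fin (s + 1) → ℕ) (j : Fin (s + 1)) :
    (bExp lam : LW n s) (Sum.inl (Sum.inr j)) = lam j := by
  simp [bExp, ev, Pi.single_apply]

lemma supp_bExp_inj {lam lam' : Fin (s + 1) → ℕ} (h : (bExp lam : LW n s) = bExp lam') :
    lam = lam' := by
  funext j
  have := congrFun h (Sum.inl (Sum.inr j))
  rw [supp_bExp_apply, supp_bExp_apply] at this
  exact_mod_cast this

lemma supp_sum_eq {deg : LW n s →+ ℤ} (μ : List ℕ) (lam : Fin (s + 1) → ℕ)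
    (h : ((confW slot 0).EL deg μ).c (bExp lam) ≠ 0) : ∑ j, lam j = μ.sum := by
  obtain ⟨a, ha, hb⟩ := (confW slot 0).EL_supp μ _ h
  have hx : ∀ y, (confW slot 0).x y = ev y := by
    rintro (i | j)
    · show xW slot 0 (Sum.inl i) = _
      simp [xW, supp_kk_zero]
    · rfl
  have hc : ∀ y, (bExp lam : LW n s) (Sum.inl y) = a y := by
    intro y
    rw [hb]
    simp [hx, ev, Pi.single_apply]
  rw [← ha, Fintype.sum_sum_type]
  have h1 : ∀ i, a (Sum.inl i) = 0 := fun i => by
    have h2 := hc (Sum.inl i)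
    have h3 : (bExp lam : LW n s) (Sum.inl (Sum.inl i)) = 0 := supp_crd_bExp i lam
    omega
  have h2 : ∀ j, a (Sum.inr j) = lam j := fun j => by
    have h2 := hc (Sum.inr j)
    rw [supp_bExp_apply] at h2
    omega
  simp [h1, h2]

/-- Positive expansion: the coefficient of `u_1 ⋯ u_n`. -/
theorem exists_coeffs (hn : 0 < n) (hs : Function.Surjective slot) {deg : LW n s →+ ℤ}
    (hd : DegOK deg (seedX slot)) :
    ∃ c : (Fin (s + 1) → ℕ) → K, (∀ lam, IsNat (c lam)) ∧ ∀ μ : List ℕ, μ.sum = n →
      ((confW slot 0).EL deg μ).c uAll =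
        ∑ lam ∈ (Finset.Iic (fun _ : Fin (s + 1) => n)).filter
            (fun lam => Antitone lam ∧ ∑ j, lam j = n),
          ((MvPolynomial.coeff (Finsupp.equivFunOnFinite.symm lam)
            (μ.map fun k => MvPolynomial.esymm (Fin (s + 1)) ℤ k).prod : ℤ) : K) * c lam := by
  have hs0 : IsSeed (confW slot 0).seed := (isSeed_seedX slot).subset (Finset.subset_insert _ _)
  have hd0 : DegOK deg (confW slot 0).seed := fun F hF => hd F (Finset.mem_insert_of_mem hF)
  have hM := hd0.goodCone
  obtain ⟨g, hg⟩ := exists_isCl (Ω := ΩW slot) hd0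
  have hW := wallPos hs0 hd0 hg
  set p : LW n s := n • (confW slot 0).x (Sum.inr 0) with hp
  have hmem : ∀ lam : Fin (s + 1) → ℕ, ∑ j, lam j = n →
      bExp lam - p ∈ cone (confW slot 0).seed := by
    intro lam hl
    have : bExp lam - p = ∑ j, lam j • ((confW slot 0).x (Sum.inr j) -
        (confW slot 0).x (Sum.inr 0)) := by
      simp only [smul_sub, Finset.sum_sub_distrib, ← Finset.sum_smul, hl, hp]
      rfl
    rw [this]
    exact sum_mem fun j _ => nsmul_mem ((confW slot 0).sub_mem_cone (y := Sum.inr 0)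
      (y' := Sum.inr j) (posW_zero_le slot 0 (Sum.inr j))) _
  have hth : ∀ lam : Fin (s + 1) → ℕ, ∃ f : QT (ΩW slot) deg, ∑ j, lam j = n →
      SuppIn (shift p (cone (confW slot 0).seed)) f ∧
        ∀ m, asym g f m = if m = bExp lam then 1 else 0 := by
    intro lam
    by_cases hl : ∑ j, lam j = n
    · obtain ⟨f, h1, h2⟩ := exists_asym hM p hg.1 hg.2.1
        (fun m => if m = bExp lam then 1 else 0) (fun m hm => by
          split_ifs at hm with h
          · rw [h]; exact hmem lam hl
          · exact absurd rfl hm)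
      exact ⟨f, fun _ => ⟨h1, h2⟩⟩
    · exact ⟨0, fun h => absurd h hl⟩
  choose th hth using hth
  refine ⟨fun lam => if ∑ j, lam j = n then (th lam).c uAll else 0, fun lam => ?_, fun μ hμ => ?_⟩
  · beta_reduce
    split_ifs with hl
    · have hn' : ∀ m, IsNat (asym g (th lam) m) := fun m => by
        rw [(hth lam hl).2]; split_ifs
        · exact IsNat.one
        · exact IsNat.zero
      have h1 := flow_int hM hs0.sat hg.1 hg.2.1 hW (hth lam hl).1 hn' deg uAll
      rw [chart_deg hg.1] at h1
      simpa using h1.add (hn' uAll)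
    · exact IsNat.zero
  set t := (Finset.Iic (fun _ : Fin (s + 1) => n)).filter
    (fun lam => Antitone lam ∧ ∑ j, lam j = n) with ht
  have hf := (confW slot 0).EL_suppIn_shift (deg := deg) (Sum.inr 0) (posW_zero_le slot 0) μ
  rw [hμ] at hf
  have hzero : (confW slot 0).EL deg μ +
      ∑ lam ∈ t, (-((confW slot 0).EL deg μ).c (bExp lam)) • th lam = 0 := by
    refine eq_zero_of_asym hM (p := p) hg.1 hg.2.1 (fun x hx => ?_) fun m => ?_
    · by_contra hc
      apply hx
      rw [QT.add_c, Pi.add_apply, QT.sum_c]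
      have h1 : ((confW slot 0).EL deg μ).c x = 0 := by
        by_contra h; exact hc (hf x h)
      rw [h1, zero_add]
      refine Finset.sum_eq_zero fun lam hlam => ?_
      have h2 : (th lam).c x = 0 := by
        by_contra h; exact hc ((hth lam (Finset.mem_filter.1 hlam).2.2).1 x h)
      simp [h2]
    · rw [asym_add, supp_asym_sum, asym_EL slot hn hs hd hg]
      have h1 : ∑ lam ∈ t, asym g ((-((confW slot 0).EL deg μ).c (bExp lam)) • th lam) m =
          ∑ lam ∈ t, if m = bExp lam then -((confW slot 0).EL deg μ).c m else 0 := by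
        refine Finset.sum_congr rfl fun lam hlam => ?_
        rw [asym_smul, (hth lam (Finset.mem_filter.1 hlam).2.2).2]
        split_ifs with h
        · rw [h, mul_one]
        · rw [mul_zero]
      rw [h1]
      split_ifs with hm
      · obtain ⟨lam, hlam, rfl⟩ := hm
        by_cases h0 : ((confW slot 0).EL deg μ).c (bExp lam) = 0
        · simp [h0]
        have hl : ∑ j, lam j = n := by rw [← hμ]; exact supp_sum_eq slot μ lam h0
        rw [Finset.sum_eq_single lam, if_pos rfl, add_neg_cancel]
        · intro lam' _ hne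
          exact if_neg fun h => hne (supp_bExp_inj h).symm
        · intro hnot
          exfalso; apply hnot
          refine Finset.mem_filter.2 ⟨Finset.mem_Iic.2 fun j => ?_, hlam, hl⟩
          rw [← hl]
          exact Finset.single_le_sum (fun _ _ => Nat.zero_le _) (Finset.mem_univ j)
      · rw [zero_add]
        refine Finset.sum_eq_zero fun lam hlam => if_neg fun h => hm ⟨lam, ?_, h⟩
        exact (Finset.mem_filter.1 hlam).2.1
  have h2 : ((confW slot 0).EL deg μ).c uAll +
      ∑ lam ∈ t, (-((confW slot 0).EL deg μ).c (bExp lam)) * (th lam).c uAll = 0 := by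
    have h3 := congrArg (fun f : QT (ΩW slot) deg => f.c uAll) hzero
    beta_reduce at h3
    rw [QT.add_c, Pi.add_apply, QT.sum_c] at h3
    exact h3
  have h3 : ∑ lam ∈ t, (-((confW slot 0).EL deg μ).c (bExp lam)) * (th lam).c uAll =
      -∑ lam ∈ t, ((confW slot 0).EL deg μ).c (bExp lam) * (th lam).c uAll := by
    rw [← Finset.sum_neg_distrib]
    exact Finset.sum_congr rfl fun lam _ => by ring
  rw [h3] at h2
  rw [add_neg_eq_zero.1 h2]
  refine Finset.sum_congr rfl fun lam hlam => ?_
  beta_reduce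
  rw [EL_c_bExp, if_pos (Finset.mem_filter.1 hlam).2.2]

end Crest.Agent.R059
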