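import Crest.Agent.R059.Tr

/-! Row 59: projectors and the monomial formula for graded traces. -/

set_option autoImplicit false
set_option linter.unusedSectionVars false
set_option linter.unusedVariables false

noncomputable section
open Classical MvPolynomial

namespace Crest.Agent.R059

section lin
variable {M : Type} [AddCommGroup M] [Module ℂ M]

theorem tens_trOn_range (g : M →ₗ[ℂ] M) {U H : Submodule ℂ M} [FiniteDimensional ℂ H]
    (hle : U ≤ H) (hg : ∀ x ∈ H, g x ∈ U) : trOn g H = trOn g U := by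
  have := Submodule.finiteDimensional_of_le hle
  have h1 : ∀ x ∈ H, g x ∈ H := fun x hx => hle (hg x hx)
  have h2 : ∀ x ∈ U, g x ∈ U := fun x hx => hg x (hle hx)
  rw [trOn, trOn, dif_pos h1, dif_pos h2]
  exact LinearMap.trace_comp_comm' (g.restrict hg) (Submodule.inclusion hle)

theorem tens_trOn_congr {f g : M →ₗ[ℂ] M} {U : Submodule ℂ M} (h : ∀ x ∈ U, f x = g x) :
    trOn f U = trOn g U := by
  by_cases hf : ∀ x ∈ U, f x ∈ U
  · have hg : ∀ x ∈ U, g x ∈ U := fun x hx => h x hx ▸ hf x hx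
    rw [trOn, trOn, dif_pos hf, dif_pos hg]
    congr 1
    exact LinearMap.ext fun x => Subtype.ext (h x x.2)
  · have hg : ¬ ∀ x ∈ U, g x ∈ U := fun hg => hf fun x hx => (h x hx).symm ▸ hg x hx
    rw [trOn, trOn, dif_neg hf, dif_neg hg]

theorem tens_trOn_sub {f g : M →ₗ[ℂ] M} {U : Submodule ℂ M} (hf : ∀ x ∈ U, f x ∈ U)
    (hg : ∀ x ∈ U, g x ∈ U) : trOn (f - g) U = trOn f U - trOn g U := by
  have h : ∀ x ∈ U, (f - g) x ∈ U := fun x hx => U.sub_mem (hf x hx) (hg x hx)
  rw [trOn, trOn, trOn, dif_pos hf, dif_pos hg, dif_pos h, ← map_sub]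
  rfl

theorem tens_trOn_proj (f p : M →ₗ[ℂ] M) {U U' H : Submodule ℂ M} [FiniteDimensional ℂ H]
    (hU : U ≤ H) (hU' : U' ≤ U) (fU : ∀ x ∈ U, f x ∈ U) (fU' : ∀ x ∈ U', f x ∈ U')
    (p1 : ∀ x ∈ H, p x ∈ U) (p2 : ∀ x ∈ U', p x = 0) (p3 : ∀ x ∈ U, x - p x ∈ U') :
    trOn f U - trOn f U' = trOn (f ∘ₗ p) H := by
  have := Submodule.finiteDimensional_of_le hU
  have h1 : trOn (f ∘ₗ p) H = trOn (f ∘ₗ p) U :=
    tens_trOn_range _ hU fun x hx => fU _ (p1 x hx)
  have h2 : trOn (f - f ∘ₗ p) U = trOn (f - f ∘ₗ p) U' :=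
    tens_trOn_range _ hU' fun x hx => by
      have := fU' _ (p3 x hx)
      rwa [map_sub] at this
  have h3 : trOn (f - f ∘ₗ p) U' = trOn f U' :=
    tens_trOn_congr fun x hx => by simp [p2 x hx]
  rw [h1, ← h3, ← h2, tens_trOn_sub (g := f ∘ₗ p) fU fun x hx => fU (p x) (p1 x (hU hx))]
  ring

theorem tens_exists_proj {A A' : Submodule ℂ M} (h : A' ≤ A) :
    ∃ p : M →ₗ[ℂ] M, (∀ x, p x ∈ A) ∧ (∀ x ∈ A', p x = 0) ∧ (∀ x ∈ A, x - p x ∈ A') ∧
      ∀ x, p (p x) = p x := by
  obtain ⟨C, hC⟩ := A'.exists_isCompl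
  obtain ⟨E, hE⟩ := A.exists_isCompl
  have hq : ∀ x ∈ A, C.projection A' hC.symm x ∈ A := fun x hx => by
    have := A.sub_mem hx (h (Submodule.sub_projection_mem hC.symm x))
    rwa [sub_sub_cancel] at this
  refine ⟨C.projection A' hC.symm ∘ₗ A.projection E hE, fun x => ?_, fun x hx => ?_,
    fun x hx => ?_, fun x => ?_⟩
  · exact hq _ (Submodule.projection_apply_mem hE x)
  · rw [LinearMap.comp_apply, Submodule.projection_apply_of_mem_left hE (h hx),
      Submodule.projection_apply_eq_zero_iff]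
    exact hx
  · rw [LinearMap.comp_apply, Submodule.projection_apply_of_mem_left hE hx]
    exact Submodule.sub_projection_mem hC.symm x
  · rw [LinearMap.comp_apply, LinearMap.comp_apply, Submodule.projection_apply_of_mem_left hE
      (hq _ (Submodule.projection_apply_mem hE x)),
      Submodule.projection_apply_of_mem_left hC.symm (Submodule.projection_apply_mem _ _)]

end lin

variable {α β : Type} [Fintype α] [Fintype β]

/-- exponent vectors of degree `D` -/
def degS (α : Type) [Fintype α] (D : ℕ) : Finset (α →₀ ℕ) :=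
  (Finsupp.finite_of_degree_eq (σ := α) D).toFinset

theorem mem_degS {D : ℕ} {m : α →₀ ℕ} : m ∈ degS α D ↔ m.degree = D := by
  simp [degS]

theorem tens_hom_sum {D : ℕ} {x : P α} (hx : x.IsHomogeneous D) :
    x = ∑ m ∈ degS α D, coeff m x • monomial m (1 : ℂ) := by
  ext k
  simp only [coeff_sum, coeff_smul, coeff_monomial, smul_eq_mul, mul_ite, mul_one, mul_zero,
    Finset.sum_ite_eq', mem_degS]
  split_ifs with h
  · rfl
  · exact hx.coeff_eq_zero h

/-- degree preserving maps -/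
def DegP (p : P α →ₗ[ℂ] P α) : Prop := ∀ m : α →₀ ℕ, (p (monomial m 1)).IsHomogeneous m.degree

theorem DegP.hom {p : P α →ₗ[ℂ] P α} (hp : DegP p) {D : ℕ} {x : P α} (hx : x.IsHomogeneous D) :
    (p x).IsHomogeneous D := by
  rw [tens_hom_sum hx, map_sum]
  refine (homogeneousSubmodule α ℂ D).sum_mem fun m hm => ?_
  rw [map_smul]
  exact (homogeneousSubmodule α ℂ D).smul_mem _ (mem_degS.1 hm ▸ hp m)

theorem DegP.act {p : P α →ₗ[ℂ] P α} (hp : DegP p) (σ : α → α) : DegP (act σ ∘ₗ p) :=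
  fun m => (hp m).rename_isHomogeneous

theorem tens_trOn_hom {g : P α →ₗ[ℂ] P α} (hg : DegP g) (D : ℕ) :
    trOn g (homogeneousSubmodule α ℂ D) = ∑ m ∈ degS α D, coeff m (g (monomial m 1)) := by
  have : FiniteDimensional ℂ (homogeneousSubmodule α ℂ D) :=
    Module.Finite.iff_fg.2 (homogeneousSubmodule_fg α ℂ D)
  have h : ∀ x ∈ homogeneousSubmodule α ℂ D, g x ∈ homogeneousSubmodule α ℂ D :=
    fun x hx => hg.hom hx
  rw [trOn, dif_pos h]
  have key : g.restrict h = ∑ m ∈ (degS α D).attach,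
      (lcoeff ℂ m.1 ∘ₗ (homogeneousSubmodule α ℂ D).subtype).smulRight
        (⟨g (monomial m.1 1), hg.hom (isHomogeneous_monomial _ (mem_degS.1 m.2))⟩ : homogeneousSubmodule α ℂ D) := by
    refine LinearMap.ext fun x => Subtype.ext ?_
    simp only [LinearMap.coe_restrict_apply, LinearMap.sum_apply, LinearMap.smulRight_apply,
      Submodule.coe_sum, Submodule.coe_smul, LinearMap.comp_apply, Submodule.subtype_apply,
      lcoeff_apply]
    rw [Finset.sum_attach (degS α D) (fun m => coeff m x.1 • g (monomial m 1))]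
    conv_lhs => rw [tens_hom_sum x.2, map_sum]
    simp only [map_smul]
  rw [key, map_sum]
  simp only [LinearMap.trace_smulRight, LinearMap.comp_apply, Submodule.subtype_apply,
    lcoeff_apply]
  exact Finset.sum_attach (degS α D) (fun m => coeff m (g (monomial m 1)))

/-- projectors for a pair of subspaces -/
structure IsPr (A A' : Submodule ℂ (P α)) (p : P α →ₗ[ℂ] P α) : Prop where
  p1 : ∀ x, p x ∈ A
  p2 : ∀ x ∈ A', p x = 0
  p3 : ∀ x ∈ A, x - p x ∈ A'
  deg : DegP p

theorem IsPr.coeff_ch {A A' : Submodule ℂ (P α)} {p : P α →ₗ[ℂ] P α} (hp : IsPr A A' p)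
    (hA : A' ≤ A) {σ : Equiv.Perm α} (sA : Stab σ A) (sA' : Stab σ A') (D : ℕ) :
    PowerSeries.coeff D (ch A A' σ) =
      ∑ m ∈ degS α D, coeff m (rename σ (p (monomial m 1))) := by
  have : FiniteDimensional ℂ (homogeneousSubmodule α ℂ D) :=
    Module.Finite.iff_fg.2 (homogeneousSubmodule_fg α ℂ D)
  rw [ch, PowerSeries.coeff_mk, tens_trOn_proj (act σ) p (H := homogeneousSubmodule α ℂ D)
    inf_le_right (inf_le_inf_right _ hA)
    (fun x hx => ⟨sA x hx.1, IsHomogeneous.rename_isHomogeneous hx.2⟩)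
    (fun x hx => ⟨sA' x hx.1, IsHomogeneous.rename_isHomogeneous hx.2⟩)
    (fun x hx => ⟨hp.p1 x, hp.deg.hom hx⟩) (fun x hx => hp.p2 x hx.1)
    (fun x hx => ⟨hp.p3 x hx.1, Submodule.sub_mem _ hx.2 (hp.deg.hom hx.2)⟩),
    tens_trOn_hom (hp.deg.act σ)]
  rfl

theorem tens_exists_isPr {A A' : Submodule ℂ (P α)} (hA : A' ≤ A) (gA : IsGr A) (gA' : IsGr A') :
    ∃ p, IsPr A A' p ∧ ∀ m : α →₀ ℕ, p (p (monomial m 1)) = p (monomial m 1) := by
  have h := fun D => tens_exists_proj (A := A ⊓ homogeneousSubmodule α ℂ D)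
    (A' := A' ⊓ homogeneousSubmodule α ℂ D) (inf_le_inf_right _ hA)
  choose q q1 q2 q3 q4 using h
  let p : P α →ₗ[ℂ] P α := (basisMonomials α ℂ).constr ℂ fun m => q m.degree (monomial m 1)
  have hm : ∀ m, p (monomial m 1) = q m.degree (monomial m 1) := fun m =>
    (basisMonomials α ℂ).constr_basis ℂ _ m
  have hh : ∀ (D : ℕ) (x : P α), x.IsHomogeneous D → p x = q D x := by
    intro D x hx
    rw [tens_hom_sum hx, map_sum, map_sum]
    refine Finset.sum_congr rfl fun m hm' => ?_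
    rw [map_smul, map_smul, hm, mem_degS.1 hm']
  have hs : ∀ x : P α, p x = ∑ D ∈ Finset.range (x.totalDegree + 1),
      q D (homogeneousComponent D x) := by
    intro x
    conv_lhs => rw [← sum_homogeneousComponent x, map_sum]
    exact Finset.sum_congr rfl fun D _ => hh D _ (homogeneousComponent_isHomogeneous D x)
  refine ⟨p, ⟨fun x => ?_, fun x hx => ?_, fun x hx => ?_, fun m => ?_⟩, fun m => ?_⟩
  · rw [hs]
    exact A.sum_mem fun D _ => (q1 D _).1
  · rw [hs]
    exact Finset.sum_eq_zero fun D _ =>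
      q2 D _ ⟨gA' x hx D, homogeneousComponent_isHomogeneous D x⟩
  · have : x - p x = ∑ D ∈ Finset.range (x.totalDegree + 1),
        (homogeneousComponent D x - q D (homogeneousComponent D x)) := by
      rw [Finset.sum_sub_distrib, sum_homogeneousComponent, ← hs]
    rw [this]
    exact A'.sum_mem fun D _ => (q3 D _ ⟨gA x hx D, homogeneousComponent_isHomogeneous D x⟩).1
  · rw [hm]
    exact (q1 _ _).2
  · rw [hm, hh m.degree _ (q1 _ _).2, q4]

theorem tens_monomial (m : α →₀ ℕ) : (monomial m 1 : P α) = ∏ a, X a ^ m a := by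
  rw [monomial_eq, map_one, one_mul, Finsupp.prod_fintype _ _ fun _ => pow_zero _]

theorem tens_mem_of_monomial {U : Submodule ℂ (P β)} {T : P α →ₗ[ℂ] P β}
    (h : ∀ m, T (monomial m 1) ∈ U) (x : P α) : T x ∈ U := by
  rw [x.as_sum, map_sum]
  refine U.sum_mem fun m _ => ?_
  rw [← mul_one (coeff m x), ← smul_eq_mul, ← smul_monomial, map_smul]
  exact U.smul_mem _ (h m)

/-! ### two factors -/

/-- the product of polynomials in two sets of variables -/
def nu : P α →ₗ[ℂ] P β →ₗ[ℂ] P (α ⊕ β) :=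
  (LinearMap.mul ℂ (P (α ⊕ β))).compl₁₂ (act Sum.inl) (act Sum.inr)

theorem nu_apply (a : P α) (b : P β) : nu a b = rename Sum.inl a * rename Sum.inr b := rfl

/-- splitting exponent vectors -/
abbrev spl : (α ⊕ β →₀ ℕ) ≃ (α →₀ ℕ) × (β →₀ ℕ) := Finsupp.sumFinsuppEquivProdFinsupp

theorem nu_monomial (m : α →₀ ℕ) (k : β →₀ ℕ) :
    nu (monomial m (1 : ℂ)) (monomial k 1) = monomial (spl.symm (m, k)) 1 := by
  simp only [nu_apply, tens_monomial, map_prod, map_pow, rename_X, Fintype.prod_sum_type]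
  rfl

theorem degree_spl (m : α ⊕ β →₀ ℕ) : m.degree = (spl m).1.degree + (spl m).2.degree := by
  simp only [Finsupp.degree_eq_sum, Fintype.sum_sum_type]
  rfl

theorem coeff_nu (m : α ⊕ β →₀ ℕ) (a : P α) (b : P β) :
    coeff m (nu a b) = coeff (spl m).1 a * coeff (spl m).2 b := by
  have : (nu : P α →ₗ[ℂ] P β →ₗ[ℂ] P (α ⊕ β)).compr₂ (lcoeff ℂ m) =
      (LinearMap.mul ℂ ℂ).compl₁₂ (lcoeff ℂ (spl m).1) (lcoeff ℂ (spl m).2) := by
    refine LinearMap.ext_basis (basisMonomials α ℂ) (basisMonomials β ℂ) fun i j => ?_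
    change coeff m (nu (monomial i 1) (monomial j 1)) =
      coeff (spl m).1 (monomial i 1) * coeff (spl m).2 (monomial j 1)
    rw [nu_monomial, coeff_monomial, coeff_monomial, coeff_monomial, ite_zero_mul_ite_zero,
      one_mul]
    congr 1
    rw [Equiv.symm_apply_eq, Prod.ext_iff]
  exact LinearMap.congr_fun₂ this a b

/-- tensor product of two linear maps -/
def tmap (p : P α →ₗ[ℂ] P α) (q : P β →ₗ[ℂ] P β) : P (α ⊕ β) →ₗ[ℂ] P (α ⊕ β) :=
  (basisMonomials (α ⊕ β) ℂ).constr ℂ fun m =>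
    nu (p (monomial (spl m).1 1)) (q (monomial (spl m).2 1))

theorem tmap_monomial (p : P α →ₗ[ℂ] P α) (q : P β →ₗ[ℂ] P β) (m : α ⊕ β →₀ ℕ) :
    tmap p q (monomial m 1) = nu (p (monomial (spl m).1 1)) (q (monomial (spl m).2 1)) :=
  (basisMonomials (α ⊕ β) ℂ).constr_basis ℂ _ m

theorem tmap_nu (p : P α →ₗ[ℂ] P α) (q : P β →ₗ[ℂ] P β) (a : P α) (b : P β) :
    tmap p q (nu a b) = nu (p a) (q b) := by
  have : (nu : P α →ₗ[ℂ] P β →ₗ[ℂ] P (α ⊕ β)).compr₂ (tmap p q) = nu.compl₁₂ p q := by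
    refine LinearMap.ext_basis (basisMonomials α ℂ) (basisMonomials β ℂ) fun i j => ?_
    change tmap p q (nu (monomial i 1) (monomial j 1)) =
      nu (p (monomial i 1)) (q (monomial j 1))
    rw [nu_monomial, tmap_monomial, Equiv.apply_symm_apply]
  exact LinearMap.congr_fun₂ this a b

theorem rename_nu (σ : Equiv.Perm α) (σ' : Equiv.Perm β) (a : P α) (b : P β) :
    rename (Equiv.sumCongr σ σ') (nu a b) = nu (rename σ a) (rename σ' b) := by
  simp only [nu_apply, map_mul, rename_rename]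
  rfl

theorem sum_degS_sum (c : (α →₀ ℕ) → ℂ) (c' : (β →₀ ℕ) → ℂ) (D : ℕ) :
    ∑ m ∈ degS (α ⊕ β) D, c (spl m).1 * c' (spl m).2 =
      ∑ x ∈ Finset.HasAntidiagonal.antidiagonal D, (∑ m ∈ degS α x.1, c m) * ∑ k ∈ degS β x.2, c' k := by
  rw [← Finset.sum_fiberwise_of_maps_to (t := Finset.HasAntidiagonal.antidiagonal D)
    (g := fun m => ((spl m).1.degree, (spl m).2.degree))
    (fun m hm => by rw [Finset.HasAntidiagonal.mem_antidiagonal, ← degree_spl, mem_degS.1 hm])]
  refine Finset.sum_congr rfl fun x hx => ?_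
  rw [Finset.sum_mul_sum, ← Finset.sum_product']
  refine Finset.sum_equiv spl (fun m => ?_) fun _ _ => rfl
  rw [Finset.mem_filter, Finset.mem_product, mem_degS, mem_degS, mem_degS, degree_spl,
    Prod.ext_iff]
  rw [Finset.HasAntidiagonal.mem_antidiagonal] at hx
  constructor
  · exact fun h => h.2
  · exact fun h => ⟨by rw [h.1, h.2, hx], h⟩

/-! ### powers -/

variable {ι : Type} [Fintype ι]

/-- the product of polynomials in copies of the variables -/
def mu (ι : Type) [Fintype ι] (α : Type) : MultilinearMap ℂ (fun _ : ι => P α) (P (ι × α)) :=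
  (MultilinearMap.mkPiAlgebra ℂ ι (P (ι × α))).compLinearMap fun i => act (Prod.mk i)

theorem mu_apply (y : ι → P α) : mu ι α y = ∏ i, rename (Prod.mk i) (y i) := rfl

/-- currying exponent vectors -/
def cur : (ι × α →₀ ℕ) ≃ (ι → α →₀ ℕ) where
  toFun M i := Finsupp.equivFunOnFinite.symm fun a => M (i, a)
  invFun N := Finsupp.equivFunOnFinite.symm fun x => N x.1 x.2
  left_inv M := by ext x; rfl
  right_inv N := by ext i a; rfl

theorem mu_monomial (N : ι → α →₀ ℕ) :
    mu ι α (fun i => monomial (N i) 1) = monomial (cur.symm N) 1 := by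
  simp only [mu_apply, tens_monomial, map_prod, map_pow, rename_X, Fintype.prod_prod_type]
  rfl

theorem degree_cur (M : ι × α →₀ ℕ) : M.degree = ∑ i, (cur M i).degree := by
  simp only [Finsupp.degree_eq_sum, Fintype.sum_prod_type]
  rfl

theorem coeff_mu (M : ι × α →₀ ℕ) (y : ι → P α) :
    coeff M (mu ι α y) = ∏ i, coeff (cur M i) (y i) := by
  have : (lcoeff ℂ M).compMultilinearMap (mu ι α) =
      (MultilinearMap.mkPiAlgebra ℂ ι ℂ).compLinearMap fun i => lcoeff ℂ (cur M i) := by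
    refine Module.Basis.ext_multilinear (fun _ => basisMonomials α ℂ) fun N => ?_
    change coeff M (mu ι α fun i => monomial (N i) 1) = ∏ i, coeff (cur M i) (monomial (N i) 1)
    simp only [mu_monomial, coeff_monomial, Finset.prod_boole, Finset.mem_univ, true_imp_iff,
      Equiv.symm_apply_eq, funext_iff]
  exact DFunLike.congr_fun this y

/-- tensor power of a linear map -/
def pmap (ι : Type) [Fintype ι] (p : P α →ₗ[ℂ] P α) : P (ι × α) →ₗ[ℂ] P (ι × α) :=
  (basisMonomials (ι × α) ℂ).constr ℂ fun M => mu ι α fun i => p (monomial (cur M i) 1)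

theorem pmap_monomial (p : P α →ₗ[ℂ] P α) (M : ι × α →₀ ℕ) :
    pmap ι p (monomial M 1) = mu ι α fun i => p (monomial (cur M i) 1) :=
  (basisMonomials (ι × α) ℂ).constr_basis ℂ _ M

theorem pmap_mu (p : P α →ₗ[ℂ] P α) (y : ι → P α) :
    pmap ι p (mu ι α y) = mu ι α fun i => p (y i) := by
  have : (pmap ι p).compMultilinearMap (mu ι α) = (mu ι α).compLinearMap fun _ => p := by
    refine Module.Basis.ext_multilinear (fun _ => basisMonomials α ℂ) fun N => ?_
    change pmap ι p (mu ι α fun i => monomial (N i) 1) = mu ι α fun i => p (monomial (N i) 1)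
    rw [mu_monomial, pmap_monomial, Equiv.apply_symm_apply]
  exact DFunLike.congr_fun this y

/-- sums over closed paths -/
theorem tens_path {S : Type} [Fintype S] (K F : S → S → ℂ)
    (h : ∀ a b, ∑ c, K c b * F a c = F a b) (e : ℕ) :
    ∑ N : Fin (e + 1) → S, (∏ i : Fin e, K (N i.succ) (N i.castSucc)) * F (N 0) (N (Fin.last e)) =
      ∑ a, F a a := by
  induction e with
  | zero =>
    rw [← (Equiv.funUnique (Fin 1) S).symm.sum_comp]
    simp
  | succ e ih =>
    rw [← (Fin.snocEquiv fun _ : Fin (e + 2) => S).sum_comp, Fintype.sum_prod_type,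
      Finset.sum_comm, ← ih]
    refine Finset.sum_congr rfl fun N _ => ?_
    rw [← h (N 0) (N (Fin.last e)), Finset.mul_sum]
    refine Finset.sum_congr rfl fun c _ => ?_
    rw [Fin.prod_univ_castSucc, mul_assoc]
    simp only [Fin.snocEquiv_apply, Fin.succ_castSucc, Fin.snoc_castSucc, Fin.succ_last,
      Fin.snoc_last]
    rw [← Fin.castSucc_zero, Fin.snoc_castSucc]

end Crest.Agent.R059
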