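import Crest.Agent.R059.Tr
import Crest.Agent.R059.TensAux

/-! Row 59: graded traces on tensor products. -/

set_option autoImplicit false
set_option linter.unusedSectionVars false
set_option linter.unusedVariables false

noncomputable section
open Classical MvPolynomial

namespace Crest.Agent.R059

variable {α β : Type} [Fintype α] [Fintype β]

def prodSub (A : Submodule ℂ (P α)) (B : Submodule ℂ (P β)) : Submodule ℂ (P (α ⊕ β)) :=
  Submodule.span ℂ {z | ∃ a ∈ A, ∃ b ∈ B, z = rename Sum.inl a * rename Sum.inr b}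

theorem nu_mem_prodSub {A : Submodule ℂ (P α)} {B : Submodule ℂ (P β)} {a : P α} {b : P β}
    (ha : a ∈ A) (hb : b ∈ B) : nu a b ∈ prodSub A B :=
  Submodule.subset_span ⟨a, ha, b, hb, rfl⟩

theorem prodSub_map {γ : Type} {A : Submodule ℂ (P α)} {B : Submodule ℂ (P β)}
    {U : Submodule ℂ (P γ)} (T : P (α ⊕ β) →ₗ[ℂ] P γ) (h : ∀ a ∈ A, ∀ b ∈ B, T (nu a b) ∈ U) :
    prodSub A B ≤ U.comap T := by
  refine Submodule.span_le.2 ?_
  rintro _ ⟨a, ha, b, hb, rfl⟩
  exact h a ha b hb

theorem stab_prodSub {A : Submodule ℂ (P α)} {B : Submodule ℂ (P β)} {σ : Equiv.Perm α}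
    {σ' : Equiv.Perm β} (sA : Stab σ A) (sB : Stab σ' B) :
    Stab (Equiv.sumCongr σ σ') (prodSub A B) := fun z hz =>
  prodSub_map (U := prodSub A B) (act (Equiv.sumCongr σ σ')) (fun a ha b hb => by
    change rename (Equiv.sumCongr σ σ') (nu a b) ∈ prodSub A B
    rw [rename_nu]
    exact nu_mem_prodSub (sA a ha) (sB b hb)) hz

theorem tens_stab_sup {γ : Type} {σ : γ → γ} {U V : Submodule ℂ (P γ)} (hU : Stab σ U)
    (hV : Stab σ V) : Stab σ (U ⊔ V) := fun z hz => by
  obtain ⟨u, hu, v, hv, rfl⟩ := Submodule.mem_sup.1 hz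
  rw [map_add]
  exact Submodule.add_mem_sup (hU u hu) (hV v hv)

theorem tens_stab_top {γ : Type} (σ : γ → γ) : Stab σ (⊤ : Submodule ℂ (P γ)) :=
  fun _ _ => trivial

theorem tens_isPr_sup {γ : Type} [Fintype γ] {U J : Submodule ℂ (P γ)} {T : P γ →ₗ[ℂ] P γ}
    (h1 : ∀ m, T (monomial m 1) ∈ U) (h2 : J ≤ (⊥ : Submodule ℂ (P γ)).comap T)
    (h3 : U ≤ J.comap (LinearMap.id - T)) (h4 : DegP T) : IsPr (U ⊔ J) J T where
  p1 x := Submodule.mem_sup_left (tens_mem_of_monomial h1 x)
  p2 x hx := h2 hx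
  p3 x hx := by
    obtain ⟨u, hu, v, hv, rfl⟩ := Submodule.mem_sup.1 hx
    have e : T v = 0 := h2 hv
    rw [map_add, e, add_zero, add_sub_right_comm]
    exact J.add_mem (h3 hu) hv
  deg := h4

theorem ch_prod (A A' : Submodule ℂ (P α)) (B B' : Submodule ℂ (P β)) (σ : Equiv.Perm α)
    (σ' : Equiv.Perm β) (hA : A' ≤ A) (hB : B' ≤ B) (gA : IsGr A) (gA' : IsGr A') (gB : IsGr B)
    (gB' : IsGr B') (sA : Stab σ A) (sA' : Stab σ A') (sB : Stab σ' B) (sB' : Stab σ' B') :
    ch (prodSub A B ⊔ (prodSub A' ⊤ ⊔ prodSub ⊤ B')) (prodSub A' ⊤ ⊔ prodSub ⊤ B')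
      (Equiv.sumCongr σ σ') = ch A A' σ * ch B B' σ' := by
  obtain ⟨p, hp, -⟩ := tens_exists_isPr hA gA gA'
  obtain ⟨q, hq, -⟩ := tens_exists_isPr hB gB gB'
  have hT : IsPr (prodSub A B ⊔ (prodSub A' ⊤ ⊔ prodSub ⊤ B')) (prodSub A' ⊤ ⊔ prodSub ⊤ B')
      (tmap p q) := by
    refine tens_isPr_sup (fun m => ?_) (sup_le ?_ ?_) ?_ fun m => ?_
    · rw [tmap_monomial]
      exact nu_mem_prodSub (hp.p1 _) (hq.p1 _)
    · exact prodSub_map _ fun a ha b _ => by simp [tmap_nu, hp.p2 a ha]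
    · exact prodSub_map _ fun a _ b hb => by simp [tmap_nu, hq.p2 b hb]
    · refine prodSub_map _ fun a ha b hb => ?_
      have : (LinearMap.id - tmap p q : P (α ⊕ β) →ₗ[ℂ] P (α ⊕ β)) (nu a b) =
          nu (a - p a) b + nu (p a) (b - q b) := by
        simp [tmap_nu]
      rw [this]
      exact Submodule.add_mem_sup (nu_mem_prodSub (hp.p3 a ha) trivial)
        (nu_mem_prodSub trivial (hq.p3 b hb))
    · rw [tmap_monomial, degree_spl]
      exact (hp.deg _).rename_isHomogeneous.mul (hq.deg _).rename_isHomogeneous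
  have sJ := tens_stab_sup (stab_prodSub sA' (tens_stab_top σ')) (stab_prodSub (tens_stab_top σ) sB')
  ext D
  rw [hT.coeff_ch le_sup_right (tens_stab_sup (stab_prodSub sA sB) sJ) sJ, PowerSeries.coeff_mul]
  simp only [hp.coeff_ch hA sA sA', hq.coeff_ch hB sB sB', tmap_monomial, rename_nu, coeff_nu]
  exact sum_degS_sum (fun m => coeff m (rename σ (p (monomial m 1))))
    (fun m => coeff m (rename σ' (q (monomial m 1)))) D

/-- The twisted cyclic shift `(i, x) ↦ (i + 1, x)`, `(last, x) ↦ (0, g x)`. -/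
def cyc (e : ℕ) (g : Equiv.Perm α) : Equiv.Perm (Fin (e + 1) × α) :=
  (Equiv.prodCongrRight fun i : Fin (e + 1) => if i = Fin.last e then g else 1).trans
    (Equiv.prodCongr (finRotate (e + 1)) (Equiv.refl α))

def powSub (e : ℕ) (A : Submodule ℂ (P α)) : Submodule ℂ (P (Fin e × α)) :=
  Submodule.span ℂ {z | ∃ y : Fin e → P α, (∀ i, y i ∈ A) ∧
    z = ∏ i, rename (Prod.mk i) (y i)}
def powJ (e : ℕ) (A' : Submodule ℂ (P α)) : Submodule ℂ (P (Fin e × α)) :=
  Submodule.span ℂ {z | ∃ y : Fin e → P α, (∃ i, y i ∈ A') ∧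
    z = ∏ i, rename (Prod.mk i) (y i)}

theorem rename_cyc_mu (e : ℕ) (g : Equiv.Perm α) (y : Fin (e + 1) → P α) :
    rename (cyc e g) (mu (Fin (e + 1)) α y) = mu (Fin (e + 1)) α fun j =>
      rename (if (finRotate (e + 1)).symm j = Fin.last e then g else 1 : Equiv.Perm α)
        (y ((finRotate (e + 1)).symm j)) := by
  rw [mu_apply, mu_apply, map_prod]
  symm
  rw [← Equiv.prod_comp (finRotate (e + 1))]
  simp only [Equiv.symm_apply_apply, rename_rename]
  rfl

theorem tens_stab_ite {g : Equiv.Perm α} {A : Submodule ℂ (P α)} (sA : Stab g A) (c : Prop)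
    [Decidable c] : Stab (if c then g else 1 : Equiv.Perm α) A := by
  split_ifs
  · exact sA
  · intro f hf
    simpa using hf

theorem ch_cyc (e : ℕ) (A A' : Submodule ℂ (P α)) (g : Equiv.Perm α) (hA : A' ≤ A)
    (gA : IsGr A) (gA' : IsGr A') (sA : Stab g A) (sA' : Stab g A') :
    ch (powSub (e + 1) A ⊔ powJ (e + 1) A') (powJ (e + 1) A') (cyc e g) =
      PowerSeries.expand (e + 1) (Nat.succ_ne_zero e) (ch A A' g) := by
  obtain ⟨p, hp, hpp⟩ := tens_exists_isPr hA gA gA'
  have mS : ∀ y : Fin (e + 1) → P α, (∀ i, y i ∈ A) → mu _ α y ∈ powSub (e + 1) A :=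
    fun y hy => Submodule.subset_span ⟨y, hy, rfl⟩
  have mJ : ∀ (y : Fin (e + 1) → P α) i, y i ∈ A' → mu _ α y ∈ powJ (e + 1) A' :=
    fun y i hy => Submodule.subset_span ⟨y, ⟨i, hy⟩, rfl⟩
  have hT : IsPr (powSub (e + 1) A ⊔ powJ (e + 1) A') (powJ (e + 1) A') (pmap _ p) := by
    refine tens_isPr_sup (fun m => ?_) (Submodule.span_le.2 ?_) (Submodule.span_le.2 ?_)
      fun m => ?_
    · rw [pmap_monomial]
      exact mS _ fun _ => hp.p1 _
    · rintro _ ⟨y, ⟨i, hi⟩, rfl⟩
      change pmap _ p (mu _ α y) = 0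
      rw [pmap_mu]
      exact (mu _ α).map_coord_zero i (hp.p2 _ hi)
    · rintro _ ⟨y, hy, rfl⟩
      change mu _ α y - pmap _ p (mu _ α y) ∈ powJ (e + 1) A'
      have h := (mu (Fin (e + 1)) α).map_add_univ (fun i => y i - p (y i)) fun i => p (y i)
      have e1 : ((fun i => y i - p (y i)) + fun i => p (y i)) = y := by
        funext i
        simp
      rw [e1, ← Finset.add_sum_erase _ _ (Finset.mem_univ ∅), Finset.piecewise_empty] at h
      rw [pmap_mu, h, add_sub_cancel_left]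
      refine Submodule.sum_mem _ fun s hs => ?_
      obtain ⟨i, hi⟩ := Finset.nonempty_iff_ne_empty.2 (Finset.ne_of_mem_erase hs)
      refine mJ _ i ?_
      rw [Finset.piecewise_eq_of_mem _ _ _ hi]
      exact hp.p3 _ (hy i)
    · rw [pmap_monomial, degree_cur, mu_apply]
      exact IsHomogeneous.prod _ _ _ fun i _ => (hp.deg _).rename_isHomogeneous
  have sS : Stab (cyc e g) (powSub (e + 1) A) := fun z hz => by
    refine (Submodule.span_le.2 ?_ : powSub (e + 1) A ≤ (powSub (e + 1) A).comap (act (cyc e g))) hz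
    rintro _ ⟨y, hy, rfl⟩
    change rename (cyc e g) (mu _ α y) ∈ powSub (e + 1) A
    rw [rename_cyc_mu]
    exact mS _ fun j => tens_stab_ite sA _ _ (hy _)
  have sJ : Stab (cyc e g) (powJ (e + 1) A') := fun z hz => by
    refine (Submodule.span_le.2 ?_ : powJ (e + 1) A' ≤ (powJ (e + 1) A').comap (act (cyc e g))) hz
    rintro _ ⟨y, ⟨i, hi⟩, rfl⟩
    change rename (cyc e g) (mu _ α y) ∈ powJ (e + 1) A'
    rw [rename_cyc_mu]
    refine mJ _ (finRotate (e + 1) i) (tens_stab_ite sA' _ _ ?_)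
    rwa [Equiv.symm_apply_apply]
  ext D
  rw [hT.coeff_ch le_sup_right (tens_stab_sup sS sJ) sJ]
  have key : ∀ M : Fin (e + 1) × α →₀ ℕ,
      coeff M (rename (cyc e g) (pmap _ p (monomial M 1))) =
        (∏ i : Fin e, coeff (cur M i.succ) (p (monomial (cur M i.castSucc) 1))) *
          coeff (cur M 0) (rename g (p (monomial (cur M (Fin.last e)) 1))) := by
    intro M
    rw [pmap_monomial, rename_cyc_mu, coeff_mu, ← Equiv.prod_comp (finRotate (e + 1)),
      Fin.prod_univ_castSucc]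
    simp only [Equiv.symm_apply_apply]
    simp only [finRotate_last, if_true, Fin.castSucc_ne_last, if_false]
    simp
  have hdeg : ∀ M : Fin (e + 1) × α →₀ ℕ,
      coeff M (rename (cyc e g) (pmap _ p (monomial M 1))) ≠ 0 →
        ∀ i, (cur M i).degree = (cur M 0).degree := by
    intro M hM i
    rw [key] at hM
    have h1 := Finset.prod_ne_zero_iff.1 (left_ne_zero_of_mul hM)
    induction i using Fin.induction with
    | zero => rfl
    | succ i ih =>
      rw [← ih]
      by_contra hc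
      exact h1 i (Finset.mem_univ _) ((hp.deg _).coeff_eq_zero hc)
  have hdeg' : ∀ M : Fin (e + 1) × α →₀ ℕ,
      coeff M (rename (cyc e g) (pmap _ p (monomial M 1))) ≠ 0 →
        M.degree = (e + 1) * (cur M 0).degree := by
    intro M hM
    rw [degree_cur, Finset.sum_congr rfl fun i _ => hdeg M hM i]
    simp
  by_cases hD : e + 1 ∣ D
  · obtain ⟨d, rfl⟩ := hD
    rw [PowerSeries.coeff_expand_mul, hp.coeff_ch hA sA sA',
      ← Finset.sum_coe_sort (degS α d), ← tens_path (S := degS α d)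
        (fun a b => coeff a.1 (p (monomial b.1 1)))
        (fun a b => coeff a.1 (rename g (p (monomial b.1 1)))) ?_ e]
    · symm
      refine Finset.sum_of_injOn (fun N => cur.symm fun i => (N i).1) ?_ ?_ ?_ ?_
      · intro N _ N' _ h
        exact funext fun i => Subtype.ext (congrFun (cur.symm.injective h) i)
      · intro N _
        rw [Finset.mem_coe, mem_degS, degree_cur, Equiv.apply_symm_apply,
          Finset.sum_congr rfl fun i _ => mem_degS.1 (N i).2]
        simp
      · intro M hM hn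
        by_contra hc
        have h0 : (cur M 0).degree = d :=
          Nat.eq_of_mul_eq_mul_left (Nat.succ_pos e) ((hdeg' M hc).symm.trans (mem_degS.1 hM))
        exact hn ⟨fun i => ⟨cur M i, mem_degS.2 ((hdeg M hc i).trans h0)⟩, by simp,
          cur.symm_apply_apply M⟩
      · intro N _
        rw [key, Equiv.apply_symm_apply]
    · intro a b
      have hb : (p (monomial b.1 1)).IsHomogeneous d :=
        hp.deg.hom (isHomogeneous_monomial _ (mem_degS.1 b.2))
      rw [Finset.sum_coe_sort (degS α d) fun c =>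
        coeff c (p (monomial b.1 1)) * coeff a.1 (rename g (p (monomial c 1)))]
      conv_rhs => rw [← hpp, tens_hom_sum hb, map_sum, map_sum, coeff_sum]
      simp only [map_smul, coeff_smul, smul_eq_mul]
  · rw [PowerSeries.coeff_expand_of_not_dvd _ _ _ hD]
    refine Finset.sum_eq_zero fun M hM => ?_
    by_contra hc
    exact hD ⟨_, (mem_degS.1 hM).symm.trans (hdeg' M hc)⟩

/-- Flatness: a condition imposed on the first factor modulo the second. -/
theorem mem_prodSub_of_two (A A' : Submodule ℂ (P α)) (B B' : Submodule ℂ (P β))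
    (hA : A' ≤ A) (hB : B' ≤ B) (z : P (α ⊕ β))
    (h1 : z ∈ prodSub A ⊤ ⊔ prodSub ⊤ B') (h2 : z ∈ prodSub ⊤ B ⊔ prodSub A' ⊤) :
    z ∈ prodSub A B ⊔ (prodSub A' ⊤ ⊔ prodSub ⊤ B') := by
  obtain ⟨q, q1, q2, q3, -⟩ := tens_exists_proj hB
  have e1 : prodSub A ⊤ ⊔ prodSub ⊤ B' ≤ (prodSub A B).comap (tmap LinearMap.id q) := by
    refine sup_le (prodSub_map _ fun a ha b _ => ?_) (prodSub_map _ fun a _ b hb => ?_)
    · rw [tmap_nu]
      exact nu_mem_prodSub ha (q1 b)
    · simp [tmap_nu, q2 b hb]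
  have e2 : prodSub ⊤ B ⊔ prodSub A' ⊤ ≤
      (prodSub A' ⊤ ⊔ prodSub ⊤ B').comap (LinearMap.id - tmap LinearMap.id q) := by
    have : ∀ (a : P α) (b : P β),
        (LinearMap.id - tmap LinearMap.id q : P (α ⊕ β) →ₗ[ℂ] P (α ⊕ β)) (nu a b) =
          nu a (b - q b) := fun a b => by simp [tmap_nu]
    refine sup_le (prodSub_map _ fun a _ b hb => ?_) (prodSub_map _ fun a ha b _ => ?_)
    · rw [this]
      exact Submodule.mem_sup_right (nu_mem_prodSub trivial (q3 b hb))
    · rw [this]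
      exact Submodule.mem_sup_left (nu_mem_prodSub ha trivial)
  have := Submodule.add_mem_sup (Submodule.mem_comap.1 (e1 h1)) (Submodule.mem_comap.1 (e2 h2))
  simpa using this

end Crest.Agent.R059
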