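import Mathlib

/-! Row 59: graded traces of permutations on subquotients of polynomial rings. -/

set_option autoImplicit false
set_option linter.unusedSectionVars false
set_option linter.unusedVariables false

noncomputable section
open Classical MvPolynomial

namespace Crest.Agent.R059

def trOn {M : Type} [AddCommGroup M] [Module ℂ M] (f : M →ₗ[ℂ] M) (U : Submodule ℂ M) : ℂ :=
  if h : ∀ x ∈ U, f x ∈ U then LinearMap.trace ℂ U (f.restrict h) else 0

section TrAux
variable {M N : Type} [AddCommGroup M] [Module ℂ M] [AddCommGroup N] [Module ℂ N]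

theorem trOn_of {f : M →ₗ[ℂ] M} {U : Submodule ℂ M} (h : ∀ x ∈ U, f x ∈ U) :
    trOn f U = LinearMap.trace ℂ U (f.restrict h) := dif_pos h

theorem trOn_bot (f : M →ₗ[ℂ] M) : trOn f ⊥ = 0 := by
  rw [trOn_of (by simp), Subsingleton.elim (f.restrict _) 0, map_zero]

/-- the trace is determined by a factorisation through another space -/
theorem trOn_eq_of_comp {f : M →ₗ[ℂ] M} {U : Submodule ℂ M} (h : ∀ x ∈ U, f x ∈ U)
    (g : U →ₗ[ℂ] U) (hg : ∀ x, (g x : M) = f x) : trOn f U = LinearMap.trace ℂ U g := by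
  rw [trOn_of h]
  congr 1
  ext x
  exact (hg x).symm

/-- additivity of the trace in short exact sequences -/
theorem trOn_map (π : M →ₗ[ℂ] N) (f : M →ₗ[ℂ] M) (f' : N →ₗ[ℂ] N) (U : Submodule ℂ M)
    [FiniteDimensional ℂ U] (hU : ∀ x ∈ U, f x ∈ U) (hc : ∀ x ∈ U, π (f x) = f' (π x)) :
    trOn f U = trOn f (U ⊓ LinearMap.ker π) + trOn f' (U.map π) := by
  have hK : ∀ x ∈ U ⊓ LinearMap.ker π, f x ∈ U ⊓ LinearMap.ker π := fun x hx =>
    ⟨hU x hx.1, by
      have h2 : π x = 0 := hx.2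
      change π (f x) = 0
      rw [hc x hx.1, h2, map_zero]⟩
  have hW : ∀ y ∈ U.map π, f' y ∈ U.map π := by
    rintro _ ⟨x, hx, rfl⟩
    exact ⟨f x, hU x hx, hc x hx⟩
  have : FiniteDimensional ℂ (U ⊓ LinearMap.ker π : Submodule ℂ M) :=
    Submodule.finiteDimensional_of_le inf_le_left
  set p : U →ₗ[ℂ] U.map π := π.submoduleMap U with hp
  obtain ⟨s, hs⟩ := p.exists_rightInverse_of_surjective
    (LinearMap.range_eq_top.2 (π.submoduleMap_surjective U))
  have hs' : ∀ y, π (s y) = y := fun y => congrArg Subtype.val (LinearMap.congr_fun hs y)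
  set j : (U ⊓ LinearMap.ker π : Submodule ℂ M) →ₗ[ℂ] U := Submodule.inclusion inf_le_left with hj
  set q : U →ₗ[ℂ] (U ⊓ LinearMap.ker π : Submodule ℂ M) :=
    LinearMap.codRestrict _ (U.subtype ∘ₗ (LinearMap.id - s ∘ₗ p)) (fun x =>
      ⟨Subtype.property _, by
        change π ((x : M) - s (p x)) = 0
        rw [map_sub, hs']
        exact sub_self _⟩) with hq
  have e : f.restrict hU = (f.restrict hU ∘ₗ j) ∘ₗ q + (f.restrict hU ∘ₗ s) ∘ₗ p := by
    ext x
    change f x = f ((x : M) - s (p x)) + f (s (p x))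
    rw [map_sub, sub_add_cancel]
  rw [trOn_of hU, e, map_add, LinearMap.trace_comp_comm', LinearMap.trace_comp_comm' p,
    trOn_eq_of_comp hK, trOn_eq_of_comp hW]
  · intro y
    change π (f (s y)) = _
    rw [hc _ (s y).2, hs']
  · intro x
    change f x - s (p (f.restrict hU (j x))) = f x
    have : p (f.restrict hU (j x)) = 0 := Subtype.ext (hK x x.2).2
    rw [this, map_zero, Submodule.coe_zero, sub_zero]

/-- trace of a twisted permutation of summands -/
theorem trOn_pi {ι : Type} [Fintype ι] (f : M →ₗ[ℂ] M) (τ : Equiv.Perm ι) (ε : ι → ℂ)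
    (B : ι → Submodule ℂ M) [∀ i, FiniteDimensional ℂ (B i)]
    (hB : ∀ i, ∀ x ∈ B i, f x ∈ B (τ i)) (g : (ι → M) →ₗ[ℂ] (ι → M))
    (hg : ∀ y i, g y (τ i) = ε i • f (y i)) [FiniteDimensional ℂ (Submodule.pi Set.univ B)] :
    trOn g (Submodule.pi Set.univ B) =
      ∑ i ∈ Finset.univ.filter (fun i => τ i = i), ε i * trOn f (B i) := by
  have hU : ∀ y ∈ Submodule.pi Set.univ B, g y ∈ Submodule.pi Set.univ B := by
    intro y hy j _
    obtain ⟨i, rfl⟩ := τ.surjective j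
    rw [hg]
    exact Submodule.smul_mem _ _ (hB i _ (hy i trivial))
  let pr : ∀ i, Submodule.pi Set.univ B →ₗ[ℂ] B i := fun i =>
    LinearMap.codRestrict _ (LinearMap.proj i ∘ₗ Submodule.subtype _) fun y => y.2 i trivial
  let inc : ∀ i, B i →ₗ[ℂ] Submodule.pi Set.univ B := fun i =>
    LinearMap.codRestrict _ (LinearMap.single ℂ (fun _ => M) i ∘ₗ Submodule.subtype _) fun b j _ => by
      by_cases h : j = i
      · subst h; simp
      · simp [h]
  have e : g.restrict hU = ∑ i, (g.restrict hU ∘ₗ inc i) ∘ₗ pr i := by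
    ext1 y
    rw [LinearMap.sum_apply]
    simp only [LinearMap.comp_apply]
    rw [← map_sum]
    congr 1
    apply Subtype.ext
    rw [Submodule.coe_sum]
    exact (Finset.univ_sum_single (y : ι → M)).symm
  rw [trOn_of hU, e, map_sum, Finset.sum_filter]
  refine Finset.sum_congr rfl fun i _ => ?_
  rw [LinearMap.trace_comp_comm']
  split_ifs with h
  · have hBi : ∀ x ∈ B i, f x ∈ B i := fun x hx => h ▸ hB i x hx
    rw [trOn_of hBi, ← smul_eq_mul, ← map_smul]
    congr 1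
    ext b
    change g (Pi.single i (b : M)) i = ε i • f b
    have := hg (Pi.single i (b : M)) i
    rwa [h, Pi.single_eq_same] at this
  · have : pr i ∘ₗ g.restrict hU ∘ₗ inc i = 0 := by
      ext b
      change g (Pi.single i (b : M)) i = 0
      have := hg (Pi.single i (b : M)) (τ.symm i)
      rw [τ.apply_symm_apply, Pi.single_eq_of_ne, map_zero, smul_zero] at this
      · exact this
      · intro h'
        apply h
        rw [← h', τ.apply_symm_apply, h']
    rw [this, map_zero]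

theorem tr_finite_pi {ι : Type} [Fintype ι] (B : ι → Submodule ℂ M)
    [∀ i, FiniteDimensional ℂ (B i)] : FiniteDimensional ℂ (Submodule.pi Set.univ B) := by
  refine FiniteDimensional.of_injective (V₂ := ∀ i, B i) (LinearMap.pi fun i =>
    LinearMap.codRestrict _ (LinearMap.proj i ∘ₗ Submodule.subtype _) fun y => y.2 i trivial) ?_
  intro y z h
  ext i
  exact congrArg Subtype.val (congr_fun h i)

/-- one layer of a stratification -/
theorem trOn_layer {ι : Type} [Fintype ι] (f : M →ₗ[ℂ] M) (τ : Equiv.Perm ι) (ε : ι → ℂ)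
    (W V : Submodule ℂ M) (B B' : ι → Submodule ℂ M) (φ : ι → M →ₗ[ℂ] M)
    [FiniteDimensional ℂ V] [∀ i, FiniteDimensional ℂ (B i)]
    (hV : ∀ x ∈ V, f x ∈ V) (hW : W ≤ W.comap f) (hWV : W ≤ V)
    (hBV : ∀ i, ∀ y ∈ B i, φ i y ∈ V) (hVle : V ≤ W ⊔ ⨆ i, (B i).map (φ i))
    (hle : ∀ i, B' i ≤ B i) (hB : ∀ i, ∀ x ∈ B i, f x ∈ B (τ i))
    (hB' : ∀ i, ∀ x ∈ B' i, f x ∈ B' (τ i))
    (h1 : ∀ i, ∀ y ∈ B' i, φ i y ∈ W)
    (h2 : ∀ y : ι → M, (∀ i, y i ∈ B i) → ∑ i, φ i (y i) ∈ W → ∀ i, y i ∈ B' i)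
    (h3 : ∀ i, ∀ y ∈ B i, f (φ i y) - ε i • φ (τ i) (f y) ∈ W) :
    trOn f V - trOn f W =
      ∑ i ∈ Finset.univ.filter (fun i => τ i = i), ε i * (trOn f (B i) - trOn f (B' i)) := by
  have : ∀ i, FiniteDimensional ℂ (B' i) := fun i => Submodule.finiteDimensional_of_le (hle i)
  have := tr_finite_pi B
  have := tr_finite_pi B'
  obtain ⟨g, hg⟩ : ∃ g : (ι → M) →ₗ[ℂ] (ι → M), ∀ y i, g y (τ i) = ε i • f (y i) :=
    ⟨LinearMap.pi fun j => ε (τ.symm j) • (f ∘ₗ LinearMap.proj (τ.symm j)), fun y i => by simp⟩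
  obtain ⟨Φ, hΦ⟩ : ∃ Φ : (ι → M) →ₗ[ℂ] M, ∀ y, Φ y = ∑ i, φ i (y i) :=
    ⟨∑ i, φ i ∘ₗ LinearMap.proj i, fun y => by simp⟩
  obtain ⟨f', hf'⟩ : ∃ f' : (M ⧸ W) →ₗ[ℂ] (M ⧸ W), ∀ x, W.mkQ (f x) = f' (W.mkQ x) :=
    ⟨W.mapQ W f hW, fun x => (Submodule.mapQ_apply W W f x).symm⟩
  have hgB : ∀ y ∈ Submodule.pi Set.univ B, g y ∈ Submodule.pi Set.univ B := by
    intro y hy j _
    obtain ⟨i, rfl⟩ := τ.surjective j
    rw [hg]
    exact Submodule.smul_mem _ _ (hB i _ (hy i trivial))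
  have e1 := trOn_map W.mkQ f f' V hV (fun x _ => hf' x)
  have e2 := trOn_map (W.mkQ ∘ₗ Φ) g f' (Submodule.pi Set.univ B) hgB (by
    intro y hy
    rw [LinearMap.comp_apply, LinearMap.comp_apply, ← hf', eq_comm, ← sub_eq_zero, ← map_sub,
      Submodule.mkQ_apply, Submodule.Quotient.mk_eq_zero,
      hΦ, hΦ, map_sum, ← Equiv.sum_comp τ (fun j => φ j (g y j)), ← Finset.sum_sub_distrib]
    refine Submodule.sum_mem _ fun i _ => ?_
    rw [hg, map_smul]
    exact h3 i _ (hy i trivial))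
  rw [Submodule.ker_mkQ, inf_eq_right.2 hWV] at e1
  have e3 : Submodule.pi Set.univ B ⊓ LinearMap.ker (W.mkQ ∘ₗ Φ) = Submodule.pi Set.univ B' := by
    ext y
    rw [Submodule.mem_inf, LinearMap.mem_ker, LinearMap.comp_apply, Submodule.mkQ_apply,
      Submodule.Quotient.mk_eq_zero, hΦ]
    exact ⟨fun h i _ => h2 y (fun i => h.1 i trivial) h.2 i, fun hy =>
      ⟨fun i _ => hle i (hy i trivial), Submodule.sum_mem _ fun i _ => h1 i _ (hy i trivial)⟩⟩
  have e4 : (Submodule.pi Set.univ B).map (W.mkQ ∘ₗ Φ) = V.map W.mkQ := by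
    apply le_antisymm
    · rintro _ ⟨y, hy, rfl⟩
      refine ⟨Φ y, ?_, rfl⟩
      rw [hΦ]
      exact Submodule.sum_mem _ fun i _ => hBV i _ (hy i trivial)
    · rw [Submodule.map_le_iff_le_comap]
      refine hVle.trans (sup_le (fun x hx => ?_) (iSup_le fun i => ?_))
      · rw [Submodule.mem_comap, Submodule.mkQ_apply, (Submodule.Quotient.mk_eq_zero W).2 hx]
        exact zero_mem _
      · rintro _ ⟨y, hy, rfl⟩
        refine ⟨Pi.single i y, fun j _ => ?_, ?_⟩
        · by_cases h : j = i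
          · subst h; simpa using hy
          · simp [h]
        · rw [LinearMap.comp_apply, hΦ, Finset.sum_eq_single i]
          · simp
          · intro j _ hj; simp [hj]
          · simp
  rw [e3, e4, trOn_pi f τ ε B hB g hg, trOn_pi f τ ε B' hB' g hg] at e2
  rw [e1]
  simp only [mul_sub, Finset.sum_sub_distrib]
  linear_combination -e2

end TrAux

/-- The part of the filtration of rank `< κ`. -/
def Ult {M : Type} [AddCommGroup M] [Module ℂ M] {ι ρ : Type} [LinearOrder ρ] (r : ι → ρ)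
    (U0 : Submodule ℂ M) (A : ι → Submodule ℂ M) (φ : ι → M →ₗ[ℂ] M) (κ : ρ) : Submodule ℂ M :=
  U0 ⊔ ⨆ i, ⨆ _ : r i < κ, (A i).map (φ i)

theorem trOn_strat {M : Type} [AddCommGroup M] [Module ℂ M] (f : M →ₗ[ℂ] M) {ι ρ : Type}
    [Fintype ι] [LinearOrder ρ] (τ : Equiv.Perm ι) (r : ι → ρ) (hr : ∀ i, r (τ i) = r i)
    (U0 : Submodule ℂ M) (A A' : ι → Submodule ℂ M) (φ : ι → M →ₗ[ℂ] M) (ε : ι → ℂ)
    (hU0f : FiniteDimensional ℂ U0) (hAf : ∀ i, FiniteDimensional ℂ (A i))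
    (hle : ∀ i, A' i ≤ A i) (hU0 : ∀ x ∈ U0, f x ∈ U0) (hA : ∀ i, ∀ x ∈ A i, f x ∈ A (τ i))
    (hA' : ∀ i, ∀ x ∈ A' i, f x ∈ A' (τ i))
    (h1 : ∀ i, ∀ y ∈ A' i, φ i y ∈ Ult r U0 A φ (r i))
    (h2 : ∀ (κ : ρ) (y : ι → M), (∀ i, y i ∈ A i) →
      ∑ i ∈ Finset.univ.filter (fun i => r i = κ), φ i (y i) ∈ Ult r U0 A φ κ →
      ∀ i, r i = κ → y i ∈ A' i)
    (h3 : ∀ i, ∀ y ∈ A i, f (φ i y) - ε i • φ (τ i) (f y) ∈ Ult r U0 A φ (r i)) :
    trOn f (U0 ⊔ ⨆ i, (A i).map (φ i)) - trOn f U0 =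
      ∑ i ∈ Finset.univ.filter (fun i => τ i = i), ε i * (trOn f (A i) - trOn f (A' i)) := by
  obtain ⟨U, hU⟩ : ∃ U : Finset ι → Submodule ℂ M,
      ∀ S, U S = U0 ⊔ ⨆ i, ⨆ _ : i ∈ S, (A i).map (φ i) := ⟨_, fun _ => rfl⟩
  have hmem : ∀ S : Finset ι, ∀ i ∈ S, ∀ y ∈ A i, φ i y ∈ U S := fun S i hi y hy => by
    rw [hU]
    exact Submodule.mem_sup_right
      (Submodule.mem_iSup_of_mem i (Submodule.mem_iSup_of_mem hi ⟨y, hy, rfl⟩))
  have hU0le : ∀ S, U0 ≤ U S := fun S => by rw [hU]; exact le_sup_left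
  have hUle : ∀ (S : Finset ι) (X : Submodule ℂ M), U0 ≤ X → (∀ i ∈ S, ∀ y ∈ A i, φ i y ∈ X) →
      U S ≤ X := fun S X h0 h => by
    rw [hU]
    refine sup_le h0 (iSup₂_le fun i hi => ?_)
    rintro _ ⟨y, hy, rfl⟩
    exact h i hi y hy
  have hUfd : ∀ S, FiniteDimensional ℂ (U S) := fun S =>
    Submodule.finiteDimensional_of_le (S₂ := U0 ⊔ ⨆ i, (A i).map (φ i))
      (hUle S _ le_sup_left fun i _ y hy =>
        Submodule.mem_sup_right (Submodule.mem_iSup_of_mem i ⟨y, hy, rfl⟩))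
  have hUlt : ∀ (S : Finset ι) (κ : ρ), (∀ j, r j < κ → j ∈ S) → Ult r U0 A φ κ ≤ U S := by
    intro S κ h
    refine sup_le (hU0le S) (iSup₂_le fun i hi => ?_)
    rintro _ ⟨y, hy, rfl⟩
    exact hmem S i (h i hi) y hy
  have hinv : ∀ S : Finset ι, (∀ i ∈ S, ∀ j, r j ≤ r i → j ∈ S) → U S ≤ (U S).comap f := by
    intro S hS
    refine hUle S _ (fun x hx => hU0le S (hU0 x hx)) fun i hi y hy => ?_
    have h4 := hUlt S (r i) (fun j hj => hS i hi j hj.le) (h3 i y hy)
    have h5 := hmem S (τ i) (hS i hi _ (hr i).le) _ (hA i y hy)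
    have := add_mem h4 (Submodule.smul_mem _ (ε i) h5)
    rwa [sub_add_cancel] at this
  have key : ∀ S : Finset ι, (∀ i ∈ S, ∀ j, r j ≤ r i → j ∈ S) →
      trOn f (U S) - trOn f U0 =
        ∑ i ∈ S.filter (fun i => τ i = i), ε i * (trOn f (A i) - trOn f (A' i)) := by
    intro S
    induction S using Finset.strongInduction with
    | H S ih =>
    intro hS
    rcases S.eq_empty_or_nonempty with rfl | hne
    · rw [le_antisymm (hUle ∅ U0 le_rfl (by simp)) (hU0le ∅)]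
      simp
    obtain ⟨i0, hi0, hmax⟩ := S.exists_max_image r hne
    obtain ⟨κ, hκ⟩ : ∃ κ, κ = r i0 := ⟨_, rfl⟩
    rw [← hκ] at hmax
    have hSκ : ∀ j, r j ≤ κ → j ∈ S := fun j hj => hS i0 hi0 j (hκ ▸ hj)
    obtain ⟨S', hS'⟩ : ∃ S', S' = S.filter fun i => r i < κ := ⟨_, rfl⟩
    have hmS' : ∀ i, i ∈ S' ↔ r i < κ := fun i => by
      rw [hS', Finset.mem_filter]
      exact ⟨fun h => h.2, fun h => ⟨hSκ i h.le, h⟩⟩
    have hS'low : ∀ i ∈ S', ∀ j, r j ≤ r i → j ∈ S' := fun i hi j hj =>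
      (hmS' j).2 (hj.trans_lt ((hmS' i).1 hi))
    have ih' := ih S' (hS' ▸ Finset.filter_ssubset.2 ⟨i0, hi0, hκ ▸ lt_irrefl _⟩) hS'low
    have hU' : Ult r U0 A φ κ = U S' := le_antisymm (hUlt S' κ fun j hj => (hmS' j).2 hj)
      (hUle S' _ le_sup_left fun i hi y hy => Submodule.mem_sup_right
        (Submodule.mem_iSup_of_mem i (Submodule.mem_iSup_of_mem ((hmS' i).1 hi) ⟨y, hy, rfl⟩)))
    have hcut : ∀ A : ι → Submodule ℂ M, ∃ B : ι → Submodule ℂ M,
        (∀ i, r i = κ → B i = A i) ∧ ∀ i, r i ≠ κ → B i = ⊥ := fun A =>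
      ⟨fun i => if r i = κ then A i else ⊥, fun i hi => if_pos hi, fun i hi => if_neg hi⟩
    obtain ⟨B, hB1, hB2⟩ := hcut A
    obtain ⟨B', hB1', hB2'⟩ := hcut A'
    have hBle : ∀ i, B i ≤ A i := fun i => by
      by_cases hi : r i = κ
      · rw [hB1 i hi]
      · rw [hB2 i hi]; exact bot_le
    have hB0 : ∀ i, r i ≠ κ → ∀ x ∈ B i, x = 0 := fun i hi x hx => by
      rwa [hB2 i hi] at hx
    have hB0' : ∀ i, r i ≠ κ → ∀ x ∈ B' i, x = 0 := fun i hi x hx => by
      rwa [hB2' i hi] at hx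
    have : ∀ i, FiniteDimensional ℂ (B i) := fun i => Submodule.finiteDimensional_of_le (hBle i)
    have := hUfd S
    have e1 := trOn_layer f τ ε (U S') (U S) B B' φ (hinv S hS) (hinv S' hS'low)
      (hU' ▸ hUlt S κ fun j hj => hSκ j hj.le)
      (fun i y hy => by
        by_cases hi : r i = κ
        · exact hmem S i (hSκ i hi.le) y (hBle i hy)
        · rw [hB0 i hi y hy, map_zero]; exact zero_mem _)
      (hUle S _ ((hU0le S').trans le_sup_left) fun i hi y hy => by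
        by_cases hi' : r i = κ
        · exact Submodule.mem_sup_right (Submodule.mem_iSup_of_mem i ⟨y, (hB1 i hi').ge hy, rfl⟩)
        · exact Submodule.mem_sup_left
            (hmem S' i ((hmS' i).2 (lt_of_le_of_ne (hmax i hi) hi')) y hy))
      (fun i => by
        by_cases hi : r i = κ
        · rw [hB1 i hi, hB1' i hi]; exact hle i
        · rw [hB2' i hi]; exact bot_le)
      (fun i x hx => by
        by_cases hi : r i = κ
        · rw [hB1 _ ((hr i).trans hi)]; exact hA i x (hBle i hx)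
        · rw [hB0 i hi x hx, map_zero]; exact zero_mem _)
      (fun i x hx => by
        by_cases hi : r i = κ
        · rw [hB1' _ ((hr i).trans hi)]; exact hA' i x ((hB1' i hi).le hx)
        · rw [hB0' i hi x hx, map_zero]; exact zero_mem _)
      (fun i y hy => by
        by_cases hi : r i = κ
        · rw [← hU', ← hi]; exact h1 i y ((hB1' i hi).le hy)
        · rw [hB0' i hi y hy, map_zero]; exact zero_mem _)
      (fun y hy hs i => by
        by_cases hi : r i = κ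
        · rw [hB1' i hi]
          refine h2 κ y (fun i => hBle i (hy i)) ?_ i hi
          rw [hU', Finset.sum_filter_of_ne]
          · exact hs
          · intro j _ hj
            by_contra hj'
            exact hj (by rw [hB0 j hj' _ (hy j), map_zero])
        · rw [hB0 i hi _ (hy i)]; exact zero_mem _)
      (fun i y hy => by
        by_cases hi : r i = κ
        · rw [← hU', ← hi]; exact h3 i y (hBle i hy)
        · rw [hB0 i hi y hy]; simp)
    have e5 : ∑ i ∈ S.filter (fun i => τ i = i), ε i * (trOn f (A i) - trOn f (A' i)) =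
        ∑ i ∈ S'.filter (fun i => τ i = i), ε i * (trOn f (A i) - trOn f (A' i)) +
          ∑ i ∈ Finset.univ.filter (fun i => τ i = i), ε i * (trOn f (B i) - trOn f (B' i)) := by
      rw [hS', Finset.filter_comm, Finset.sum_filter (fun i => r i < κ),
        ← Finset.sum_subset (Finset.filter_subset_filter _ (Finset.subset_univ S)),
        ← Finset.sum_add_distrib]
      · refine Finset.sum_congr rfl fun i hi => ?_
        by_cases hiκ : r i = κ
        · rw [hB1 i hiκ, hB1' i hiκ, if_neg hiκ.not_lt, zero_add]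
        · rw [hB2 i hiκ, hB2' i hiκ, sub_self, mul_zero, add_zero,
            if_pos (lt_of_le_of_ne (hmax i (Finset.mem_filter.1 hi).1) hiκ)]
      · intro i hi1 hi
        have hiκ : r i ≠ κ := fun h =>
          hi (Finset.mem_filter.2 ⟨hSκ i h.le, (Finset.mem_filter.1 hi1).2⟩)
        rw [hB2 i hiκ, hB2' i hiκ, sub_self, mul_zero]
    rw [e5, ← ih', ← e1]
    ring
  have := key Finset.univ (fun _ _ _ _ => Finset.mem_univ _)
  rw [hU] at this
  simpa only [Finset.mem_univ, iSup_pos] using this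

abbrev P (α : Type) : Type := MvPolynomial α ℂ
def act {α β : Type} (σ : α → β) : P α →ₗ[ℂ] P β := (rename σ : P α →ₐ[ℂ] P β).toLinearMap
def IsGr {α : Type} (U : Submodule ℂ (P α)) : Prop :=
  ∀ f ∈ U, ∀ D, homogeneousComponent D f ∈ U
def Stab {α : Type} (σ : α → α) (U : Submodule ℂ (P α)) : Prop := ∀ f ∈ U, rename σ f ∈ U
/-- Graded trace of `σ` on `A / A'`. -/
def ch {α : Type} (A A' : Submodule ℂ (P α)) (σ : Equiv.Perm α) : PowerSeries ℂ :=
  PowerSeries.mk fun D => trOn (act σ) (A ⊓ homogeneousSubmodule α ℂ D) -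
    trOn (act σ) (A' ⊓ homogeneousSubmodule α ℂ D)

variable {α β : Type} [Fintype α] [Fintype β]

lemma ch_self (A : Submodule ℂ (P α)) (σ : Equiv.Perm α) : ch A A σ = 0 := by
  ext D; simp [ch]
lemma ch_add (A B C : Submodule ℂ (P α)) (σ : Equiv.Perm α) : ch A B σ + ch B C σ = ch A C σ := by
  ext D; simp [ch]

instance tr_finite_hom (A : Submodule ℂ (P α)) (D : ℕ) :
    FiniteDimensional ℂ (A ⊓ homogeneousSubmodule α ℂ D : Submodule ℂ (P α)) :=
  have : FiniteDimensional ℂ (homogeneousSubmodule α ℂ D) :=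
    Module.Finite.iff_fg.2 (homogeneousSubmodule_fg α ℂ D)
  Submodule.finiteDimensional_of_le inf_le_right

lemma ch_empty [IsEmpty α] (σ : Equiv.Perm α) : ch (⊤ : Submodule ℂ (P α)) ⊥ σ = 1 := by
  ext D
  have hC : ∀ p : P α, p.IsHomogeneous 0 := fun p => by
    rw [eq_C_of_isEmpty p]; exact isHomogeneous_C _ _
  rw [ch, PowerSeries.coeff_mk, bot_inf_eq, trOn_bot, sub_zero, top_inf_eq, PowerSeries.coeff_one]
  split_ifs with h
  · subst h
    have e : homogeneousSubmodule α ℂ 0 = ⊤ := eq_top_iff.2 fun p _ => hC p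
    rw [e, trOn_eq_of_comp (fun _ _ => Submodule.mem_top) LinearMap.id, LinearMap.trace_id, finrank_top,
      (isEmptyAlgEquiv ℂ α).toLinearEquiv.finrank_eq, Module.finrank_self, Nat.cast_one]
    intro x
    change (x : P α) = rename σ x
    rw [eq_C_of_isEmpty (x : P α), rename_C]
  · have e : homogeneousSubmodule α ℂ D = ⊥ := eq_bot_iff.2 fun p hp => by
      by_contra h0
      exact h (IsHomogeneous.inj_right hp (hC p) h0)
    rw [e, trOn_bot]

lemma tr_trOn_equiv (e : α ≃ β) (A : Submodule ℂ (P α)) (σ : Equiv.Perm α) (D : ℕ) :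
    trOn (act (e.permCongr σ)) (A.map (act e) ⊓ homogeneousSubmodule β ℂ D) =
      trOn (act σ) (A ⊓ homogeneousSubmodule α ℂ D) := by
  have hinj : Function.Injective (act e) := rename_injective _ e.injective
  have hc : ∀ x, act e (act σ x) = act (e.permCongr σ) (act e x) := fun x => by
    change rename e (rename σ x) = rename (e.permCongr σ) (rename e x)
    rw [rename_rename, rename_rename]
    congr 2
    ext a
    simp
  have e1 : A.map (act e) ⊓ homogeneousSubmodule β ℂ D =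
      (A ⊓ homogeneousSubmodule α ℂ D).map (act e) := by
    ext y
    constructor
    · rintro ⟨⟨x, hx, rfl⟩, hy⟩
      exact ⟨x, ⟨hx, (IsHomogeneous.rename_isHomogeneous_iff e.injective).1 hy⟩, rfl⟩
    · rintro ⟨x, hx, rfl⟩
      exact ⟨⟨x, hx.1, rfl⟩, IsHomogeneous.rename_isHomogeneous hx.2⟩
  rw [e1]
  by_cases h : ∀ x ∈ A ⊓ homogeneousSubmodule α ℂ D, act σ x ∈ A ⊓ homogeneousSubmodule α ℂ D
  · rw [trOn_map (act e) (act σ) (act (e.permCongr σ)) _ h (fun x _ => hc x),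
      LinearMap.ker_eq_bot.2 hinj, inf_bot_eq, trOn_bot, zero_add]
  · rw [trOn, trOn, dif_neg h, dif_neg]
    intro h'
    refine h fun x hx => ?_
    obtain ⟨z, hz, e2⟩ := h' _ ⟨x, hx, rfl⟩
    rw [← hc] at e2
    exact hinj e2 ▸ hz

lemma ch_equiv (e : α ≃ β) (A A' : Submodule ℂ (P α)) (σ : Equiv.Perm α) :
    ch (A.map (act e)) (A'.map (act e)) (e.permCongr σ) = ch A A' σ := by
  ext D
  simp only [ch, PowerSeries.coeff_mk, tr_trOn_equiv]

lemma tr_hc_mul {N : P α} {d : ℕ} (hN : N.IsHomogeneous d) (y : P α) (D : ℕ) :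
    homogeneousComponent D (N * y) =
      if d ≤ D then N * homogeneousComponent (D - d) y else 0 := by
  let := MvPolynomial.gradedAlgebra (σ := α) (R := ℂ)
  have := DirectSum.coe_decompose_mul_of_left_mem (homogeneousSubmodule α ℂ) (b := y) D hN
  rw [← decomposition.decompose'_apply, ← decomposition.decompose'_apply]
  exact this

/-- the degree `D - d` part (zero if `d > D`) -/
def trCut (A : Submodule ℂ (P α)) (d D : ℕ) : Submodule ℂ (P α) :=
  if d ≤ D then A ⊓ homogeneousSubmodule α ℂ (D - d) else ⊥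

lemma trCut_le (A : Submodule ℂ (P α)) (d D : ℕ) : trCut A d D ≤ A := by
  unfold trCut; split_ifs
  exacts [inf_le_left, bot_le]

lemma trCut_of {A A' : Submodule ℂ (P α)} {d D : ℕ} {y y' : P α} (hy : y ∈ trCut A d D)
    (h : y' ∈ A') (h' : ∀ n, y.IsHomogeneous n → y'.IsHomogeneous n) (h0 : y = 0 → y' = 0) :
    y' ∈ trCut A' d D := by
  unfold trCut at hy ⊢
  split_ifs at hy ⊢
  · exact ⟨h, h' _ hy.2⟩
  · exact h0 hy

lemma trCut_hom {A : Submodule ℂ (P α)} {d D : ℕ} {N y : P α} (hN : N.IsHomogeneous d)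
    (hy : y ∈ trCut A d D) : (N * y).IsHomogeneous D := by
  unfold trCut at hy
  split_ifs at hy with h
  · have := hN.mul hy.2
    rwa [Nat.add_sub_cancel' h] at this
  · rw [(Submodule.mem_bot ℂ).1 hy, mul_zero]; exact isHomogeneous_zero _ _ _

lemma trCut_comp {ι : Type} (p : ι → Prop) {U0 : Submodule ℂ (P α)} {A : ι → Submodule ℂ (P α)}
    {N : ι → P α} {d : ι → ℕ} (hN : ∀ i, (N i).IsHomogeneous (d i)) (gU0 : IsGr U0)
    (gA : ∀ i, IsGr (A i)) (D : ℕ) {x : P α}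
    (hx : x ∈ U0 ⊔ ⨆ i, ⨆ _ : p i, (A i).map (LinearMap.mulLeft ℂ (N i)))
    (hh : x.IsHomogeneous D) :
    x ∈ U0 ⊓ homogeneousSubmodule α ℂ D ⊔
      ⨆ i, ⨆ _ : p i, (trCut (A i) (d i) D).map (LinearMap.mulLeft ℂ (N i)) := by
  have key : (U0 ⊔ ⨆ i, ⨆ _ : p i, (A i).map (LinearMap.mulLeft ℂ (N i))) ≤
      (U0 ⊓ homogeneousSubmodule α ℂ D ⊔
        ⨆ i, ⨆ _ : p i, (trCut (A i) (d i) D).map (LinearMap.mulLeft ℂ (N i))).comap
        (homogeneousComponent D) := by
    refine sup_le (fun x hx => ?_) (iSup₂_le fun i hi => ?_)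
    · exact Submodule.mem_comap.2
        (Submodule.mem_sup_left ⟨gU0 x hx D, homogeneousComponent_mem _ _⟩)
    rintro _ ⟨y, hy, rfl⟩
    rw [Submodule.mem_comap, LinearMap.mulLeft_apply, tr_hc_mul (hN i)]
    split_ifs with h
    · refine Submodule.mem_sup_right (Submodule.mem_iSup_of_mem i (Submodule.mem_iSup_of_mem hi
        ⟨homogeneousComponent (D - d i) y, ?_, rfl⟩))
      rw [trCut, if_pos h]
      exact ⟨gA i y hy _, homogeneousComponent_mem _ _⟩
    · exact zero_mem _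
  have := key hx
  rwa [Submodule.mem_comap, homogeneousComponent_eq_self hh] at this

/-- Graded form of `trOn_strat`, the maps being multiplications by homogeneous polynomials. -/
theorem ch_strat (σ : Equiv.Perm α) {ι ρ : Type} [Fintype ι] [LinearOrder ρ]
    (τ : Equiv.Perm ι) (r : ι → ρ) (hr : ∀ i, r (τ i) = r i)
    (U0 : Submodule ℂ (P α)) (A A' : ι → Submodule ℂ (P α)) (N : ι → P α) (d : ι → ℕ)
    (ε : ι → ℂ) (hN : ∀ i, (N i).IsHomogeneous (d i)) (hd : ∀ i, d (τ i) = d i)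
    (gU0 : IsGr U0) (gA : ∀ i, IsGr (A i)) (gA' : ∀ i, IsGr (A' i))
    (hle : ∀ i, A' i ≤ A i) (hU0 : Stab σ U0) (hA : ∀ i, ∀ x ∈ A i, rename σ x ∈ A (τ i))
    (hA' : ∀ i, ∀ x ∈ A' i, rename σ x ∈ A' (τ i))
    (h1 : ∀ i, ∀ y ∈ A' i, N i * y ∈ Ult r U0 A (fun i => LinearMap.mulLeft ℂ (N i)) (r i))
    (h2 : ∀ (κ : ρ) (y : ι → P α), (∀ i, y i ∈ A i) →
      ∑ i ∈ Finset.univ.filter (fun i => r i = κ), N i * y i ∈
        Ult r U0 A (fun i => LinearMap.mulLeft ℂ (N i)) κ → ∀ i, r i = κ → y i ∈ A' i)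
    (h3 : ∀ i, ∀ y ∈ A i, rename σ (N i * y) - ε i • (N (τ i) * rename σ y) ∈
      Ult r U0 A (fun i => LinearMap.mulLeft ℂ (N i)) (r i)) :
    ch (U0 ⊔ ⨆ i, (A i).map (LinearMap.mulLeft ℂ (N i))) U0 σ =
      ∑ i ∈ Finset.univ.filter (fun i => τ i = i),
        PowerSeries.C (ε i) * PowerSeries.X ^ d i * ch (A i) (A' i) σ := by
  ext D
  have hfd : ∀ (A : Submodule ℂ (P α)) d, FiniteDimensional ℂ (trCut A d D) := fun A d => by
    by_cases h : d ≤ D
    · rw [trCut, if_pos h]; infer_instance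
    · rw [trCut, if_neg h]; infer_instance
  have hren : ∀ {B B' : Submodule ℂ (P α)} {i : ι}, (∀ x ∈ B, rename σ x ∈ B') →
      ∀ x ∈ trCut B (d i) D, act σ x ∈ trCut B' (d (τ i)) D := by
    intro B B' i h x hx
    rw [hd]
    exact trCut_of hx (h x (trCut_le _ _ _ hx)) (fun n hn => hn.rename_isHomogeneous)
      (fun h0 => by rw [h0, map_zero])
  have key := trOn_strat (act σ) τ r hr (U0 ⊓ homogeneousSubmodule α ℂ D)
    (fun i => trCut (A i) (d i) D) (fun i => trCut (A' i) (d i) D)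
    (fun i => LinearMap.mulLeft ℂ (N i)) ε inferInstance (fun i => hfd _ _)
    (fun i y hy => trCut_of hy (hle i (trCut_le _ _ _ hy)) (fun _ h => h) id)
    (fun x hx => ⟨hU0 x hx.1, IsHomogeneous.rename_isHomogeneous hx.2⟩)
    (fun i => hren (hA i)) (fun i => hren (hA' i))
    (fun i y hy => trCut_comp _ hN gU0 gA D (h1 i y (trCut_le _ _ _ hy)) (trCut_hom (hN i) hy))
    (fun κ y hy hs i hi => trCut_of (hy i) (h2 κ y (fun i => trCut_le _ _ _ (hy i))
      ((sup_le_sup inf_le_left (iSup_mono fun j => iSup_mono fun _ =>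
        Submodule.map_mono (trCut_le _ _ _))) hs) i hi) (fun _ h => h) id)
    (fun i y hy => trCut_comp _ hN gU0 gA D (h3 i y (trCut_le _ _ _ hy))
      (sub_mem (S := Submodule ℂ (P α)) (H := homogeneousSubmodule α ℂ D)
        (trCut_hom (hN i) hy).rename_isHomogeneous
        (Submodule.smul_mem _ _ (trCut_hom (hN (τ i)) (hren (hA i) y hy)))))
  have e : (U0 ⊔ ⨆ i, (A i).map (LinearMap.mulLeft ℂ (N i))) ⊓ homogeneousSubmodule α ℂ D =
      U0 ⊓ homogeneousSubmodule α ℂ D ⊔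
        ⨆ i, (trCut (A i) (d i) D).map (LinearMap.mulLeft ℂ (N i)) := by
    apply le_antisymm
    · intro x hx
      simpa using trCut_comp (fun _ => True) hN gU0 gA D (by simpa using hx.1) hx.2
    · refine le_inf (sup_le_sup inf_le_left (iSup_mono fun j =>
        Submodule.map_mono (trCut_le _ _ _))) (sup_le inf_le_right (iSup_le fun i => ?_))
      rintro _ ⟨y, hy, rfl⟩
      exact trCut_hom (hN i) hy
  rw [ch, PowerSeries.coeff_mk, e, key, map_sum]
  refine Finset.sum_congr rfl fun i _ => ?_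
  rw [mul_assoc, PowerSeries.coeff_C_mul, PowerSeries.coeff_X_pow_mul']
  unfold trCut
  split_ifs
  · rw [ch, PowerSeries.coeff_mk]
  · rw [sub_self]

lemma tr_avg (G : Subgroup (Equiv.Perm α)) (ε : G →* ℤˣ) (U : Submodule ℂ (P α))
    [FiniteDimensional ℂ U] (hU : ∀ g : G, ∀ x ∈ U, act g.1 x ∈ U) :
    ∑ g : G, ((ε g : ℤ) : ℂ) * trOn (act g.1) U = (Fintype.card G : ℂ) * Module.finrank ℂ
      (U ⊓ ⨅ g : G, LinearMap.ker (act g.1 - ((ε g : ℤ) : ℂ) • LinearMap.id) :
        Submodule ℂ (P α)) := by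
  set E : Submodule ℂ (P α) := ⨅ g : G, LinearMap.ker (act g.1 - ((ε g : ℤ) : ℂ) • LinearMap.id)
    with hE
  have hmem : ∀ x, x ∈ E ↔ ∀ g : G, act g.1 x = ((ε g : ℤ) : ℂ) • x := fun x => by
    simp [hE, sub_eq_zero]
  have hc : (Fintype.card G : ℂ) ≠ 0 := Nat.cast_ne_zero.2 Fintype.card_ne_zero
  have hsq : ∀ g : G, ((ε g : ℤ) : ℂ) * ((ε g : ℤ) : ℂ) = 1 := fun g => by
    rw [← Int.cast_mul, ← Units.val_mul, Int.units_mul_self]; simp
  let e : U →ₗ[ℂ] U :=
    (Fintype.card G : ℂ)⁻¹ • ∑ g : G, ((ε g : ℤ) : ℂ) • (act g.1).restrict (hU g)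
  have he : ∀ x : U, (e x : P α) =
      (Fintype.card G : ℂ)⁻¹ • ∑ g : G, ((ε g : ℤ) : ℂ) • act g.1 x := fun x => by
    simp [e, LinearMap.sum_apply]
  have hproj : LinearMap.IsProj (E.comap U.subtype) e := by
    constructor
    · intro x
      rw [Submodule.mem_comap, Submodule.subtype_apply, hmem, he]
      intro h
      rw [map_smul, map_sum, smul_comm ((ε h : ℤ) : ℂ)]
      congr 1
      rw [Finset.smul_sum,
        ← Equiv.sum_comp (Equiv.mulLeft h) (fun g : G => ((ε h : ℤ) : ℂ) • ((ε g : ℤ) : ℂ) • act g.1 x)]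
      refine Finset.sum_congr rfl fun g _ => ?_
      rw [map_smul, smul_smul, Equiv.coe_mulLeft, map_mul, Units.val_mul, Int.cast_mul, ← mul_assoc,
        hsq, one_mul]
      congr 1
      exact rename_rename _ _ _
    · intro x hx
      rw [Submodule.mem_comap, Submodule.subtype_apply, hmem] at hx
      apply Subtype.ext
      rw [he]
      simp only [hx, smul_smul, hsq, one_smul, Finset.sum_const, Finset.card_univ]
      rw [← Nat.cast_smul_eq_nsmul ℂ, smul_smul, inv_mul_cancel₀ hc, one_smul]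
  have : Module.Free ℂ ↥(E.comap U.subtype) := Module.Free.of_divisionRing ℂ ↥(E.comap U.subtype)
  have : Module.Free ℂ ↥(LinearMap.ker e) := Module.Free.of_divisionRing ℂ ↥(LinearMap.ker e)
  have h1 := hproj.trace
  rw [← Submodule.finrank_map_subtype_eq, Submodule.map_comap_subtype] at h1
  rw [← h1]
  simp only [e, map_smul, map_sum, smul_eq_mul]
  rw [mul_inv_cancel_left₀ hc]
  exact Finset.sum_congr rfl fun g _ => by rw [trOn_of (hU g)]

/-- Averaging a graded trace against a sign character gives natural numbers. -/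
theorem avg_ch_nat (G : Subgroup (Equiv.Perm α)) (ε : G →* ℤˣ) (A A' : Submodule ℂ (P α))
    (hle : A' ≤ A) (hA : ∀ g ∈ G, Stab g A) (hA' : ∀ g ∈ G, Stab g A') (D : ℕ) :
    ∃ m : ℕ, ∑ g : G, ((ε g : ℤ) : ℂ) * PowerSeries.coeff D (ch A A' g.1) =
      (Fintype.card G : ℂ) * m := by
  have h1 := tr_avg G ε (A ⊓ homogeneousSubmodule α ℂ D)
    (fun g x hx => ⟨hA g g.2 x hx.1, IsHomogeneous.rename_isHomogeneous hx.2⟩)
  have h2 := tr_avg G ε (A' ⊓ homogeneousSubmodule α ℂ D)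
    (fun g x hx => ⟨hA' g g.2 x hx.1, IsHomogeneous.rename_isHomogeneous hx.2⟩)
  set E : Submodule ℂ (P α) := ⨅ g : G, LinearMap.ker (act g.1 - ((ε g : ℤ) : ℂ) • LinearMap.id)
  have : FiniteDimensional ℂ (A ⊓ homogeneousSubmodule α ℂ D ⊓ E : Submodule ℂ (P α)) :=
    Submodule.finiteDimensional_of_le inf_le_left
  obtain ⟨m, hm⟩ := Nat.exists_eq_add_of_le (Submodule.finrank_mono
    (inf_le_inf_right E (inf_le_inf_right (homogeneousSubmodule α ℂ D) hle)))
  refine ⟨m, ?_⟩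
  simp only [ch, PowerSeries.coeff_mk, mul_sub, Finset.sum_sub_distrib]
  rw [h1, h2, hm]
  push_cast
  ring

end Crest.Agent.R059
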