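import Crest.Agent.R059.RotDefs
import Crest.Prelude.Def_ChromaticQSym

/-! Row 59: every Hessenberg function comes from a word. -/

set_option autoImplicit false
set_option linter.unusedSectionVars false
set_option linter.unusedVariables false

noncomputable section
open Classical
open Crest.CombinatoricsR.UnitInterval

namespace Crest.Agent.R059

/-- The graph of `h` is realised by the letters of a word. -/
def Realises {n s : ℕ} (h : Fin n → ℕ) (slot : Fin n → Fin s) (π : Fin n ≃ Fin n) : Prop :=
  ∀ a b : Fin n, a < b → posW slot 0 (Sum.inl (π a)) < posW slot 0 (Sum.inl (π b)) ∧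
    (IsEdge h a b ↔ posW slot 0 (Sum.inl (π b)) < posW slot 0 (Sum.inl (π a)) + (n + 1))

/-- `q ↦ v⁻²`. -/
def evq : Polynomial ℤ →+* K := Polynomial.eval₂RingHom (Int.castRingHom K) (vp (-2))
/-- Number of edges. -/
def nE {n : ℕ} (h : Fin n → ℕ) : ℕ :=
  (Finset.univ.filter fun p : Fin n × Fin n => p.1 < p.2 ∧ IsEdge h p.1 p.2).card

lemma evq_X_pow (k : ℕ) : evq (Polynomial.X ^ k) = vp (-2 * k) := by
  induction k with
  | zero => simp [vp_zero]
  | succ k ih =>
    rw [pow_succ, map_mul, ih, show evq Polynomial.X = vp (-2) by simp [evq], ← vp_add]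
    congr 1
    push_cast
    ring

lemma Word_monomial (e : ℤ) (n : ℕ) (a : ℤ) :
    vp e * evq (Polynomial.monomial n a) = HahnSeries.single (e - 2 * n) (a : ℂ) := by
  rw [← Polynomial.C_mul_X_pow_eq_monomial, map_mul, evq_X_pow, mul_left_comm, ← vp_add,
    show evq (Polynomial.C a) = HahnSeries.single 0 (a : ℂ) by
      simp [evq, HahnSeries.single_zero_intCast], vp, HahnSeries.single_mul_single]
  congr 1
  · congr 1; ring
  · simp

lemma Word_coeff_eq (e : ℤ) (p : Polynomial ℤ) (k : ℕ) :
    (vp e * evq p).coeff (e - 2 * k) = (p.coeff k : ℂ) := by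
  induction p using Polynomial.induction_on' with
  | add p q hp hq => simp [mul_add, hp, hq]
  | monomial n a =>
    rw [Word_monomial, HahnSeries.coeff_single, Polynomial.coeff_monomial]
    by_cases h : n = k
    · simp [h]
    · rw [if_neg h, if_neg (by omega)]; simp

lemma Word_coeff_ne (e : ℤ) (p : Polynomial ℤ) (j : ℤ) (hj : ∀ k : ℕ, j ≠ e - 2 * k) :
    (vp e * evq p).coeff j = 0 := by
  induction p using Polynomial.induction_on' with
  | add p q hp hq => simp [mul_add, hp, hq]
  | monomial n a => rw [Word_monomial, HahnSeries.coeff_single, if_neg (hj n)]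

lemma evq_injective : Function.Injective evq := by
  intro p q h
  ext k
  have := Word_coeff_eq 0 p k
  rw [h, Word_coeff_eq] at this
  exact_mod_cast this.symm

/-- A finite family of non-negative series with polynomial sum consists of polynomials. -/
lemma exists_poly_of_sum {ι : Type} (t : Finset ι) (c : ι → K) (hc : ∀ i, IsNat (c i)) (e : ℤ)
    (p : Polynomial ℕ) (h : ∑ i ∈ t, c i = vp e * evq (p.map (Nat.castRingHom ℤ))) :
    ∃ c' : ι → Polynomial ℕ, (∀ i ∈ t, c i = vp e * evq ((c' i).map (Nat.castRingHom ℤ))) ∧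
      ∑ i ∈ t, c' i = p := by
  choose m hm using hc
  have hs : ∀ j, ((∑ i ∈ t, m i j : ℕ) : ℂ) =
      (vp e * evq (p.map (Nat.castRingHom ℤ))).coeff j := by
    intro j
    rw [← h, HahnSeries.coeff_sum]
    simp [hm]
  have h1 : ∀ k : ℕ, ∑ i ∈ t, m i (e - 2 * k) = p.coeff k := by
    intro k
    have := hs (e - 2 * k)
    rw [Word_coeff_eq, Polynomial.coeff_map, eq_natCast, Int.cast_natCast] at this
    exact Nat.cast_injective this
  let c' : ι → Polynomial ℕ := fun i =>
    ∑ k ∈ Finset.range (p.natDegree + 1), Polynomial.monomial k (m i (e - 2 * k))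
  have h2 : ∀ i ∈ t, ∀ k : ℕ, (c' i).coeff k = m i (e - 2 * k) := by
    intro i hi k
    simp only [c', Polynomial.finsetSum_coeff, Polynomial.coeff_monomial, Finset.sum_ite_eq',
      Finset.mem_range]
    split_ifs with hk
    · rfl
    · have := h1 k
      rw [Polynomial.coeff_eq_zero_of_natDegree_lt (by omega), Finset.sum_eq_zero_iff] at this
      exact (this i hi).symm
  refine ⟨c', fun i hi => ?_, ?_⟩
  · ext j
    by_cases hj : ∃ k : ℕ, j = e - 2 * k
    · obtain ⟨k, rfl⟩ := hj
      rw [Word_coeff_eq, Polynomial.coeff_map, h2 i hi, hm]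
      simp
    · push Not at hj
      have := hs j
      rw [Word_coeff_ne _ _ _ hj, Nat.cast_eq_zero, Finset.sum_eq_zero_iff] at this
      rw [Word_coeff_ne _ _ _ hj, hm, this i hi, Nat.cast_zero]
  · ext k
    rw [Polynomial.finsetSum_coeff, ← h1]
    exact Finset.sum_congr rfl fun i hi => h2 i hi k

lemma Word_count {N r : ℕ} (a : Fin N → ℕ) (lam : Fin r → ℕ) :
    MvPolynomial.coeff (Finsupp.equivFunOnFinite.symm lam)
        (∏ c, MvPolynomial.esymm (Fin r) ℤ (a c)) =
      ((Finset.univ.filter fun f : Fin N → Finset (Fin r) => (∀ c, (f c).card = a c) ∧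
        ∀ j, (Finset.univ.filter fun c => j ∈ f c).card = lam j).card : ℤ) := by
  simp only [MvPolynomial.esymm_eq_sum_monomial]
  rw [Finset.prod_univ_sum, MvPolynomial.coeff_sum]
  simp only [← MvPolynomial.monomial_sum_one, MvPolynomial.coeff_monomial]
  rw [Finset.sum_boole]
  congr 2
  ext f
  simp only [Finset.mem_filter, Fintype.mem_piFinset, Finset.mem_powersetCard, Finset.subset_univ,
    true_and, Finset.mem_univ, Finsupp.ext_iff, Finsupp.coe_finsetSum, Finset.sum_apply,
    Finsupp.single_apply, Finset.sum_ite_eq', Finset.card_filter,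
    Finsupp.equivFunOnFinite_symm_apply_apply]

/-- Symmetry of the number of zero-one matrices. -/
lemma coeff_prod_esymm_symm {N r : ℕ} (a : Fin N → ℕ) (lam : Fin r → ℕ) :
    MvPolynomial.coeff (Finsupp.equivFunOnFinite.symm lam)
        (∏ c, MvPolynomial.esymm (Fin r) ℤ (a c)) =
      MvPolynomial.coeff (Finsupp.equivFunOnFinite.symm a)
        (∏ j, MvPolynomial.esymm (Fin N) ℤ (lam j)) := by
  rw [Word_count, Word_count]
  congr 1
  refine Finset.card_nbij' (fun f j => Finset.univ.filter fun c => j ∈ f c)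
    (fun g c => Finset.univ.filter fun j => c ∈ g j) ?_ ?_ ?_ ?_
  · intro f hf
    simp only [Finset.coe_filter, Finset.mem_univ, true_and, Set.mem_ofPred_eq,
      Finset.mem_filter, Finset.filter_univ_mem] at hf ⊢
    exact hf.symm
  · intro f hf
    simp only [Finset.coe_filter, Finset.mem_univ, true_and, Set.mem_ofPred_eq,
      Finset.mem_filter, Finset.filter_univ_mem] at hf ⊢
    exact hf.symm
  · intro f _
    funext c
    simp
  · intro f _
    funext c
    simp

lemma Word_part {σ ι : Type} (t : Finset ι) (n : ι → ℕ) (s : Finset σ)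
    (h : ∑ i ∈ t, n i = s.card) : ∃ P : ι → Finset σ, (∀ i ∈ t, P i ⊆ s ∧ (P i).card = n i) ∧
      ∀ x ∈ s, ∃! i, i ∈ t ∧ x ∈ P i := by
  induction t using Finset.induction_on generalizing s with
  | empty =>
    refine ⟨fun _ => ∅, by simp, fun x hx => ?_⟩
    rw [Finset.sum_empty, eq_comm, Finset.card_eq_zero] at h
    simp [h] at hx
  | insert i t hi ih =>
    rw [Finset.sum_insert hi] at h
    obtain ⟨s₁, h1, h2⟩ := Finset.exists_subset_card_eq (s := s) (n := n i) (by omega)
    obtain ⟨P, hP, hP'⟩ := ih (s \ s₁) (by rw [Finset.card_sdiff_of_subset h1]; omega)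
    have hne : ∀ j ∈ t, j ≠ i := fun j hj e => hi (e ▸ hj)
    refine ⟨Function.update P i s₁, fun j hj => ?_, fun x hx => ?_⟩
    · rcases Finset.mem_insert.1 hj with rfl | hj
      · simp [h1, h2]
      · rw [Function.update_of_ne (hne j hj)]
        exact ⟨(hP j hj).1.trans Finset.sdiff_subset, (hP j hj).2⟩
    · by_cases hx1 : x ∈ s₁
      · refine ⟨i, by simp [hx1], fun j ⟨hj, hj'⟩ => ?_⟩
        rcases Finset.mem_insert.1 hj with rfl | hj
        · rfl
        · rw [Function.update_of_ne (hne j hj)] at hj'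
          exact absurd hx1 (Finset.mem_sdiff.1 ((hP j hj).1 hj')).2
      · obtain ⟨j, ⟨hj, hj'⟩, hu⟩ := hP' x (Finset.mem_sdiff.2 ⟨hx, hx1⟩)
        refine ⟨j, ⟨Finset.mem_insert_of_mem hj, by rwa [Function.update_of_ne (hne j hj)]⟩,
          fun k ⟨hk, hk'⟩ => ?_⟩
        rcases Finset.mem_insert.1 hk with rfl | hk
        · simp [hx1] at hk'
        · rw [Function.update_of_ne (hne k hk)] at hk'
          exact hu k ⟨hk, hk'⟩

lemma Word_coeff_sum {σ : Type} (wt : σ → ℕ) (s : Finset σ) (k : ℕ) :
    (∑ x ∈ s, (Polynomial.X : Polynomial ℕ) ^ wt x).coeff k = (s.filter fun x => wt x = k).card := by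
  simp only [Polynomial.finsetSum_coeff, Polynomial.coeff_X_pow, Finset.card_filter, eq_comm]

/-- Distributing a finite weighted set among classes with prescribed generating functions. -/
lemma exists_assign {σ ι : Type} [Fintype σ] (wt : σ → ℕ) (t : Finset ι) (c : ι → Polynomial ℕ)
    (h : ∑ i ∈ t, c i = ∑ x, Polynomial.X ^ wt x) :
    ∃ θ : σ → ι, (∀ x, θ x ∈ t) ∧
      ∀ i ∈ t, c i = ∑ x ∈ Finset.univ.filter (fun x => θ x = i), Polynomial.X ^ wt x := by
  choose P hP hP' using fun k => Word_part t (fun i => (c i).coeff k)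
    (Finset.univ.filter fun x => wt x = k) (by
      rw [← Polynomial.finsetSum_coeff, h, Word_coeff_sum])
  choose θ hθ hu using fun x => hP' (wt x) x (by simp)
  refine ⟨θ, fun x => (hθ x).1, fun i hi => ?_⟩
  ext k
  rw [Word_coeff_sum, ← (hP k i hi).2]
  congr 1
  ext x
  simp only [Finset.mem_filter, Finset.mem_univ, true_and]
  constructor
  · intro hx
    obtain rfl : wt x = k := by simpa using (hP k i hi).1 hx
    exact ⟨(hu x i ⟨hi, hx⟩).symm, rfl⟩
  · rintro ⟨rfl, rfl⟩
    exact (hθ x).2

end Crest.Agent.R059
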